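import Vale.Agent.P177.H0

/-! Comparison of the right hand sides of the flag formula. -/

namespace Vale.Agent.P177

open Vale.Agent.P202 IsLocalRing Polynomial
open scoped ENNReal

universe u

variable {A C : Type u} [CommRing A] [IsLocalRing A] [IsNoetherianRing A] [CommRing C]
  [IsLocalRing C] [IsNoetherianRing C] [IsDomain C] [Algebra A C] {p a : ℕ} {Xv : Fin a → A}
  {θ : C} {F : A[X]} {Δ Γ : A} {N n0 c0 c1 c2 s : ℕ} {𝔞 : ℕ → Ideal C}
  {O : Obj A C F.natDegree s}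

theorem rr_bound (hD : Dat p Xv θ F Δ Γ) (h : O.Ok p θ F N 𝔞 n0 c2 0) (hκ : Null O.μ O.κ0)
    (hc : ∀ r ≤ N, (p : C) ^ c0 ∈ 𝔞 r)
    (hL : LAR N 𝔞 ((maximalIdeal A).map (algebraMap A C)) c1) (h1 : c1 ≤ c2) (h2 : 1 ≤ c2) :
    ∃ K1 : ℝ, 0 ≤ K1 ∧ ∀ (n n' : ℕ → ℤ) (j : ℕ), Ge n0 n → Ge n0 n' → EE N 𝔞 n' ≤ EE N 𝔞 n →
      (maximalIdeal A).map (algebraMap A C) ^ j * EE N 𝔞 n ≤ EE N 𝔞 n' →
      (∀ i, rr (O.μ.res O.toB) (O.M i n') (O.M i n) ≠ ⊤) ∧
      |∑ i, (rr (O.μ.res O.toB) (O.M i n') (O.M i n)).toReal -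
        (rr (RLen.ofLen C) (EE N 𝔞 n') (EE N 𝔞 n)).toReal| ≤
        K1 * ((sz N n : ℝ) + j + 1) ^ a := by
  obtain ⟨K0, hK0⟩ := h0_bound hD h hκ hc
  refine ⟨2 * |K0| * ((c2 : ℝ) + 1) ^ a, by positivity, fun n n' j hn hn' hle hj => ?_⟩
  obtain ⟨a1, a2, a3⟩ := hK0 n (c2 * (sz N n + j + 1)) hn
  obtain ⟨b1, b2, b3⟩ := hK0 n' (c2 * (sz N n + j + 1)) hn'
  have e1 := fun i => rr_add_q (hκ.res O.toB) ((h.filt i).mono n n' (by
    rw [EE_map, EE_map]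
    exact Ideal.map_mono hle)) (c2 * (sz N n + j + 1)) (h.ar i n n' j hj)
  have e2 := rr_add_q (null_one (RLen.ofLen C)) hle (c2 * (sz N n + j + 1))
    (I := (maximalIdeal A).map (algebraMap A C) ^ (c2 * (sz N n + j + 1)))
    fun x hx hx' => hL.aar h1 h2 n n' j hj x hx (by rwa [Ideal.map_id])
  have f1 : ∀ i, rr (O.μ.res O.toB) (O.M i n') (O.M i n) ≠ ⊤ := fun i =>
    (ENNReal.add_ne_top.1 ((e1 i).trans_ne (b1 i))).1
  have f2 := (ENNReal.add_ne_top.1 (e2.trans_ne b2)).1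
  refine ⟨f1, ?_⟩
  have g1 := fun i => (ENNReal.toReal_add (f1 i) (a1 i)).symm.trans (congrArg _ (e1 i))
  have g2 := (ENNReal.toReal_add f2 a2).symm.trans (congrArg _ e2)
  have g3 := Finset.sum_congr (rfl : Finset.univ = Finset.univ) fun i _ => g1 i
  rw [Finset.sum_add_distrib] at g3
  have k1 : K0 * (((c2 * (sz N n + j + 1) : ℕ) : ℝ) + 1) ^ a ≤
      |K0| * ((c2 : ℝ) + 1) ^ a * ((sz N n : ℝ) + j + 1) ^ a := by
    rw [mul_assoc, ← mul_pow]
    refine mul_le_mul (le_abs_self _) (pow_le_pow_left₀ (by positivity) ?_ a) (by positivity)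
      (abs_nonneg _)
    push_cast
    have : (0 : ℝ) ≤ (sz N n : ℝ) + j := by positivity
    linarith
  rw [abs_le] at a3 b3 ⊢
  constructor <;> linarith [a3.1, a3.2, b3.1, b3.2]

theorem fl_compare {K : GC C} {n c : ℕ} {e : Fin n → ℕ} {b : Matrix K.ι (Fin n ⊕ Fin n) C}
    {b' : Matrix (Fin n ⊕ Fin n) K.ι C} (hS : Setup K p e b b' c 𝔞) {t : ℕ}
    (ht : maximalIdeal C ^ t ≤ K.nh) (hD : Dat p Xv θ F Δ Γ)
    (h : O.Ok p θ F (2 * n) 𝔞 n0 c2 0) (hκ : Null O.μ O.κ0)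
    (hL : LAR (2 * n) 𝔞 ((maximalIdeal A).map (algebraMap A C)) c1) (h1 : c1 ≤ c2)
    (h2 : 1 ≤ c2) :
    (∀ i (k : Fin n) (m : ℕ → ℤ), Ge (n0 + 1) m →
      rr (O.μ.res O.toB) (O.M i (m + dl (2 * k + 1))) (O.M i (m + dl (2 * k))) ≠ ⊤) ∧
    ∃ K2 : ℝ, ∀ l ρ : ℕ, 1 ≤ l → n0 + l ≤ ρ → ρ ≤ s * (n0 + l) →
      |∑ i, fl (O.μ.res O.toB) (O.M i) e l ρ - fl (RLen.ofLen C) (EE (2 * n) 𝔞) e l ρ| ≤
        K2 * (l : ℝ) ^ a := by
  have hp : (p : C) ∈ nonZeroDivisors C := by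
    refine mem_nonZeroDivisors_of_ne_zero fun h0 => ?_
    refine nonZeroDivisors.ne_zero (hD.reg.mem_nonZeroDivisors none) (hD.inj ?_)
    rw [map_zero]
    exact (map_natCast _ p).trans h0
  have hm : (maximalIdeal A).map (algebraMap A C) ≤ maximalIdeal C := by
    have := hD.loc
    exact map_maximalIdeal_le (algebraMap A C)
  have hm' : ∀ l : ℕ, (maximalIdeal A).map (algebraMap A C) ^ (t * l) ≤ K.nh ^ l := fun l => by
    rw [pow_mul]
    exact Ideal.pow_right_mono ((Ideal.pow_right_mono hm t).trans ht) l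
  obtain ⟨K1, k0, hK⟩ := rr_bound hD h hκ (fun r hr => hS.pow_mem hr) hL h1 h2
  have hge : ∀ (l : ℕ) (m : ℕ → ℤ) (r : ℕ), Ge (n0 + l) m → Ge n0 (m + (l : ℤ) • dl r) := by
    intro l m r hm0 q
    have h3 := hm0 q
    have h4 := mul_le_mul_of_nonneg_left (dl_bounds r q).1 (Int.natCast_nonneg l)
    simp only [Pi.add_apply, Pi.smul_apply, smul_eq_mul]
    push_cast at h3
    omega
  have key := fun (l : ℕ) (k : Fin n) (m : ℕ → ℤ) (hm0 : Ge (n0 + l) m) =>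
    hK (m + (l : ℤ) • dl (2 * k)) (m + (l : ℤ) • dl (2 * k + 1)) (t * l) (hge l m _ hm0)
      (hge l m _ hm0) (hS.EE_u1 k fun r => le_trans (by push_cast; omega) (hm0 r))
      ((Ideal.mul_mono_left (hm' l)).trans
        (hS.EE_u2 hp k fun r => le_trans (by push_cast; omega) (hm0 r)))
  refine ⟨fun i k m hm0 => ?_, n * (K1 *
    (((2 * n + 1) * (s * (n0 + 1) + 1) + t + 1 : ℕ) : ℝ) ^ a), fun l ρ hl l1 l2 => ?_⟩
  · have h3 := (key 1 k m hm0).1 i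
    rwa [Nat.cast_one, one_smul, one_smul] at h3
  · unfold fl
    rw [Finset.sum_comm, ← Finset.sum_sub_distrib]
    refine (Finset.abs_sum_le_sum_abs _ _).trans ((Finset.sum_le_card_nsmul _ _
      (K1 * (((2 * n + 1) * (s * (n0 + 1) + 1) + t + 1 : ℕ) : ℝ) ^ a * (l : ℝ) ^ a)
      fun k _ => ?_).trans (le_of_eq ?_))
    · rw [← Finset.mul_sum, ← mul_sub, abs_mul, abs_pow, abs_neg, abs_one, one_pow, one_mul]
      refine (key l k (cst ρ) fun r => by simp only [cst]; omega).2.trans ?_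
      rw [mul_assoc, ← mul_pow]
      refine mul_le_mul_of_nonneg_left (pow_le_pow_left₀ (by positivity) ?_ a) k0
      have h3 : sz (2 * n) (cst ρ + (l : ℤ) • dl (2 * k)) ≤ (2 * n + 1) * (ρ + l) :=
        sz_le fun r => by
          have h4 := mul_le_mul_of_nonneg_left (dl_bounds (2 * k) r).2 (Int.natCast_nonneg l)
          simp only [Pi.add_apply, cst, Pi.smul_apply, smul_eq_mul]
          push_cast
          omega
      have h4 : ρ + l ≤ (s * (n0 + 1) + 1) * l := by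
        have h5 : n0 + l ≤ (n0 + 1) * l := by nlinarith
        have h6 := Nat.mul_le_mul_left s h5
        nlinarith
      have h5 := h3.trans (Nat.mul_le_mul_left _ h4)
      have h6 : sz (2 * n) (cst ρ + (l : ℤ) • dl (2 * k)) + t * l + 1 ≤
          ((2 * n + 1) * (s * (n0 + 1) + 1) + t + 1) * l := by nlinarith
      exact_mod_cast h6
    · rw [Finset.card_univ, Fintype.card_fin, nsmul_eq_mul]
      ring

end Vale.Agent.P177
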