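import Vale.Agent.P177.Bas2

/-! Homology of cones and Koszul complexes. -/

namespace Vale.Agent.P177

open Vale.Agent.P202
open scoped ENNReal

universe u

variable {B : Type u} [CommRing B] {E : Type u} [AddCommGroup E] [Module B E] (μ : RLen B)

theorem cone_rr_congr {A A' C : Submodule B E} (h : A ⊓ C = A' ⊓ C) : rr μ A C = rr μ A' C := by
  rw [← rr_inf, h, rr_inf]

theorem cone_map_le (y : B) (Z : Submodule B E) : Z.map (LinearMap.lsmul B E y) ≤ Z := by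
  rintro _ ⟨x, hx, rfl⟩
  exact Z.smul_mem y hx

theorem cone_le_comap (y : B) (Z : Submodule B E) : Z ≤ Z.comap (LinearMap.lsmul B E y) :=
  fun _ hx => Z.smul_mem y hx

theorem ck_le (y : B) (A Z : Submodule B E) : ck μ y A Z ≤ rr μ A Z := by
  exact rr_anti_left μ le_sup_left Z

theorem kr_le (y : B) (A Z : Submodule B E) : kr μ y A Z ≤ rr μ A Z := by
  exact rr_mono μ le_rfl inf_le_left

theorem ck_mul_le (x y : B) (A Z : Submodule B E) :
    ck μ (x * y) A Z ≤ ck μ x A Z + ck μ y A Z := by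
  unfold ck
  rw [add_comm]
  refine (rr_triangle μ _ (A ⊔ Z.map (LinearMap.lsmul B E x)) Z).trans (add_le_add ?_ le_rfl)
  refine (rr_le_of_le_sup μ le_rfl (sup_le_sup_right le_sup_left _)).trans ?_
  rw [← rr_map]
  refine rr_anti_left μ (sup_le (fun a ha => ?_) ?_) Z
  · exact Submodule.mem_sup_left (A.smul_mem x ha)
  · rintro _ ⟨z, hz, rfl⟩
    exact Submodule.mem_sup_right ⟨z, hz, mul_smul x y z⟩

theorem kr_mul_le (x y : B) (A Z : Submodule B E) :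
    kr μ (x * y) A Z ≤ kr μ x A Z + kr μ y A Z := by
  unfold kr
  rw [add_comm]
  refine (rr_triangle μ A (Z ⊓ A.comap (LinearMap.lsmul B E y)) _).trans (add_le_add le_rfl ?_)
  rw [cone_rr_congr μ (A' := A.comap (LinearMap.lsmul B E y)) (by
    rw [inf_comm Z, inf_assoc, ← inf_assoc Z, inf_idem]), rr_map]
  refine rr_mono μ le_rfl ?_
  rintro _ ⟨z, hz, rfl⟩
  refine ⟨Z.smul_mem y hz.1, ?_⟩
  change x • y • z ∈ A
  rw [← mul_smul]
  exact hz.2

/-- The six term sequence. -/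
theorem ck_kr_mul (x y : B) {A Z : Submodule B E} (h : A ≤ Z) :
    ck μ (x * y) A Z + kr μ x A Z + kr μ y A Z =
      kr μ (x * y) A Z + ck μ x A Z + ck μ y A Z := by
  set X := LinearMap.lsmul B E x with hX
  set Y := LinearMap.lsmul B E y with hY
  set W := LinearMap.lsmul B E (x * y) with hW
  have hw : ∀ v, W v = X (Y v) := fun v => mul_smul x y v
  have hAX : ∀ v ∈ A, X v ∈ A := fun v hv => A.smul_mem x hv
  have hZY : ∀ v ∈ Z, Y v ∈ Z := fun v hv => Z.smul_mem y hv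
  have a1 : A ≤ Z ⊓ A.comap X := le_inf h (cone_le_comap x A)
  have a2 : A ≤ Z ⊓ A.comap Y := le_inf h (cone_le_comap y A)
  have a3 : Z ⊓ A.comap Y ≤ Z ⊓ A.comap W := fun v hv => ⟨hv.1, by
    change W v ∈ A
    rw [hw]
    exact hAX _ hv.2⟩
  have a4 : (Z ⊓ A.comap W).map Y ≤ Z ⊓ A.comap X := by
    rintro _ ⟨v, hv, rfl⟩
    refine ⟨hZY v hv.1, ?_⟩
    change X (Y v) ∈ A
    rw [← hw]
    exact hv.2
  have a5 : Z.map W ≤ Z.map X := by
    rintro _ ⟨v, hv, rfl⟩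
    exact ⟨Y v, hZY v hv, (hw v).symm⟩
  have e1 : kr μ (x * y) A Z = kr μ y A Z + rr μ A ((Z ⊓ A.comap W).map Y) := by
    unfold kr
    rw [rr_add μ a2 a3, ← rr_map]
    congr 1
    refine cone_rr_congr μ ?_
    rw [inf_comm Z, inf_assoc, ← inf_assoc Z, inf_idem]
  have e2 : kr μ x A Z =
      rr μ A ((Z ⊓ A.comap W).map Y) + rr μ (A ⊔ Z.map Y) (Z ⊓ A.comap X) := by
    unfold kr
    rw [rr_add μ le_sup_left (sup_le a1 a4), rr_sup]
    congr 1
    refine cone_rr_congr μ (le_antisymm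
      (inf_le_inf_right _ (sup_le_sup_left (Submodule.map_mono inf_le_left) _)) ?_)
    rintro v ⟨h1, h2⟩
    refine ⟨?_, h2⟩
    obtain ⟨a, ha, _, ⟨z, hz, rfl⟩, rfl⟩ := Submodule.mem_sup.1 h1
    refine Submodule.add_mem_sup ha ⟨z, ⟨hz, ?_⟩, rfl⟩
    change W z ∈ A
    have h3 : X (a + Y z) ∈ A := h2.2
    rw [map_add] at h3
    rw [hw]
    exact (A.add_mem_iff_right (hAX a ha)).1 h3
  have e3 : ck μ y A Z =
      rr μ (A ⊔ Z.map Y) (Z ⊓ A.comap X) + rr μ (A ⊔ Z.map W) (Z.map X) := by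
    unfold ck
    rw [rr_add μ (le_sup_left : _ ≤ A ⊔ Z.map Y ⊔ Z ⊓ A.comap X)
      (sup_le (sup_le h (cone_map_le y Z)) inf_le_left), rr_sup, ← rr_map]
    congr 1
    refine cone_rr_congr μ (le_antisymm (inf_le_inf_right _ (sup_le (sup_le ?_ ?_) ?_)) ?_)
    · exact fun v hv => Submodule.mem_sup_left (hAX v hv)
    · rintro _ ⟨v, hv, rfl⟩
      exact Submodule.mem_sup_right ⟨v, hv, hw v⟩
    · exact fun v hv => Submodule.mem_sup_left hv.2
    · rintro v ⟨h1, h2⟩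
      refine ⟨?_, h2⟩
      obtain ⟨a, ha, _, ⟨z, hz, rfl⟩, e⟩ := Submodule.mem_sup.1 h1
      refine Submodule.mem_sup.2 ⟨Y z, Submodule.mem_sup_right ⟨z, hz, rfl⟩, v - Y z,
        ⟨sub_mem h2 (hZY z hz), ?_⟩, add_sub_cancel _ _⟩
      change X (v - Y z) ∈ A
      rw [map_sub, ← e, ← hw, add_sub_cancel_right]
      exact ha
  have e4 : ck μ (x * y) A Z = rr μ (A ⊔ Z.map W) (Z.map X) + ck μ x A Z := by
    unfold ck
    rw [rr_add μ (sup_le_sup_left a5 A) (sup_le h (cone_map_le x Z)),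
      ← rr_sup μ (A ⊔ Z.map W) (Z.map X), sup_assoc, sup_eq_right.2 a5]
  rw [e1, e2, e3, e4]
  ring

theorem ck_eq_kr (y : B) {A Z : Submodule B E} (h : A ≤ Z) (hf : rr μ A Z ≠ ⊤) :
    ck μ y A Z = kr μ y A Z := by
  have e1 : rr μ A Z = kr μ y A Z + rr μ A (Z.map (LinearMap.lsmul B E y)) := by
    unfold kr
    rw [rr_add μ (le_inf h (cone_le_comap y A)) inf_le_left, ← rr_map]
    congr 1
    refine cone_rr_congr μ ?_
    rw [inf_comm Z, inf_assoc, inf_idem]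
  have e2 : rr μ A Z = ck μ y A Z + rr μ A (Z.map (LinearMap.lsmul B E y)) := by
    unfold ck
    rw [rr_add μ le_sup_left (sup_le h (cone_map_le y Z)), rr_sup, add_comm]
  have h1 : rr μ A (Z.map (LinearMap.lsmul B E y)) ≠ ⊤ :=
    ne_top_of_le_ne_top hf (rr_mono μ le_rfl (cone_map_le y Z))
  exact (ENNReal.add_left_inj h1).1 (e2.symm.trans e1)

namespace GC

variable {K : GC B} {N' N'' : Submodule B E}

omit [AddCommGroup E] in
theorem cone_cases {ι : Type} (x : ι ⊕ ι → E) : ∃ u v, x = Sum.elim u v :=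
  ⟨x ∘ Sum.inl, x ∘ Sum.inr, (Sum.elim_comp_inl_inr x).symm⟩

theorem cone_d (K : GC B) (y : B) (u v : K.ι → E) :
    (K.cone y).d E (Sum.elim u v) = Sum.elim (K.d E u + y • v) (-K.d E v) := by
  funext a
  rcases a with a | a
  · simp [GC.d, mact_apply, Fintype.sum_sum_type, Matrix.one_apply]
  · simp [GC.d, mact_apply, Fintype.sum_sum_type]

theorem cone_mem_cf {y : B} {X Y : K.ι → Submodule B E} {n : ℤ} {u v : K.ι → E} :
    Sum.elim u v ∈ (K.cone y).cf (Sum.elim X Y) n ↔ u ∈ K.cf X n ∧ v ∈ K.cf Y (n - 1) := by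
  rw [mem_cf, mem_cf, mem_cf]
  simp only [Sum.forall, Sum.elim_inl, Sum.elim_inr, Nat.cast_add, Nat.cast_one, ne_eq,
    eq_sub_iff_add_eq]
  tauto

theorem cone_mem_cw {y : B} {N : Submodule B E} {n : ℤ} {u v : K.ι → E} :
    Sum.elim u v ∈ (K.cone y).cw N n ↔ u ∈ K.cw N n ∧ v ∈ K.cw N (n - 1) := by
  rw [← cone_mem_cf (y := y)]
  have e : (Sum.elim (fun _ => N) fun _ => N : K.ι ⊕ K.ι → Submodule B E) = fun _ => N := by
    funext a
    rcases a with a | a <;> rfl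
  rw [e]

theorem cone_d_mem (K : GC B) {N : Submodule B E} {n : ℤ} {u : K.ι → E}
    (h : u ∈ K.cw N (n + 1)) : K.d E u ∈ K.cw N n := by
  simpa using K.cw_isCx N (n + 1) ⟨u, h, rfl⟩

theorem cone_mem_Zy {y : B} {n : ℤ} {u v : K.ι → E} :
    Sum.elim u v ∈ (K.cone y).Zy N' N'' n ↔ u ∈ K.cw N'' n ∧ v ∈ K.Zy N' N'' (n - 1) ∧
      K.d E u + y • v ∈ K.cw N' (n - 1) := by
  constructor
  · rintro ⟨h1, h2⟩
    have h3 : (K.cone y).d E (Sum.elim u v) ∈ (K.cone y).cw N' (n - 1) := h2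
    rw [cone_d, cone_mem_cw, neg_mem_iff] at h3
    exact ⟨(cone_mem_cw.1 h1).1, ⟨(cone_mem_cw.1 h1).2, h3.2⟩, h3.1⟩
  · rintro ⟨h1, h2, h3⟩
    refine ⟨cone_mem_cw.2 ⟨h1, h2.1⟩, ?_⟩
    change (K.cone y).d E (Sum.elim u v) ∈ (K.cone y).cw N' (n - 1)
    rw [cone_d, cone_mem_cw, neg_mem_iff]
    exact ⟨h3, h2.2⟩

theorem cone_mem_Bd {y : B} {n : ℤ} {u v : K.ι → E} :
    Sum.elim u v ∈ (K.cone y).Bd N' N'' n ↔ ∃ b ∈ K.cw N'' (n + 1), ∃ c ∈ K.cw N'' n,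
      u - (K.d E b + y • c) ∈ K.cw N' n ∧ v + K.d E c ∈ K.cw N' (n - 1) := by
  constructor
  · intro h
    obtain ⟨a, ha, _, ⟨w, hw, rfl⟩, e⟩ := Submodule.mem_sup.1 h
    obtain ⟨b, c, rfl⟩ := cone_cases w
    obtain ⟨a1, a2, rfl⟩ := cone_cases a
    have h1 := cone_mem_cw.1 hw
    have h2 := cone_mem_cw.1 ha
    rw [add_sub_cancel_right] at h1
    rw [cone_d] at e
    have e1 : a1 + (K.d E b + y • c) = u := funext fun i => congrFun e (Sum.inl i)
    have e2 : a2 + -K.d E c = v := funext fun i => congrFun e (Sum.inr i)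
    refine ⟨b, h1.1, c, h1.2, ?_, ?_⟩
    · rw [← e1, add_sub_cancel_right]
      exact h2.1
    · rw [← e2, neg_add_cancel_right]
      exact h2.2
  · rintro ⟨b, hb, c, hc, h1, h2⟩
    refine Submodule.mem_sup.2 ⟨Sum.elim _ _, cone_mem_cw.2 ⟨h1, h2⟩, _, ⟨Sum.elim b c,
      cone_mem_cw.2 ⟨hb, by rwa [add_sub_cancel_right]⟩, rfl⟩, ?_⟩
    rw [cone_d]
    funext i
    rcases i with i | i <;> simp

theorem cone_mem_Bd0 {n : ℤ} {u : K.ι → E} :
    u ∈ K.Bd N' N'' n ↔ ∃ b ∈ K.cw N'' (n + 1), u - K.d E b ∈ K.cw N' n := by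
  constructor
  · intro h
    obtain ⟨a, ha, _, ⟨w, hw, rfl⟩, rfl⟩ := Submodule.mem_sup.1 h
    exact ⟨w, hw, by rwa [add_sub_cancel_right]⟩
  · rintro ⟨b, hb, h⟩
    exact Submodule.mem_sup.2 ⟨_, h, _, ⟨b, hb, rfl⟩, sub_add_cancel _ _⟩

/-- The inclusion of the first summand. -/
def coneInl (B : Type u) [CommRing B] (E : Type u) [AddCommGroup E] [Module B E] (ι : Type) :
    (ι → E) →ₗ[B] (ι ⊕ ι → E) where
  toFun u := Sum.elim u 0
  map_add' u v := by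
    funext a
    rcases a with a | a <;> simp
  map_smul' c u := by
    funext a
    rcases a with a | a <;> simp

theorem cone_cw_map (K : GC B) (N : Submodule B E) (y : B) (n : ℤ) :
    K.cw (N.map (LinearMap.lsmul B E y)) n = (K.cw N n).map (LinearMap.lsmul B (K.ι → E) y) := by
  classical
  apply le_antisymm
  · intro x hx
    have h0 := mem_cf.1 hx
    have h1 : ∀ a, ∃ v ∈ N, y • v = x a := fun a => apply_mem_of_mem_cf hx a
    choose v hv e using h1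
    refine ⟨fun a => if (K.deg a : ℤ) = n then v a else 0,
      mem_cf.2 ⟨fun a ha => by simpa [ha] using hv a, fun a ha => if_neg ha⟩, funext fun a => ?_⟩
    by_cases ha : (K.deg a : ℤ) = n
    · simpa [ha] using e a
    · simp [ha, h0.2 a ha]
  · rintro _ ⟨x, hx, rfl⟩
    have h0 := mem_cf.1 hx
    refine mem_cf.2 ⟨fun a ha => ⟨x a, h0.1 a ha, rfl⟩, fun a ha => ?_⟩
    simp [h0.2 a ha]

theorem cone_cw_sup (K : GC B) (N' N : Submodule B E) (y : B) (n : ℤ) :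
    K.cw (N' ⊔ N.map (LinearMap.lsmul B E y)) n =
      K.cw N' n ⊔ (K.cw N n).map (LinearMap.lsmul B (K.ι → E) y) := by
  rw [← cone_cw_map]
  exact cf_sup _ _ n

theorem hG_cone (hK : K.Sq0) (hN : N' ≤ N'') (y : B) (n : ℤ) :
    hG μ (K.cone y) N' N'' n = ck μ y (K.Bd N' N'' n) (K.Zy N' N'' n) +
      kr μ y (K.Bd N' N'' (n - 1)) (K.Zy N' N'' (n - 1)) := by
  have l1 : (K.Zy N' N'' n).map (coneInl B E K.ι) ≤ (K.cone y).Zy N' N'' n := by
    rintro _ ⟨u, hu, rfl⟩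
    refine cone_mem_Zy.2 ⟨hu.1, zero_mem _, ?_⟩
    rw [smul_zero, add_zero]
    exact hu.2
  have l2 := (hK.cone y).Bd_le hN n
  change rr μ ((K.cone y).Bd N' N'' n) ((K.cone y).Zy N' N'' n) = _
  rw [rr_add μ le_sup_left (sup_le l2 l1), rr_sup, ← rr_map]
  congr 1
  · unfold ck
    congr 1
    apply le_antisymm
    · intro u hu
      obtain ⟨b, hb, c, hc, h1, h2⟩ := cone_mem_Bd.1 hu
      rw [zero_add] at h2
      refine Submodule.mem_sup.2 ⟨u - y • c, cone_mem_Bd0.2 ⟨b, hb, ?_⟩, _, ⟨c, ⟨hc, h2⟩, rfl⟩,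
        sub_add_cancel _ _⟩
      rwa [sub_sub, add_comm]
    · refine sup_le (fun u hu => ?_) ?_
      · obtain ⟨b, hb, h⟩ := cone_mem_Bd0.1 hu
        exact cone_mem_Bd.2 ⟨b, hb, 0, zero_mem _, by simpa using h, by simp⟩
      · rintro _ ⟨c, hc, rfl⟩
        exact cone_mem_Bd.2 ⟨0, zero_mem _, c, hc.1, by simp, by simpa using hc.2⟩
  · have e1 : ((K.cone y).Zy N' N'' n).map (LinearMap.funLeft B E Sum.inr) =
        K.Zy N' N'' (n - 1) ⊓ (K.Bd N' N'' (n - 1)).comap (LinearMap.lsmul B (K.ι → E) y) := by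
      apply le_antisymm
      · rintro _ ⟨x, hx, rfl⟩
        obtain ⟨u, v, rfl⟩ := cone_cases x
        obtain ⟨h1, h2, h3⟩ := cone_mem_Zy.1 hx
        refine ⟨h2, cone_mem_Bd0.2 ⟨-u, by simpa using h1, ?_⟩⟩
        rw [map_neg, sub_neg_eq_add, add_comm]
        exact h3
      · rintro v ⟨h1, h2⟩
        obtain ⟨b, hb, h⟩ := cone_mem_Bd0.1 h2
        refine ⟨Sum.elim (-b) v, cone_mem_Zy.2 ⟨by simpa using hb, h1, ?_⟩, rfl⟩
        rw [map_neg, neg_add_eq_sub]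
        exact h
    unfold kr
    rw [← e1, ← rr_map]
    refine cone_rr_congr μ (le_antisymm (inf_le_inf_right _ (sup_le (fun x hx => ?_) ?_)) ?_)
    · obtain ⟨u, v, rfl⟩ := cone_cases x
      obtain ⟨b, hb, c, hc, h1, h2⟩ := cone_mem_Bd.1 hx
      refine cone_mem_Bd0.2 ⟨-c, by simpa using hc, ?_⟩
      rw [map_neg, sub_neg_eq_add]
      exact h2
    · rintro _ ⟨u, -, rfl⟩
      exact zero_mem (K.Bd N' N'' (n - 1))
    · rintro x ⟨hx1, hx2⟩
      refine ⟨?_, hx2⟩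
      obtain ⟨u, v, rfl⟩ := cone_cases x
      obtain ⟨h1, h2, h3⟩ := cone_mem_Zy.1 hx2
      obtain ⟨b, hb, h⟩ := cone_mem_Bd0.1 hx1
      rw [sub_add_cancel] at hb
      have h4 : v - K.d E b ∈ K.cw N' (n - 1) := h
      refine Submodule.mem_sup.2 ⟨Sum.elim (-(y • b)) v,
        cone_mem_Bd.2 ⟨0, zero_mem _, -b, neg_mem hb, by simp, ?_⟩, _,
        ⟨u + y • b, ⟨add_mem h1 (Submodule.smul_mem _ y hb), ?_⟩, rfl⟩, ?_⟩
      · rwa [map_neg, ← sub_eq_add_neg]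
      · change K.d E (u + y • b) ∈ K.cw N' (n - 1)
        have h5 := sub_mem h3 (Submodule.smul_mem _ y h4)
        rwa [smul_sub, add_sub_assoc, sub_sub_cancel, ← map_smul, ← map_add] at h5
      · funext i
        rcases i with i | i <;> simp [coneInl]

theorem hG_cone_le (hK : K.Sq0) (hN : N' ≤ N'') (y : B) (n : ℤ) :
    hG μ (K.cone y) N' N'' n ≤ hG μ K N' N'' n + hG μ K N' N'' (n - 1) := by
  rw [hG_cone μ hK hN]
  exact add_le_add (ck_le μ _ _ _) (kr_le μ _ _ _)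

theorem hG_cone_reg (hK : K.Sq0) (hN : N' ≤ N'') {y : B}
    (hy : ∀ x ∈ N'', y • x ∈ N' → x ∈ N') (n : ℤ) :
    hG μ (K.cone y) N' N'' n = hG μ K (N' ⊔ N''.map (LinearMap.lsmul B E y)) N'' n := by
  have l1 : N' ⊔ N''.map (LinearMap.lsmul B E y) ≤ N'' := sup_le hN (cone_map_le y N'')
  let D : K.ι ⊕ K.ι → Submodule B E :=
    Sum.elim (fun _ => N' ⊔ N''.map (LinearMap.lsmul B E y)) fun _ => N''
  have d1 : ∀ a, N' ≤ D a := by
    rintro (a | a)
    exacts [le_sup_left, hN]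
  have d2 : ∀ a, D a ≤ N'' := by
    rintro (a | a)
    exacts [l1, le_rfl]
  have cx : IsCx ((K.cone y).d E) ((K.cone y).cf D) := by
    rintro m _ ⟨x, hx, rfl⟩
    obtain ⟨u, v, rfl⟩ := cone_cases x
    have h1 := cone_mem_cf.1 hx
    rw [cone_d]
    refine cone_mem_cf.2 ⟨add_mem (K.cw_isCx _ m ⟨u, h1.1, rfl⟩) ?_,
      neg_mem (K.cw_isCx _ _ ⟨v, h1.2, rfl⟩)⟩
    change _ ∈ K.cw _ _
    rw [cone_cw_sup]
    exact Submodule.mem_sup_right ⟨v, h1.2, rfl⟩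
  have tri : Tri ((K.cone y).d E) ((K.cone y).cw N') ((K.cone y).cf D) ((K.cone y).cw N'') :=
    ⟨sq_of_comp ((hK.cone y).comp E) _ _, cw_isCx _ _, cx, cw_isCx _ _,
      cf_mono (K := K.cone y) d1, cf_mono (K := K.cone y) d2⟩
  have z : ∀ m, hr μ ((K.cone y).d E) ((K.cone y).cw N') ((K.cone y).cf D) m = 0 := by
    intro m
    refine rr_eq_zero_of_le μ ?_
    rintro x ⟨hx1, hx2⟩
    obtain ⟨u, v, rfl⟩ := cone_cases x
    have h1 := cone_mem_cf.1 hx1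
    have h2 : (K.cone y).d E (Sum.elim u v) ∈ (K.cone y).cw N' (m - 1) := hx2
    rw [cone_d, cone_mem_cw] at h2
    have h3 : u ∈ K.cw (N' ⊔ N''.map (LinearMap.lsmul B E y)) m := h1.1
    rw [cone_cw_sup] at h3
    obtain ⟨a, ha, _, ⟨b, hb, rfl⟩, rfl⟩ := Submodule.mem_sup.1 h3
    have h4 : v + K.d E b ∈ K.cw N'' (m - 1) := add_mem h1.2 (K.cw_isCx _ m ⟨b, hb, rfl⟩)
    have h5 : y • (v + K.d E b) ∈ K.cw N' (m - 1) := by
      have h6 := sub_mem h2.1 (K.cw_isCx _ m ⟨a, ha, rfl⟩)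
      rwa [map_add, add_assoc, add_sub_cancel_left, LinearMap.lsmul_apply, map_smul, ← smul_add,
        add_comm] at h6
    have h6 : v + K.d E b ∈ K.cw N' (m - 1) :=
      mem_cf.2 ⟨fun i hi => hy _ ((mem_cf.1 h4).1 i hi) ((mem_cf.1 h5).1 i hi), (mem_cf.1 h4).2⟩
    refine Submodule.mem_sup.2 ⟨Sum.elim a _, cone_mem_cw.2 ⟨ha, h6⟩, _, ⟨Sum.elim 0 b,
      cone_mem_cf.2 ⟨zero_mem _, by rwa [add_sub_cancel_right]⟩, rfl⟩, ?_⟩
    rw [cone_d]
    funext i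
    rcases i with i | i <;> simp
  have a1 := tri.le_add μ n
  have a2 := tri.quot_le μ n
  rw [z, zero_add] at a1
  rw [z, add_zero] at a2
  refine (le_antisymm a1 a2).trans ?_
  have key := hr_transfer μ (d := (K.cone y).d E) (F' := (K.cone y).cf D)
    (F'' := (K.cone y).cw N'') (d' := K.d E)
    (G' := K.cw (N' ⊔ N''.map (LinearMap.lsmul B E y))) (G'' := K.cw N'')
    (LinearMap.funLeft B E Sum.inl) 0 1 (cw_isCx _ _) (cw_isCx _ _) ?_ ?_ ?_ n
  · rwa [add_zero] at key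
  · intro m x hx
    obtain ⟨u, v, rfl⟩ := cone_cases x
    rw [cone_d, add_zero, Units.val_one, one_smul, cone_cw_sup]
    refine Submodule.mem_sup_right ⟨v, (cone_mem_cw.1 hx).2, ?_⟩
    exact (add_sub_cancel_left (K.d E u) (y • v)).symm
  · intro m
    rw [add_zero]
    refine le_antisymm (sup_le ?_ (K.cw_mono l1 m)) fun u hu => Submodule.mem_sup_left
      ⟨Sum.elim u 0, cone_mem_cw.2 ⟨hu, zero_mem _⟩, rfl⟩
    rintro _ ⟨x, hx, rfl⟩
    obtain ⟨u, v, rfl⟩ := cone_cases x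
    exact (cone_mem_cw.1 hx).1
  · intro m
    rw [add_zero]
    ext x
    obtain ⟨u, v, rfl⟩ := cone_cases x
    exact ⟨fun h => cone_mem_cf.2 ⟨h.2, (cone_mem_cw.1 h.1).2⟩,
      fun h => ⟨cf_mono (K := K.cone y) d2 m h, (cone_mem_cf.1 h).1⟩⟩

theorem hG_kos_low (hK : K.Sq0) (hN : N' ≤ N'') (l : List B)
    (hl : ∀ y ∈ l, y ∈ K.nh ⊔ N'.colon (N'' : Set E)) (n : ℤ) :
    hG μ K N' N'' n ≤ hG μ (K.kos l) N' N'' (n + l.length) := by
  induction l with
  | nil => simp [kos]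
  | cons y l ih =>
    refine (ih fun z hz => hl z (List.mem_cons_of_mem _ hz)).trans ?_
    change _ ≤ hG μ ((K.kos l).cone y) N' N'' _
    rw [hG_cone μ (hK.kos l) hN, List.length_cons, Nat.cast_succ, ← add_assoc,
      add_sub_cancel_right]
    refine le_trans (rr_mono μ le_rfl (le_inf le_rfl fun x hx => ?_)) le_add_self
    exact smul_mem_Bd (sup_le_sup_right (K.nh_le_kos l) _ (hl y List.mem_cons_self)) hx

theorem hG_cone_mul_le (hK : K.Sq0) (hN : N' ≤ N'') (x y : B) (n : ℤ) :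
    hG μ (K.cone (x * y)) N' N'' n ≤ hG μ (K.cone x) N' N'' n + hG μ (K.cone y) N' N'' n := by
  rw [hG_cone μ hK hN, hG_cone μ hK hN, hG_cone μ hK hN, add_add_add_comm]
  exact add_le_add (ck_mul_le μ _ _ _ _) (kr_mul_le μ _ _ _ _)

theorem cone_top {L : ℕ} (h : K.Top L) (y : B) : (K.cone y).Top (L + 1) := by
  rintro (a | a)
  · exact (h a).trans L.le_succ
  · exact Nat.succ_le_succ (h a)

theorem cone_fin (hK : K.Sq0) (hN : N' ≤ N'') {y : B} (hg : GoodG μ (K.cone y) N' N'') (n : ℤ) :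
    ck μ y (K.Bd N' N'' n) (K.Zy N' N'' n) ≠ ⊤ ∧ kr μ y (K.Bd N' N'' n) (K.Zy N' N'' n) ≠ ⊤ := by
  have h1 : hG μ (K.cone y) N' N'' n ≠ ⊤ := hg.1 n
  have h2 : hG μ (K.cone y) N' N'' (n + 1) ≠ ⊤ := hg.1 (n + 1)
  rw [hG_cone μ hK hN] at h1 h2
  rw [add_sub_cancel_right] at h2
  exact ⟨(ENNReal.add_ne_top.1 h1).1, (ENNReal.add_ne_top.1 h2).2⟩

theorem cone_chi (hK : K.Sq0) (hN : N' ≤ N'') {L : ℕ} (hL : K.Top L) {y : B}
    (hg : GoodG μ (K.cone y) N' N'') : chiG μ (K.cone y) N' N'' =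
      ∑ i ∈ Finset.range (L + 1), (-1 : ℝ) ^ i *
        ((ck μ y (K.Bd N' N'' i) (K.Zy N' N'' i)).toReal -
          (kr μ y (K.Bd N' N'' i) (K.Zy N' N'' i)).toReal) := by
  have h0 := cone_fin μ hK hN hg
  have z1 : ck μ y (K.Bd N' N'' ((L + 1 : ℕ) : ℤ)) (K.Zy N' N'' ((L + 1 : ℕ) : ℤ)) = 0 :=
    le_antisymm ((ck_le μ _ _ _).trans
      (hL.hr_eq_zero μ _ _ (Or.inr (by push_cast; omega))).le) zero_le
  have z2 : kr μ y (K.Bd N' N'' (((0 : ℕ) : ℤ) - 1)) (K.Zy N' N'' (((0 : ℕ) : ℤ) - 1)) = 0 :=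
    le_antisymm ((kr_le μ _ _ _).trans (hL.hr_eq_zero μ _ _ (Or.inl (by omega))).le) zero_le
  refine ((cone_top hL y).chi_eq_sum μ _ _).trans ?_
  have e : ∀ i : ℕ, (-1 : ℝ) ^ i * (hG μ (K.cone y) N' N'' i).toReal =
      (-1 : ℝ) ^ i * (ck μ y (K.Bd N' N'' i) (K.Zy N' N'' i)).toReal +
      (-1 : ℝ) ^ i * (kr μ y (K.Bd N' N'' (i - 1)) (K.Zy N' N'' (i - 1))).toReal := by
    intro i
    rw [hG_cone μ hK hN, ENNReal.toReal_add (h0 _).1 (h0 _).2, mul_add]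
  refine (Finset.sum_congr rfl fun i _ => e i).trans ?_
  rw [Finset.sum_add_distrib, Finset.sum_range_succ _ (L + 1), Finset.sum_range_succ' _ (L + 1),
    z1, z2, ENNReal.toReal_zero, mul_zero, mul_zero, add_zero, add_zero, ← Finset.sum_add_distrib]
  refine Finset.sum_congr rfl fun i _ => ?_
  rw [Nat.cast_succ, add_sub_cancel_right]
  ring

theorem chi_cone_mul (hK : K.Sq0) (hN : N' ≤ N'') {x y : B} (hx : GoodG μ (K.cone x) N' N'')
    (hy : GoodG μ (K.cone y) N' N'') : GoodG μ (K.cone (x * y)) N' N'' ∧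
      chiG μ (K.cone (x * y)) N' N'' = chiG μ (K.cone x) N' N'' + chiG μ (K.cone y) N' N'' := by
  have g : GoodG μ (K.cone (x * y)) N' N'' := good_of_ne_top μ fun n =>
    ne_top_of_le_ne_top (ENNReal.add_ne_top.2 ⟨hx.1 n, hy.1 n⟩) (hG_cone_mul_le μ hK hN x y n)
  refine ⟨g, ?_⟩
  obtain ⟨L, hL⟩ := K.exists_top
  rw [cone_chi μ hK hN hL g, cone_chi μ hK hN hL hx, cone_chi μ hK hN hL hy,
    ← Finset.sum_add_distrib]
  refine Finset.sum_congr rfl fun i _ => ?_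
  have f1 := cone_fin μ hK hN g i
  have f2 := cone_fin μ hK hN hx i
  have f3 := cone_fin μ hK hN hy i
  have e := congrArg ENNReal.toReal (ck_kr_mul μ x y (hK.Bd_le hN (i : ℤ)))
  rw [ENNReal.toReal_add (ENNReal.add_ne_top.2 ⟨f1.1, f2.2⟩) f3.2, ENNReal.toReal_add f1.1 f2.2,
    ENNReal.toReal_add (ENNReal.add_ne_top.2 ⟨f1.2, f2.1⟩) f3.1,
    ENNReal.toReal_add f1.2 f2.1] at e
  rw [← mul_add]
  congr 1
  linarith

theorem cone_pow_le (hK : K.Sq0) (hN : N' ≤ N'') (y : B) (m : ℕ) (n : ℤ) :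
    hG μ (K.cone (y ^ m)) N' N'' n ≤ (m : ℝ≥0∞) * hG μ (K.cone y) N' N'' n := by
  induction m with
  | zero =>
    rw [pow_zero, hG_eq_zero_of_nh μ (K.mem_nh_cone 1)]
    exact zero_le
  | succ m ih =>
    rw [pow_succ, Nat.cast_succ, add_mul, one_mul]
    exact (hG_cone_mul_le μ hK hN _ _ n).trans (add_le_add ih le_rfl)

theorem cone_pow_chi (hK : K.Sq0) (hN : N' ≤ N'') {y : B} (hg : GoodG μ (K.cone y) N' N'')
    (m : ℕ) : GoodG μ (K.cone (y ^ m)) N' N'' ∧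
      chiG μ (K.cone (y ^ m)) N' N'' = m * chiG μ (K.cone y) N' N'' := by
  induction m with
  | zero =>
    rw [pow_zero, Nat.cast_zero, zero_mul]
    exact good_chi_of_zero μ (hG_eq_zero_of_nh μ (K.mem_nh_cone 1) N' N'')
  | succ m ih =>
    have h := chi_cone_mul μ hK hN ih.1 hg
    rw [pow_succ, Nat.cast_succ, add_mul, one_mul, ← ih.2]
    exact h

theorem hG_kos_pow_le (hK : K.Sq0) (hN : N' ≤ N'') (l : List B) (m : ℕ) (n : ℤ) :
    hG μ (K.kos (l.map (· ^ m))) N' N'' n ≤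
      ((m ^ l.length : ℕ) : ℝ≥0∞) * hG μ (K.kos l) N' N'' n := by
  induction l generalizing K with
  | nil => simp [kos]
  | cons y l ih =>
    change hG μ ((K.kos (l.map (· ^ m))).cone (y ^ m)) N' N'' n ≤
      _ * hG μ ((K.kos l).cone y) N' N'' n
    refine (cone_pow_le μ (hK.kos _) hN y m n).trans ?_
    rw [(kos_cone_comm K _ y).hG_eq, (kos_cone_comm K l y).hG_eq, List.length_cons, pow_succ',
      Nat.cast_mul, mul_assoc]
    exact mul_le_mul' le_rfl (ih (hK.cone y))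

theorem chi_kos_pow (hK : K.Sq0) (hN : N' ≤ N'') (l : List B) (m : ℕ)
    (hg : GoodG μ (K.kos l) N' N'') : GoodG μ (K.kos (l.map (· ^ m))) N' N'' ∧
      chiG μ (K.kos (l.map (· ^ m))) N' N'' = (m : ℝ) ^ l.length * chiG μ (K.kos l) N' N'' := by
  induction l generalizing K with
  | nil => exact ⟨hg, by simp [kos]⟩
  | cons y l ih =>
    have c1 := good_chi_congr μ ((kos_cone_comm K l y).hG_eq μ N' N'')
    have c2 := good_chi_congr μ ((kos_cone_comm K (l.map (· ^ m)) y).hG_eq μ N' N'')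
    have h1 := ih (hK.cone y) (c1.1.1 hg)
    have h2 := cone_pow_chi μ (hK.kos _) hN (c2.1.2 h1.1) m
    refine ⟨h2.1, h2.2.trans ?_⟩
    rw [List.length_cons, pow_succ', mul_assoc]
    congr 1
    exact c2.2.trans (h1.2.trans (congrArg _ c1.2.symm))

theorem cone_hG_zero (hK : K.Sq0) (hN : N' ≤ N'') (y : B) :
    hG μ (K.cone y) N' N'' 0 = hG μ K (N' ⊔ N''.map (LinearMap.lsmul B E y)) N'' 0 := by
  have e0 : ∀ N : Submodule B E, K.Zy N N'' 0 = K.cw N'' 0 := by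
    intro N
    refine le_antisymm inf_le_left (le_inf le_rfl fun x hx => ?_)
    have h1 := K.cw_isCx N'' 0 ⟨x, hx, rfl⟩
    rw [cw, cf_eq_bot_of_neg _ (by omega)] at h1
    rw [Submodule.mem_comap, Submodule.mem_bot B |>.1 h1]
    exact zero_mem _
  have z : kr μ y (K.Bd N' N'' (0 - 1)) (K.Zy N' N'' (0 - 1)) = 0 := by
    obtain ⟨L, hL⟩ := K.exists_top
    exact le_antisymm ((kr_le μ _ _ _).trans (hL.hr_eq_zero μ _ _ (Or.inl (by omega))).le) zero_le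
  rw [hG_cone μ hK hN, z, add_zero]
  change _ = rr μ (K.Bd _ N'' 0) (K.Zy _ N'' 0)
  unfold ck
  rw [e0, e0]
  congr 1
  unfold GC.Bd Bc
  rw [cone_cw_sup, sup_right_comm]

theorem cone_hG_top (hK : K.Sq0) (hN : N' ≤ N'') {L : ℕ} (hL : K.Top L) (y : B) :
    hG μ (K.cone y) N' N'' (L + 1) =
      hG μ K N' (N'' ⊓ N'.comap (LinearMap.lsmul B E y)) L := by
  have e0 : ∀ N : Submodule B E, K.Bd N' N L = K.cw N' L := by
    intro N
    unfold GC.Bd Bc
    rw [cw, cw, hL.cf_eq_bot (fun _ => N) (Or.inr (by omega)), Submodule.map_bot, sup_bot_eq]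
  have z : ck μ y (K.Bd N' N'' (L + 1)) (K.Zy N' N'' (L + 1)) = 0 :=
    le_antisymm ((ck_le μ _ _ _).trans (hL.hr_eq_zero μ _ _ (Or.inr (by omega))).le) zero_le
  rw [hG_cone μ hK hN, z, zero_add, add_sub_cancel_right]
  change _ = rr μ (K.Bd N' _ L) (K.Zy N' _ L)
  unfold kr
  rw [e0, e0]
  congr 1
  ext x
  constructor
  · rintro ⟨⟨h1, h2⟩, h3⟩
    exact ⟨mem_cf.2 ⟨fun a ha => ⟨(mem_cf.1 h1).1 a ha, (mem_cf.1 h3).1 a ha⟩,
      (mem_cf.1 h1).2⟩, h2⟩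
  · rintro ⟨h1, h2⟩
    have h3 := mem_cf.1 h1
    refine ⟨⟨mem_cf.2 ⟨fun a ha => (h3.1 a ha).1, h3.2⟩, h2⟩,
      mem_cf.2 ⟨fun a ha => (h3.1 a ha).2, fun a ha => ?_⟩⟩
    simp [h3.2 a ha]

theorem hG_kos_zero (hN : N' ≤ N'') (l : List B) :
    hG μ ((one B).kos l) N' N'' 0 = rr μ (N' ⊔ Ideal.span {y | y ∈ l} • N'') N'' := by
  induction l generalizing N' with
  | nil =>
    change hG μ (one B) N' N'' 0 = _
    rw [hG_one μ hN]
    simp
  | cons y l ih =>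
    change hG μ (((one B).kos l).cone y) N' N'' 0 = _
    rw [cone_hG_zero μ (sq0_kos l) hN, ih (sup_le hN (cone_map_le y N''))]
    congr 1
    have e1 : {z | z ∈ y :: l} = insert y {z | z ∈ l} := by
      ext z
      simp
    have e2 : Ideal.span {y} • N'' = N''.map (LinearMap.lsmul B E y) := by
      rw [Submodule.ideal_span_singleton_smul]
      rfl
    rw [e1, Ideal.span_insert, Submodule.sup_smul, e2, sup_assoc]

theorem hG_kos_top (hN : N' ≤ N'') (l : List B) :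
    hG μ ((one B).kos l) N' N'' l.length =
      rr μ N' (N'' ⊓ ⨅ y ∈ l, N'.comap (LinearMap.lsmul B E y)) := by
  induction l generalizing N'' with
  | nil =>
    change hG μ (one B) N' N'' 0 = _
    rw [hG_one μ hN]
    simp
  | cons y l ih =>
    change hG μ (((one B).kos l).cone y) N' N'' _ = _
    rw [List.length_cons, Nat.cast_succ, cone_hG_top μ (sq0_kos l) hN (top_kos l),
      ih (le_inf hN (cone_le_comap y N'))]
    congr 1
    ext x
    simp only [Submodule.mem_inf, Submodule.mem_iInf, List.mem_cons, forall_eq_or_imp, and_assoc]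

theorem chi_one_cone (hN : N' ≤ N'') (y : B) :
    (GoodG μ ((one B).cone y) N' N'' ↔ ck μ y N' N'' ≠ ⊤ ∧ kr μ y N' N'' ≠ ⊤) ∧
      chiG μ ((one B).cone y) N' N'' = (ck μ y N' N'').toReal - (kr μ y N' N'').toReal := by
  have hK : (one B).Sq0 := sq0_disc _
  have hL : (one B).Top 0 := fun _ => le_rfl
  have e0 : hG μ ((one B).cone y) N' N'' 0 = ck μ y N' N'' := by
    rw [cone_hG_zero μ hK hN, hG_one μ (sup_le hN (cone_map_le y N'')), if_pos rfl]
    rfl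
  have e1 : hG μ ((one B).cone y) N' N'' 1 = kr μ y N' N'' := by
    have h := cone_hG_top μ hK hN hL y
    rw [hG_one μ (le_inf hN (cone_le_comap y N')), if_pos Nat.cast_zero, Nat.cast_zero,
      zero_add] at h
    exact h
  refine ⟨⟨fun g => ⟨e0 ▸ g.1 0, e1 ▸ g.1 1⟩, fun g => good_of_ne_top μ fun n => ?_⟩, ?_⟩
  · by_cases h0 : n = 0
    · subst h0
      exact e0.trans_ne g.1
    · by_cases h1 : n = 1
      · subst h1
        exact e1.trans_ne g.2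
      · rw [(cone_top hL y).hr_eq_zero μ _ _ (by omega)]
        exact ENNReal.zero_ne_top
  · refine ((cone_top hL y).chi_eq_sum μ _ _).trans ?_
    rw [← e0, ← e1, Finset.sum_range_succ, Finset.sum_range_one]
    simp [sub_eq_add_neg]

end GC

end Vale.Agent.P177
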