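import Vale.Agent.P177.Cpl
import Vale.Agent.P202.MPS
import Vale.Agent.P202.MQR

/-! Evaluation of power series at topologically nilpotent elements. -/

namespace Vale.Agent.P177

open Vale.Agent.P202 MvPowerSeries IsLocalRing

universe u

variable {σ : Type} [Finite σ]

theorem exists_shift_psr {A : Type u} [CommRing A] (x : σ → A)
    (h : IsAdicComplete (Ideal.span (Set.range x)) A) :
    ∃ e : PS σ A ≃+* PS σ A, (∀ a, e (C a) = C a) ∧ (∀ j, e (X j) = X j + C (x j)) ∧
      ∀ j, e (X j - C (x j)) = X j := by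
  have hfg : (Ideal.span (Set.range x)).FG := Submodule.fg_span (Set.finite_range x)
  have hc := complete_ps (σ := σ) hfg h
  set J := (Ideal.span (Set.range x)).map (MvPowerSeries.C : A →+* PS σ A) ⊔
      Ideal.span (Set.range (MvPowerSeries.X : σ → PS σ A)) with hJ
  have hX : ∀ j, (X j : PS σ A) ∈ J := fun j =>
    Ideal.mem_sup_right (Ideal.subset_span ⟨j, rfl⟩)
  have hx : ∀ j, (C (x j) : PS σ A) ∈ J := fun j =>
    Ideal.mem_sup_left (Ideal.mem_map_of_mem _ (Ideal.subset_span ⟨j, rfl⟩))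
  obtain ⟨f, hf1, hf2⟩ := exists_psHom (σ := σ) J (C : A →+* PS σ A) (fun j => X j + C (x j))
    fun j => J.add_mem (hX j) (hx j)
  obtain ⟨g, hg1, hg2⟩ := exists_psHom (σ := σ) J (C : A →+* PS σ A) (fun j => X j - C (x j))
    fun j => J.sub_mem (hX j) (hx j)
  have h1 : f.comp g = RingHom.id _ := by
    refine psHom_ext J _ _ (fun a => ?_) (fun j => ?_) fun j => ?_
    · rw [RingHom.comp_apply, hg1, hf1, RingHom.id_apply]
    · rw [RingHom.comp_apply, hg2, map_sub, hf1, hf2, RingHom.id_apply, add_sub_cancel_right]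
    · rw [RingHom.comp_apply, hg2, map_sub, hf1, hf2, add_sub_cancel_right]
      exact hX j
  have h2 : g.comp f = RingHom.id _ := by
    refine psHom_ext J _ _ (fun a => ?_) (fun j => ?_) fun j => ?_
    · rw [RingHom.comp_apply, hf1, hg1, RingHom.id_apply]
    · rw [RingHom.comp_apply, hf2, map_add, hg1, hg2, RingHom.id_apply, sub_add_cancel]
    · rw [RingHom.comp_apply, hf2, map_add, hg1, hg2, sub_add_cancel]
      exact hX j
  refine ⟨RingEquiv.ofRingHom f g h1 h2, hf1, hf2, fun j => ?_⟩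
  change f (X j - C (x j)) = X j
  rw [map_sub, hf1, hf2, add_sub_cancel_right]

theorem exists_ev0 {A : Type u} [CommRing A] (x : σ → A)
    (h : IsAdicComplete (Ideal.span (Set.range x)) A) :
    ∃ ev : PS σ A →+* A, (∀ a, ev (C a) = a) ∧ (∀ j, ev (X j) = x j) ∧
      PermReg (fun j => (X j - C (x j) : PS σ A)) ∧
      RingHom.ker ev = Ideal.span (Set.range fun j => (X j - C (x j) : PS σ A)) := by
  obtain ⟨e, h1, h2, h3⟩ := exists_shift_psr x h
  refine ⟨(constantCoeff : PS σ A →+* A).comp e.toRingHom, fun a => ?_, fun j => ?_, ?_, ?_⟩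
  · change constantCoeff (e (C a)) = a
    rw [h1, constantCoeff_C]
  · change constantCoeff (e (X j)) = x j
    rw [h2, map_add, constantCoeff_X, constantCoeff_C, zero_add]
  · have := PermReg.of_pow (x := fun j => (X j - C (x j) : PS σ A)) (fun _ => 1)
      (fun _ => le_rfl) e (ps_permReg A) h3
    simpa only [pow_one] using this
  · apply le_antisymm
    · intro z hz
      have hz' : constantCoeff (e z) = 0 := hz
      have h4 := ps_sub_C_mem (e z)
      rw [hz', map_zero, sub_zero] at h4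
      have h5 := Ideal.mem_map_of_mem e.symm.toRingHom h4
      rw [ps_map_span] at h5
      have h6 : (fun i => e.symm.toRingHom (X i)) = fun j => (X j - C (x j) : PS σ A) := by
        funext j
        change e.symm (X j) = _
        rw [RingEquiv.symm_apply_eq, h3]
      rw [h6] at h5
      change e.symm (e z) ∈ _ at h5
      rwa [e.symm_apply_apply] at h5
    · rw [Ideal.span_le]
      rintro _ ⟨j, rfl⟩
      change constantCoeff (e (X j - C (x j))) = 0
      rw [h3, constantCoeff_X]

variable {A C' B : Type u} [CommRing A] [IsLocalRing A] [IsNoetherianRing A]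
  [IsAdicComplete (maximalIdeal A) A] [CommRing C'] [Algebra A C'] [CommRing B]

theorem exists_poly_psr (K : Ideal (PS σ A)) {D : ℕ}
    (hD : Ideal.span (Set.range (X : σ → PS σ A)) ^ D ≤
      K ⊔ (maximalIdeal A).map (C : A →+* PS σ A)) (z : PS σ A) :
    ∃ q : MvPolynomial σ A, z - q ∈ K := by
  have hle : (maximalIdeal A).map (algebraMap A (PS σ A)) ≤ maximalIdeal (PS σ A) := by
    rw [psl_maximalIdeal]
    exact le_sup_left
  have hH : IsHausdorff (maximalIdeal A) (PS σ A ⧸ K) := IsHausdorff.of_map hle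
  obtain ⟨n, g, hg⟩ := Module.Finite.exists_fin' A (MvPolynomial.restrictTotalDegree σ A D)
  have := isPrecomplete_pi (Fin n) (maximalIdeal A)
  let c : MvPolynomial σ A →ₗ[A] PS σ A ⧸ K :=
    ((Ideal.Quotient.mkₐ A K).comp (MvPolynomial.coeToMvPowerSeries.algHom A)).toLinearMap
  have hc : ∀ q : MvPolynomial σ A, c q = Ideal.Quotient.mk K (q : PS σ A) := by
    intro q
    change Ideal.Quotient.mk K (MvPolynomial.coeToMvPowerSeries.algHom A q) = _
    rw [MvPolynomial.coeToMvPowerSeries.algHom_apply]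
    simp
  let f : (Fin n → A) →ₗ[A] PS σ A ⧸ K :=
    c ∘ₗ (MvPolynomial.restrictTotalDegree σ A D).subtype ∘ₗ g
  have hf : Function.Surjective f := by
    refine surjective_of_mkQ_comp_surjective (I := maximalIdeal A) fun y => ?_
    obtain ⟨y, rfl⟩ := Submodule.mkQ_surjective _ y
    obtain ⟨y, rfl⟩ := Ideal.Quotient.mk_surjective y
    have h1 : (truncTotal (D + 1) y : MvPolynomial σ A) ∈
        MvPolynomial.restrictTotalDegree σ A D := by
      rw [MvPolynomial.mem_restrictTotalDegree]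
      exact Nat.lt_succ_iff.1 (totalDegree_truncTotal_lt _ (by omega))
    obtain ⟨v, hv⟩ := hg ⟨_, h1⟩
    refine ⟨v, ?_⟩
    have h2 : f v = Ideal.Quotient.mk K (truncTotal (D + 1) y : MvPolynomial σ A) := by
      change c (g v).1 = _
      rw [hv, hc]
    rw [LinearMap.comp_apply, h2, eq_comm, Submodule.mkQ_apply, Submodule.mkQ_apply,
      Submodule.Quotient.eq, ← map_sub]
    have h3 := hD (Ideal.pow_le_pow_right (Nat.le_succ D) (ps_sub_trunc_mem (D + 1) y))
    obtain ⟨a, ha, b, hb, hab⟩ := Submodule.mem_sup.1 h3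
    rw [← hab, map_add, Ideal.Quotient.eq_zero_iff_mem.2 ha, zero_add, Ideal.smul_top_eq_map,
      Submodule.restrictScalars_mem]
    have h4 := Ideal.mem_map_of_mem (Ideal.Quotient.mk K) hb
    rw [Ideal.map_map] at h4
    exact h4
  obtain ⟨v, hv⟩ := hf (Ideal.Quotient.mk K z)
  refine ⟨(g v).1, ?_⟩
  rw [← Ideal.Quotient.eq, ← hv, ← hc]
  rfl

/-- Maps out of a power series ring are determined by the images of the variables as soon as
these are roots of distinguished polynomials. -/
theorem psHom_ext_of_root (φ φ' : PS σ A →+* B) (hC : ∀ a, φ (C a) = φ' (C a))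
    (hX : ∀ j, φ (X j) = φ' (X j))
    (hr : ∀ j, ∃ (n : ℕ) (G : Polynomial A), G.Monic ∧
      G.map (residue A) = Polynomial.X ^ n ∧ G.eval₂ (φ.comp C) (φ (X j)) = 0) : φ = φ' := by
  have hCC : φ.comp C = φ'.comp C := RingHom.ext hC
  have hrad : Ideal.span (Set.range (X : σ → PS σ A)) ≤
      ((RingHom.ker φ ⊓ RingHom.ker φ') ⊔ (maximalIdeal A).map (C : A →+* PS σ A)).radical := by
    rw [Ideal.span_le]
    rintro _ ⟨j, rfl⟩
    obtain ⟨n, G, -, h1, h2⟩ := hr j
    refine ⟨n, ?_⟩
    have h3 : G.eval₂ (C : A →+* PS σ A) (X j) ∈ RingHom.ker φ ⊓ RingHom.ker φ' := by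
      constructor
      · change φ _ = 0
        rw [Polynomial.hom_eval₂, h2]
      · change φ' _ = 0
        rw [Polynomial.hom_eval₂, ← hCC, ← hX, h2]
    have h4 : Polynomial.X ^ n - G ∈ (maximalIdeal A).map (Polynomial.C : A →+* Polynomial A) := by
      rw [← ker_residue, ← Polynomial.ker_mapRingHom, RingHom.mem_ker, Polynomial.coe_mapRingHom,
        Polynomial.map_sub, h1, Polynomial.map_pow, Polynomial.map_X, sub_self]
    have h5 := Ideal.mem_map_of_mem (Polynomial.eval₂RingHom (C : A →+* PS σ A) (X j)) h4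
    have h6 : (Polynomial.eval₂RingHom (C : A →+* PS σ A) (X j)).comp Polynomial.C = C := by
      ext1 a
      simp
    rw [Ideal.map_map, h6, Polynomial.coe_eval₂RingHom, Polynomial.eval₂_sub,
      Polynomial.eval₂_X_pow] at h5
    have h7 := Ideal.add_mem _ (Ideal.mem_sup_left h3) (Ideal.mem_sup_right h5)
    rwa [add_sub_cancel] at h7
  obtain ⟨D, hD⟩ := Ideal.exists_pow_le_of_le_radical_of_fg hrad
    (Submodule.fg_span (Set.finite_range _))
  ext1 z
  obtain ⟨q, hq1, hq2⟩ := exists_poly_psr _ hD z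
  have h1 : φ (z - q) = 0 := hq1
  have h2 : φ' (z - q) = 0 := hq2
  rw [map_sub, sub_eq_zero] at h1 h2
  rw [h1, h2, ps_map_coe, ps_map_coe, hCC, funext hX]

theorem exists_distinguished [Module.Finite A C'] {x : C'} {c : ℕ}
    (hx : x ^ c ∈ (maximalIdeal A).map (algebraMap A C')) :
    ∃ (n : ℕ) (G : Polynomial A), G.Monic ∧ G.map (residue A) = Polynomial.X ^ n ∧
      Polynomial.aeval x G = 0 := by
  have hx' : x ^ (c + 1) ∈ (maximalIdeal A).map (algebraMap A C') := by
    rw [pow_succ]
    exact Ideal.mul_mem_right _ _ hx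
  obtain ⟨H, h1, -, h2, h3⟩ :=
    LinearMap.exists_monic_and_natDegree_eq_and_coeff_mem_pow_and_aeval_eq_zero A
      (Algebra.lmul A C' (x ^ (c + 1))) (maximalIdeal A) (by
        rintro _ ⟨y, rfl⟩
        rw [Ideal.smul_top_eq_map, Submodule.restrictScalars_mem]
        exact Ideal.mul_mem_right _ _ hx')
  have h4 : H.map (residue A) = Polynomial.X ^ H.natDegree := by
    ext k
    rw [Polynomial.coeff_map, Polynomial.coeff_X_pow]
    split_ifs with hk
    · rw [hk, h1.coeff_natDegree, map_one]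
    · rcases lt_or_gt_of_ne hk with hk | hk
      · rw [residue_eq_zero_iff]
        exact Ideal.pow_le_self (by omega) (h2 k)
      · rw [Polynomial.coeff_eq_zero_of_natDegree_lt hk, map_zero]
  refine ⟨(c + 1) * H.natDegree, Polynomial.expand A (c + 1) H, h1.expand (Nat.succ_pos c), ?_, ?_⟩
  · rw [Polynomial.map_expand, h4, map_pow, Polynomial.expand_X, pow_mul]
  · rw [Polynomial.expand_aeval]
    rw [Polynomial.aeval_algHom_apply] at h3
    have h5 := LinearMap.congr_fun h3 1
    simpa using h5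

omit [IsAdicComplete (maximalIdeal A) A] in
theorem exists_pow_le_map [IsLocalRing C'] [Module.Finite A C'] [IsLocalHom (algebraMap A C')] :
    ∃ c : ℕ, maximalIdeal C' ^ c ≤ (maximalIdeal A).map (algebraMap A C') := by
  have : IsNoetherianRing C' := IsNoetherianRing.of_finite A C'
  refine Ideal.exists_pow_le_of_le_radical_of_fg ?_ (IsNoetherian.noetherian _)
  rw [Ideal.radical_eq_sInf]
  refine le_sInf ?_
  rintro P ⟨h1, h2⟩
  have h3 : P.comap (algebraMap A C') = maximalIdeal A :=
    ((maximalIdeal.isMaximal A).eq_of_le (Ideal.comap_ne_top _ h2.ne_top)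
      (Ideal.map_le_iff_le_comap.1 h1)).symm
  have h4 : P.IsMaximal := Ideal.isMaximal_of_isIntegral_of_isMaximal_comap (R := A) P
    (by rw [h3]; infer_instance)
  exact (eq_maximalIdeal h4).ge

theorem complete_of_finite [IsLocalRing C'] [Module.Finite A C'] [IsLocalHom (algebraMap A C')] :
    IsAdicComplete (maximalIdeal C') C' := by
  have : IsNoetherianRing C' := IsNoetherianRing.of_finite A C'
  have h1 : IsPrecomplete (maximalIdeal A) C' := by
    obtain ⟨n, g, hg⟩ := Module.Finite.exists_fin' A C'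
    have := isPrecomplete_pi (Fin n) (maximalIdeal A)
    rw [← AdicCompletion.of_surjective_iff]
    intro y
    obtain ⟨x, rfl⟩ := AdicCompletion.map_surjective (maximalIdeal A) (f := g) hg y
    obtain ⟨a, rfl⟩ := AdicCompletion.of_surjective (maximalIdeal A) (Fin n → A) x
    exact ⟨_, (AdicCompletion.map_of _ _ _).symm⟩
  have h2 : IsAdicComplete (maximalIdeal A) C' := ⟨⟩
  obtain ⟨c, hc⟩ := exists_pow_le_map (A := A) (C' := C')
  exact complete_of_pow_le ((IsAdicComplete.map_algebraMap_iff _ _).2 h2)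
    (IsNoetherian.noetherian _) hc

theorem compat [IsLocalRing C'] [Module.Finite A C'] [IsLocalHom (algebraMap A C')] {W : Type u}
    [CommRing W] (ω : W →+* A) (ρ : PS σ W →+* C') (hρ : ∀ w, ρ (C w) = algebraMap A C' (ω w))
    (hX : ∀ j, ρ (X j) ∈ maximalIdeal C') (τ : C' →+* B) (Ψ : PS σ A →+* B)
    (h1 : ∀ a, Ψ (C a) = τ (algebraMap A C' a)) (h2 : ∀ j, Ψ (X j) = τ (ρ (X j)))
    (z : PS σ W) : Ψ (MvPowerSeries.map ω z) = τ (ρ z) := by
  have hc := complete_of_finite (A := A) (C' := C')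
  obtain ⟨φ, hφ1, hφ2⟩ := exists_psHom (σ := σ) (maximalIdeal C') (algebraMap A C')
    (fun j => ρ (X j)) hX
  obtain ⟨c, hc'⟩ := exists_pow_le_map (A := A) (C' := C')
  have h3 : Ψ = τ.comp φ := by
    refine psHom_ext_of_root _ _ (fun a => ?_) (fun j => ?_) fun j => ?_
    · rw [h1, RingHom.comp_apply, hφ1]
    · rw [h2, RingHom.comp_apply, hφ2]
    · obtain ⟨n, G, hG1, hG2, hG3⟩ := exists_distinguished (hc' (Ideal.pow_mem_pow (hX j) c))
      refine ⟨n, G, hG1, hG2, ?_⟩
      have h4 : Ψ.comp C = τ.comp (algebraMap A C') := RingHom.ext h1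
      rw [h4, h2, ← Polynomial.hom_eval₂, ← Polynomial.aeval_def, hG3, map_zero]
  have h4 : φ.comp (MvPowerSeries.map ω) = ρ := by
    refine psHom_ext (maximalIdeal C') _ _ (fun a => ?_) (fun j => ?_) fun j => ?_
    · rw [RingHom.comp_apply, map_C, hφ1, hρ]
    · rw [RingHom.comp_apply, map_X, hφ2]
    · rw [RingHom.comp_apply, map_X, hφ2]
      exact hX j
  rw [h3, ← h4]
  rfl

end Vale.Agent.P177
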