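import Vale.Agent.P177.Bas2

/-! Change of rings, null modules and lengths. -/

namespace Vale.Agent.P177

open Vale.Agent.P202 IsLocalRing TensorProduct
open scoped ENNReal

universe u

variable {A S S' : Type u} [CommRing A] [CommRing S] [CommRing S']

theorem RLen_ext {μ ν : RLen A}
    (h : ∀ (M : Type u) [AddCommGroup M] [Module A M], μ.len M = ν.len M) : μ = ν := by
  obtain ⟨l1, a1, z1⟩ := μ
  obtain ⟨l2, a2, z2⟩ := ν
  have e : @l1 = @l2 := by
    funext M i1 i2
    exact h M
  subst e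
  rfl

theorem res_id (μ : RLen A) : μ.res (RingHom.id A) = μ := by
  exact RLen_ext fun _ _ _ => rfl

theorem res_res (μ : RLen A) (f : A →+* S) (g : S →+* S') :
    (μ.res f).res g = μ.res (g.comp f) := by
  exact RLen_ext fun _ _ _ => rfl

theorem res_ofLen (f : A →+* S) (hf : Function.Surjective f) :
    (RLen.ofLen A).res f = RLen.ofLen S := by
  refine RLen_ext fun M _ _ => ?_
  let _ : Algebra A S := f.toAlgebra
  let _ : Module A M := Module.compHom M f
  have : IsScalarTower A S M := ⟨fun a s m => mul_smul (f a) s m⟩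
  exact congrArg ENat.toENNReal (Module.length_eq_of_surjective (S := A) (R := S) (M := M) hf)

/-- Lengths along a local map that is surjective on residue fields. -/
theorem res_ofLen_of_residue [IsLocalRing A] [IsLocalRing S] (f : A →+* S) [IsLocalHom f]
    (hf : Function.Surjective ((residue S).comp f)) : (RLen.ofLen A).res f = RLen.ofLen S := by
  refine RLen_ext fun M _ _ => ?_
  let _ : Algebra A S := f.toAlgebra
  let _ : Module A M := Module.compHom M f
  have : IsScalarTower A S M := ⟨fun a s m => mul_smul (f a) s m⟩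
  have : IsLocalHom (algebraMap A S) := ‹IsLocalHom f›
  have h1 : Function.Surjective (algebraMap (ResidueField A) (ResidueField S)) := by
    intro y
    obtain ⟨a, rfl⟩ := hf y
    exact ⟨residue A a, rfl⟩
  have h2 : Module.length (ResidueField A) (ResidueField S) = 1 := by
    rw [Module.length_eq_of_surjective h1]
    exact Module.length_eq_one _ _
  have h3 := IsLocalRing.length_restrictScalars A S M
  rw [h2, mul_one] at h3
  exact congrArg ENat.toENNReal h3

theorem Null.res {μ : RLen A} {κ : A} (h : Null μ κ) (f : A →+* S) : Null (μ.res f) (f κ) := by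
  intro M _ _ hM
  let _ : Module A M := Module.compHom M f
  exact h M hM

theorem null_one (μ : RLen A) : Null μ 1 := by
  intro M _ _ hM
  have : Subsingleton M := subsingleton_of_forall_eq 0 fun x => by simpa using hM x
  exact μ.zero M

theorem Null.rr_eq_zero {μ : RLen A} {κ : A} (h : Null μ κ) {E : Type u} [AddCommGroup E]
    [Module A E] {N' N'' : Submodule A E} (c : ℕ) (hc : ∀ x ∈ N'', κ ^ c • x ∈ N') :
    rr μ N' N'' = 0 := by
  induction c generalizing N'' with
  | zero => exact rr_eq_zero_of_le μ fun x hx => by simpa using hc x hx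
  | succ c ih =>
    have h1 : rr μ N' (N''.map (LinearMap.lsmul A E κ)) = 0 := by
      apply ih
      rintro _ ⟨x, hx, rfl⟩
      have := hc x hx
      rwa [pow_succ, mul_smul] at this
    have h2 : rr μ (N''.map (LinearMap.lsmul A E κ)) N'' = 0 := by
      apply h
      rintro ⟨_, x, hx, rfl⟩
      apply Subtype.ext
      change κ • (N''.map (LinearMap.lsmul A E κ)).mkQ x = 0
      rw [← map_smul, Submodule.mkQ_apply, Submodule.Quotient.mk_eq_zero]
      exact ⟨x, hx, rfl⟩
    have h3 := rr_triangle μ N' (N''.map (LinearMap.lsmul A E κ)) N''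
    rw [h1, h2, add_zero] at h3
    exact le_antisymm h3 zero_le

theorem Null.hr_eq_zero {μ : RLen A} {κ : A} (h : Null μ κ) {E : Type u} [AddCommGroup E]
    [Module A E] (d : E →ₗ[A] E) {F' F'' : ℤ → Submodule A E} (c : ℕ)
    (hc : ∀ n, ∀ x ∈ F'' n, κ ^ c • x ∈ F' n) (n : ℤ) : hr μ d F' F'' n = 0 := by
  exact h.rr_eq_zero c fun x hx => Submodule.mem_sup_left (hc n x hx.1)

theorem ring_ind [IsLocalRing A] (P : ∀ (M : Type u) [AddCommGroup M] [Module A M], Prop)
    (h0 : ∀ (M : Type u) [AddCommGroup M] [Module A M] [Subsingleton M], P M)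
    (h1 : P (A ⧸ maximalIdeal A))
    (h2 : ∀ {N M Q : Type u} [AddCommGroup N] [Module A N] [AddCommGroup M] [Module A M]
      [AddCommGroup Q] [Module A Q] (f : N →ₗ[A] M) (g : M →ₗ[A] Q), Function.Injective f →
      Function.Surjective g → Function.Exact f g → P N → P Q → P M)
    (M : Type u) [AddCommGroup M] [Module A M] (hM : Module.length A M ≠ ⊤) : P M := by
  have h := Module.length_ne_top_iff.1 hM
  clear hM
  induction h with
  | of_subsingleton => exact h0 _
  | @of_simple_quotient M _ _ N hs _ ih =>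
    obtain ⟨I, hI, ⟨e⟩⟩ := isSimpleModule_iff_quot_maximal.1 hs
    rw [eq_maximalIdeal hI] at e
    have h3 : P (M ⧸ N) := h2 (e.symm : (A ⧸ maximalIdeal A) →ₗ[A] M ⧸ N)
      (0 : (M ⧸ N) →ₗ[A] PUnit.{u + 1}) e.symm.injective (fun x => ⟨0, Subsingleton.elim _ _⟩)
      (fun y => ⟨fun _ => e.symm.surjective y, fun _ => rfl⟩) h1 (h0 _)
    exact h2 N.subtype N.mkQ (Submodule.subtype_injective N) N.mkQ_surjective
      (LinearMap.exact_subtype_mkQ N) ih h3

/-- Additive invariants of modules of finite length. -/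
theorem len_of_finite_length [IsLocalRing A] (ν : RLen A) (M : Type u) [AddCommGroup M]
    [Module A M] (hM : Module.length A M ≠ ⊤) :
    ν.len M = ((Module.length A M : ℕ∞) : ℝ≥0∞) * ν.q (maximalIdeal A) := by
  refine ring_ind (A := A)
    (fun M _ _ => ν.len M = ((Module.length A M : ℕ∞) : ℝ≥0∞) * ν.q (maximalIdeal A))
    (fun M _ _ _ => ?_) ?_ (fun f g hf hg h a b => ?_) M hM
  · rw [ν.zero M, Module.length_eq_zero, ENat.toENNReal_zero, zero_mul]
  · have : IsSimpleModule A (A ⧸ maximalIdeal A) :=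
      isSimpleModule_iff_quot_maximal.2 ⟨_, inferInstance, ⟨LinearEquiv.refl _ _⟩⟩
    rw [Module.length_eq_one, ENat.toENNReal_one, one_mul]
  · rw [ν.add_of_exact f g hf hg h, a, b, Module.length_eq_add_of_exact f g hf hg h,
      ENat.toENNReal_add, add_mul]

/-- Induction on modules of finite length. -/
theorem finLen_ind [IsLocalRing A] (P : ∀ (M : Type u) [AddCommGroup M] [Module A M], Prop)
    (h0 : ∀ (M : Type u) [AddCommGroup M] [Module A M] [Subsingleton M], P M)
    (h1 : P (A ⧸ maximalIdeal A))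
    (h2 : ∀ {N M Q : Type u} [AddCommGroup N] [Module A N] [AddCommGroup M] [Module A M]
      [AddCommGroup Q] [Module A Q] (f : N →ₗ[A] M) (g : M →ₗ[A] Q), Function.Injective f →
      Function.Surjective g → Function.Exact f g → P N → P Q → P M)
    (M : Type u) [AddCommGroup M] [Module A M] (hM : Module.length A M ≠ ⊤) : P M := by
  exact ring_ind P h0 h1 h2 M hM

/-- A finitely generated subquotient killed by a power of the maximal ideal has finite length. -/
theorem rr_ofLen_ne_top [IsLocalRing A] [IsNoetherianRing A] {E : Type u} [AddCommGroup E]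
    [Module A E] [Module.Finite A E] {N' N'' : Submodule A E} {t : ℕ}
    (h : ∀ z ∈ maximalIdeal A ^ t, ∀ x ∈ N'', z • x ∈ N') : rr (RLen.ofLen A) N' N'' ≠ ⊤ := by
  have h1 := rl_ne_top_of_fg (A := N') (B := N'') (IsNoetherian.noetherian _) t
    (Submodule.smul_le.2 h)
  exact fun h2 => h1 (ENat.toENNReal_eq_top.1 h2)

theorem good_of_kill [IsLocalRing A] [IsNoetherianRing A] {E : Type u} [AddCommGroup E]
    [Module A E] [Module.Finite A E] (K : GC A) {N' N'' : Submodule A E} {t : ℕ}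
    (h : maximalIdeal A ^ t ≤ K.nh ⊔ N'.colon (N'' : Set E)) : GoodG (RLen.ofLen A) K N' N'' := by
  exact GC.good_of_ne_top _ fun n =>
    rr_ofLen_ne_top (t := t) fun z hz x hx => GC.smul_mem_Bd (h hz) hx

/-- Restriction of scalars. -/
theorem hG_res (μ : RLen A) [Algebra A S] (K : GC A) {E : Type u} [AddCommGroup E] [Module S E]
    [Module A E] [IsScalarTower A S E] (N' N'' : Submodule S E) (n : ℤ) :
    hG (μ.res (algebraMap A S)) (K.map (algebraMap A S)) N' N'' n =
      hG μ K (N'.restrictScalars A) (N''.restrictScalars A) n := by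
  have e0 : ∀ x : K.ι → E, (K.map (algebraMap A S)).d E x = K.d E x := by
    intro x
    funext a
    rw [GC.d, GC.d, mact_apply, mact_apply]
    exact Finset.sum_congr rfl fun b _ => algebraMap_smul S (K.mat a b) (x b)
  have e1 : ∀ (N : Submodule S E) (m : ℤ) (x : K.ι → E),
      x ∈ (K.map (algebraMap A S)).cw N m ↔ x ∈ K.cw (N.restrictScalars A) m := by
    intro N m x
    rw [GC.mem_cf, GC.mem_cf]
    rfl
  unfold hG hr
  rw [rr_res]
  congr 1
  · ext x
    simp only [Submodule.restrictScalars_mem, Bc, Submodule.mem_sup, Submodule.mem_map, e0, e1]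
  · ext x
    simp only [Submodule.restrictScalars_mem, Zc, Submodule.mem_inf, Submodule.mem_comap, e0, e1]

theorem ring_smul_cw (K : GC A) {E : Type u} [AddCommGroup E] [Module A E]
    {N' N'' : Submodule A E} {z : A} (h : ∀ v ∈ N'', z • v ∈ N') (n : ℤ) (x : K.ι → E)
    (hx : x ∈ K.cw N'' n) : z • x ∈ K.cw N' n := by
  have h1 := GC.mem_cf.1 hx
  refine GC.mem_cf.2 ⟨fun a ha => h _ (h1.1 a ha), fun a ha => ?_⟩
  rw [Pi.smul_apply, h1.2 a ha, smul_zero]

theorem ring_hG_sup (μ : RLen A) (K : GC A) {E : Type u} [AddCommGroup E] [Module A E]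
    (N' N'' : Submodule A E) (n : ℤ) : hG μ K N' (N' ⊔ N'') n = hG μ K N' N'' n := by
  have e0 : ∀ m, K.cw (N' ⊔ N'') m = K.cw N' m ⊔ K.cw N'' m := fun m => GC.cf_sup _ _ m
  have e1 : K.Bd N' (N' ⊔ N'') n = K.Bd N' N'' n := by
    have h1 : (K.cw N' (n + 1)).map (K.d E) ≤ K.cw N' n := by simpa using K.cw_isCx N' (n + 1)
    unfold GC.Bd Bc
    rw [e0, Submodule.map_sup, ← sup_assoc, sup_eq_left.2 h1]
  have e2 : K.Zy N' (N' ⊔ N'') n = K.cw N' n ⊔ K.Zy N' N'' n := by
    unfold GC.Zy Zc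
    rw [e0, sup_inf_assoc_of_le _ (Submodule.map_le_iff_le_comap.1 (K.cw_isCx N' n))]
  change rr μ (K.Bd N' (N' ⊔ N'') n) (K.Zy N' (N' ⊔ N'') n) = rr μ (K.Bd N' N'' n) (K.Zy N' N'' n)
  have h2 : K.cw N' n ≤ K.Bd N' N'' n := le_sup_left
  rw [e1, e2, ← rr_sup, ← sup_assoc, sup_eq_left.2 h2, rr_sup]

/-- Almost isomorphic coefficient rings. -/
theorem hG_almost {μ : RLen A} {κ : A} (hκ : Null μ κ) {K : GC A} (hK : K.Sq0) (f : A →+* S)
    (g : S →+* S') {J : Ideal S} {J' : Ideal S'} (c : ℕ) (h0 : ∀ x ∈ J, g x ∈ J')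
    (h1 : ∀ y, ∃ x, g (f κ) ^ c * y - g x ∈ J') (h2 : ∀ x, g x ∈ J' → f κ ^ c * x ∈ J) (n : ℤ) :
    hG (μ.res f) (K.map f) J ⊤ n = hG (μ.res (g.comp f)) (K.map (g.comp f)) J' ⊤ n := by
  let _ : Algebra A S := f.toAlgebra
  let _ : Algebra A S' := (g.comp f).toAlgebra
  let φ : S →ₗ[A] S' :=
    { toFun := g, map_add' := g.map_add, map_smul' := fun a x => g.map_mul (f a) x }
  refine (hG_res μ K J ⊤ n).trans (Eq.trans ?_ (hG_res μ K J' ⊤ n).symm)
  rw [Submodule.restrictScalars_top, Submodule.restrictScalars_top]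
  have l1 : J.restrictScalars A ≤ (J'.restrictScalars A).comap φ := h0
  have t1 := hK.tri l1 (le_top : _ ≤ ⊤)
  have t2 := hK.tri (le_sup_right : J'.restrictScalars A ≤ (⊤ : Submodule A S).map φ ⊔ _)
    (le_top : _ ≤ ⊤)
  have z1 : ∀ m, hG μ K (J.restrictScalars A) ((J'.restrictScalars A).comap φ) m = 0 :=
    hκ.hr_eq_zero _ c (ring_smul_cw K fun v hv => by
      have := h2 v hv
      rwa [← map_pow] at this)
  have z2 : ∀ m, hG μ K ((⊤ : Submodule A S).map φ ⊔ J'.restrictScalars A) ⊤ m = 0 :=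
    hκ.hr_eq_zero _ c (ring_smul_cw K fun v _ => by
      obtain ⟨x, hx⟩ := h1 v
      rw [← map_pow, ← map_pow] at hx
      exact Submodule.mem_sup.2 ⟨φ x, ⟨x, trivial, rfl⟩, _, hx, add_sub_cancel _ _⟩)
  have e := hG_transfer μ K φ (N' := (J'.restrictScalars A).comap φ) (N'' := ⊤)
    (M' := J'.restrictScalars A) rfl (top_inf_eq _) n
  have a1 := t1.le_add μ n
  have a2 := t1.quot_le μ n
  have a3 := t2.le_add μ n
  have a4 := t2.sub_le μ n
  simp only [hG] at z1 z2 e
  rw [z1, zero_add] at a1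
  rw [z1, add_zero] at a2
  rw [z2, add_zero] at a3 a4
  exact (le_antisymm a1 a2).trans (e.trans (le_antisymm a4 a3))

/-- Isomorphic coefficient rings. -/
theorem hG_ring (μ : RLen A) (K : GC A) (f : A →+* S) (g : S →+* S') {J : Ideal S}
    {J' : Ideal S'} (h1 : ∀ y, ∃ x, y - g x ∈ J') (h2 : ∀ x, g x ∈ J' ↔ x ∈ J) (n : ℤ) :
    hG (μ.res f) (K.map f) J ⊤ n = hG (μ.res (g.comp f)) (K.map (g.comp f)) J' ⊤ n := by
  let _ : Algebra A S := f.toAlgebra
  let _ : Algebra A S' := (g.comp f).toAlgebra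
  let φ : S →ₗ[A] S' :=
    { toFun := g, map_add' := g.map_add, map_smul' := fun a x => g.map_mul (f a) x }
  refine (hG_res μ K J ⊤ n).trans (Eq.trans ?_ (hG_res μ K J' ⊤ n).symm)
  refine hG_transfer μ K φ ?_ ?_ n
  · refine le_antisymm le_top fun y _ => ?_
    obtain ⟨x, hx⟩ := h1 y
    exact Submodule.mem_sup.2 ⟨φ x, ⟨x, trivial, rfl⟩, _, hx, add_sub_cancel _ _⟩
  · ext x
    exact ⟨fun h => (h2 x).1 h.2, fun h => ⟨trivial, (h2 x).2 h⟩⟩

theorem hG_surj (μ : RLen A) (K : GC A) (g : A →+* S) (hg : Function.Surjective g)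
    (J' J'' : Ideal S) (n : ℤ) :
    hG μ K (J'.comap g) (J''.comap g) n = hG (μ.res g) (K.map g) J' J'' n := by
  let _ : Algebra A S := g.toAlgebra
  refine Eq.trans ?_ (hG_res μ K J' J'' n).symm
  rw [← ring_hG_sup, ← ring_hG_sup μ K (J'.restrictScalars A)]
  refine hG_transfer μ K (Algebra.linearMap A S) ?_ ?_ n
  · apply le_antisymm
    · refine sup_le ?_ le_sup_left
      rw [Submodule.map_sup]
      refine sup_le_sup ?_ ?_
      · rintro _ ⟨x, hx, rfl⟩
        exact hx
      · rintro _ ⟨x, hx, rfl⟩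
        exact hx
    · refine sup_le le_sup_right fun y hy => ?_
      obtain ⟨x, rfl⟩ := hg y
      exact Submodule.mem_sup_left ⟨x, Submodule.mem_sup_right hy, rfl⟩
  · exact le_antisymm inf_le_right (le_inf le_sup_left le_rfl)

theorem q_ring (μ : RLen A) (f : A →+* S) (g : S →+* S') {J : Ideal S}
    {J' : Ideal S'} (h1 : ∀ y, ∃ x, y - g x ∈ J') (h2 : ∀ x, g x ∈ J' ↔ x ∈ J) :
    (μ.res f).q J = (μ.res (g.comp f)).q J' := by
  let _ : Algebra A S := f.toAlgebra
  let _ : Algebra A S' := (g.comp f).toAlgebra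
  let φ : S →ₗ[A] S' :=
    { toFun := g, map_add' := g.map_add, map_smul' := fun a x => g.map_mul (f a) x }
  rw [RLen.q, RLen.q, ← rr_top, ← rr_top]
  refine (rr_res μ J ⊤).trans (Eq.trans ?_ (rr_res μ J' ⊤).symm)
  have e1 : J.restrictScalars A = (J'.restrictScalars A).comap φ := by
    ext x
    exact (h2 x).symm
  have e2 : J'.restrictScalars A ⊔ ((⊤ : Submodule S S).restrictScalars A).map φ =
      (⊤ : Submodule S' S').restrictScalars A := by
    refine le_antisymm le_top fun y _ => ?_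
    obtain ⟨x, hx⟩ := h1 y
    exact Submodule.mem_sup.2 ⟨_, hx, φ x, ⟨x, trivial, rfl⟩, sub_add_cancel _ _⟩
  rw [e1, rr_map, ← rr_sup, e2]

theorem ring_mact_bc [Algebra A S] {ι κ : Type} [Fintype ι] [DecidableEq ι] [Fintype κ]
    [DecidableEq κ] {E : Type u} [AddCommGroup E] [Module A E] (M : Matrix ι κ A)
    (x : S ⊗[A] (κ → E)) :
    piRight A S S (fun _ : ι => E) ((mact E M).baseChange S x) =
      mact (S ⊗[A] E) (M.map (algebraMap A S)) (piRight A S S (fun _ : κ => E) x) := by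
  induction x with
  | zero => simp
  | add x y hx hy => simp only [map_add, hx, hy]
  | tmul s v =>
    funext a
    rw [mact_apply, LinearMap.baseChange_tmul, piRight_apply, piRight_apply, piRightHom_tmul,
      piRightHom_tmul]
    simp only [mact_apply, tmul_sum, tmul_smul, Matrix.map_apply, algebraMap_smul]

theorem ring_cw_top (K : GC A) (E : Type u) [AddCommGroup E] [Module A E] (n : ℤ) :
    K.cw (⊤ : Submodule A E) n = LinearMap.ker
      (mact E (Matrix.diagonal fun a => if (K.deg a : ℤ) = n then (0 : A) else 1)) := by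
  ext x
  rw [GC.mem_cf, LinearMap.mem_ker, funext_iff]
  have e : ∀ a, mact E (Matrix.diagonal fun a => if (K.deg a : ℤ) = n then (0 : A) else 1) x a =
      (if (K.deg a : ℤ) = n then (0 : A) else 1) • x a := by
    intro a
    rw [mact_apply, Finset.sum_eq_single a (fun b _ hb => by
      rw [Matrix.diagonal_apply_ne' _ hb, zero_smul]) (by simp), Matrix.diagonal_apply_eq]
  simp only [e]
  refine ⟨fun h a => ?_, fun h => ⟨fun _ _ => trivial, fun a ha => ?_⟩⟩
  · by_cases ha : (K.deg a : ℤ) = n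
    · simp [ha]
    · simp [h.2 a ha]
  · simpa [ha] using h a

theorem ring_bc [Algebra A S] [Module.Flat A S] (K : GC A) (E : Type u)
    [AddCommGroup E] [Module A E] (n : ℤ) :
    Nonempty (HM ((K.map (algebraMap A S)).Bd (⊥ : Submodule S (S ⊗[A] E)) ⊤ n)
        ((K.map (algebraMap A S)).Zy (⊥ : Submodule S (S ⊗[A] E)) ⊤ n) ≃ₗ[S]
      S ⊗[A] HM (K.Bd (⊥ : Submodule A E) ⊤ n) (K.Zy (⊥ : Submodule A E) ⊤ n)) := by
  let e := piRight A S S fun _ : K.ι => E
  have c1 : ∀ m, (K.cw (⊤ : Submodule A E) m).baseChange S =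
      ((K.map (algebraMap A S)).cw (⊤ : Submodule S (S ⊗[A] E)) m).comap e.toLinearMap := by
    intro m
    rw [ring_cw_top, ring_cw_top, baseChange_ker]
    ext x
    rw [LinearMap.mem_ker, Submodule.mem_comap, LinearMap.mem_ker, ← e.map_eq_zero_iff,
      ring_mact_bc, Matrix.diagonal_map (map_zero _)]
    simp only [apply_ite (algebraMap A S), map_zero, map_one]
    rfl
  have c2 : ∀ x, e ((K.d E).baseChange S x) = (K.map (algebraMap A S)).d (S ⊗[A] E) (e x) :=
    ring_mact_bc K.mat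
  have c3 : (K.Zy (⊥ : Submodule A E) ⊤ n).baseChange S =
      ((K.map (algebraMap A S)).Zy (⊥ : Submodule S (S ⊗[A] E)) ⊤ n).comap e.toLinearMap := by
    unfold GC.Zy Zc
    rw [baseChange_inf, baseChange_comap, c1, GC.cw_bot, GC.cw_bot, Pi.bot_apply, Pi.bot_apply,
      Submodule.baseChange_bot, Submodule.comap_inf]
    congr 1
    ext x
    simp only [Submodule.mem_comap, Submodule.mem_bot]
    rw [← e.map_eq_zero_iff, c2]
    rfl
  have c4 : (K.Bd (⊥ : Submodule A E) ⊤ n).baseChange S =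
      ((K.map (algebraMap A S)).Bd (⊥ : Submodule S (S ⊗[A] E)) ⊤ n).comap e.toLinearMap := by
    unfold GC.Bd Bc
    rw [GC.cw_bot, GC.cw_bot, Pi.bot_apply, Pi.bot_apply, bot_sup_eq, bot_sup_eq, baseChange_map,
      c1]
    ext x
    constructor
    · rintro ⟨y, hy, rfl⟩
      exact ⟨e y, hy, (c2 y).symm⟩
    · rintro ⟨y, hy, h⟩
      obtain ⟨y, rfl⟩ := e.surjective y
      exact ⟨y, hy, e.injective ((c2 y).trans h)⟩
  have e1 := rlBaseChange (S := S) (K.Bd (⊥ : Submodule A E) ⊤ n) (K.Zy (⊥ : Submodule A E) ⊤ n)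
  rw [c3, c4] at e1
  have e2 := rlEquiv
    (((K.map (algebraMap A S)).Bd (⊥ : Submodule S (S ⊗[A] E)) ⊤ n).mkQ ∘ₗ e.toLinearMap) _
    (((K.map (algebraMap A S)).Zy (⊥ : Submodule S (S ⊗[A] E)) ⊤ n).comap e.toLinearMap)
    (by rw [LinearMap.ker_comp, Submodule.ker_mkQ])
  rw [Submodule.map_comp, Submodule.map_comap_eq_of_surjective e.surjective] at e2
  exact ⟨e2.symm.trans (e1.trans (Submodule.toBaseChange.toLinearEquiv S _).symm)⟩

/-- Flat base change. -/
theorem hG_bc [Algebra A S] [Module.Flat A S] (μ : RLen S) (K : GC A) (E : Type u)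
    [AddCommGroup E] [Module A E] (n : ℤ) :
    hG μ (K.map (algebraMap A S)) (⊥ : Submodule S (S ⊗[A] E)) ⊤ n =
      hG (μ.bc : RLen A) K (⊥ : Submodule A E) ⊤ n := by
  obtain ⟨e⟩ := ring_bc (S := S) K E n
  exact μ.equiv e

theorem hG_tensor_quot [Algebra A S] (μ : RLen S) (K : GC S) (I : Ideal A) (n : ℤ) :
    hG μ K (⊥ : Submodule S (S ⊗[A] (A ⧸ I))) ⊤ n = hG μ K (I.map (algebraMap A S)) ⊤ n := by
  rw [hG_quot μ K (I.map (algebraMap A S))]
  exact (hG_equiv μ K (Algebra.TensorProduct.quotIdealMapEquivTensorQuot S I).toLinearEquiv n).symm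

/-- Homology commutes with flat base change. -/
theorem homology_bc [Algebra A S] [Module.Flat A S] {K : GC A} (hK : K.Sq0) {E : Type u}
    [AddCommGroup E] [Module A E] (n : ℤ) :
    Nonempty (HM ((K.map (algebraMap A S)).Bd (⊥ : Submodule S (S ⊗[A] E)) ⊤ n)
        ((K.map (algebraMap A S)).Zy (⊥ : Submodule S (S ⊗[A] E)) ⊤ n) ≃ₗ[S]
      S ⊗[A] HM (K.Bd (⊥ : Submodule A E) ⊤ n) (K.Zy (⊥ : Submodule A E) ⊤ n)) := by
  have _ := hK
  exact ring_bc K E n

end Vale.Agent.P177
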