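import Vale.Agent.P177.HB
import Vale.Agent.P177.Ring
import Vale.Agent.P202.Red
import Vale.Agent.P202.LC

/-! Cancellation, linear Artin-Rees and growth estimates. -/

namespace Vale.Agent.P177

open Vale.Agent.P202 IsLocalRing
open scoped ENNReal

universe u

variable {C : Type u} [CommRing C] {N : ℕ} {𝔞 : ℕ → Ideal C} {π : C} {c : ℕ}

theorem EE_succ_rr {r : ℕ} (hr : r ≤ N) {n : ℕ → ℤ} (hn : Ge 0 n) :
    EE N 𝔞 (n + ev r) = 𝔞 r * EE N 𝔞 n := by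
  rw [EE_add hn (ge_ev r), EE_ev hr, mul_comm]

theorem ge_add_ev_rr {n : ℕ → ℤ} (hn : Ge 0 n) (r : ℕ) : Ge 0 (n + ev r) := fun k => by
  have h1 := hn k
  have h2 := ge_ev r k
  simp only [Pi.add_apply]
  omega

theorem ge_sub_ev_rr {n : ℕ → ℤ} (hn : Ge 0 n) {r : ℕ} (hr : 1 ≤ n r) : Ge 0 (n - ev r) :=
  fun k => by
    have h1 := hn k
    by_cases h : k = r
    · subst h
      simp only [Pi.sub_apply, ev, Pi.single_eq_same]
      omega
    · simp only [Pi.sub_apply, ev, Pi.single_eq_of_ne h]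
      omega

theorem EE_congr_rr {n n' : ℕ → ℤ} (h : ∀ r ≤ N, n r = n' r) : EE N 𝔞 n = EE N 𝔞 n' :=
  EE_congr fun r hr => by rw [h r hr]

theorem exists_unif_rr {P : ℕ → ℕ → Prop} (hP : ∀ r k k', k ≤ k' → P r k → P r k')
    (h : ∀ r ≤ N, ∃ k, P r k) : ∃ k, ∀ r ≤ N, P r k := by
  have h' : ∀ r, ∃ k, r ≤ N → P r k := fun r => by
    by_cases hr : r ≤ N
    · obtain ⟨k, hk⟩ := h r hr
      exact ⟨k, fun _ => hk⟩
    · exact ⟨0, fun h => absurd h hr⟩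
  choose f hf using h'
  exact ⟨(Finset.range (N + 1)).sup f, fun r hr => hP r _ _
    (Finset.le_sup (f := f) (Finset.mem_range.2 (Nat.lt_succ_of_le hr))) (hf r hr)⟩

theorem canc_rr [IsNoetherianRing C] (P : Ideal C) {r : ℕ} (hr : r ≤ N) :
    ∃ n0 : ℕ, ∀ n, Ge n0 n → ∀ z ∈ EE N 𝔞 n, (∀ h ∈ 𝔞 r, h * z ∈ P * EE N 𝔞 (n + ev r)) →
      z ∈ P * EE N 𝔞 n := by
  let L : (ℕ → ℤ) → Ideal C := fun n =>
    EE N 𝔞 n ⊓ (P * EE N 𝔞 (n + ev r)).colon (𝔞 r : Set C)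
  have hL : ∀ n z, z ∈ L n ↔ z ∈ EE N 𝔞 n ∧ ∀ h ∈ 𝔞 r, h * z ∈ P * EE N 𝔞 (n + ev r) := by
    intro n z
    simp only [L, Ideal.mem_inf, Submodule.mem_colon, SetLike.mem_coe, smul_eq_mul, mul_comm z]
  obtain ⟨n1, hn1⟩ := hilbert_multi (N := N) (𝔞 := 𝔞) L
    (fun n n' h => by
      simp only [L]
      rw [EE_congr_rr h, EE_congr_rr (n := n + ev r) (n' := n' + ev r) fun k hk => by
        simp only [Pi.add_apply, h k hk]])
    (fun n _ => inf_le_left)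
    (fun r' hr' n hn => by
      rw [Ideal.mul_le]
      intro a ha z hz
      rw [hL] at hz ⊢
      refine ⟨by rw [EE_succ_rr hr' hn]; exact Ideal.mul_mem_mul ha hz.1, fun h hh => ?_⟩
      rw [add_right_comm, EE_succ_rr hr' (ge_add_ev_rr hn r), mul_left_comm h, mul_left_comm P]
      exact Ideal.mul_mem_mul ha (hz.2 h hh))
  refine ⟨n1 + 1, fun n hn z hz hz' => ?_⟩
  have h0 : Ge 0 n := fun k => by
    have := hn k
    omega
  have h1 := hn r
  have h2 := hn1 r hr (n - ev r) (ge_sub_ev_rr h0 (by omega)) (by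
    simp only [Pi.sub_apply, ev, Pi.single_eq_same]
    omega)
  rw [sub_add_cancel] at h2
  have h3 : 𝔞 r * L (n - ev r) ≤ P * EE N 𝔞 n := by
    rw [Ideal.mul_le]
    intro a ha y hy
    have h4 := ((hL _ _).1 hy).2 a ha
    rwa [sub_add_cancel] at h4
  exact h3 (h2 ((hL _ _).2 ⟨hz, hz'⟩))

theorem filt_EE [IsNoetherianRing C] (hπ : π ∈ nonZeroDivisors C) (hc : ∀ r ≤ N, π ^ c ∈ 𝔞 r) :
    ∃ n0, Filt N 𝔞 π 1 n0 (EE N 𝔞) := by
  obtain ⟨n0, hn0⟩ := exists_unif_rr (N := N) (P := fun r n0 => ∀ n, Ge n0 n → ∀ z ∈ EE N 𝔞 n,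
      (∀ h ∈ 𝔞 r, h * z ∈ Ideal.span {π ^ c} * EE N 𝔞 (n + ev r)) →
        z ∈ Ideal.span {π ^ c} * EE N 𝔞 n)
    (fun r k k' hk h n hn => h n fun i => le_trans (by exact_mod_cast hk) (hn i))
    (fun r hr => canc_rr _ hr)
  have hge : ∀ n, Ge n0 n → Ge 0 n := fun n hn k => by
    have := hn k
    omega
  refine ⟨n0, EE_cst_zero, fun _ _ h => h, fun r hr n hn => (EE_succ_rr hr hn).ge,
    fun r hr n hn x hx => ?_, fun r hr n hn k y hy => ?_⟩
  · rw [one_mul, ← EE_succ_rr hr (hge n hn)]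
    exact hx
  · rw [one_mul]
    obtain ⟨z, hz, hzy⟩ := Ideal.mem_span_singleton_mul.1 (hy _ (hc r hr))
    have hz' : z ∈ EE N 𝔞 n := by
      rw [EE_succ_rr hr (hge n hn)] at hz
      exact Ideal.mul_le_right hz
    have h1 := hn0 r hr n hn z hz' fun h hh => by
      obtain ⟨w, hw, hwy⟩ := Ideal.mem_span_singleton_mul.1 (hy h hh)
      refine Ideal.mem_span_singleton_mul.2 ⟨w, hw, ?_⟩
      refine (mul_cancel_left_mem_nonZeroDivisors (pow_mem hπ k)).1 ?_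
      linear_combination π ^ c * hwy - h * hzy
    obtain ⟨u, hu, huz⟩ := Ideal.mem_span_singleton_mul.1 h1
    refine Ideal.mem_span_singleton_mul.2 ⟨u, hu, ?_⟩
    refine (mul_cancel_left_mem_nonZeroDivisors (pow_mem hπ c)).1 ?_
    linear_combination π ^ k * huz + hzy

theorem ar_step_rr [IsNoetherianRing C] (𝔪 : Ideal C) {r : ℕ} (hr : r ≤ N) :
    ∃ k : ℕ, ∀ k', k ≤ k' → ∀ n, Ge 0 n → ∀ j : ℕ,
      𝔪 ^ (j + k') * EE N 𝔞 n ⊓ EE N 𝔞 (n + ev r) ≤ 𝔪 ^ j * EE N 𝔞 (n + ev r) := by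
  let 𝔟 : ℕ → Ideal C := fun i => if i ≤ N then 𝔞 i else 𝔪
  have hE : ∀ n, EE (N + 1) 𝔟 n = 𝔪 ^ (n (N + 1)).toNat * EE N 𝔞 n := by
    intro n
    rw [EE, Finset.prod_range_succ, mul_comm]
    congr 1
    · simp [𝔟]
    · refine Finset.prod_congr rfl fun i hi => ?_
      simp only [𝔟, if_pos (Nat.lt_succ_iff.1 (Finset.mem_range.1 hi))]
  have hev : ∀ n : ℕ → ℤ, ∀ i ≤ N, (n + ev (N + 1)) i = n i := fun n i hi => by
    simp only [Pi.add_apply, ev, Pi.single_eq_of_ne (by omega : i ≠ N + 1), add_zero]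
  let L : (ℕ → ℤ) → Ideal C := fun n => 𝔪 ^ (n (N + 1)).toNat * EE N 𝔞 n ⊓ EE N 𝔞 (n + ev r)
  obtain ⟨n1, hn1⟩ := hilbert_multi (N := N + 1) (𝔞 := 𝔟) L
    (fun n n' h => by
      simp only [L]
      rw [h _ le_rfl, EE_congr_rr fun i hi => h i (Nat.le_succ_of_le hi),
        EE_congr_rr (n := n + ev r) (n' := n' + ev r) fun k hk => by
          simp only [Pi.add_apply, h k (Nat.le_succ_of_le hk)]])
    (fun n _ => by rw [hE]; exact inf_le_left)
    (fun r' hr' n hn => by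
      simp only [L]
      by_cases h : r' ≤ N
      · have h1 : (n + ev r') (N + 1) = n (N + 1) := by
          simp only [Pi.add_apply, ev, Pi.single_eq_of_ne (by omega : N + 1 ≠ r'), add_zero]
        rw [h1, add_right_comm, EE_succ_rr h (ge_add_ev_rr hn r), EE_succ_rr h hn]
        simp only [𝔟, if_pos h]
        refine le_inf ?_ (Ideal.mul_mono_right inf_le_right)
        rw [mul_left_comm]
        exact Ideal.mul_mono_right inf_le_left
      · obtain rfl : r' = N + 1 := by omega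
        have h1 : ((n + ev (N + 1)) (N + 1)).toNat = (n (N + 1)).toNat + 1 := by
          have := hn (N + 1)
          simp only [Pi.add_apply, ev, Pi.single_eq_same]
          omega
        rw [h1, add_right_comm, EE_congr_rr (hev n), EE_congr_rr (hev (n + ev r))]
        simp only [𝔟, if_neg h]
        refine le_inf ?_ (Ideal.mul_le_right.trans inf_le_right)
        rw [pow_succ', mul_assoc]
        exact Ideal.mul_mono_right inf_le_left)
  refine ⟨n1, fun k' hk' n hn j => ?_⟩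
  have key : ∀ i : ℕ, n1 ≤ i → 𝔪 ^ (i + 1) * EE N 𝔞 n ⊓ EE N 𝔞 (n + ev r) ≤
      𝔪 * (𝔪 ^ i * EE N 𝔞 n ⊓ EE N 𝔞 (n + ev r)) := by
    intro i hi
    let n' : ℕ → ℤ := Function.update n (N + 1) i
    have h1 : ∀ k ≤ N, n' k = n k := fun k hk => Function.update_of_ne (by omega) _ _
    have h2 : n' (N + 1) = i := Function.update_self _ _ _
    have h3 : Ge 0 n' := fun k => by
      by_cases hk : k = N + 1
      · rw [hk, h2]
        omega
      · rw [show n' k = n k from Function.update_of_ne hk _ _]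
        exact hn k
    have h4 := hn1 (N + 1) le_rfl n' h3 (by rw [h2]; exact_mod_cast hi)
    have h5 : ((n' + ev (N + 1)) (N + 1)).toNat = i + 1 := by
      simp only [Pi.add_apply, ev, Pi.single_eq_same, h2]
      omega
    have h6 : EE N 𝔞 (n' + ev r) = EE N 𝔞 (n + ev r) :=
      EE_congr_rr fun k hk => by simp only [Pi.add_apply, h1 k hk]
    simp only [L, 𝔟, if_neg (Nat.not_succ_le_self N)] at h4
    rw [h5, add_right_comm, EE_congr_rr (hev n'), EE_congr_rr (hev (n' + ev r)), h2,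
      Int.toNat_natCast, EE_congr_rr h1, h6] at h4
    exact h4
  have key2 : ∀ j : ℕ, 𝔪 ^ (j + k') * EE N 𝔞 n ⊓ EE N 𝔞 (n + ev r) ≤
      𝔪 ^ j * (𝔪 ^ k' * EE N 𝔞 n ⊓ EE N 𝔞 (n + ev r)) := by
    intro j
    induction j with
    | zero => simp
    | succ j ih =>
      rw [add_right_comm]
      refine (key _ (by omega)).trans ?_
      rw [pow_succ', mul_assoc]
      exact Ideal.mul_mono_right ih
  exact (key2 j).trans (Ideal.mul_mono_right inf_le_right)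

theorem sz_succ_rr {r : ℕ} (hr : r ≤ N) {n : ℕ → ℤ} (hn : Ge 0 n) :
    sz N (n + ev r) = sz N n + 1 := by
  have h1 : ∀ i, ((n + ev r) i).toNat = (n i).toNat + if i = r then 1 else 0 := fun i => by
    have := hn i
    by_cases h : i = r
    · subst h
      simp only [Pi.add_apply, ev, Pi.single_eq_same, if_true]
      omega
    · simp only [Pi.add_apply, ev, Pi.single_eq_of_ne h, if_neg h, add_zero]
  simp only [sz, h1, Finset.sum_add_distrib]
  rw [Finset.sum_ite_eq' (Finset.range (N + 1)) r,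
    if_pos (Finset.mem_range.2 (Nat.lt_succ_of_le hr))]

theorem exists_LAR [IsNoetherianRing C] (hπ : π ∈ nonZeroDivisors C) (hc : ∀ r ≤ N, π ^ c ∈ 𝔞 r)
    (𝔪 : Ideal C) : ∃ c1, LAR N 𝔞 𝔪 c1 := by
  obtain ⟨k, hk⟩ := exists_unif_rr (N := N) (P := fun r k => ∀ k', k ≤ k' → ∀ n, Ge 0 n → ∀ j : ℕ,
      𝔪 ^ (j + k') * EE N 𝔞 n ⊓ EE N 𝔞 (n + ev r) ≤ 𝔪 ^ j * EE N 𝔞 (n + ev r))
    (fun r k k' hk h k'' hk'' => h k'' (hk.trans hk'')) (fun r hr => ar_step_rr 𝔪 hr)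
  have key : ∀ s : ℕ, ∀ n, Ge 0 n → sz N n = s → ∀ J : ℕ,
      EE N 𝔞 n ⊓ 𝔪 ^ (J + k * s) ≤ 𝔪 ^ J * EE N 𝔞 n := by
    intro s
    induction s with
    | zero =>
      intro n _ hs J
      have h1 : EE N 𝔞 n = ⊤ := by
        rw [← EE_cst_zero (N := N) (𝔞 := 𝔞)]
        refine EE_congr fun r hr => ?_
        rw [sz, Finset.sum_eq_zero_iff] at hs
        rw [hs r (Finset.mem_range.2 (Nat.lt_succ_of_le hr))]
        rfl
      rw [h1]
      simp
    | succ s ih =>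
      intro n hn hs J
      obtain ⟨r, hr, hr'⟩ := Finset.exists_ne_zero_of_sum_ne_zero
        (show sz N n ≠ 0 by omega)
      have hrN : r ≤ N := Nat.lt_succ_iff.1 (Finset.mem_range.1 hr)
      have h1 : Ge 0 (n - ev r) := ge_sub_ev_rr hn (by omega)
      have h2 := sz_succ_rr hrN h1
      rw [sub_add_cancel] at h2
      have h3 := ih (n - ev r) h1 (by omega) (J + k)
      have h4 := hk r hrN k le_rfl (n - ev r) h1 J
      rw [sub_add_cancel] at h4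
      refine le_trans (le_inf ?_ inf_le_left) h4
      refine le_trans (inf_le_inf ?_ (le_of_eq ?_)) h3
      · have h5 := EE_succ_rr (𝔞 := 𝔞) hrN h1
        rw [sub_add_cancel] at h5
        rw [h5]
        exact Ideal.mul_le_right
      · congr 1
        ring
  refine ⟨k, fun n J => ?_⟩
  have h1 : ∀ r, (max (n r) 0).toNat = (n r).toNat := fun r => by omega
  have h2 := key (sz N n) (fun r => max (n r) 0) (fun r => by simp)
    (Finset.sum_congr rfl fun r _ => h1 r) J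
  rwa [EE_congr (n' := n) fun r _ => h1 r] at h2

theorem LAR.aar {𝔪 : Ideal C} {c1 c2 : ℕ} (h : LAR N 𝔞 𝔪 c1) (h1 : c1 ≤ c2) (h2 : 1 ≤ c2) :
    AAR N 𝔞 𝔪 c2 (RingHom.id C) 1 (EE N 𝔞) := by
  intro n n' j hj x hx hx'
  rw [one_pow, one_mul]
  rw [Ideal.map_id] at hx'
  refine hj (h n j ⟨hx, Ideal.pow_le_pow_right ?_ hx'⟩)
  have h3 := Nat.mul_le_mul_right (sz N n) h1
  have h4 := Nat.mul_le_mul_right j h2
  nlinarith

theorem rr_add_q {μ : RLen C} {κ : C} (hκ : Null μ κ) {M' M I : Ideal C} (h : M' ≤ M) (j : ℕ)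
    (hj : ∀ x ∈ M, x ∈ I → κ ^ j * x ∈ M') : rr μ M' M + μ.q (M ⊔ I) = μ.q (M' ⊔ I) := by
  have h1 : rr μ (M' ⊔ I) ⊤ = rr μ (M' ⊔ I) (M ⊔ I) + rr μ (M ⊔ I) ⊤ :=
    rr_add μ (sup_le_sup_right h I) le_top
  have h2 : M ⊔ I = (M' ⊔ I) ⊔ M := by
    refine le_antisymm (sup_le le_sup_right (le_sup_of_le_left le_sup_right)) ?_
    exact sup_le (sup_le_sup_right h I) le_sup_left
  have h3 : rr μ (M' ⊔ I) (M ⊔ I) = rr μ ((M' ⊔ I) ⊓ M) M := by
    rw [h2, rr_sup, rr_inf]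
  have h4 : rr μ M' M = rr μ M' ((M' ⊔ I) ⊓ M) + rr μ ((M' ⊔ I) ⊓ M) M :=
    rr_add μ (le_inf le_sup_left h) inf_le_right
  have h5 : rr μ M' ((M' ⊔ I) ⊓ M) = 0 := by
    refine hκ.rr_eq_zero j fun x hx => ?_
    obtain ⟨a, ha, b, hb, rfl⟩ := Submodule.mem_sup.1 hx.1
    have hbM : b ∈ M := by simpa using M.sub_mem hx.2 (h ha)
    rw [smul_eq_mul, mul_add]
    exact M'.add_mem (M'.mul_mem_left _ ha) (hj b hbM hb)
  rw [RLen.q, RLen.q, ← rr_top, ← rr_top, h1, h3, h4, h5, zero_add]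

variable [IsLocalRing C] [IsNoetherianRing C]

theorem pow_growth {a : ℕ} (hd : ringKrullDim C ≤ a) {𝔪 : Ideal C} {t : ℕ}
    (ht : maximalIdeal C ^ t ≤ 𝔪) : ∃ K : ℕ, ∀ n : ℕ,
      (RLen.ofLen C).q (𝔪 ^ n) ≤ ((K * (n + 1) ^ a : ℕ) : ℝ≥0∞) := by
  obtain ⟨d0, h0⟩ := LC.exists_dim C
  have h1 : d0 ≤ a := by
    rw [h0] at hd
    exact_mod_cast hd
  obtain ⟨K, hK⟩ := length_pow_le_of_dim h0
  refine ⟨K * (t + 1) ^ a, fun n => ?_⟩
  have h2 : maximalIdeal C ^ (t * n) ≤ 𝔪 ^ n := by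
    rw [pow_mul]
    exact Ideal.pow_right_mono ht n
  refine ((RLen.ofLen C).q_anti h2).trans ?_
  have h3 : K * (t * n) ^ d0 ≤ K * (t + 1) ^ a * (n + 1) ^ a := by
    rw [mul_assoc, ← mul_pow]
    exact Nat.mul_le_mul_left _ ((Nat.pow_le_pow_left
      (Nat.mul_le_mul (Nat.le_succ t) (Nat.le_succ n)) _).trans
        (Nat.pow_le_pow_right (by positivity) h1))
  have h4 : Module.length C (C ⧸ maximalIdeal C ^ (t * n)) ≤
      ((K * (t + 1) ^ a * (n + 1) ^ a : ℕ) : ℕ∞) :=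
    (hK (t * n)).trans (by exact_mod_cast h3)
  exact (ENat.toENNReal_le.2 h4).trans (ENat.toENNReal_coe _).le

theorem quot_growth {a : ℕ} (hd : ringKrullDim C ≤ (a + 1 : ℕ)) {𝔪 : Ideal C} {t : ℕ}
    (ht : maximalIdeal C ^ t ≤ 𝔪) {x : C} (hx : x ∈ nonZeroDivisors C) : ∃ K : ℕ, ∀ n : ℕ,
      (RLen.ofLen C).q (Ideal.span {x} ⊔ 𝔪 ^ n) ≤ ((K * (n + 1) ^ a : ℕ) : ℝ≥0∞) := by
  by_cases h3 : Ideal.span {x} = ⊤
  · refine ⟨0, fun n => ?_⟩
    rw [h3, top_sup_eq, RLen.q_top]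
    exact zero_le
  have : Nontrivial (C ⧸ Ideal.span {x}) := Ideal.Quotient.nontrivial_iff.2 h3
  have : IsLocalRing (C ⧸ Ideal.span {x}) :=
    IsLocalRing.of_surjective' _ Ideal.Quotient.mk_surjective
  obtain ⟨d0, h0⟩ := LC.exists_dim (C ⧸ Ideal.span {x})
  have h1 := (ringKrullDim_quotient_succ_le_of_nonZeroDivisor hx).trans hd
  rw [h0] at h1
  have h2 : d0 + 1 ≤ a + 1 := by exact_mod_cast h1
  obtain ⟨K, hK⟩ := pow_growth (C := C ⧸ Ideal.span {x}) (a := a)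
    (by rw [h0]; exact_mod_cast (by omega : d0 ≤ a))
    (𝔪 := 𝔪.map (Ideal.Quotient.mk (Ideal.span {x}))) (t := t) (by
      rw [← map_maximalIdeal_of_surjective (Ideal.Quotient.mk (Ideal.span {x}))
        Ideal.Quotient.mk_surjective, ← Ideal.map_pow]
      exact Ideal.map_mono ht)
  refine ⟨K, fun n => ?_⟩
  have h4 := hK n
  rwa [← res_ofLen (Ideal.Quotient.mk (Ideal.span {x})) Ideal.Quotient.mk_surjective,
    RLen.res_q _ _ Ideal.Quotient.mk_surjective, ← Ideal.map_pow,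
    Ideal.comap_map_of_surjective _ Ideal.Quotient.mk_surjective, ← RingHom.ker_eq_comap_bot,
    Ideal.mk_ker, sup_comm] at h4

/-- The size of the right hand side of the flag formula. -/
theorem fl_bound {a : ℕ} (hd : ringKrullDim C ≤ a) {K : GC C} {n : ℕ} {e : Fin n → ℕ}
    {b : Matrix K.ι (Fin n ⊕ Fin n) C} {b' : Matrix (Fin n ⊕ Fin n) K.ι C}
    (hS : Setup K π e b b' c 𝔞) (hπ : π ∈ nonZeroDivisors C) {t : ℕ}
    (ht : maximalIdeal C ^ t ≤ K.nh) (n0 : ℕ) : ∃ D : ℝ, ∀ l : ℕ, 1 ≤ l →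
      |fl (RLen.ofLen C) (EE (2 * n) 𝔞) e l (n0 + l)| ≤ D * (l : ℝ) ^ a := by
  obtain ⟨c1, hc1⟩ := exists_LAR (N := 2 * n) hπ (fun r hr => hS.pow_mem hr) K.nh
  obtain ⟨K0, hK0⟩ := pow_growth hd ht
  refine ⟨n * (K0 * (c1 * ((2 * n + 1) * (n0 + 2)) + 2) ^ a : ℕ), fun l hl => ?_⟩
  have key : ∀ k : Fin n, (rr (RLen.ofLen C)
      (EE (2 * n) 𝔞 (cst (n0 + l : ℕ) + (l : ℤ) • dl (2 * k + 1)))
      (EE (2 * n) 𝔞 (cst (n0 + l : ℕ) + (l : ℤ) • dl (2 * k)))).toReal ≤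
        (K0 * (c1 * ((2 * n + 1) * (n0 + 2)) + 2) ^ a * l ^ a : ℕ) := by
    intro k
    set m : ℕ → ℤ := cst (n0 + l : ℕ) + (l : ℤ) • dl (2 * k) with hm
    have h1 := hS.EE_u2 hπ k (j := l) (m := cst (n0 + l : ℕ)) fun r => by
      simp only [cst]
      omega
    have h2 := (hc1 m l).trans h1
    have h3 : sz (2 * n) m ≤ (2 * n + 1) * (n0 + 2 * l) := sz_le fun r => by
      have h4 := (dl_bounds (2 * k) r).2
      have h5 : (l : ℤ) * dl (2 * k) r ≤ l := by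
        have := mul_le_mul_of_nonneg_left h4 (Int.natCast_nonneg l)
        omega
      simp only [hm, Pi.add_apply, cst, Pi.smul_apply, smul_eq_mul]
      omega
    have h6 : rr (RLen.ofLen C) (EE (2 * n) 𝔞 (cst (n0 + l : ℕ) + (l : ℤ) • dl (2 * k + 1)))
        (EE (2 * n) 𝔞 m) ≤ (RLen.ofLen C).q (K.nh ^ (l + c1 * sz (2 * n) m)) := by
      refine (rr_anti_left _ h2 _).trans ?_
      rw [inf_comm, rr_inf, RLen.q, ← rr_top]
      exact rr_mono _ le_rfl le_top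
    have h7 : l + c1 * sz (2 * n) m + 1 ≤ (c1 * ((2 * n + 1) * (n0 + 2)) + 2) * l := by
      have h8 : n0 + 2 * l ≤ (n0 + 2) * l := by nlinarith
      have h9 := Nat.mul_le_mul_left c1 (h3.trans (Nat.mul_le_mul_left _ h8))
      have h10 : (c1 * ((2 * n + 1) * (n0 + 2)) + 2) * l =
          c1 * ((2 * n + 1) * ((n0 + 2) * l)) + 2 * l := by ring
      omega
    have h11 : K0 * (l + c1 * sz (2 * n) m + 1) ^ a ≤
        K0 * (c1 * ((2 * n + 1) * (n0 + 2)) + 2) ^ a * l ^ a := by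
      rw [mul_assoc, ← mul_pow]
      exact Nat.mul_le_mul_left _ (Nat.pow_le_pow_left h7 a)
    have h12 := h6.trans ((hK0 _).trans (Nat.cast_le.2 h11))
    exact ENNReal.toReal_le_of_le_ofReal (Nat.cast_nonneg _)
      (h12.trans (ENNReal.ofReal_natCast _).ge)
  refine (Finset.abs_sum_le_sum_abs _ _).trans ?_
  refine (Finset.sum_le_card_nsmul _ _
    ((K0 * (c1 * ((2 * n + 1) * (n0 + 2)) + 2) ^ a * l ^ a : ℕ) : ℝ) fun k _ => ?_).trans ?_
  · rw [abs_mul, abs_pow, abs_neg, abs_one, one_pow, one_mul, abs_of_nonneg ENNReal.toReal_nonneg]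
    exact key k
  · rw [Finset.card_univ, Fintype.card_fin, nsmul_eq_mul, Nat.cast_mul, Nat.cast_pow, mul_assoc]

end Vale.Agent.P177
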