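import Vale.Agent.P177.DD
import Vale.Agent.P177.RR
import Vale.Agent.P177.PSRes
import Vale.Agent.P177.Cone

/-! Comparison of colengths. -/

namespace Vale.Agent.P177

open Vale.Agent.P202 IsLocalRing Polynomial TensorProduct
open scoped ENNReal

universe u

section general

variable {S : Type u} [CommRing S] {μ : RLen S} {κ : S} {E E' : Type u} [AddCommGroup E]
  [Module S E] [AddCommGroup E'] [Module S E']

theorem h0_cmp (hκ : Null μ κ) (g : E →ₗ[S] E') {W : Submodule S E} {W' : Submodule S E'}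
    (hW : W ≤ W'.comap g) (hE : rr μ W ⊤ ≠ ⊤) {η : S} {n : ℕ}
    (hk : ∀ x, g x ∈ W' → (η * κ ^ n) • x ∈ W) :
    rr μ W ⊤ ≤ rr μ W' ⊤ + ck μ η W ⊤ ∧
      rr μ W' ⊤ ≤ rr μ W ⊤ + rr μ (W' ⊔ LinearMap.range g) ⊤ := by
  have h1 := rr_add μ hW (le_top : _ ≤ ⊤)
  have h2 : rr μ (W'.comap g) ⊤ = rr μ W' (LinearMap.range g) := by
    rw [rr_map, Submodule.map_top]
  have h3 : rr μ W (W'.comap g) ≤ kr μ (η * κ ^ n) W ⊤ :=
    rr_mono μ le_rfl fun x hx => ⟨trivial, hk x hx⟩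
  have h4 : ck μ (κ ^ n) W ⊤ = 0 :=
    hκ.rr_eq_zero n fun x _ => Submodule.mem_sup_right ⟨x, trivial, rfl⟩
  have h5 := ck_mul_le μ η (κ ^ n) W ⊤
  rw [h4, add_zero, ck_eq_kr μ _ le_top hE] at h5
  refine ⟨?_, ?_⟩
  · rw [h1, add_comm, h2]
    exact add_le_add (rr_mono μ le_rfl le_top) (h3.trans h5)
  · rw [rr_add μ (le_sup_left : W' ≤ W' ⊔ LinearMap.range g) le_top, rr_sup, ← h2]
    exact add_le_add (rr_anti_left μ hW ⊤) le_rfl

theorem h0_bot_top : rr μ (⊥ : Submodule S E) ⊤ = μ.len E := by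
  rw [rr_bot]
  exact μ.equiv Submodule.topEquiv

theorem h0_q_almost {A0 S' : Type u} [CommRing A0] [CommRing S'] {ν : RLen A0} {k : A0}
    (hκ : Null ν k) (f : A0 →+* S) (g : S →+* S') {J : Ideal S} {J' : Ideal S'} (c : ℕ)
    (h0 : ∀ x ∈ J, g x ∈ J') (h1 : ∀ y, ∃ x, g (f k) ^ c * y - g x ∈ J')
    (h2 : ∀ x, g x ∈ J' → f k ^ c * x ∈ J) : (ν.res f).q J = (ν.res (g.comp f)).q J' := by
  have h := hG_almost hκ (K := GC.one A0) (mul_zero _) f g c h0 h1 h2 0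
  rw [GC.map_disc, GC.map_disc, hG_one _ le_top, hG_one _ le_top, if_pos rfl, if_pos rfl, rr_top,
    rr_top] at h
  exact h

theorem h0_real {x y a b : ℝ≥0∞} {k k' : ℕ} (hx : x ≠ ⊤) (h1 : x ≤ y + a) (h2 : y ≤ x + b)
    (ha : a ≤ k) (hb : b ≤ k') : y ≠ ⊤ ∧ |y.toReal - x.toReal| ≤ k + k' := by
  have e1 : x ≤ y + k := h1.trans (add_le_add le_rfl ha)
  have e2 : y ≤ x + k' := h2.trans (add_le_add le_rfl hb)
  have f2 : x + k' ≠ ⊤ := ENNReal.add_ne_top.2 ⟨hx, ENNReal.natCast_ne_top _⟩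
  have hy : y ≠ ⊤ := ne_top_of_le_ne_top f2 e2
  have f1 : y + k ≠ ⊤ := ENNReal.add_ne_top.2 ⟨hy, ENNReal.natCast_ne_top _⟩
  have g1 := ENNReal.toReal_mono f1 e1
  have g2 := ENNReal.toReal_mono f2 e2
  rw [ENNReal.toReal_add hy (ENNReal.natCast_ne_top _), ENNReal.toReal_natCast] at g1
  rw [ENNReal.toReal_add hx (ENNReal.natCast_ne_top _), ENNReal.toReal_natCast] at g2
  have p1 : (0 : ℝ) ≤ k := Nat.cast_nonneg _
  have p2 : (0 : ℝ) ≤ k' := Nat.cast_nonneg _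
  exact ⟨hy, abs_le.2 ⟨by linarith, by linarith⟩⟩

/-- A map whose kernel is killed by `η κ ^ n` and whose cokernel is small. -/
theorem len_compare (hκ : Null μ κ) (f : E →ₗ[S] E') (hE : μ.len E ≠ ⊤) {η : S} {n : ℕ}
    (hk : ∀ x, f x = 0 → (η * κ ^ n) • x = 0) :
    μ.len E ≤ μ.len E' + ck μ η (⊥ : Submodule S E) ⊤ ∧
      μ.len E' ≤ μ.len E + rr μ (LinearMap.range f) ⊤ := by
  have h := h0_cmp hκ f (W := ⊥) (W' := ⊥) bot_le (by rwa [h0_bot_top]) (η := η) (n := n) hk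
  rwa [h0_bot_top, h0_bot_top, bot_sup_eq] at h

end general

variable {A C : Type u} [CommRing A] [IsLocalRing A] [IsNoetherianRing A] [CommRing C]
  [IsLocalRing C] [IsNoetherianRing C] [IsDomain C] [Algebra A C] {p a : ℕ} {Xv : Fin a → A}
  {θ : C} {F : A[X]} {Δ Γ : A} {N n0 c0 c2 s : ℕ} {𝔞 : ℕ → Ideal C}
  {O : Obj A C F.natDegree s}

omit [IsLocalRing C] [IsNoetherianRing C] [IsDomain C] [IsNoetherianRing A] in
theorem Obj.Ok.q_U {ε : ℝ≥0∞} (h : O.Ok p θ F N 𝔞 n0 c2 ε) (hp : (p : A) ∈ maximalIdeal A) :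
    (O.μ.res O.β0).q ((maximalIdeal A).map (O.β0.comp O.α0)) = 1 := by
  have e : O.I0.map O.β0 = (maximalIdeal A).map (O.β0.comp O.α0) := by
    rw [Obj.I0, Ideal.map_sup, Ideal.map_map, Ideal.map_span, Set.image_singleton, h.t0U,
      sup_eq_left, Ideal.span_singleton_le_iff_mem]
    have := Ideal.mem_map_of_mem (O.β0.comp O.α0) hp
    rwa [map_natCast] at this
  have h1 := q_ring O.μ (RingHom.id _) O.β0 (J := O.I0) (J' := O.I0.map O.β0) h.n1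
    fun x => ⟨h.n2 x, Ideal.mem_map_of_mem _⟩
  rw [res_id, h.one, RingHom.comp_id, e] at h1
  exact h1.symm

omit [IsLocalRing C] [IsNoetherianRing C] [IsDomain C] [IsNoetherianRing A] in
theorem h0_len_U {ε : ℝ≥0∞} (h : O.Ok p θ F N 𝔞 n0 c2 ε) (hp : (p : A) ∈ maximalIdeal A)
    [Algebra A O.U] (hα : algebraMap A O.U = O.β0.comp O.α0) (M : Type u) [AddCommGroup M]
    [Module A M] (hM : Module.length A M ≠ ⊤) :
    (O.μ.res O.β0).len (O.U ⊗[A] M) = (RLen.ofLen A).len M := by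
  have : Module.Flat A O.U := RingHom.flat_algebraMap_iff.1 (hα ▸ h.cov.flat)
  have h1 := len_of_finite_length ((O.μ.res O.β0).bc : RLen A) M hM
  rw [RLen.bc_q, hα, h.q_U hp, mul_one] at h1
  exact h1

omit [IsLocalRing C] [IsNoetherianRing C] [IsDomain C] [IsNoetherianRing A] in
/-- Extended ideals have the same colength in `A` and in `B`. -/
theorem Obj.Ok.q_B (h : O.Ok p θ F N 𝔞 n0 c2 0) (hκ : Null O.μ O.κ0)
    (hp : (p : A) ∈ maximalIdeal A) {I : Ideal A} (hI : Module.length A (A ⧸ I) ≠ ⊤) :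
    (O.μ.res O.toB).q (I.map (O.toB.comp O.α0)) = (RLen.ofLen A).q I := by
  let _ : Algebra A O.U := (O.β0.comp O.α0).toAlgebra
  have hc : Cov p θ F (algebraMap A O.U) O.j (O.β0 O.κ0) O.τ := h.cov
  obtain ⟨t, ht⟩ := LC.exists_pow_le hI
  have hpt : (p : A) ^ t ∈ I := ht (Ideal.pow_mem_pow hp t)
  have h1 := h0_q_almost hκ O.β0 O.j (J := I.map (algebraMap A O.U))
    (J' := I.map (O.j.comp (algebraMap A O.U))) (2 * t)
    (fun x hx => by
      rw [← Ideal.map_map]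
      exact Ideal.mem_map_of_mem _ hx)
    (fun y => by
      obtain ⟨u, hu⟩ := hc.r1_pow t (O.j (O.β0 O.κ0) ^ t * y)
      refine ⟨u, ?_⟩
      rw [two_mul, pow_add, mul_assoc]
      refine (Ideal.span_singleton_le_iff_mem _).2 ?_ hu
      have := Ideal.mem_map_of_mem (O.j.comp (algebraMap A O.U)) hpt
      rwa [map_pow, map_natCast] at this)
    (fun x hx => hc.r2_map hpt x hx)
  have h2 := h0_len_U h hp rfl (A ⧸ I) hI
  exact h1.symm.trans (((O.μ.res O.β0).equiv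
    (Algebra.TensorProduct.quotIdealMapEquivTensorQuot O.U I).toLinearEquiv).trans h2)

omit [IsDomain C] in
theorem Obj.Ok.len_D {ε : ℝ≥0∞} (h : O.Ok p θ F N 𝔞 n0 c2 ε) (hD : Dat p Xv θ F Δ Γ)
    [Algebra A O.U] (hα : algebraMap A O.U = O.β0.comp O.α0) {𝔟 : Ideal C} {t : ℕ}
    (h𝔟 : maximalIdeal C ^ t ≤ 𝔟) :
    ((O.μ.res O.β0).res (algebraMap O.U (O.U ⊗[A] C))).q
      (𝔟.map (Algebra.TensorProduct.includeRight : C →ₐ[A] O.U ⊗[A] C)) =
      (RLen.ofLen C).q 𝔟 := by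
  have hp : (p : A) ∈ maximalIdeal A := hD.max ▸ Ideal.subset_span (Set.mem_insert _ _)
  have := hD.loc
  have h1 : (RLen.ofLen A).len (C ⧸ 𝔟) = (RLen.ofLen C).q 𝔟 := by
    rw [← res_ofLen_of_residue (algebraMap A C) hD.res]
    exact ((RLen.ofLen A).res_len (C ⧸ 𝔟)).symm
  have h2 : (RLen.ofLen C).q 𝔟 ≠ ⊤ := by
    rw [RLen.q, ← rr_top]
    exact rr_ofLen_ne_top (t := t) fun z hz x _ => 𝔟.mul_mem_right x (h𝔟 hz)
  have h3 : Module.length A (C ⧸ 𝔟) ≠ ⊤ := fun h0 => h2 (by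
    rw [← h1]
    change ((Module.length A (C ⧸ 𝔟) : ℕ∞) : ℝ≥0∞) = ⊤
    rw [h0, ENat.toENNReal_top])
  rw [← h1, ← h0_len_U h hp hα _ h3]
  exact ((O.μ.res O.β0).res_len _).trans ((O.μ.res O.β0).equiv
    (Algebra.TensorProduct.tensorQuotientEquiv (R := A) O.U C O.U 𝔟).toLinearEquiv).symm

omit [IsLocalRing C] [IsNoetherianRing C] [IsDomain C] [IsNoetherianRing A] in
theorem h0_tau {ε : ℝ≥0∞} (h : O.Ok p θ F N 𝔞 n0 c2 ε) (I : Ideal A) (i : Fin F.natDegree) :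
    (I.map (algebraMap A C)).map (O.τ i) = I.map (O.toB.comp O.α0) := by
  rw [Ideal.map_map]
  congr 1
  ext x
  exact h.cov.tau i x

omit [IsLocalRing C] [IsNoetherianRing C] [IsDomain C] [IsNoetherianRing A] in
theorem h0_gen {ε : ℝ≥0∞} (h : O.Ok p θ F N 𝔞 n0 c2 ε) (hc : ∀ r ≤ N, (p : C) ^ c0 ∈ 𝔞 r)
    {n : ℕ → ℤ} (hn : Ge n0 n) (i : Fin F.natDegree) {x : O.B} (hx : x ∈ O.M i n) :
    (p : O.B) ^ (c0 * sz N (cst n0)) * O.toB O.κ0 ^ sz N (n - cst n0) * x ∈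
      (EE N 𝔞 n).map (O.τ i) := by
  have g1 : Ge n0 (cst n0) := fun r => le_rfl
  have g2 : Ge 0 (n - cst n0) := fun r => by
    have := hn r
    simp only [Pi.sub_apply, cst]
    omega
  have g3 : Ge 0 (cst n0) := fun r => by
    simp only [cst]
    omega
  have e : cst n0 + (n - cst n0) = n := add_sub_cancel _ _
  have h1 := (h.filt i).gen_EE g1 g2 (x := x) (by rwa [e])
  have h2 := Ideal.mem_map_of_mem (O.τ i) (pow_mem_EE hc (cst n0))
  rw [map_pow, map_natCast] at h2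
  have h3 := Ideal.mul_mem_mul h2 (Ideal.mul_le_inf h1).1
  rw [EE_map, ← Ideal.map_mul, ← EE_add g3 g2, e] at h3
  rwa [mul_assoc]

theorem h0_bound (hD : Dat p Xv θ F Δ Γ) (h : O.Ok p θ F N 𝔞 n0 c2 0) (hκ : Null O.μ O.κ0)
    (hc : ∀ r ≤ N, (p : C) ^ c0 ∈ 𝔞 r) : ∃ K0 : ℝ, ∀ (n : ℕ → ℤ) (J : ℕ), Ge n0 n →
      (∀ i, (O.μ.res O.toB).q
        (O.M i n ⊔ ((maximalIdeal A).map (algebraMap A C) ^ J).map (O.τ i)) ≠ ⊤) ∧
      (RLen.ofLen C).q (EE N 𝔞 n ⊔ (maximalIdeal A).map (algebraMap A C) ^ J) ≠ ⊤ ∧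
      |∑ i, ((O.μ.res O.toB).q
          (O.M i n ⊔ ((maximalIdeal A).map (algebraMap A C) ^ J).map (O.τ i))).toReal -
        ((RLen.ofLen C).q (EE N 𝔞 n ⊔ (maximalIdeal A).map (algebraMap A C) ^ J)).toReal| ≤
        K0 * ((J : ℝ) + 1) ^ a := by
  let _ : Algebra A O.U := (O.β0.comp O.α0).toAlgebra
  let _ : Algebra O.U O.B := O.j.toAlgebra
  have hcov : Cov p θ F (algebraMap A O.U) O.j (O.β0 O.κ0) O.τ := h.cov
  have hp : (p : A) ∈ maximalIdeal A := hD.max ▸ Ideal.subset_span (Set.mem_insert _ _)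
  have := hD.loc
  have := hD.fin
  have : IsDomain A := hD.inj.isDomain _
  have hp0 : (p : A) ≠ 0 := fun h0 => by
    have h1 := hD.reg ∅ none (Set.notMem_empty _) 1 (by simp [h0])
    simp at h1
  obtain ⟨Φ, hΦ⟩ := hcov.exists_phi
  obtain ⟨t, ht⟩ := exists_pow_le_map (A := A) (C' := C)
  have dA : ringKrullDim A ≤ (a + 1 : ℕ) := by simpa using hD.dimA
  have dC : ringKrullDim C ≤ (a + 1 : ℕ) := by simpa using hD.dimC.le
  let η0 : A := (Δ * Γ) ^ 2 * (p : A) ^ (c0 * sz N (cst n0))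
  have hη0 : algebraMap A C η0 ∈ nonZeroDivisors C := by
    refine mem_nonZeroDivisors_of_ne_zero fun h0 => ?_
    exact mul_ne_zero (pow_ne_zero _ (mul_ne_zero hD.ne1 hD.ne2)) (pow_ne_zero _ hp0)
      (hD.inj (h0.trans (map_zero _).symm))
  obtain ⟨K1, hK1⟩ := quot_growth dC ht hη0
  obtain ⟨K2, hK2⟩ := quot_growth dA (t := 1) (pow_one _).le
    (mem_nonZeroDivisors_of_ne_zero hD.ne2)
  refine ⟨K1 + F.natDegree * K2, fun n J hn => ?_⟩
  set 𝔪 := (maximalIdeal A).map (algebraMap A C) with h𝔪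
  have hpJ : (p : C) ^ J ∈ 𝔪 ^ J := by
    refine Ideal.pow_mem_pow ?_ J
    have := Ideal.mem_map_of_mem (algebraMap A C) hp
    rwa [map_natCast] at this
  have htJ : maximalIdeal C ^ (t * J) ≤ 𝔪 ^ J := by
    rw [pow_mul]
    exact Ideal.pow_right_mono ht J
  have hκU := hκ.res O.β0
  have hsm : ∀ i (u : O.U) d, Φ i (u • d) = O.j u * Φ i d := fun i u d => by
    rw [Algebra.smul_def, map_mul, Algebra.TensorProduct.algebraMap_apply, hΦ, map_one, mul_one]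
    rfl
  let g : O.U ⊗[A] C →ₗ[O.U] (Fin F.natDegree → O.B) :=
    { toFun := fun d i => Φ i d
      map_add' := fun x y => funext fun i => map_add _ _ _
      map_smul' := fun u d => funext fun i => hsm i u d }
  let ρ : C →ₐ[A] O.U ⊗[A] C := Algebra.TensorProduct.includeRight
  have hρ : ∀ i (I : Ideal C), ∀ d ∈ I.map ρ, Φ i d ∈ I.map (O.τ i) := fun i I d hd => by
    have h1 := Ideal.mem_map_of_mem (Φ i) hd
    have e : (Φ i).comp (ρ : C →+* O.U ⊗[A] C) = O.τ i := RingHom.ext fun c => by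
      change Φ i (1 ⊗ₜ c) = _
      rw [hΦ, map_one, one_mul]
    rw [← e, ← Ideal.map_map]
    exact h1
  let 𝔮 : Fin F.natDegree → Ideal O.B := fun i => O.M i n ⊔ (𝔪 ^ J).map (O.τ i)
  let W : Submodule O.U (O.U ⊗[A] C) := ((EE N 𝔞 n ⊔ 𝔪 ^ J).map ρ).restrictScalars O.U
  let W' : Submodule O.U (Fin F.natDegree → O.B) :=
    Submodule.pi Set.univ fun i => (𝔮 i).restrictScalars O.U
  have hlen : ∀ 𝔟 : Ideal C, 𝔪 ^ J ≤ 𝔟 →
      rr (O.μ.res O.β0) ((𝔟.map ρ).restrictScalars O.U) ⊤ = (RLen.ofLen C).q 𝔟 := fun 𝔟 h𝔟 => by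
    rw [← h.len_D hD rfl (htJ.trans h𝔟), RLen.q, ← rr_top]
    exact (rr_res _ (𝔟.map ρ) ⊤).symm
  have hpi : ∀ X : Fin F.natDegree → Ideal O.B, rr (O.μ.res O.β0)
      (Submodule.pi Set.univ fun i => (X i).restrictScalars O.U) ⊤ =
      ∑ i, (O.μ.res O.toB).q (X i) := fun X => by
    rw [← Submodule.pi_top Set.univ, rr_pi]
    refine Finset.sum_congr rfl fun i _ => ?_
    rw [← res_res, RLen.q, ← rr_top]
    exact (rr_res _ (X i) ⊤).symm
  have hfin : (RLen.ofLen C).q (EE N 𝔞 n ⊔ 𝔪 ^ J) ≠ ⊤ := by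
    rw [RLen.q, ← rr_top]
    exact rr_ofLen_ne_top (t := t * J) fun z hz x _ =>
      Ideal.mul_mem_right x _ (Ideal.mem_sup_right (htJ hz))
  have hW : W ≤ W'.comap g := fun d hd i _ => by
    have h1 := hρ i _ d hd
    rw [Ideal.map_sup, ← EE_map] at h1
    exact sup_le_sup_right ((h.filt i).EE_le n) _ h1
  have hk : ∀ d, g d ∈ W' →
      (algebraMap A O.U η0 * O.β0 O.κ0 ^ (2 * J + sz N (n - cst n0))) • d ∈ W := fun d hd => by
    have h1 := hcov.pullback hΦ hD.monic hD.root hD.den hD.gam (𝔟 := EE N 𝔞 n ⊔ 𝔪 ^ J)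
      (Ideal.mem_sup_right hpJ)
      (d := ((p : O.U) ^ (c0 * sz N (cst n0)) * O.β0 O.κ0 ^ sz N (n - cst n0)) • d) fun i => by
        obtain ⟨x, hx, y, hy, e⟩ := Submodule.mem_sup.1 (hd i trivial)
        have e' : Φ i d = x + y := e.symm
        rw [hsm, e', mul_add, Ideal.map_sup, map_mul, map_pow, map_pow, map_natCast]
        exact Submodule.add_mem_sup (h0_gen h hc hn i hx) (Ideal.mul_mem_left _ _ hy)
    have e : ∀ (u : O.U) (x : O.U ⊗[A] C), u ⊗ₜ (1 : C) * x = u • x := fun u x => by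
      rw [Algebra.smul_def]
      rfl
    rw [e, smul_smul] at h1
    have e2 : algebraMap A O.U η0 * O.β0 O.κ0 ^ (2 * J + sz N (n - cst n0)) =
        algebraMap A O.U ((Δ * Γ) ^ 2) * O.β0 O.κ0 ^ (2 * J) *
          ((p : O.U) ^ (c0 * sz N (cst n0)) * O.β0 O.κ0 ^ sz N (n - cst n0)) := by
      simp only [η0, map_mul, map_pow, map_natCast]
      ring
    rw [e2]
    exact h1
  obtain ⟨c1, c2⟩ := h0_cmp hκU g hW (by rwa [hlen _ le_sup_right]) hk
  have b1 : ck (O.μ.res O.β0) (algebraMap A O.U η0) W ⊤ ≤ ((K1 * (J + 1) ^ a : ℕ) : ℝ≥0∞) := by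
    refine le_trans ?_ (hK1 J)
    rw [← hlen _ le_sup_right]
    refine rr_anti_left _ (fun x hx => ?_) ⊤
    have hx' : x ∈ (Ideal.span {algebraMap A C η0} ⊔ 𝔪 ^ J).map ρ := hx
    rw [Ideal.map_sup, Ideal.map_span, Set.image_singleton] at hx'
    obtain ⟨y, hy, z, hz, rfl⟩ := Submodule.mem_sup.1 hx'
    obtain ⟨w, rfl⟩ := Ideal.mem_span_singleton'.1 hy
    rw [add_comm]
    refine Submodule.add_mem_sup (Ideal.map_mono le_sup_right hz) ⟨w, trivial, ?_⟩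
    rw [LinearMap.lsmul_apply, algebraMap_smul, AlgHom.commutes, mul_comm, Algebra.smul_def]
  have b2 : rr (O.μ.res O.β0) (W' ⊔ LinearMap.range g) ⊤ ≤
      ((F.natDegree * (K2 * (J + 1) ^ a) : ℕ) : ℝ≥0∞) := by
    let I : Ideal A := Ideal.span {Γ} ⊔ maximalIdeal A ^ J
    have hI : Module.length A (A ⧸ I) ≠ ⊤ := fun h0 => by
      have h1 := hK2 J
      change ((Module.length A (A ⧸ I) : ℕ∞) : ℝ≥0∞) ≤ _ at h1
      rw [h0, ENat.toENNReal_top] at h1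
      exact ENNReal.natCast_ne_top _ (top_le_iff.1 h1)
    refine (rr_triangle _ _ (Submodule.pi Set.univ fun _ =>
      (I.map (O.toB.comp O.α0)).restrictScalars O.U) _).trans ?_
    rw [hκU.rr_eq_zero J, zero_add, hpi, h.q_B hκ hp hI, Finset.sum_const, Finset.card_univ,
      Fintype.card_fin, nsmul_eq_mul, Nat.cast_mul]
    · exact mul_le_mul' le_rfl (hK2 J)
    intro x hx
    have h1 : ∀ i, ∃ b, x i - b * O.j (algebraMap A O.U Γ) ∈ 𝔮 i := fun i => by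
      have hx' : x i ∈ I.map (O.toB.comp O.α0) := hx i trivial
      rw [Ideal.map_sup, Ideal.map_span, Set.image_singleton, ← h0_tau h _ i,
        Ideal.map_pow (algebraMap A C)] at hx'
      obtain ⟨y, hy, z, hz, e⟩ := Submodule.mem_sup.1 hx'
      obtain ⟨w, rfl⟩ := Ideal.mem_span_singleton'.1 hy
      refine ⟨w, ?_⟩
      rw [← e]
      refine Ideal.mem_sup_right ?_
      change w * O.j (algebraMap A O.U Γ) + z - w * O.j (algebraMap A O.U Γ) ∈ _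
      rwa [add_sub_cancel_left]
    choose b hb using h1
    obtain ⟨d, hd⟩ := hcov.phi_surj hΦ hD.gam J b
    refine Submodule.mem_sup.2 ⟨O.β0 O.κ0 ^ J • x - g d, fun i _ => ?_, g d, ⟨d, rfl⟩,
      sub_add_cancel _ _⟩
    have h2 : O.j (algebraMap A O.U Γ * O.β0 O.κ0 ^ J) * b i - Φ i d ∈ 𝔮 i := by
      refine (Ideal.span_singleton_le_iff_mem _).2 (Ideal.mem_sup_right ?_) (hd i)
      have := Ideal.mem_map_of_mem (O.τ i) hpJ
      rwa [map_pow, map_natCast] at this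
    have h3 := (𝔮 i).add_mem ((𝔮 i).mul_mem_left (O.j (O.β0 O.κ0 ^ J)) (hb i)) h2
    change O.j (O.β0 O.κ0 ^ J) * x i - Φ i d ∈ 𝔮 i
    rw [map_mul] at h3
    have e : O.j (O.β0 O.κ0 ^ J) * x i - Φ i d =
        O.j (O.β0 O.κ0 ^ J) * (x i - b i * O.j (algebraMap A O.U Γ)) +
          (O.j (algebraMap A O.U Γ) * O.j (O.β0 O.κ0 ^ J) * b i - Φ i d) := by ring
    rwa [e]
  rw [hlen _ le_sup_right, hpi] at c1 c2
  obtain ⟨r1, r2⟩ := h0_real hfin c1 c2 b1 b2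
  have r3 : ∀ i, (O.μ.res O.toB).q (𝔮 i) ≠ ⊤ := fun i =>
    ENNReal.sum_ne_top.1 r1 i (Finset.mem_univ i)
  refine ⟨r3, hfin, ?_⟩
  rw [ENNReal.toReal_sum fun i _ => r3 i] at r2
  refine r2.trans (le_of_eq ?_)
  push_cast
  ring

end Vale.Agent.P177
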