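import Vale.Agent.P177.KP1

/-! Positivity of the Koszul Euler characteristic over a flat algebra. -/

namespace Vale.Agent.P177

open Vale.Agent.P202 IsLocalRing
open scoped ENNReal

universe u

variable {R T : Type u} [CommRing R] [IsLocalRing R] [IsNoetherianRing R] [CommRing T]
  [Algebra R T] [Module.Flat R T] {μ : RLen T} {y w : List T}

theorem lim_kp {a D : ℝ} (h : ∀ k : ℕ, 1 ≤ k → (k : ℝ) * a ≤ D) : a ≤ 0 := by
  by_contra ha
  rw [not_le] at ha
  obtain ⟨k, hk⟩ := exists_nat_gt (D / a)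
  have := h (k + 1) (by omega)
  rw [div_lt_iff₀ ha] at hk
  push_cast at this
  nlinarith

theorem pows_kp {B : Type u} [CommRing B] (y u : List B) (J : Ideal B)
    (hu : ∀ x ∈ u, ∃ c : ℕ, x ^ c ∈ Ideal.span {v | v ∈ y} ⊔ J) : ∃ c : ℕ, 1 ≤ c ∧ ∀ n : ℕ,
      1 ≤ n → ∀ x ∈ u.map (· ^ (c * n)), x ∈ Ideal.span {v | v ∈ y.map (· ^ n)} ⊔ J := by
  have h1 : ∀ n : ℕ, 1 ≤ n → (Ideal.span {v | v ∈ y} ⊔ J) ^ ((y.length + 1) * n) ≤
      Ideal.span {v | v ∈ y.map (· ^ n)} ⊔ J := by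
    intro n hn
    clear hu
    induction y with
    | nil => simpa using Ideal.pow_le_self (by omega)
    | cons a l ih =>
      have e : ∀ (a : B) (l : List B), Ideal.span {v | v ∈ a :: l} =
          Ideal.span {a} ⊔ Ideal.span {v | v ∈ l} := fun a l => by
        rw [← Ideal.span_insert]
        congr 1
        ext v
        simp
      rw [List.map_cons, e, e, sup_assoc, sup_assoc, List.length_cons, add_mul, one_mul, add_comm,
        ← Ideal.span_singleton_pow]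
      exact Ideal.sup_pow_add_le_pow_sup_pow.trans (sup_le_sup_left ih _)
  obtain ⟨c, hc⟩ : ∃ c : ℕ, ∀ x ∈ u, x ^ (c + 1) ∈ Ideal.span {v | v ∈ y} ⊔ J := by
    induction u with
    | nil => simp
    | cons a l ih =>
      obtain ⟨c, hc⟩ := ih fun x hx => hu x (List.mem_cons_of_mem _ hx)
      obtain ⟨c', hc'⟩ := hu a List.mem_cons_self
      refine ⟨c + c', fun x hx => ?_⟩
      rcases List.mem_cons.1 hx with rfl | hx
      · exact Ideal.pow_mem_of_pow_mem _ hc' (by omega)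
      · exact Ideal.pow_mem_of_pow_mem _ (hc x hx) (by omega)
  refine ⟨(c + 1) * (y.length + 1), Nat.mul_pos c.succ_pos y.length.succ_pos, fun n hn x hx => ?_⟩
  obtain ⟨a, ha, rfl⟩ := List.mem_map.1 hx
  rw [mul_assoc, pow_mul]
  exact h1 n hn (Ideal.pow_mem_pow (hc a ha) _)

theorem toReal_kp {x : ℝ≥0∞} {n A : ℕ} (h : (n : ℝ≥0∞) * x ≤ (A : ℝ≥0∞)) :
    (n : ℝ) * x.toReal ≤ A := by
  simpa using ENNReal.toReal_mono (ENNReal.natCast_ne_top A) h

theorem near_kp {B : Type u} [CommRing B] (μ : RLen B) (l : List B) (J : Ideal B) {n A : ℕ}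
    (h : ∀ i : ℤ, 1 ≤ i → (n : ℝ≥0∞) * hG μ ((GC.one B).kos l) J ⊤ i ≤ A) :
    (n : ℝ) * |chiG μ ((GC.one B).kos l) J ⊤ - (hG μ ((GC.one B).kos l) J ⊤ 0).toReal| ≤
      l.length * A := by
  have e := (GC.top_kos l).chi_eq_sum μ (fun _ => J) fun _ => ⊤
  rw [Finset.sum_range_succ', pow_zero, one_mul, Nat.cast_zero, ← sub_eq_iff_eq_add] at e
  rw [e]
  refine (mul_le_mul_of_nonneg_left (Finset.abs_sum_le_sum_abs _ _) (Nat.cast_nonneg n)).trans ?_
  rw [Finset.mul_sum]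
  refine (Finset.sum_le_card_nsmul _ _ (A : ℝ) fun i _ => ?_).trans ?_
  · rw [abs_mul, abs_pow, abs_neg, abs_one, one_pow, one_mul, abs_of_nonneg ENNReal.toReal_nonneg]
    exact toReal_kp (h _ (by omega))
  · rw [Finset.card_range, nsmul_eq_mul]

theorem zero_kp {B : Type u} [CommRing B] (μ : RLen B) {l l' : List B} (J : Ideal B)
    (h : ∀ x ∈ l, x ∈ Ideal.span {v | v ∈ l'} ⊔ J) :
    hG μ ((GC.one B).kos l') J ⊤ 0 ≤ hG μ ((GC.one B).kos l) J ⊤ 0 := by
  rw [GC.hG_kos_zero μ le_top, GC.hG_kos_zero μ le_top, smul_eq_mul, smul_eq_mul, Ideal.mul_top,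
    Ideal.mul_top]
  refine rr_anti_left μ (sup_le le_sup_left (Ideal.span_le.2 fun x hx => ?_)) ⊤
  rw [sup_comm]
  exact h x hx

theorem model_kp (h0 : hG μ ((GC.one T).kos w) (mS R T) ⊤ 0 = 1)
    (h1 : ∀ i : ℤ, 1 ≤ i → hG μ ((GC.one T).kos w) (mS R T) ⊤ i = 0) (Q : Ideal R) {z : List R}
    (hz : ∀ x ∈ z, x ∈ maximalIdeal R) {t : ℕ}
    (ht : maximalIdeal R ^ t ≤ Ideal.span {x | x ∈ z} ⊔ Module.annihilator R (R ⧸ Q)) :
    (∀ (m : ℕ) (i : ℤ), hG μ ((GC.one T).kos ((w ++ z.map (algebraMap R T)).map (· ^ m)))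
      (Q.map (algebraMap R T)) ⊤ i ≠ ⊤) ∧
    (∀ m : ℕ, chiG μ ((GC.one T).kos ((w ++ z.map (algebraMap R T)).map (· ^ m)))
      (Q.map (algebraMap R T)) ⊤ = (m : ℝ) ^ (w.length + z.length) *
        chiG (RLen.ofLen R) ((GC.one R).kos z) (⊥ : Submodule R (R ⧸ Q)) ⊤) ∧
    ∃ C : ℕ, ∀ (m : ℕ) (i : ℤ), (1 ≤ i ∨ ringKrullDim (R ⧸ Q) < z.length) →
      (m : ℝ≥0∞) * hG μ ((GC.one T).kos ((w ++ z.map (algebraMap R T)).map (· ^ m)))
        (Q.map (algebraMap R T)) ⊤ i ≤ ((C * m ^ (w.length + z.length) : ℕ) : ℝ≥0∞) := by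
  have e : ∀ m : ℕ, (GC.one T).kos ((w ++ z.map (algebraMap R T)).map (· ^ m)) =
      (((GC.one R).kos (z.map (· ^ m))).map (algebraMap R T)).kos (w.map (· ^ m)) := by
    intro m
    rw [List.map_append, GC.kos_append, GC.map_one_kos, List.map_map, List.map_map]
    have : ((· ^ m) ∘ algebraMap R T : R → T) = algebraMap R T ∘ (· ^ m) :=
      funext fun x => (map_pow _ _ _).symm
    rw [this]
  have hp := fun m => GC.chi_kos_pow (RLen.ofLen R) (GC.sq0_disc fun _ : Unit => 0) bot_le z m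
    (kos_good z ht)
  have hq := fun m => good_chi_congr (RLen.ofLen R)
    (hG_quot (RLen.ofLen R) ((GC.one R).kos (z.map (· ^ m))) Q)
  have ha := fun m => kp_append h0 h1 (GC.sq0_kos _) Q ((hq m).1.2 (hp m).1) m
  obtain ⟨C, hC⟩ := kos_growth z hz ht
  refine ⟨fun m i => ?_, fun m => ?_, C, fun m i hi => ?_⟩
  · rw [e]
    exact ne_top_of_le_ne_top
      (ENNReal.mul_ne_top (ENNReal.natCast_ne_top _) (((hq m).1.2 (hp m).1).1 i)) ((ha m).1 i)
  · rw [e, (ha m).2, pow_add, mul_assoc]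
    congr 1
    exact (hq m).2.trans (hp m).2
  · rw [← Module.supportDim_quotient_eq_ringKrullDim] at hi
    have h2 := hC m i hi
    rw [← hG_quot] at h2
    rw [e]
    refine (mul_le_mul_right ((ha m).1 i) _).trans ?_
    rw [mul_left_comm]
    refine (mul_le_mul_right h2 _).trans (le_of_eq ?_)
    push_cast
    ring

theorem kp (h0 : hG μ ((GC.one T).kos w) (mS R T) ⊤ 0 = 1)
    (h1 : ∀ i : ℤ, 1 ≤ i → hG μ ((GC.one T).kos w) (mS R T) ⊤ i = 0) (Q : Ideal R) {b : ℕ}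
    (hlen : y.length = w.length + b) (hb : ringKrullDim (R ⧸ Q) ≤ b)
    (hw : ∀ x ∈ w, ∃ c : ℕ, x ^ c ∈ Ideal.span {v | v ∈ y} ⊔ Q.map (algebraMap R T))
    (hm : ∀ x ∈ maximalIdeal R, ∃ c : ℕ,
      algebraMap R T x ^ c ∈ Ideal.span {v | v ∈ y} ⊔ Q.map (algebraMap R T))
    (hy : ∀ x ∈ y, ∃ c : ℕ, x ^ c ∈ mS R T ⊔ Ideal.span {v | v ∈ w}) :
    GoodG μ ((GC.one T).kos y) (Q.map (algebraMap R T)) ⊤ ∧
      (ringKrullDim (R ⧸ Q) < b → chiG μ ((GC.one T).kos y) (Q.map (algebraMap R T)) ⊤ = 0) ∧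
      (ringKrullDim (R ⧸ Q) = b → 0 < chiG μ ((GC.one T).kos y) (Q.map (algebraMap R T)) ⊤) := by
  obtain ⟨z, t, rfl, hz, ht⟩ := exists_sop_list hb
  have ht' : maximalIdeal R ^ t ≤ Ideal.span {x | x ∈ z} ⊔ Module.annihilator R (R ⧸ Q) := by
    rwa [Ideal.annihilator_quotient]
  obtain ⟨m1, m2, C, m3⟩ := model_kp h0 h1 Q hz ht'
  have hul : (w ++ z.map (algebraMap R T)).length = y.length := by simp [hlen]
  have hu : ∀ x ∈ w ++ z.map (algebraMap R T), ∃ c : ℕ,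
      x ^ c ∈ Ideal.span {v | v ∈ y} ⊔ Q.map (algebraMap R T) := by
    intro x hx
    rcases List.mem_append.1 hx with hx | hx
    · exact hw x hx
    · obtain ⟨a, ha, rfl⟩ := List.mem_map.1 hx
      exact hm a (hz a ha)
  have hy' : ∀ x ∈ y, ∃ c : ℕ,
      x ^ c ∈ Ideal.span {v | v ∈ w ++ z.map (algebraMap R T)} ⊔ Q.map (algebraMap R T) := by
    have h2 : mS R T ⊔ Ideal.span {v | v ∈ w} ≤ (Ideal.span
        {v | v ∈ w ++ z.map (algebraMap R T)} ⊔ Q.map (algebraMap R T)).radical := by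
      refine sup_le (fun a ha => ⟨t, ?_⟩) (le_trans (le_trans ?_ le_sup_left) Ideal.le_radical)
      · have h3 := Ideal.pow_mem_pow ha t
        rw [← Ideal.map_pow] at h3
        refine (Ideal.map_le_iff_le_comap.2 (ht.trans (sup_le ?_ ?_))) h3
        · refine Ideal.span_le.2 fun v hv => Ideal.mem_sup_left (Ideal.subset_span ?_)
          exact List.mem_append_right _ (List.mem_map_of_mem hv)
        · exact fun v hv => Ideal.mem_sup_right (Ideal.mem_map_of_mem _ hv)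
      · exact Ideal.span_mono fun v hv => List.mem_append_left _ hv
    intro x hx
    obtain ⟨c, hc⟩ := hy x hx
    exact Ideal.mem_radical_of_pow_mem (h2 hc)
  rw [← hlen] at m2 m3
  generalize w ++ z.map (algebraMap R T) = u at m1 m2 m3 hul hu hy'
  generalize Q.map (algebraMap R T) = J at m1 m2 m3 hu hy'
  obtain ⟨c1, hc1, k1⟩ := pows_kp y u J hu
  obtain ⟨c2, hc2, k2⟩ := pows_kp u y J hy'
  have cmp : ∀ n : ℕ, 1 ≤ n → ∀ i : ℤ, hG μ ((GC.one T).kos (y.map (· ^ n))) J ⊤ i ≤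
      ((2 ^ y.length : ℕ) : ℝ≥0∞) * ∑ j ∈ Finset.range (y.length + 1),
        hG μ ((GC.one T).kos (u.map (· ^ (c1 * n)))) J ⊤ (i + y.length - j) := by
    intro n hn i
    have := hG_kos_le_of_nh μ _ _ J (k1 n hn) i
    rwa [List.length_map, List.length_map, hul] at this
  have good : GoodG μ ((GC.one T).kos y) J ⊤ := by
    refine GC.good_of_ne_top μ fun i => ?_
    have := cmp 1 le_rfl i
    simp only [pow_one, List.map_id'] at this
    exact ne_top_of_le_ne_top (ENNReal.mul_ne_top (ENNReal.natCast_ne_top _)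
      (ENNReal.sum_ne_top.2 fun j _ => m1 _ _)) this
  have hp := fun n => GC.chi_kos_pow μ (GC.sq0_disc fun _ : Unit => 0) le_top y n good
  obtain ⟨C', hC'⟩ : ∃ C' : ℕ, ∀ n : ℕ, 1 ≤ n → ∀ i : ℤ,
      (1 ≤ i ∨ ringKrullDim (R ⧸ Q) < z.length) →
      (n : ℝ≥0∞) * hG μ ((GC.one T).kos (y.map (· ^ n))) J ⊤ i ≤
        ((C' * n ^ y.length : ℕ) : ℝ≥0∞) := by
    refine ⟨2 ^ y.length * ((y.length + 1) * (C * c1 ^ y.length)), fun n hn i hi => ?_⟩
    have h2 : (n : ℝ≥0∞) ≤ ((c1 * n : ℕ) : ℝ≥0∞) := by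
      exact_mod_cast Nat.le_mul_of_pos_left n hc1
    refine (mul_le_mul' h2 (cmp n hn i)).trans ?_
    rw [mul_left_comm, Finset.mul_sum]
    refine (mul_le_mul_right (Finset.sum_le_card_nsmul _ _ _ fun j hj => m3 _ _
      (hi.imp_left fun hi => ?_)) _).trans (le_of_eq ?_)
    · have := Finset.mem_range.1 hj
      omega
    · rw [Finset.card_range, nsmul_eq_mul]
      push_cast
      ring
  have nY : ∀ n : ℕ, 1 ≤ n → (n : ℝ) * |(n : ℝ) ^ y.length * chiG μ ((GC.one T).kos y) J ⊤ -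
      (hG μ ((GC.one T).kos (y.map (· ^ n))) J ⊤ 0).toReal| ≤
        y.length * (C' * (n : ℝ) ^ y.length) := by
    intro n hn
    have := near_kp μ (y.map (· ^ n)) J fun i hi => hC' n hn i (Or.inl hi)
    rw [(hp n).2, List.length_map] at this
    exact_mod_cast this
  refine ⟨good, fun hd => ?_, fun hd => ?_⟩
  · refine abs_nonpos_iff.1 (lim_kp (D := (y.length + 1) * C') fun n hn => ?_)
    have h2 := nY n hn
    have h3 := toReal_kp (hC' n hn 0 (Or.inr hd))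
    have h4 : (0 : ℝ) < (n : ℝ) ^ y.length := pow_pos (by exact_mod_cast hn) _
    have h5 := abs_sub_abs_le_abs_sub ((n : ℝ) ^ y.length * chiG μ ((GC.one T).kos y) J ⊤)
      (hG μ ((GC.one T).kos (y.map (· ^ n))) J ⊤ 0).toReal
    rw [abs_mul, abs_of_pos h4, abs_of_nonneg ENNReal.toReal_nonneg] at h5
    have h6 := mul_le_mul_of_nonneg_left h5 (Nat.cast_nonneg n : (0 : ℝ) ≤ n)
    push_cast at h3
    refine le_of_mul_le_mul_left ?_ h4
    nlinarith
  · have hpos := kos_chi_pos z hz ht' (by rwa [Module.supportDim_quotient_eq_ringKrullDim])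
    generalize chiG (RLen.ofLen R) ((GC.one R).kos z) (⊥ : Submodule R (R ⧸ Q)) ⊤ = χ0
      at hpos m2
    have hc : (1 : ℝ) ≤ c2 := by exact_mod_cast hc2
    have key : χ0 - (c2 : ℝ) ^ y.length * chiG μ ((GC.one T).kos y) J ⊤ ≤ 0 := by
      refine lim_kp (D := y.length * C + y.length * (C' * (c2 : ℝ) ^ y.length)) fun n hn => ?_
      have h2 := nY (c2 * n) (Nat.mul_pos hc2 hn)
      have h3 := near_kp μ (u.map (· ^ n)) J fun i hi => m3 n i (Or.inl hi)
      rw [m2, List.length_map, hul] at h3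
      have h4 : (0 : ℝ) < (n : ℝ) ^ y.length := pow_pos (by exact_mod_cast hn) _
      have h5 := ENNReal.toReal_mono ((hp _).1.1 0) (zero_kp μ J (k2 n hn))
      push_cast at h2 h3
      rw [mul_pow] at h2
      generalize (hG μ ((GC.one T).kos (y.map (· ^ (c2 * n)))) J ⊤ 0).toReal = a at h2 h5
      generalize (hG μ ((GC.one T).kos (u.map (· ^ n))) J ⊤ 0).toReal = a' at h3 h5
      generalize chiG μ ((GC.one T).kos y) J ⊤ = χ at h2
      have hn0 : (0 : ℝ) ≤ n := Nat.cast_nonneg n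
      have h6 := mul_le_mul_of_nonneg_left (le_abs_self ((n : ℝ) ^ y.length * χ0 - a')) hn0
      have h7 := mul_le_mul_of_nonneg_left
        (neg_le_abs ((c2 : ℝ) ^ y.length * (n : ℝ) ^ y.length * χ - a)) hn0
      have h8 := mul_le_mul_of_nonneg_right hc (mul_nonneg hn0
        (abs_nonneg ((c2 : ℝ) ^ y.length * (n : ℝ) ^ y.length * χ - a)))
      have h9 := mul_le_mul_of_nonneg_left h5 hn0
      refine le_of_mul_le_mul_left ?_ h4
      nlinarith
    exact pos_of_mul_pos_left (b := (c2 : ℝ) ^ y.length) (by nlinarith) (by positivity)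

end Vale.Agent.P177
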