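import Vale.Agent.P177.Bas2

/-! The comparison theorem for resolutions. -/

namespace Vale.Agent.P177

open Vale.Agent.P202
open scoped ENNReal

universe u

variable {B : Type u} [CommRing B] {N M : Type u} [AddCommGroup N] [Module B N] [AddCommGroup M]
  [Module B M]

namespace GC

variable {K G : GC B} {aK : (K.ι → B) →ₗ[B] N} {aG : (G.ι → B) →ₗ[B] M}

private theorem col_rec {α : Type u} [Zero α] (K : GC B) (P : K.ι → α → (K.ι → α) → Prop)
    (hloc : ∀ b c F F', (∀ a, K.deg a < K.deg b → F a = F' a) → P b c F → P b c F')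
    (hstep : ∀ b F, (∀ a, K.deg a < K.deg b → P a (F a) F) → ∃ c, P b c F) :
    ∃ F, ∀ b, P b (F b) F := by
  have key : ∀ n, ∃ F, ∀ b, K.deg b < n → P b (F b) F := by
    intro n
    induction n with
    | zero => exact ⟨0, fun b hb => absurd hb (Nat.not_lt_zero _)⟩
    | succ n ih =>
      obtain ⟨F, hF⟩ := ih
      choose c hc using fun (b : K.ι) (hb : K.deg b = n) => hstep b F fun a ha => hF a (hb ▸ ha)
      refine ⟨fun b => if h : K.deg b = n then c b h else F b, fun b hb => ?_⟩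
      refine hloc b _ F _ (fun a ha => by rw [dif_neg (show ¬K.deg a = n by omega)]) ?_
      dsimp only
      split_ifs with h
      · exact hc b h
      · exact hF b (by omega)
  obtain ⟨L, hL⟩ := K.exists_top
  obtain ⟨F, hF⟩ := key (L + 1)
  exact ⟨F, fun b => hF b (Nat.lt_succ_of_le (hL b))⟩

private theorem cw_le_cmp {m : ℤ} {S : Submodule B (K.ι → B)}
    (h : ∀ a, (K.deg a : ℤ) = m → Pi.single a 1 ∈ S) : K.cw (⊤ : Submodule B B) m ≤ S := by
  intro x hx
  rw [pi_eq_sum_univ' x]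
  refine S.sum_mem fun a _ => ?_
  by_cases e : (K.deg a : ℤ) = m
  · exact S.smul_mem _ (h a e)
  · rw [(mem_cf.1 hx).2 a e, zero_smul]; exact S.zero_mem

private theorem single_cw (b : K.ι) :
    (Pi.single b 1 : K.ι → B) ∈ K.cw (⊤ : Submodule B B) (K.deg b) :=
  single_mem_cf Submodule.mem_top

private theorem d_cw {E : Type u} [AddCommGroup E] [Module B E] {S : Submodule B E} {m : ℤ}
    {x : K.ι → E} (hx : x ∈ K.cw S m) : K.d E x ∈ K.cw S (m - 1) :=
  K.cw_isCx S m ⟨x, hx, rfl⟩

private theorem d_zero {x : K.ι → B} (hx : x ∈ K.cw (⊤ : Submodule B B) 0) : K.d B x = 0 := by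
  have := d_cw hx
  rwa [cw, cf_eq_bot_of_neg _ (by norm_num), Submodule.mem_bot] at this

private theorem mact_single {ι : Type} (A : Matrix ι K.ι B) (b : K.ι) :
    mact B A (Pi.single b 1) = fun a => A a b := by
  funext a
  rw [mact_eq_mulVec, Matrix.mulVec_single_one]
  rfl

private theorem col_ext {ι : Type} {A A' : Matrix ι K.ι B}
    (h : ∀ b, mact B A (Pi.single b 1) = mact B A' (Pi.single b 1)) : A = A' := by
  ext a b
  have := congrFun (h b) a
  rwa [mact_single, mact_single] at this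

/-- the matrix with prescribed columns -/
private def cols {ι κ : Type} (F : κ → ι → B) : Matrix ι κ B := Matrix.of fun a b => F b a

private theorem cols_single {ι : Type} (F : K.ι → ι → B) (b : K.ι) :
    mact B (cols F) (Pi.single b 1) = F b := mact_single _ _

private theorem cols_loc {ι : Type} {F F' : K.ι → ι → B} {b : K.ι}
    (h : ∀ a, K.deg a < K.deg b → F a = F' a) :
    mact B (cols F) (K.d B (Pi.single b 1)) = mact B (cols F') (K.d B (Pi.single b 1)) :=
  cw_le_cmp (S := LinearMap.eqLocus (mact B (cols F)) (mact B (cols F')))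
    (fun a ha => by rw [LinearMap.mem_eqLocus, cols_single, cols_single, h a (by omega)])
    (d_cw (single_cw b))

private theorem hg_cols {k : ℤ} {F : K.ι → G.ι → B}
    (h : ∀ b, F b ∈ G.cw (⊤ : Submodule B B) (K.deg b + k)) : Hg G K k (cols F) :=
  fun a b e => by_contra fun h1 => e ((mem_cf.1 (h b)).2 a h1)

private theorem exists_bd {L : ℕ} (hG : G.PRes aG L) {n : ℕ} (hn : n ≤ L) {y : G.ι → B}
    (hy : y ∈ G.cw (⊤ : Submodule B B) n) (h1 : aG y = 0) (h2 : G.d B y = 0) :
    ∃ c ∈ G.cw (⊤ : Submodule B B) (n + 1), G.d B c = y := by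
  have h3 : y ∈ G.Bd (⊥ : Submodule B B) ⊤ n := by
    rcases Nat.eq_zero_or_pos n with rfl | h
    · exact hG.ex0 y hy h1
    · exact hG.ex n (by omega) (by omega) ⟨hy, by
        rw [SetLike.mem_coe, Submodule.mem_comap, h2]; exact zero_mem _⟩
  rwa [Bd, Bc, cw_bot, Pi.bot_apply, bot_sup_eq] at h3

private theorem exists_deg_zero {L : ℕ} (hG : G.PRes aG L) (z : M) :
    ∃ c ∈ G.cw (⊤ : Submodule B B) 0, aG c = z := by
  obtain ⟨x, rfl⟩ := hG.surj z
  have : x ∈ ((G.cw (⊤ : Submodule B B) 0).map aG).comap aG := by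
    rw [pi_eq_sum_univ' x]
    refine Submodule.sum_mem _ fun a _ => Submodule.smul_mem _ _ ?_
    by_cases e : (G.deg a : ℤ) = 0
    · exact ⟨_, e ▸ single_cw a, rfl⟩
    · exact ⟨0, zero_mem _, (map_zero _).trans (hG.aug0 _ e _ (single_cw a)).symm⟩
  exact this

theorem exists_lift (hK : K.PRes aK 0) (hG : G.IsRes aG) (φ : N →ₗ[B] M) :
    ∃ f : Matrix G.ι K.ι B, Hg G K 0 f ∧ G.mat * f = f * K.mat ∧
      ∀ x, aG (mact B f x) = φ (aK x) := by
  obtain ⟨F, hF⟩ := col_rec K (fun b c F => c ∈ G.cw (⊤ : Submodule B B) (K.deg b) ∧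
      G.d B c = mact B (cols F) (K.d B (Pi.single b 1)) ∧ aG c = φ (aK (Pi.single b 1)))
    (fun b c F F' h h' => ⟨h'.1, h'.2.1.trans (cols_loc h), h'.2.2⟩) (fun b F h => by
      rcases hb : K.deg b with _ | n
      · obtain ⟨c, h1, h2⟩ := exists_deg_zero (hG 0) (φ (aK (Pi.single b 1)))
        refine ⟨c, h1, ?_, h2⟩
        rw [d_zero h1, d_zero (by simpa [hb] using single_cw b), map_zero]
      · have h0 : K.d B (Pi.single b 1) ∈ K.cw (⊤ : Submodule B B) n := by
          simpa [hb] using d_cw (single_cw b)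
        have h1 := cw_le_cmp (S := (G.cw (⊤ : Submodule B B) n).comap (mact B (cols F)))
          (fun a ha => by
            rw [Submodule.mem_comap, cols_single, ← ha]; exact (h a (by omega)).1) h0
        have h2 := cw_le_cmp (S := LinearMap.eqLocus (aG ∘ₗ mact B (cols F)) (φ ∘ₗ aK))
          (fun a ha => by
            rw [LinearMap.mem_eqLocus, LinearMap.comp_apply, cols_single]
            exact (h a (by omega)).2.2) h0
        have h3 := cw_le_cmp
          (S := LinearMap.eqLocus (G.d B ∘ₗ mact B (cols F)) (mact B (cols F) ∘ₗ K.d B))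
          (fun a ha => by
            rw [LinearMap.mem_eqLocus, LinearMap.comp_apply, cols_single]
            exact (h a (by omega)).2.1) h0
        simp only [LinearMap.mem_eqLocus, LinearMap.comp_apply, hK.comp, hK.sq.dd,
          map_zero] at h2 h3
        obtain ⟨c, h4, h5⟩ := exists_bd (hG n) le_rfl h1 h2 h3
        refine ⟨c, by exact_mod_cast h4, h5, ?_⟩
        rw [(hG 0).aug0 _ (by omega) c h4, hK.aug0 _ (by omega) _ (single_cw b), map_zero])
  refine ⟨cols F, hg_cols fun b => by simpa using (hF b).1, col_ext fun b => ?_, fun x => ?_⟩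
  · rw [mact_mul, mact_mul, cols_single]
    exact (hF b).2.1
  · refine LinearMap.congr_fun (f := aG ∘ₗ mact B (cols F)) (g := φ ∘ₗ aK)
      (LinearMap.pi_ext' fun b => LinearMap.ext_ring ?_) x
    simp only [LinearMap.comp_apply, LinearMap.coe_single, cols_single]
    exact (hF b).2.2

theorem exists_htpy {L : ℕ} (hK : K.Sq0) (hG : G.PRes aG L) {f : Matrix G.ι K.ι B}
    (h0 : Hg G K 0 f) (h1 : G.mat * f = f * K.mat) (h2 : ∀ x, aG (mact B f x) = 0) :
    ∃ h : Matrix G.ι K.ι B, Hg G K 1 h ∧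
      ∀ a b, K.deg b ≤ L → (f - (G.mat * h + h * K.mat)) a b = 0 := by
  have hf : ∀ x, G.d B (mact B f x) = mact B f (K.d B x) := fun x => by
    rw [← mact_mul, h1, mact_mul]
  obtain ⟨F, hF⟩ := col_rec K (fun b c F => c ∈ G.cw (⊤ : Submodule B B) (K.deg b + 1) ∧
      (K.deg b ≤ L → G.d B c = mact B f (Pi.single b 1) - mact B (cols F) (K.d B (Pi.single b 1))))
    (fun b c F F' h h' => ⟨h'.1, fun e => by rw [h'.2 e, cols_loc h]⟩) (fun b F h => by
      by_cases hb : K.deg b ≤ L
      swap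
      · exact ⟨0, zero_mem _, fun e => absurd e hb⟩
      have h3 := d_cw (single_cw b)
      have h4 := cw_le_cmp (S := (G.cw (⊤ : Submodule B B) (K.deg b)).comap (mact B (cols F)))
        (fun a ha => by
          rw [Submodule.mem_comap, cols_single, show (K.deg b : ℤ) = K.deg a + 1 by omega]
          exact (h a (by omega)).1) h3
      have h5 := cw_le_cmp (S := LinearMap.eqLocus (G.d B ∘ₗ mact B (cols F))
          (mact B f - mact B (cols F) ∘ₗ K.d B))
        (fun a ha => by
          rw [LinearMap.mem_eqLocus, LinearMap.comp_apply, cols_single]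
          exact (h a (by omega)).2 (by omega)) h3
      simp only [LinearMap.mem_eqLocus, LinearMap.comp_apply, LinearMap.sub_apply, hK.dd,
        map_zero, sub_zero] at h5
      obtain ⟨c, h6, h7⟩ := exists_bd hG hb
        (y := mact B f (Pi.single b 1) - mact B (cols F) (K.d B (Pi.single b 1)))
        (sub_mem (by simpa using h0.mem_cw (single_cw b)) h4) (by
          rw [map_sub, h2, zero_sub, neg_eq_zero]
          by_cases e : (K.deg b : ℤ) = 0
          · rw [d_zero (e ▸ single_cw b), map_zero, map_zero]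
          · exact hG.aug0 _ e _ h4) (by rw [map_sub, hf, h5, sub_self])
      exact ⟨c, h6, fun _ => h7⟩)
  refine ⟨cols F, hg_cols fun b => (hF b).1, fun a b hb => ?_⟩
  refine (congrFun (mact_single _ b) a).symm.trans ?_
  rw [mact_sub, mact_add, mact_mul, mact_mul, cols_single, (hF b).2 hb, sub_add_cancel, sub_self]
  rfl

private theorem htpy_full (hK : K.IsRes aK) {f : Matrix K.ι K.ι B} (h0 : Hg K K 0 f)
    (h1 : K.mat * f = f * K.mat) (h2 : ∀ x, aK (mact B f x) = 0) :
    ∃ h : Matrix K.ι K.ι B, Hg K K 1 h ∧ f = K.mat * h + h * K.mat := by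
  obtain ⟨L, hL⟩ := K.exists_top
  obtain ⟨h, h3, h4⟩ := exists_htpy (hK 0).sq (hK L) h0 h1 h2
  exact ⟨h, h3, sub_eq_zero.1 (Matrix.ext fun a b => h4 a b (hL b))⟩

private theorem htpy_comp (hK : K.IsRes aK) {f : Matrix K.ι G.ι B} {g : Matrix G.ι K.ι B}
    (hf : Hg K G 0 f) (hg : Hg G K 0 g) (h1 : K.mat * f = f * G.mat) (h2 : G.mat * g = g * K.mat)
    (h3 : ∀ x, aK (mact B f (mact B g x)) = aK x) :
    ∃ h : Matrix K.ι K.ι B, Hg K K 1 h ∧ f * g - 1 = K.mat * h + h * K.mat := by
  refine htpy_full hK ?_ ?_ fun x => ?_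
  · rw [sub_eq_add_neg]
    exact (by simpa using hf.mul hg : Hg K K 0 (f * g)).add K.hg_one.neg
  · rw [mul_sub, sub_mul, ← Matrix.mul_assoc, h1, Matrix.mul_assoc, h2, Matrix.mul_assoc, mul_one,
      one_mul]
  · rw [mact_sub, mact_mul, mact_one, map_sub, h3, sub_self]

theorem IsRes.htpy (hK : K.IsRes aK) (hG : G.IsRes aG) (e : N ≃ₗ[B] M) : Htpy K G := by
  obtain ⟨f, f0, f1, f2⟩ := exists_lift (hG 0) hK e.symm.toLinearMap
  obtain ⟨g, g0, g1, g2⟩ := exists_lift (hK 0) hG e.toLinearMap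
  obtain ⟨h, h1, h2⟩ := htpy_comp hK f0 g0 f1 g1 fun x => by rw [f2, g2]; simp
  obtain ⟨h', h1', h2'⟩ := htpy_comp hG g0 f0 g1 f1 fun x => by rw [g2, f2]; simp
  exact ⟨f, g, h, h', f0, g0, h1, h1', f1, g1, h2, h2'⟩

theorem IsRes.ann_le_nh (hK : K.IsRes aK) : Module.annihilator B N ≤ K.nh := by
  intro z hz
  obtain ⟨h, h1, h2⟩ := htpy_full hK (K.hg_one.smul z) (by simp) fun x => by
    rw [mact_smul, mact_one, map_smul, Module.mem_annihilator.1 hz]
  exact ⟨h, h1, h2.symm⟩

theorem PRes.smul_mem {L : ℕ} (hK : K.PRes aK L) {z : B} (hz : z ∈ Module.annihilator B N)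
    {E : Type u} [AddCommGroup E] [Module B E] {N' N'' : Submodule B E} {n : ℤ} (hn : n ≤ L)
    {x : K.ι → E} (hx : x ∈ K.Zy N' N'' n) : z • x ∈ K.Bd N' N'' n := by
  obtain ⟨h, h1, h2⟩ := exists_htpy hK.sq hK (K.hg_one.smul z) (by simp) fun x => by
    rw [mact_smul, mact_one, map_smul, Module.mem_annihilator.1 hz]
  have h3 : mact E (z • 1 - (K.mat * h + h * K.mat)) x = 0 := by
    funext a
    rw [mact_apply]
    refine Finset.sum_eq_zero fun b _ => ?_
    by_cases e : (K.deg b : ℤ) = n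
    · rw [h2 a b (by omega), zero_smul]
    · rw [(mem_cf.1 hx.1).2 b e, smul_zero]
  rw [mact_sub, mact_add, mact_mul, mact_mul, mact_smul, mact_one, sub_eq_zero, add_comm] at h3
  rw [h3]
  exact Submodule.add_mem_sup (by simpa using h1.mem_cw hx.2) ⟨_, h1.mem_cw hx.1, rfl⟩

end GC

end Vale.Agent.P177
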