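import Vale.Agent.P177.Ring

/-! Additive functions on modules and devissage. -/

namespace Vale.Agent.P177

open Vale.Agent.P202 IsLocalRing TensorProduct
open scoped ENNReal

universe u

variable {R : Type u} [CommRing R]

section aux

variable (μ : RLen R) (K : GC R) {N M P : Type u} [AddCommGroup N] [Module R N] [AddCommGroup M]
  [Module R M] [AddCommGroup P] [Module R P]

private theorem hG_inj_efn (f : N →ₗ[R] M) (hf : Function.Injective f) (n : ℤ) :
    hG μ K (⊥ : Submodule R N) ⊤ n = hG μ K ⊥ (LinearMap.range f) n :=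
  hG_transfer μ K f (by simp) (by simp [LinearMap.ker_eq_bot.2 hf]) n

private theorem hG_surj_efn (g : M →ₗ[R] P) (hg : Function.Surjective g) (n : ℤ) :
    hG μ K (LinearMap.ker g) ⊤ n = hG μ K (⊥ : Submodule R P) ⊤ n :=
  hG_transfer μ K g (by simp [LinearMap.range_eq_top.2 hg]) (by simp) n

end aux

/-- The Euler characteristic of `K ⊗ M`. -/
noncomputable def EFn.ofG (μ : RLen R) (K : GC R) (hK : K.Sq0) : EFn R where
  good M _ _ := GoodG μ K (⊥ : Submodule R M) ⊤
  val M _ _ := chiG μ K (⊥ : Submodule R M) ⊤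
  zero := by
    intro M _ _ _
    rw [Subsingleton.elim (⊤ : Submodule R M) ⊥]
    exact good_chi_of_zero μ (hG_self μ K ⊥)
  ses := by
    intro N M P _ _ _ _ _ _ f g hf hg h hN hP
    obtain ⟨h1, h2⟩ := good_chi_congr μ (hG_inj_efn μ K f hf)
    obtain ⟨h3, h4⟩ := good_chi_congr μ (hG_surj_efn μ K g hg)
    rw [LinearMap.exact_iff.1 h] at h3 h4
    have t := hK.tri (bot_le (a := LinearMap.range f)) le_top
    refine ⟨t.good μ (h1.1 hN) (h3.2 hP), ?_⟩
    rw [chiG, t.chi_add μ (h1.1 hN) (h3.2 hP), ← h2, h4]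

/-- Flat base change. -/
noncomputable def EFn.bc {T : Type u} [CommRing T] [Algebra R T] [Module.Flat R T] (φ : EFn T) :
    EFn R where
  good M _ _ := φ.good (T ⊗[R] M)
  val M _ _ := φ.val (T ⊗[R] M)
  zero := fun _ _ _ _ => φ.zero _
  ses := fun f g hf hg h => φ.ses (f.baseChange T) (g.baseChange T)
    (Module.Flat.lTensor_preserves_injective_linearMap (M := T) f hf)
    (LinearMap.lTensor_surjective T hg) (Module.Flat.lTensor_exact T h)

/-- Differences. -/
noncomputable def EFn.sub (φ ψ : EFn R) : EFn R where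
  good M _ _ := φ.good M ∧ ψ.good M
  val M _ _ := φ.val M - ψ.val M
  zero := by
    intro M _ _ _
    exact ⟨⟨(φ.zero M).1, (ψ.zero M).1⟩, by rw [(φ.zero M).2, (ψ.zero M).2, sub_self]⟩
  ses := by
    intro N M P _ _ _ _ _ _ f g hf hg h hN hP
    obtain ⟨h1, h2⟩ := φ.ses f g hf hg h hN.1 hP.1
    obtain ⟨h3, h4⟩ := ψ.ses f g hf hg h hN.2 hP.2
    exact ⟨⟨h1, h3⟩, by rw [h2, h4]; ring⟩

theorem EFn.equiv (φ : EFn R) {M N : Type u} [AddCommGroup M] [Module R M] [AddCommGroup N]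
    [Module R N] (e : M ≃ₗ[R] N) (h : φ.good M) : φ.good N ∧ φ.val N = φ.val M := by
  have := φ.ses e.toLinearMap (0 : N →ₗ[R] PUnit.{u + 1}) e.injective
    (Function.surjective_to_subsingleton _) ((LinearMap.exact_zero_iff_surjective _ _).2 e.surjective)
    h (φ.zero _).1
  rwa [(φ.zero PUnit.{u + 1}).2, add_zero] at this

/-- Homology is subadditive in the coefficients. -/
theorem hG_ses_le (μ : RLen R) {K : GC R} (hK : K.Sq0) {N M P : Type u} [AddCommGroup N]
    [Module R N] [AddCommGroup M] [Module R M] [AddCommGroup P] [Module R P] (f : N →ₗ[R] M)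
    (g : M →ₗ[R] P) (hf : Function.Injective f) (hg : Function.Surjective g)
    (h : Function.Exact f g) (n : ℤ) : hG μ K (⊥ : Submodule R M) ⊤ n ≤
      hG μ K (⊥ : Submodule R N) ⊤ n + hG μ K (⊥ : Submodule R P) ⊤ n := by
  rw [hG_inj_efn μ K f hf, ← hG_surj_efn μ K g hg, LinearMap.exact_iff.1 h]
  exact (hK.tri (bot_le (a := LinearMap.range f)) le_top).le_add μ n

variable [IsNoetherianRing R] {N : Type u} [AddCommGroup N] [Module R N] [Module.Finite R N]

/-- Induction along a prime filtration. -/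
theorem dev_ind (P : ∀ (M : Type u) [AddCommGroup M] [Module R M], Prop)
    (h0 : ∀ (M : Type u) [AddCommGroup M] [Module R M] [Subsingleton M], P M)
    (h2 : ∀ {N M Q : Type u} [AddCommGroup N] [Module R N] [AddCommGroup M] [Module R M]
      [AddCommGroup Q] [Module R Q] (f : N →ₗ[R] M) (g : M →ₗ[R] Q), Function.Injective f →
      Function.Surjective g → Function.Exact f g → P N → P Q → P M)
    {I : Ideal R} (hI : I ≤ Module.annihilator R N)
    (h1 : ∀ Q : Ideal R, Q.IsPrime → I ≤ Q → P (R ⧸ Q)) : P N := by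
  revert hI
  induction ‹Module.Finite R N› using
    IsNoetherianRing.induction_on_isQuotientEquivQuotientPrime R with
  | subsingleton N => exact fun _ => h0 N
  | quotient N p e =>
    intro hI
    rw [e.annihilator_eq, Ideal.annihilator_quotient] at hI
    exact h2 e.symm.toLinearMap (0 : N →ₗ[R] PUnit.{u + 1}) e.symm.injective
      (Function.surjective_to_subsingleton _)
      ((LinearMap.exact_zero_iff_surjective _ _).2 e.symm.surjective) (h1 _ p.2 hI) (h0 _)
  | exact N₁ N₂ N₃ f g hf hg hfg h₁ h₃ =>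
    exact fun hI => h2 f g hf hg hfg (h₁ (hI.trans (f.annihilator_le_of_injective hf)))
      (h₃ (hI.trans (g.annihilator_le_of_surjective hg)))

theorem EFn.dev_good (φ : EFn R) {I : Ideal R} (hI : I ≤ Module.annihilator R N)
    (h : ∀ Q : Ideal R, Q.IsPrime → I ≤ Q → φ.good (R ⧸ Q)) : φ.good N := by
  exact dev_ind (fun M _ _ => φ.good M) (fun M _ _ _ => (φ.zero M).1)
    (fun f g hf hg e a b => (φ.ses f g hf hg e a b).1) hI h

theorem EFn.dev_zero (φ : EFn R) {I : Ideal R} (hI : I ≤ Module.annihilator R N)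
    (h : ∀ Q : Ideal R, Q.IsPrime → I ≤ Q → φ.good (R ⧸ Q) ∧ φ.val (R ⧸ Q) = 0) :
    φ.good N ∧ φ.val N = 0 := by
  refine dev_ind (fun M _ _ => φ.good M ∧ φ.val M = 0) φ.zero (fun f g hf hg e a b => ?_) hI h
  obtain ⟨h1, h2⟩ := φ.ses f g hf hg e a.1 b.1
  exact ⟨h1, by rw [h2, a.2, b.2, add_zero]⟩

theorem EFn.dev_pos (φ : EFn R) {I : Ideal R} (hI : I ≤ Module.annihilator R N)
    (h : ∀ Q : Ideal R, Q.IsPrime → I ≤ Q → φ.good (R ⧸ Q) ∧ 0 ≤ φ.val (R ⧸ Q))
    {Q0 : Ideal R} (hQ0 : Q0.IsPrime) (h0 : Module.annihilator R N ≤ Q0)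
    (h1 : ∀ Q : Ideal R, Q.IsPrime → I ≤ Q → Q ≤ Q0 → 0 < φ.val (R ⧸ Q)) :
    φ.good N ∧ 0 < φ.val N := by
  have key := dev_ind (N := N)
    (fun M _ _ => φ.good M ∧ 0 ≤ φ.val M ∧ (Module.annihilator R M ≤ Q0 → 0 < φ.val M))
    (fun M _ _ _ => ⟨(φ.zero M).1, (φ.zero M).2.ge, fun e => absurd (top_le_iff.1
      ((Module.annihilator_eq_top_iff.2 ‹_›).ge.trans e)) hQ0.ne_top⟩)
    (fun {N M P} _ _ _ _ _ _ f g hf hg e a b => by
      obtain ⟨h2, h3⟩ := φ.ses f g hf hg e a.1 b.1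
      refine ⟨h2, h3 ▸ add_nonneg a.2.1 b.2.1, fun h4 => ?_⟩
      have h5 : Module.annihilator R N * Module.annihilator R P ≤ Q0 := by
        refine le_trans (Ideal.mul_le.2 fun s hs t ht => Module.mem_annihilator.2 fun x => ?_) h4
        obtain ⟨y, hy⟩ := (e (t • x)).1 (by rw [map_smul, Module.mem_annihilator.1 ht])
        rw [mul_smul, ← hy, ← map_smul, Module.mem_annihilator.1 hs, map_zero]
      rw [h3]
      rcases hQ0.mul_le.1 h5 with h6 | h6
      · exact add_pos_of_pos_of_nonneg (a.2.2 h6) b.2.1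
      · exact add_pos_of_nonneg_of_pos a.2.1 (b.2.2 h6)) hI
    fun Q hQ h2 => ⟨(h Q hQ h2).1, (h Q hQ h2).2, fun h3 =>
      h1 Q hQ h2 (by rwa [Ideal.annihilator_quotient] at h3)⟩
  exact ⟨key.1, key.2.2 h0⟩

theorem EFn.dev_pure (φ : EFn R) (Q : Ideal R) [Q.IsPrime] (hQ : Q ≤ Module.annihilator R N)
    (h : ∀ Q' : Ideal R, Q'.IsPrime → Q ≤ Q' → φ.good (R ⧸ Q'))
    (h0 : ∀ Q' : Ideal R, Q'.IsPrime → Q < Q' → φ.val (R ⧸ Q') = 0) :
    φ.good N ∧ ((RLen.ofLen (Localization.AtPrime Q)).bc : RLen R).len N ≠ ⊤ ∧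
      φ.val N = (((RLen.ofLen (Localization.AtPrime Q)).bc : RLen R).len N).toReal *
        φ.val (R ⧸ Q) := by
  set ν : RLen R := (RLen.ofLen (Localization.AtPrime Q)).bc with hν
  refine dev_ind (fun M _ _ => φ.good M ∧ ν.len M ≠ ⊤ ∧ φ.val M = (ν.len M).toReal * φ.val (R ⧸ Q))
    (fun M _ _ _ => ⟨(φ.zero M).1, by rw [ν.zero M]; exact ENNReal.zero_ne_top, by
      rw [ν.zero M, (φ.zero M).2, ENNReal.toReal_zero, zero_mul]⟩)
    (fun f g hf hg e a b => ?_) hQ fun Q' hQ' h1 => ⟨h Q' hQ' h1, ?_⟩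
  · obtain ⟨h2, h3⟩ := φ.ses f g hf hg e a.1 b.1
    rw [ν.add_of_exact f g hf hg e]
    exact ⟨h2, ENNReal.add_ne_top.2 ⟨a.2.1, b.2.1⟩, by
      rw [h3, a.2.2, b.2.2, ENNReal.toReal_add a.2.1 b.2.1, add_mul]⟩
  · have h2 : ν.len (R ⧸ Q') = _ := RLen.bc_q (RLen.ofLen (Localization.AtPrime Q)) Q'
    rcases h1.eq_or_lt with rfl | h3
    · have h4 : (RLen.ofLen (Localization.AtPrime Q)).q
          (maximalIdeal (Localization.AtPrime Q)) = 1 := by
        have := isSimpleModule_iff_isCoatom.2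
          (Ideal.isMaximal_def.1 (maximalIdeal.isMaximal (Localization.AtPrime Q)))
        change ((Module.length _ _ : ℕ∞) : ℝ≥0∞) = 1
        rw [Module.length_eq_one, ENat.toENNReal_one]
      rw [h2, Localization.AtPrime.map_eq_maximalIdeal, h4]
      simp
    · obtain ⟨x, hx, hx'⟩ := SetLike.exists_of_lt h3
      rw [h2, Ideal.eq_top_of_isUnit_mem _ (Ideal.mem_map_of_mem _ hx)
        (IsLocalization.map_units (Localization.AtPrime Q) (⟨x, hx'⟩ : Q.primeCompl)), RLen.q_top,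
        h0 Q' hQ' h3]
      simp

omit [IsNoetherianRing R] in
private theorem dim_quot_anti_efn {P Q : Ideal R} (h : P ≤ Q) :
    ringKrullDim (R ⧸ Q) ≤ ringKrullDim (R ⧸ P) :=
  ringKrullDim_le_of_surjective (Ideal.Quotient.factor h) (Ideal.Quotient.factor_surjective h)

private theorem exists_dim_quot_efn [IsLocalRing R] {Q : Ideal R} (hQ : Q ≠ ⊤) :
    ∃ b : ℕ, ringKrullDim (R ⧸ Q) = b := by
  have := Ideal.Quotient.nontrivial_iff.2 hQ
  have := IsLocalRing.of_surjective' _ (Ideal.Quotient.mk_surjective (I := Q))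
  obtain ⟨d, hd⟩ := ENat.ne_top_iff_exists.1
    (Ideal.height_ne_top (maximalIdeal.isMaximal (R ⧸ Q)).ne_top)
  exact ⟨d, by rw [← maximalIdeal_height_eq_ringKrullDim, ← hd]; rfl⟩

/-- A prime of maximal dimension in the support. -/
theorem exists_prime_supportDim [IsLocalRing R] [Nontrivial N] :
    ∃ Q : Ideal R, Q.IsPrime ∧ Module.annihilator R N ≤ Q ∧
      ringKrullDim (R ⧸ Q) = Module.supportDim R N := by
  have hI : Module.annihilator R N ≠ ⊤ :=
    mt Module.annihilator_eq_top_iff.1 (not_subsingleton N)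
  obtain ⟨b, hb⟩ := exists_dim_quot_efn hI
  rw [Module.supportDim_eq_ringKrullDim_quotient_annihilator]
  obtain ⟨l, hl⟩ := Order.le_krullDim_iff.1 (hb.ge.trans (ringKrullDim_quotient _).le)
  have h1 : Module.annihilator R N ≤ l.head.1.asIdeal := l.head.2
  refine ⟨_, l.head.1.2, h1, le_antisymm (dim_quot_anti_efn h1) ?_⟩
  rw [hb, ringKrullDim_quotient, Order.le_krullDim_iff]
  exact ⟨⟨l.length, fun i => ⟨(l i).1, l.head_le i⟩, l.step⟩, hl⟩

theorem dim_quot_le_supportDim {Q : Ideal R} (h : Module.annihilator R N ≤ Q) :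
    ringKrullDim (R ⧸ Q) ≤ Module.supportDim R N := by
  rw [Module.supportDim_eq_ringKrullDim_quotient_annihilator]
  exact dim_quot_anti_efn h

omit [IsNoetherianRing R] in
theorem dim_quot_anti {P Q : Ideal R} (h : P ≤ Q) : ringKrullDim (R ⧸ Q) ≤ ringKrullDim (R ⧸ P) := by
  exact dim_quot_anti_efn h

omit [IsNoetherianRing R] in
theorem dim_quot_succ_le {P Q : Ideal R} (hP : P.IsPrime) (h : P < Q) :
    ringKrullDim (R ⧸ Q) + 1 ≤ ringKrullDim (R ⧸ P) := by
  obtain ⟨x, hx, hx'⟩ := SetLike.exists_of_lt h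
  exact ringKrullDim_succ_le_of_surjective (Ideal.Quotient.factor h.le)
    (Ideal.Quotient.factor_surjective h.le) (r := Ideal.Quotient.mk P x)
    (mem_nonZeroDivisors_of_ne_zero (mt Ideal.Quotient.eq_zero_iff_mem.1 hx'))
    (Ideal.Quotient.eq_zero_iff_mem.2 hx)

theorem exists_dim_quot [IsLocalRing R] {Q : Ideal R} (hQ : Q ≠ ⊤) :
    ∃ b : ℕ, ringKrullDim (R ⧸ Q) = b := by
  exact exists_dim_quot_efn hQ

end Vale.Agent.P177
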