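import Vale.Agent.P177.Ring
import Vale.Agent.P177.Cone
import Vale.Agent.P202.MQR

/-! Constructions of resolutions. -/

namespace Vale.Agent.P177

open Vale.Agent.P202 TensorProduct
open scoped ENNReal

universe u

variable {B : Type u} [CommRing B] {N M : Type u} [AddCommGroup N] [Module B N] [AddCommGroup M]
  [Module B M]

namespace GC

variable {K : GC B} {aug : (K.ι → B) →ₗ[B] N} {L : ℕ}

theorem mem_cw_res2 {n : ℤ} {x : K.ι → N} :
    x ∈ K.cw (⊤ : Submodule B N) n ↔ ∀ a, (K.deg a : ℤ) ≠ n → x a = 0 := by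
  rw [mem_cf]
  exact ⟨fun h => h.2, fun h => ⟨fun _ _ => trivial, h⟩⟩

theorem mem_Zy_res2 {n : ℤ} {x : K.ι → N} :
    x ∈ K.Zy (⊥ : Submodule B N) ⊤ n ↔ x ∈ K.cw (⊤ : Submodule B N) n ∧ K.d N x = 0 := by
  unfold Zy Zc
  rw [cw_bot]
  rfl

theorem mem_Bd_res2 {n : ℤ} {x : K.ι → N} : x ∈ K.Bd (⊥ : Submodule B N) ⊤ n ↔
    ∃ w ∈ K.cw (⊤ : Submodule B N) (n + 1), K.d N w = x := by
  unfold Bd Bc
  rw [cw_bot, Pi.bot_apply, bot_sup_eq]
  rfl

theorem d_mem_res2 {n : ℤ} {x : K.ι → N} (hx : x ∈ K.cw (⊤ : Submodule B N) n) :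
    K.d N x ∈ K.cw (⊤ : Submodule B N) (n - 1) :=
  K.cw_isCx ⊤ n ⟨x, hx, rfl⟩

theorem eq_zero_res2 {n : ℤ} (hn : n < 0) {x : K.ι → N} (hx : x ∈ K.cw (⊤ : Submodule B N) n) :
    x = 0 := by
  have h := cf_eq_bot_of_neg (K := K) (fun _ => (⊤ : Submodule B N)) hn
  rw [show K.cw (⊤ : Submodule B N) n = ⊥ from h] at hx
  exact hx

theorem PRes.of_res2 (sq : K.Sq0)
    (aug0 : ∀ n : ℤ, n ≠ 0 → ∀ x ∈ K.cw (⊤ : Submodule B B) n, aug x = 0)
    (surj : Function.Surjective aug) (comp : ∀ x, aug (K.d B x) = 0)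
    (ex : ∀ n : ℤ, 0 ≤ n → n ≤ L → ∀ x ∈ K.cw (⊤ : Submodule B B) n, K.d B x = 0 → aug x = 0 →
      ∃ w ∈ K.cw (⊤ : Submodule B B) (n + 1), K.d B w = x) : K.PRes aug L :=
  ⟨sq, aug0, surj, comp,
    fun x hx h0 => mem_Bd_res2.2 (ex 0 le_rfl (by positivity) x hx
      (eq_zero_res2 (by norm_num) (d_mem_res2 hx)) h0),
    fun n h1 h2 x hx => mem_Bd_res2.2 (ex n (by omega) h2 x (mem_Zy_res2.1 hx).1
      (mem_Zy_res2.1 hx).2 (aug0 n (by omega) x (mem_Zy_res2.1 hx).1))⟩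

theorem PRes.bd_res2 (h : K.PRes aug L) {n : ℤ} (h0 : 0 ≤ n) (hn : n ≤ L) {x : K.ι → B}
    (hx : x ∈ K.cw (⊤ : Submodule B B) n) (hd : K.d B x = 0) (ha : aug x = 0) :
    ∃ w ∈ K.cw (⊤ : Submodule B B) (n + 1), K.d B w = x := by
  rcases h0.eq_or_lt with rfl | h1
  · exact mem_Bd_res2.1 (h.ex0 x hx ha)
  · exact mem_Bd_res2.1 (h.ex n h1 hn (mem_Zy_res2.2 ⟨hx, hd⟩))

theorem lin_eq_res2 {ι : Type} [Fintype ι] [DecidableEq ι] (φ : (ι → B) →ₗ[B] N) (x : ι → B) :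
    φ x = ∑ a, x a • φ (Pi.single a 1) := by
  conv_lhs => rw [← Finset.univ_sum_single x, _root_.map_sum]
  refine Finset.sum_congr rfl fun a _ => ?_
  rw [← map_smul, ← Pi.single_smul, smul_eq_mul, mul_one]

theorem PRes.aug_single_res2 (h : K.PRes aug L) {a : K.ι} (ha : (K.deg a : ℤ) ≠ 0) :
    aug (Pi.single a 1) = 0 :=
  h.aug0 _ ha _ (single_mem_cf (X := fun _ => ⊤) trivial)

theorem PRes.aug_prj_res2 (h : K.PRes aug L) (x : K.ι → B) :
    aug (fun a => if (K.deg a : ℤ) = 0 then x a else 0) = aug x := by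
  rw [lin_eq_res2 aug x, lin_eq_res2 aug]
  refine Finset.sum_congr rfl fun a _ => ?_
  split_ifs with ha
  · rfl
  · rw [h.aug_single_res2 ha, smul_zero, smul_zero]

theorem PRes.surj_res2 (h : K.PRes aug L) (z : N) :
    ∃ x ∈ K.cw (⊤ : Submodule B B) 0, aug x = z := by
  obtain ⟨x, rfl⟩ := h.surj z
  exact ⟨_, mem_cw_res2.2 fun a ha => if_neg ha, h.aug_prj_res2 x⟩

theorem PRes.lift_res2 (h : K.PRes aug L) {y : B} (hy : ∀ x : N, y • x = 0 → x = 0) {n : ℤ}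
    (h0 : 0 ≤ n) (hn : n ≤ L) {x v : K.ι → B} (hx : x ∈ K.cw (⊤ : Submodule B B) n)
    (hv : v ∈ K.cw (⊤ : Submodule B B) (n - 1)) (h1 : K.d B x = y • v) (h2 : K.d B v = 0)
    (h3 : ∃ z, y • z = aug x) :
    ∃ w ∈ K.cw (⊤ : Submodule B B) n, ∃ u ∈ K.cw (⊤ : Submodule B B) (n + 1),
      K.d B w = v ∧ K.d B u + y • w = x := by
  have key : ∃ w ∈ K.cw (⊤ : Submodule B B) n, K.d B w = v ∧ aug (x - y • w) = 0 := by
    rcases h0.eq_or_lt with rfl | h4
    · obtain ⟨z, hz⟩ := h3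
      obtain ⟨w, hw, rfl⟩ := h.surj_res2 z
      refine ⟨w, hw, ?_, by rw [map_sub, map_smul, hz, sub_self]⟩
      rw [eq_zero_res2 (by norm_num) hv, eq_zero_res2 (by norm_num) (d_mem_res2 hw)]
    · have h5 : aug v = 0 := hy _ (by rw [← map_smul, ← h1, h.comp])
      obtain ⟨w, hw, hwv⟩ := h.bd_res2 (by omega) (by omega) hv h2 h5
      rw [sub_add_cancel] at hw
      exact ⟨w, hw, hwv, h.aug0 n h4.ne' _ (Submodule.sub_mem _ hx (Submodule.smul_mem _ _ hw))⟩
  obtain ⟨w, hw, h4, h5⟩ := key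
  obtain ⟨u, hu, h6⟩ := h.bd_res2 h0 hn (Submodule.sub_mem _ hx (Submodule.smul_mem _ y hw))
    (by rw [map_sub, map_smul, h4, h1, sub_self]) h5
  exact ⟨w, hw, u, hu, h4, by rw [h6, sub_add_cancel]⟩

theorem PRes.equiv (h : K.PRes aug L) (e : N ≃ₗ[B] M) : K.PRes (e.toLinearMap ∘ₗ aug) L :=
  ⟨h.sq, fun n hn x hx => by simp [h.aug0 n hn x hx], e.surjective.comp h.surj,
    fun x => by simp [h.comp x],
    fun x hx h0 => h.ex0 x hx (e.map_eq_zero_iff.1 h0), h.ex⟩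

theorem PRes.H0 (h : K.PRes aug L) : Nonempty (K.H 0 ≃ₗ[B] N) := by
  have hle : K.Bd (⊥ : Submodule B B) ⊤ 0 ≤ LinearMap.ker aug := by
    intro x hx
    obtain ⟨w, -, rfl⟩ := mem_Bd_res2.1 hx
    exact h.comp w
  refine ⟨LinearEquiv.ofBijective
    ((K.Bd (⊥ : Submodule B B) ⊤ 0).liftQ aug hle ∘ₗ Submodule.subtype _) ⟨?_, fun z => ?_⟩⟩
  · rw [injective_iff_map_eq_zero]
    rintro ⟨_, x, hx, rfl⟩ h0
    exact Subtype.ext ((Submodule.Quotient.mk_eq_zero _).2 (h.ex0 x (mem_Zy_res2.1 hx).1 h0))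
  · obtain ⟨x, hx, rfl⟩ := h.surj_res2 z
    exact ⟨⟨_, x, mem_Zy_res2.2 ⟨hx, eq_zero_res2 (by norm_num) (d_mem_res2 hx)⟩, rfl⟩, rfl⟩

theorem PRes.hG_eq (h : K.PRes aug L) (μ : RLen B) {n : ℤ} (hn : n ≤ L) :
    hG μ K (⊥ : Submodule B B) ⊤ n = if n = 0 then μ.len N else 0 := by
  split_ifs with h0
  · obtain ⟨e⟩ := h.H0
    rw [h0]
    exact μ.equiv e
  · rcases lt_or_gt_of_ne h0 with h1 | h1
    · refine hr_eq_zero_of_le μ n fun x hx => ?_
      rw [eq_zero_res2 h1 hx]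
      exact Submodule.zero_mem _
    · exact rr_eq_zero_of_le μ (h.ex n h1 hn)

theorem cone_inl_res2 (y : B) (x : K.ι ⊕ K.ι → N) :
    (K.cone y).d N x ∘ Sum.inl = K.d N (x ∘ Sum.inl) + y • (x ∘ Sum.inr) := by
  funext a
  simp [mact_apply, Fintype.sum_sum_type, Matrix.one_apply, ite_smul]

theorem cone_inr_res2 (y : B) (x : K.ι ⊕ K.ι → N) :
    (K.cone y).d N x ∘ Sum.inr = -K.d N (x ∘ Sum.inr) := by
  funext a
  simp [mact_apply, Fintype.sum_sum_type]

theorem mem_cone_res2 {y : B} {n : ℤ} {x : K.ι ⊕ K.ι → N} :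
    x ∈ (K.cone y).cw (⊤ : Submodule B N) n ↔
      x ∘ Sum.inl ∈ K.cw (⊤ : Submodule B N) n ∧ x ∘ Sum.inr ∈ K.cw (⊤ : Submodule B N) (n - 1) := by
  refine (mem_cw_res2 (K := K.cone y)).trans ?_
  rw [mem_cw_res2, mem_cw_res2]
  refine Sum.forall.trans (and_congr Iff.rfl (forall_congr' fun a => imp_congr ?_ Iff.rfl))
  show ((K.deg a + 1 : ℕ) : ℤ) ≠ n ↔ _
  push_cast
  omega

theorem sum_ext_res2 {ι κ α : Type*} {x x' : ι ⊕ κ → α} (h1 : x ∘ Sum.inl = x' ∘ Sum.inl)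
    (h2 : x ∘ Sum.inr = x' ∘ Sum.inr) : x = x' := by
  funext a
  rcases a with a | a
  · exact congrFun h1 a
  · exact congrFun h2 a

/-- The cone resolves the quotient by a regular element. -/
theorem PRes.cone (h : K.PRes aug L) {y : B} (hy : ∀ x : N, y • x = 0 → x = 0) (π : N →ₗ[B] M)
    (hπ : Function.Surjective π) (hk : ∀ x, π x = 0 ↔ ∃ z, y • z = x) :
    (K.cone y).PRes (π ∘ₗ aug ∘ₗ LinearMap.funLeft B B Sum.inl) L := by
  refine PRes.of_res2 (h.sq.cone y) (fun n hn x hx => ?_) (fun z => ?_) (fun x => ?_)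
    fun n h0 hn x hx h1 h2 => ?_
  · show π (aug (x ∘ Sum.inl)) = 0
    rw [h.aug0 n hn _ (mem_cone_res2.1 hx).1, map_zero]
  · obtain ⟨z, rfl⟩ := hπ z
    obtain ⟨x, rfl⟩ := h.surj z
    exact ⟨Sum.elim x 0, rfl⟩
  · show π (aug ((K.cone y).d B x ∘ Sum.inl)) = 0
    rw [cone_inl_res2, map_add, h.comp, zero_add, map_smul]
    exact (hk _).2 ⟨_, rfl⟩
  · have e1 := cone_inl_res2 y x
    have e2 := cone_inr_res2 y x
    rw [h1] at e1 e2
    obtain ⟨w, hw, u, hu, h3, h4⟩ := h.lift_res2 hy h0 hn (mem_cone_res2.1 hx).1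
      (Submodule.neg_mem _ (mem_cone_res2.1 hx).2)
      (by rw [smul_neg]; exact eq_neg_of_add_eq_zero_left e1.symm)
      (by rw [map_neg]; exact e2.symm) ((hk _).1 h2)
    refine ⟨Sum.elim u w, mem_cone_res2.2 ⟨hu, by rw [add_sub_cancel_right]; exact hw⟩,
      sum_ext_res2 ?_ ?_⟩
    · rw [cone_inl_res2]
      exact h4
    · rw [cone_inr_res2, Sum.elim_comp_inr, h3, neg_neg]

theorem isRes_one_res2 (φ : B →ₗ[B] N) (hφ : Function.Bijective φ) :
    (one B).IsRes (φ ∘ₗ LinearMap.proj ()) := by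
  intro L
  refine PRes.of_res2 (sq0_disc _) (fun n hn x hx => ?_) (fun z => ?_) (fun x => ?_)
    fun n h0 hn x hx h1 h2 => ⟨0, Submodule.zero_mem _, ?_⟩
  · show φ (x ()) = 0
    rw [mem_cw_res2.1 hx () (by simpa using hn.symm), map_zero]
  · obtain ⟨b, rfl⟩ := hφ.2 z
    exact ⟨fun _ => b, rfl⟩
  · show φ (mact B 0 x ()) = 0
    rw [mact_zero, Pi.zero_apply, map_zero]
  · rw [map_zero]
    funext a
    exact (hφ.1 ((map_zero φ).trans (Eq.symm h2)) :)

theorem isRes_kos {n : ℕ} {x : Fin n → B} (hx : PermReg x) :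
    ∃ aug : (((one B).kos (List.ofFn x)).ι → B) →ₗ[B] B ⧸ Ideal.span (Set.range x),
      ((one B).kos (List.ofFn x)).IsRes aug := by
  induction n with
  | zero =>
    rw [List.ofFn_zero]
    refine ⟨_, isRes_one_res2 (Submodule.mkQ _) ⟨?_, Submodule.mkQ_surjective _⟩⟩
    rw [← LinearMap.ker_eq_bot, Submodule.ker_mkQ, Set.range_eq_empty, Ideal.span_empty]
  | succ n ih =>
    obtain ⟨aug, h⟩ := ih (hx.comp (Fin.succ_injective n))
    rw [List.ofFn_succ]
    have hr : Set.range x = insert (x 0) (Set.range (x ∘ Fin.succ)) := Fin.range_fin_succ x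
    have hle : Ideal.span (Set.range (x ∘ Fin.succ)) ≤ Ideal.span (Set.range x) :=
      Ideal.span_mono (by rw [hr]; exact Set.subset_insert _ _)
    refine ⟨_, fun L => (h L).cone (y := x 0) ?_ (Submodule.factor hle) ?_ ?_⟩
    · intro z hz
      obtain ⟨z, rfl⟩ := Submodule.mkQ_surjective _ z
      rw [← map_smul] at hz
      have h1 := (Submodule.Quotient.mk_eq_zero _).1 hz
      refine (Submodule.Quotient.mk_eq_zero _).2 ?_
      rw [Set.range_comp] at h1 ⊢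
      exact hx (Set.range Fin.succ) 0 (by rintro ⟨i, hi⟩; exact Fin.succ_ne_zero i hi) z h1
    · intro z
      obtain ⟨z, rfl⟩ := Submodule.mkQ_surjective _ z
      exact ⟨Submodule.mkQ _ z, rfl⟩
    · intro z
      obtain ⟨z, rfl⟩ := Submodule.mkQ_surjective _ z
      rw [Submodule.factor_mk, Submodule.mkQ_apply, Submodule.Quotient.mk_eq_zero]
      conv_lhs => rw [hr, Ideal.mem_span_insert]
      constructor
      · rintro ⟨a, b, hb, rfl⟩
        refine ⟨Submodule.mkQ _ a, ?_⟩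
        rw [← map_smul, map_add, Submodule.mkQ_apply _ b, (Submodule.Quotient.mk_eq_zero _).2 hb,
          add_zero, smul_eq_mul, mul_comm]
      · rintro ⟨a, ha⟩
        obtain ⟨a, rfl⟩ := Submodule.mkQ_surjective _ a
        rw [← map_smul] at ha
        refine ⟨a, z - a * x 0, ?_, by ring⟩
        rw [mul_comm]
        exact (Submodule.Quotient.eq _).1 ha.symm

theorem sum_inl_res2 {G : GC B} (x : K.ι ⊕ G.ι → N) :
    (K.sum G).d N x ∘ Sum.inl = K.d N (x ∘ Sum.inl) := by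
  funext a
  simp [mact_apply, Fintype.sum_sum_type]

theorem sum_inr_res2 {G : GC B} (x : K.ι ⊕ G.ι → N) :
    (K.sum G).d N x ∘ Sum.inr = G.d N (x ∘ Sum.inr) := by
  funext a
  simp [mact_apply, Fintype.sum_sum_type]

theorem mem_sum_res2 {G : GC B} {n : ℤ} {x : K.ι ⊕ G.ι → N} :
    x ∈ (K.sum G).cw (⊤ : Submodule B N) n ↔
      x ∘ Sum.inl ∈ K.cw (⊤ : Submodule B N) n ∧ x ∘ Sum.inr ∈ G.cw (⊤ : Submodule B N) n := by
  refine (mem_cw_res2 (K := K.sum G)).trans ?_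
  rw [mem_cw_res2, mem_cw_res2]
  exact Sum.forall

theorem IsRes.sum (h : K.IsRes aug) {G : GC B} (hG : G.Sq0) (h1 : (1 : B) ∈ G.nh) :
    (K.sum G).IsRes (aug ∘ₗ LinearMap.funLeft B B Sum.inl) := by
  intro L
  refine PRes.of_res2 ((h L).sq.sum hG) (fun n hn x hx => ?_) (fun z => ?_) (fun x => ?_)
    fun n h0 hn x hx h2 h3 => ?_
  · exact (h L).aug0 n hn _ (mem_sum_res2.1 hx).1
  · obtain ⟨x, rfl⟩ := (h L).surj z
    exact ⟨Sum.elim x 0, rfl⟩
  · show aug ((K.sum G).d B x ∘ Sum.inl) = 0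
    rw [sum_inl_res2, (h L).comp]
  · have e1 := sum_inl_res2 x
    have e2 := sum_inr_res2 x
    rw [h2] at e1 e2
    obtain ⟨u, hu, h4⟩ := (h L).bd_res2 h0 hn (mem_sum_res2.1 hx).1 e1.symm h3
    have h5 := smul_mem_Bd (N' := (⊥ : Submodule B B)) (N'' := ⊤) (Submodule.mem_sup_left h1)
      (mem_Zy_res2.2 ⟨(mem_sum_res2.1 hx).2, e2.symm⟩)
    rw [one_smul] at h5
    obtain ⟨w, hw, h6⟩ := mem_Bd_res2.1 h5
    refine ⟨Sum.elim u w, mem_sum_res2.2 ⟨hu, hw⟩, sum_ext_res2 ?_ ?_⟩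
    · rw [sum_inl_res2]
      exact h4
    · rw [sum_inr_res2]
      exact h6

theorem d_map_res2 {B' : Type u} [CommRing B'] (π : B →+* B') (x : K.ι → B) :
    (K.map π).d B' (fun a => π (x a)) = fun a => π (K.d B x a) := by
  funext a
  simp [mact_apply]

theorem map_mem_res2 {B' : Type u} [CommRing B'] (π : B →+* B') {n : ℤ} {x : K.ι → B}
    (hx : x ∈ K.cw (⊤ : Submodule B B) n) :
    (fun a => π (x a)) ∈ (K.map π).cw (⊤ : Submodule B' B') n :=
  mem_cw_res2.2 fun a ha => by rw [mem_cw_res2.1 hx a ha, map_zero]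

theorem exists_lift_res2 {B' : Type u} [CommRing B'] {π : B →+* B'} (hπ : Function.Surjective π)
    {n : ℤ} {x : K.ι → B'} (hx : x ∈ (K.map π).cw (⊤ : Submodule B' B') n) :
    ∃ x' ∈ K.cw (⊤ : Submodule B B) n, (fun a => π (x' a)) = x := by
  choose g hg using hπ
  refine ⟨fun a => if (K.deg a : ℤ) = n then g (x a) else 0,
    mem_cw_res2.2 fun a ha => if_neg ha, funext fun a => ?_⟩
  beta_reduce
  split_ifs with ha
  · exact hg _
  · rw [map_zero, mem_cw_res2.1 hx a ha]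

theorem PRes.mod_res2 (h : K.PRes aug L) {B' : Type u} [CommRing B'] (π : B →+* B')
    (hπ : Function.Surjective π) {f : B} (hk : RingHom.ker π = Ideal.span {f})
    (hf : f ∈ nonZeroDivisors B) (hfN : ∀ x : N, f • x = 0 → x = 0) {N' : Type u}
    [AddCommGroup N'] [Module B' N'] (ρ : N →ₛₗ[π] N') (hρ : Function.Surjective ρ)
    (hρk : ∀ x, ρ x = 0 ↔ ∃ z, f • z = x) (aug' : ((K.map π).ι → B') →ₗ[B'] N')
    (ha : ∀ x, aug' (fun a => π (x a)) = ρ (aug x)) : (K.map π).PRes aug' L := by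
  have hf0 : π f = 0 := by
    rw [← RingHom.mem_ker, hk]
    exact Ideal.mem_span_singleton_self f
  have hreg : ∀ z, f * z = 0 → z = 0 := mem_nonZeroDivisors_iff_left.1 hf
  refine PRes.of_res2 (h.sq.map π) (fun n hn x hx => ?_) (fun z => ?_) (fun x => ?_)
    fun n h0 hn x hx h1 h2 => ?_
  · obtain ⟨x, hx', rfl⟩ := exists_lift_res2 hπ hx
    rw [ha, h.aug0 n hn x hx', map_zero]
  · obtain ⟨z, rfl⟩ := hρ z
    obtain ⟨x, rfl⟩ := h.surj z
    exact ⟨_, ha x⟩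
  · choose g hg using fun a => hπ (x a)
    rw [← funext hg, d_map_res2, ha, h.comp, map_zero]
  · obtain ⟨x, hx', rfl⟩ := exists_lift_res2 hπ hx
    rw [d_map_res2] at h1
    rw [ha] at h2
    have h3 : ∀ a, ∃ v, f * v = K.d B x a := fun a => by
      have h4 : K.d B x a ∈ RingHom.ker π := congrFun h1 a
      rw [hk] at h4
      obtain ⟨v, hv⟩ := Ideal.mem_span_singleton'.1 h4
      exact ⟨v, by rw [mul_comm, hv]⟩
    choose v hv using h3
    have h4 : K.d B x = f • v := funext fun a => (hv a).symm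
    obtain ⟨w, -, u, hu, -, h5⟩ := h.lift_res2 hfN h0 hn hx'
      (mem_cw_res2.2 fun a ha' => hreg _ ((hv a).trans (mem_cw_res2.1 (d_mem_res2 hx') a ha')))
      h4 (funext fun a => hreg _ (by
        have h6 := h.sq.dd x
        rw [h4, map_smul] at h6
        exact congrFun h6 a)) ((hρk _).1 h2)
    refine ⟨_, map_mem_res2 π hu, ?_⟩
    rw [d_map_res2, ← h5]
    funext a
    simp [hf0]

theorem exists_aug_res2 {B' : Type u} [CommRing B'] (π : B →+* B') {N' : Type u}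
    [AddCommGroup N'] [Module B' N'] (ρ : N →ₛₗ[π] N') (aug : (K.ι → B) →ₗ[B] N) :
    ∃ aug' : ((K.map π).ι → B') →ₗ[B'] N', ∀ x, aug' (fun a => π (x a)) = ρ (aug x) := by
  refine ⟨Fintype.linearCombination B' fun a => ρ (aug (Pi.single a 1)), fun x => ?_⟩
  rw [Fintype.linearCombination_apply, lin_eq_res2 aug x, _root_.map_sum]
  exact Finset.sum_congr rfl fun a _ => (map_smulₛₗ ρ _ _).symm

/-- Reduction modulo an element that is regular on the ring and on the module. -/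
theorem PRes.mod (h : K.PRes aug L) {B' : Type u} [CommRing B'] (π : B →+* B')
    (hπ : Function.Surjective π) {f : B} (hk : RingHom.ker π = Ideal.span {f})
    (hf : f ∈ nonZeroDivisors B) (hfN : ∀ x : N, f • x = 0 → x = 0) {N' : Type u}
    [AddCommGroup N'] [Module B' N'] (ρ : N →ₛₗ[π] N') (hρ : Function.Surjective ρ)
    (hρk : ∀ x, ρ x = 0 ↔ ∃ z, f • z = x) :
    ∃ aug' : ((K.map π).ι → B') →ₗ[B'] N', (∀ x, aug' (fun a => π (x a)) = ρ (aug x)) ∧
      (K.map π).PRes aug' L := by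
  obtain ⟨aug', ha⟩ := exists_aug_res2 π ρ aug
  exact ⟨aug', ha, h.mod_res2 π hπ hk hf hfN ρ hρ hρk aug' ha⟩

theorem IsRes.mod (h : K.IsRes aug) {B' : Type u} [CommRing B'] (π : B →+* B')
    (hπ : Function.Surjective π) {f : B} (hk : RingHom.ker π = Ideal.span {f})
    (hf : f ∈ nonZeroDivisors B) (hfN : ∀ x : N, f • x = 0 → x = 0) {N' : Type u}
    [AddCommGroup N'] [Module B' N'] (ρ : N →ₛₗ[π] N') (hρ : Function.Surjective ρ)
    (hρk : ∀ x, ρ x = 0 ↔ ∃ z, f • z = x) :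
    ∃ aug' : ((K.map π).ι → B') →ₗ[B'] N', (K.map π).IsRes aug' := by
  obtain ⟨aug', ha⟩ := exists_aug_res2 π ρ aug
  exact ⟨aug', fun L => (h L).mod_res2 π hπ hk hf hfN ρ hρ hρk aug' ha⟩

theorem PRes.ker_bc_res2 (h : K.PRes aug L) (T : Type u) [CommRing T] [Algebra B T]
    (u : T ⊗[B] LinearMap.ker aug) :
    (fun a => if (K.deg a : ℤ) = 0 then
      piScalarRight B T T K.ι ((LinearMap.ker aug).subtype.lTensor T u) a else 0) ∈
      (K.map (algebraMap B T)).Bd (⊥ : Submodule T T) ⊤ 0 := by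
  induction u using TensorProduct.induction_on with
  | zero =>
    simp only [map_zero, Pi.zero_apply, ite_self]
    exact Submodule.zero_mem _
  | tmul t k =>
    obtain ⟨w, hw, h1⟩ := mem_Bd_res2.1 (h.ex0 _ (mem_cw_res2.2 fun a ha => if_neg ha)
      ((h.aug_prj_res2 k).trans k.2))
    refine mem_Bd_res2.2 ⟨t • fun a => algebraMap B T (w a),
      Submodule.smul_mem _ _ (map_mem_res2 _ hw), ?_⟩
    rw [map_smul, d_map_res2, h1]
    funext a
    simp only [LinearMap.lTensor_tmul, piScalarRight_apply, piScalarRightHom_tmul, Pi.smul_apply,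
      Submodule.subtype_apply]
    split_ifs
    · rw [smul_eq_mul, mul_comm, Algebra.smul_def]
    · simp
  | add u v hu hv =>
    have := Submodule.add_mem _ hu hv
    refine (congrArg (· ∈ _) (funext fun a => ?_)).mp this
    simp only [map_add, Pi.add_apply]
    split_ifs <;> simp

/-- Flat base change. -/
theorem IsRes.bc (h : K.IsRes aug) (T : Type u) [CommRing T] [Algebra B T] [Module.Flat B T] :
    ∃ aug' : ((K.map (algebraMap B T)).ι → T) →ₗ[T] T ⊗[B] N,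
      (K.map (algebraMap B T)).IsRes aug' := by
  refine ⟨aug.baseChange T ∘ₗ (piScalarRight B T T K.ι).symm.toLinearMap, fun L => ?_⟩
  have h := h L
  have ha : ∀ x : K.ι → B, (aug.baseChange T ∘ₗ (piScalarRight B T T K.ι).symm.toLinearMap)
      (fun a => algebraMap B T (x a)) = 1 ⊗ₜ aug x := by
    intro x
    have : (fun a => algebraMap B T (x a)) = piScalarRight B T T K.ι (1 ⊗ₜ x) := by
      funext a
      simp [Algebra.smul_def]
    rw [this, LinearMap.comp_apply, LinearEquiv.coe_coe, LinearEquiv.symm_apply_apply,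
      LinearMap.baseChange_tmul]
  have hs : ∀ a : K.ι, (Pi.single a 1 : K.ι → T) =
      fun b => algebraMap B T ((Pi.single a 1 : K.ι → B) b) := by
    intro a
    funext b
    simp only [Pi.single_apply]
    split_ifs <;> simp
  refine ⟨h.sq.map _, fun n hn x hx => ?_, ?_, fun x => ?_, fun x hx h0 => ?_, fun n h1 h2 => ?_⟩
  · rw [lin_eq_res2]
    refine Finset.sum_eq_zero fun a _ => ?_
    by_cases h1 : (K.deg a : ℤ) = 0
    · rw [mem_cw_res2.1 hx a (by rw [h1]; exact hn.symm), zero_smul]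
    · rw [hs, ha, h.aug_single_res2 h1, tmul_zero, smul_zero]
  · exact (LinearMap.lTensor_surjective T h.surj).comp (piScalarRight B T T K.ι).symm.surjective
  · rw [← LinearMap.comp_apply, lin_eq_res2]
    refine Finset.sum_eq_zero fun a _ => ?_
    rw [LinearMap.comp_apply, hs, d_map_res2, ha, h.comp, tmul_zero, smul_zero]
  · obtain ⟨u, hu⟩ := (lTensor_exact T (LinearMap.exact_subtype_ker_map aug) h.surj _).1 h0
    have h1 := h.ker_bc_res2 T u
    rw [hu] at h1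
    refine (congrArg (· ∈ _) (funext fun a => ?_)).mp h1
    split_ifs with h2
    · simp
    · exact (mem_cw_res2.1 hx a h2).symm
  · refine (hr_triv_eq_zero_iff (S := T)).1 ?_
    have h3 := hG_equiv (RLen.triv T) (K.map (algebraMap B T)) (AlgebraTensorModule.rid B T T) n
    have h4 := hG_bc (RLen.triv T) K B n
    rw [h.hG_eq _ h2, if_neg (by omega)] at h4
    exact h3.symm.trans h4

theorem IsRes.bc_quot {I : Ideal B} {aug : (K.ι → B) →ₗ[B] B ⧸ I} (h : K.IsRes aug) (T : Type u)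
    [CommRing T] [Algebra B T] [Module.Flat B T] :
    ∃ aug' : ((K.map (algebraMap B T)).ι → T) →ₗ[T] T ⧸ I.map (algebraMap B T),
      (K.map (algebraMap B T)).IsRes aug' := by
  obtain ⟨aug', h'⟩ := h.bc T
  exact ⟨_, fun L => (h' L).equiv
    (Algebra.TensorProduct.quotIdealMapEquivTensorQuot T I).toLinearEquiv.symm⟩

end GC

end Vale.Agent.P177
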