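import Vale.Agent.P177.E1
import Vale.Agent.P177.EFn
import Vale.Agent.P177.Res2
import Vale.Agent.P177.Cmp

/-! Balancing and hyperhomology. -/

namespace Vale.Agent.P177

open Vale.Agent.P202 IsLocalRing TensorProduct
open scoped ENNReal

universe u

variable {B : Type u} [CommRing B] {N M : Type u} [AddCommGroup N] [Module B N] [AddCommGroup M]
  [Module B M] (μ : RLen B) {K G : GC B} {aK : (K.ι → B) →ₗ[B] N} {aG : (G.ι → B) →ₗ[B] M}
  {L : ℕ}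

theorem hG_tens_res (hK : K.Sq0) (hG' : G.PRes aG L) {n : ℤ} (hn : n ≤ L) :
    hG μ (K.tens G) (⊥ : Submodule B B) ⊤ n = hG μ K (⊥ : Submodule B M) ⊤ n := by
  obtain ⟨e⟩ := hG'.H0
  rw [GC.tens_E1_single μ hK hG'.sq bot_le hG'.ex hn, hG_HM μ K (hG'.sq.Bd_le bot_le 0),
    hG_equiv μ K e]

/-- Tor is balanced. -/
theorem hG_swap (hK : K.PRes aK L) (hG' : G.PRes aG L) {n : ℤ} (hn : n ≤ L) :
    hG μ K (⊥ : Submodule B M) ⊤ n = hG μ G (⊥ : Submodule B N) ⊤ n := by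
  rw [← hG_tens_res μ hK.sq hG' hn, ← hG_tens_res μ hG'.sq hK hn, (GC.tens_comm K G).hG_eq]

theorem hG_swap' (hK : K.IsRes aK) (hG' : G.IsRes aG) (n : ℤ) :
    hG μ K (⊥ : Submodule B M) ⊤ n = hG μ G (⊥ : Submodule B N) ⊤ n := by
  exact hG_swap μ (hK n.toNat) (hG' n.toNat) (Int.self_le_toNat n)

theorem hyper (hK : K.Sq0) (hL : K.Top L) (hG' : G.IsRes aG)
    (hg : ∀ j : ℕ, j ≤ L → GoodG μ G (⊥ : Submodule B (K.H j)) ⊤) :
    GoodG μ K (⊥ : Submodule B M) ⊤ ∧ chiG μ K (⊥ : Submodule B M) ⊤ =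
      ∑ j ∈ Finset.range (L + 1), (-1 : ℝ) ^ j * chiG μ G (⊥ : Submodule B (K.H j)) ⊤ := by
  have hsq := (hG' 0).sq
  have h1 : ∀ n, hG μ K (⊥ : Submodule B M) ⊤ n = hG μ (G.tens K) (⊥ : Submodule B B) ⊤ n :=
    fun n => by
      rw [← hG_tens_res μ hK (hG' n.toNat) (Int.self_le_toNat n), (GC.tens_comm K G).hG_eq]
  have h2 : ∀ j : ℤ, (GoodG μ G (K.Bd (⊥ : Submodule B B) ⊤ j) (K.Zy (⊥ : Submodule B B) ⊤ j) ↔
      GoodG μ G (⊥ : Submodule B (K.H j)) ⊤) ∧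
      chiG μ G (K.Bd (⊥ : Submodule B B) ⊤ j) (K.Zy (⊥ : Submodule B B) ⊤ j) =
        chiG μ G (⊥ : Submodule B (K.H j)) ⊤ := fun j =>
    good_chi_congr μ fun n => hG_HM μ G (hK.Bd_le bot_le j) n
  obtain ⟨h3, h4⟩ := GC.tens_E1_chi μ hsq hK hL (bot_le : (⊥ : Submodule B B) ≤ ⊤)
    fun j hj => (h2 j).1.2 (hg j hj)
  obtain ⟨h5, h6⟩ := good_chi_congr μ h1
  refine ⟨h5.2 h3, ?_⟩
  rw [chiG, h6, ← chiG, h4]
  exact Finset.sum_congr rfl fun j _ => by rw [(h2 j).2]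

section bc

variable {R : Type u} [CommRing R] [Algebra R B] [Module.Flat R B] {F : GC R}

theorem hyper_bc (hF : F.Sq0) (hL : F.Top L) (hG' : G.IsRes aG)
    (hg : ∀ j : ℕ, j ≤ L → GoodG μ G (⊥ : Submodule B (B ⊗[R] F.H j)) ⊤) :
    GoodG μ (F.map (algebraMap R B)) (⊥ : Submodule B M) ⊤ ∧
      chiG μ (F.map (algebraMap R B)) (⊥ : Submodule B M) ⊤ = ∑ j ∈ Finset.range (L + 1),
        (-1 : ℝ) ^ j * chiG μ G (⊥ : Submodule B (B ⊗[R] F.H j)) ⊤ := by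
  have hsq := (hG' 0).sq
  have hK := hF.map (algebraMap R B)
  have hL' : (F.map (algebraMap R B)).Top L := hL
  have h1 : ∀ n, hG μ (F.map (algebraMap R B)) (⊥ : Submodule B M) ⊤ n =
      hG μ (G.tens (F.map (algebraMap R B))) (⊥ : Submodule B (B ⊗[R] R)) ⊤ n :=
    fun n => by
      rw [← hG_tens_res μ hK (hG' n.toNat) (Int.self_le_toNat n), (GC.tens_comm _ G).hG_eq,
        hG_equiv μ _ (TensorProduct.AlgebraTensorModule.rid R B B)]
  have h2 : ∀ j : ℤ, (GoodG μ G ((F.map (algebraMap R B)).Bd (⊥ : Submodule B (B ⊗[R] R)) ⊤ j)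
        ((F.map (algebraMap R B)).Zy (⊥ : Submodule B (B ⊗[R] R)) ⊤ j) ↔
      GoodG μ G (⊥ : Submodule B (B ⊗[R] F.H j)) ⊤) ∧
      chiG μ G ((F.map (algebraMap R B)).Bd (⊥ : Submodule B (B ⊗[R] R)) ⊤ j)
        ((F.map (algebraMap R B)).Zy (⊥ : Submodule B (B ⊗[R] R)) ⊤ j) =
        chiG μ G (⊥ : Submodule B (B ⊗[R] F.H j)) ⊤ := fun j => by
    obtain ⟨e⟩ := homology_bc (S := B) hF (E := R) j
    exact good_chi_congr μ fun n => (hG_HM μ G (hK.Bd_le bot_le j) n).trans (hG_equiv μ G e n)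
  obtain ⟨h3, h4⟩ := GC.tens_E1_chi μ hsq hK hL' (bot_le : (⊥ : Submodule B (B ⊗[R] R)) ≤ ⊤)
    fun j hj => (h2 j).1.2 (hg j hj)
  obtain ⟨h5, h6⟩ := good_chi_congr μ h1
  refine ⟨h5.2 h3, ?_⟩
  rw [chiG, h6, ← chiG, h4]
  exact Finset.sum_congr rfl fun j _ => by rw [(h2 j).2]

theorem nh_le_ann (F : GC R) (j : ℤ) : F.nh ≤ Module.annihilator R (F.H j) := by
  intro z hz
  rw [Module.mem_annihilator]
  rintro ⟨_, x, hx, rfl⟩
  apply Subtype.ext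
  have := GC.smul_mem_Bd (N' := (⊥ : Submodule R R)) (N'' := ⊤) (Ideal.mem_sup_left hz) hx
  change z • Submodule.mkQ _ x = 0
  rw [← map_smul, Submodule.mkQ_apply, Submodule.Quotient.mk_eq_zero]
  exact this

/-- Vanishing on all primes in the support. -/
theorem hyper_zero [IsNoetherianRing R] (hF : F.Sq0) (hG' : G.IsRes aG) {I : Ideal R}
    (hI : I ≤ F.nh) (h : ∀ Q : Ideal R, Q.IsPrime → I ≤ Q →
      GoodG μ G (Q.map (algebraMap R B)) ⊤ ∧ chiG μ G (Q.map (algebraMap R B)) ⊤ = 0) :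
    GoodG μ (F.map (algebraMap R B)) (⊥ : Submodule B M) ⊤ ∧
      chiG μ (F.map (algebraMap R B)) (⊥ : Submodule B M) ⊤ = 0 := by
  obtain ⟨L, hL⟩ := F.exists_top
  have hq := fun Q : Ideal R => good_chi_congr μ (hG_tensor_quot μ G Q)
  have h1 : ∀ j : ℤ, GoodG μ G (⊥ : Submodule B (B ⊗[R] F.H j)) ⊤ ∧
      chiG μ G (⊥ : Submodule B (B ⊗[R] F.H j)) ⊤ = 0 := fun j =>
    EFn.dev_zero ((EFn.ofG μ G (hG' 0).sq).bc : EFn R) (hI.trans (nh_le_ann F j)) fun Q hQ hIQ =>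
      ⟨(hq Q).1.2 (h Q hQ hIQ).1, (hq Q).2.trans (h Q hQ hIQ).2⟩
  obtain ⟨h2, h3⟩ := hyper_bc μ hF hL hG' fun j _ => (h1 j).1
  refine ⟨h2, h3.trans (Finset.sum_eq_zero fun j _ => ?_)⟩
  rw [(h1 j).2, mul_zero]

/-- Complexes supported on a prime. -/
theorem hyper_pure [IsNoetherianRing R] (hF : F.Sq0) (hG' : G.IsRes aG) (Q : Ideal R) [Q.IsPrime]
    (hQ : Q ≤ F.nh)
    (h : ∀ Q' : Ideal R, Q'.IsPrime → Q ≤ Q' → GoodG μ G (Q'.map (algebraMap R B)) ⊤)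
    (h0 : ∀ Q' : Ideal R, Q'.IsPrime → Q < Q' → chiG μ G (Q'.map (algebraMap R B)) ⊤ = 0) :
    GoodG μ (F.map (algebraMap R B)) (⊥ : Submodule B M) ⊤ ∧
      chiG μ (F.map (algebraMap R B)) (⊥ : Submodule B M) ⊤ =
        chiG (RLen.ofLen (Localization.AtPrime Q)) (F.map (algebraMap R (Localization.AtPrime Q)))
          (⊥ : Submodule (Localization.AtPrime Q) (Localization.AtPrime Q)) ⊤ *
        chiG μ G (Q.map (algebraMap R B)) ⊤ := by
  obtain ⟨L, hL⟩ := F.exists_top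
  have hq := fun Q : Ideal R => good_chi_congr μ (hG_tensor_quot μ G Q)
  have h1 := fun j : ℤ =>
    EFn.dev_pure ((EFn.ofG μ G (hG' 0).sq).bc : EFn R) Q (hQ.trans (nh_le_ann F j))
      (fun Q' hQ' hle => (hq Q').1.2 (h Q' hQ' hle))
      (fun Q' hQ' hlt => (hq Q').2.trans (h0 Q' hQ' hlt))
  obtain ⟨h2, h3⟩ := hyper_bc μ hF hL hG' fun j _ => (h1 j).1
  refine ⟨h2, h3.trans ?_⟩
  have hL' : (F.map (algebraMap R (Localization.AtPrime Q))).Top L := hL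
  have h4 := hL'.chi_eq_sum (RLen.ofLen (Localization.AtPrime Q))
    (fun _ => (⊥ : Submodule (Localization.AtPrime Q) (Localization.AtPrime Q))) fun _ => ⊤
  rw [chiG, h4, Finset.sum_mul]
  refine Finset.sum_congr rfl fun j _ => ?_
  have h5 : hG (RLen.ofLen (Localization.AtPrime Q))
      (F.map (algebraMap R (Localization.AtPrime Q)))
      (⊥ : Submodule (Localization.AtPrime Q) (Localization.AtPrime Q)) ⊤ j =
      ((RLen.ofLen (Localization.AtPrime Q)).bc : RLen R).len (F.H j) := by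
    rw [← hG_equiv _ _ (TensorProduct.AlgebraTensorModule.rid R (Localization.AtPrime Q)
      (Localization.AtPrime Q)), hG_bc]
    rfl
  have h6 : chiG μ G (⊥ : Submodule B (B ⊗[R] F.H j)) ⊤ =
      (((RLen.ofLen (Localization.AtPrime Q)).bc : RLen R).len (F.H j)).toReal *
        chiG μ G (⊥ : Submodule B (B ⊗[R] (R ⧸ Q))) ⊤ := (h1 j).2.2
  rw [h6, mul_assoc, ← h5]
  congr 2
  exact (hq Q).2

end bc

theorem Chi.intro (hK : K.IsRes aK) {x : ℝ} (h : GoodG (RLen.ofLen B) K (⊥ : Submodule B M) ⊤)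
    (hx : chiG (RLen.ofLen B) K (⊥ : Submodule B M) ⊤ = x) : Chi B M N x := by
  intro G aG hG'
  obtain ⟨h1, h2⟩ := good_chi_congr (RLen.ofLen B)
    ((hK.htpy hG' (LinearEquiv.refl B N)).hG_eq (RLen.ofLen B) (⊥ : Submodule B M) ⊤)
  exact ⟨h1.1 h, h2.symm.trans hx⟩

theorem Chi.symm (hB : HasRes B) [Module.Finite B M] [Module.Finite B N] {x : ℝ}
    (h : Chi B M N x) : Chi B N M x := by
  intro G aG hG'
  obtain ⟨K, aK, hK⟩ := hB N
  obtain ⟨h1, h2⟩ := good_chi_congr (RLen.ofLen B) (hG_swap' (RLen.ofLen B) hK hG')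
  exact ⟨h1.1 (h K aK hK).1, h2.symm.trans (h K aK hK).2⟩

theorem Chi.equiv {M' N' : Type u} [AddCommGroup M'] [Module B M'] [AddCommGroup N'] [Module B N']
    {x : ℝ} (h : Chi B M N x) (e : M ≃ₗ[B] M') (e' : N ≃ₗ[B] N') : Chi B M' N' x := by
  intro K aK hK
  obtain ⟨h3, h4⟩ := h K (e'.symm.toLinearMap ∘ₗ aK) fun L => (hK L).equiv e'.symm
  obtain ⟨h1, h2⟩ := good_chi_congr (RLen.ofLen B) (hG_equiv (RLen.ofLen B) K e)
  exact ⟨h1.1 h3, h2.symm.trans h4⟩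

theorem exists_chi [IsNoetherianRing B] [IsLocalRing B] (hB : HasRes B) [Module.Finite B M]
    [Module.Finite B N] {t : ℕ}
    (ht : maximalIdeal B ^ t ≤ Module.annihilator B M ⊔ Module.annihilator B N) :
    ∃ x, Chi B M N x := by
  obtain ⟨K, aK, hK⟩ := hB N
  refine ⟨_, Chi.intro hK (good_of_kill K (t := t) (ht.trans (sup_le ?_ ?_))) rfl⟩
  · refine le_sup_of_le_right fun z hz => ?_
    rw [Submodule.mem_colon]
    intro x _
    exact Module.mem_annihilator.1 hz x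
  · exact le_sup_of_le_left hK.ann_le_nh

end Vale.Agent.P177
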