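import Vale.Agent.P177.PurK
import Vale.Agent.P177.Hyp

/-! Global purity. -/

namespace Vale.Agent.P177

open Vale.Agent.P202 IsLocalRing
open scoped ENNReal

universe u

variable {R T : Type u} [CommRing R] [IsNoetherianRing R] [CommRing T] [Algebra R T]
  [Module.Flat R T] {M : Type u} [AddCommGroup M] [Module T M] {l : ℕ} [NeZero l]

theorem purity (hl : l.Prime) (ho : Odd l) (hu : IsUnit (l : R)) (μ : RLen T) {G : GC T}
    {aG : (G.ι → T) →ₗ[T] M} (hG' : G.IsRes aG) (Q : Ideal R) [Q.IsPrime] {F : GC R}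
    {aF : (F.ι → R) →ₗ[R] R ⧸ Q} (hF : F.IsRes aF) {h : ℕ} {x : Fin h → Localization.AtPrime Q}
    (hx : PermReg x) (hm : Ideal.span (Set.range x) = maximalIdeal (Localization.AtPrime Q))
    (hg : ∀ Q' : Ideal R, Q'.IsPrime → Q ≤ Q' → GoodG μ G (Q'.map (algebraMap R T)) ⊤)
    (h0 : ∀ Q' : Ideal R, Q'.IsPrime → Q < Q' → chiG μ G (Q'.map (algebraMap R T)) ⊤ = 0) :
    GoodPG l μ (F.map (algebraMap R T)) (⊥ : Submodule T M) ⊤ ∧
      psiG l μ (F.map (algebraMap R T)) (⊥ : Submodule T M) ⊤ =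
        ((l : ℝ) - 1) * (l : ℝ) ^ h * chiG μ G (Q.map (algebraMap R T)) ⊤ := by
  have hS : F.Sq0 := (hF 0).sq
  have hQ : Q ≤ F.nh := by
    have := hF.ann_le_nh
    rwa [Ideal.annihilator_quotient] at this
  obtain ⟨g1, c1⟩ := hyper_pure μ (hS.tp ho) hG' Q (hQ.trans (F.nh_le_tp ho)) hg h0
  obtain ⟨g2, c2⟩ := hyper_pure μ (hS.sp ho) hG' Q (hQ.trans (F.nh_le_sp ho hu)) hg h0
  rw [GC.map_tp] at g1
  rw [GC.map_sp] at g2
  rw [GC.map_tp, GC.map_tp] at c1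
  rw [GC.map_sp, GC.map_sp] at c2
  have h1 := hF.bc_quot (Localization.AtPrime Q)
  rw [Localization.AtPrime.map_eq_maximalIdeal] at h1
  obtain ⟨aug, h1⟩ := h1
  have hu' : IsUnit (l : Localization.AtPrime Q) := by
    simpa using hu.map (algebraMap R (Localization.AtPrime Q))
  have h2 := psiG_res hl ho hu' hx hm h1
  refine ⟨⟨g1, g2⟩, ?_⟩
  unfold psiG at h2 ⊢
  rw [c1, c2, ← h2]
  ring

/-- Odd primes that are units. -/
theorem exists_prime_unit (R : Type u) [CommRing R] [IsLocalRing R] (n : ℕ) :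
    ∃ l : ℕ, n ≤ l ∧ l.Prime ∧ Odd l ∧ IsUnit (l : R) := by
  obtain ⟨p, hp, hp'⟩ := Nat.exists_infinite_primes (n + 3)
  obtain ⟨q, hq, hq'⟩ := Nat.exists_infinite_primes (p + 1)
  have hc : IsCoprime (p : R) (q : R) :=
    Nat.Coprime.cast ((Nat.coprime_primes hp' hq').2 (by omega))
  obtain ⟨a, b, hab⟩ := hc
  rcases IsLocalRing.isUnit_or_isUnit_of_add_one hab with h | h
  · exact ⟨p, by omega, hp', hp'.odd_of_ne_two (by omega), isUnit_of_mul_isUnit_right h⟩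
  · exact ⟨q, by omega, hq', hq'.odd_of_ne_two (by omega), isUnit_of_mul_isUnit_right h⟩

/-- The limiting argument. -/
theorem eq_zero_of_bound (R : Type u) [CommRing R] [IsLocalRing R] {x C : ℝ} {h a : ℕ}
    (ha : a < h) (H : ∀ l : ℕ, l.Prime → Odd l → IsUnit (l : R) →
      (l : ℝ) ^ h * |x| ≤ C * (l : ℝ) ^ a) : x = 0 := by
  by_contra hx
  have hx' : 0 < |x| := abs_pos.2 hx
  obtain ⟨n, hn⟩ := exists_nat_gt (C / |x|)
  obtain ⟨l, h1, h2, h3, h4⟩ := exists_prime_unit R n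
  have h5 := H l h2 h3 h4
  have h6 : (1 : ℝ) ≤ l := by exact_mod_cast h2.one_le
  have h7 : (l : ℝ) ^ (a + 1) ≤ (l : ℝ) ^ h := pow_le_pow_right₀ h6 ha
  have h8 : C < l * |x| := (div_lt_iff₀ hx').1 (hn.trans_le (by exact_mod_cast h1))
  have h9 : (0 : ℝ) < (l : ℝ) ^ a := by positivity
  have h10 := mul_le_mul_of_nonneg_right h7 hx'.le
  have h11 := mul_lt_mul_of_pos_right h8 h9
  rw [pow_succ] at h10
  linarith

end Vale.Agent.P177
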