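import Vale.Agent.P177.Lift
import Vale.Agent.P177.KP
import Vale.Agent.P177.Pur
import Vale.Agent.P177.H0

/-! Purity and positivity over the perfectoid ring. -/

namespace Vale.Agent.P177

open Vale.Agent.P202 IsLocalRing Polynomial
open scoped ENNReal

universe u

theorem bkp_cone {S : Type u} [CommRing S] (μ : RLen S) (l : List S) (J : Ideal S) {y : S}
    (hy : ∀ z, y * z ∈ J → z ∈ J) (i : ℤ) : hG μ ((GC.one S).kos (y :: l)) J ⊤ i =
      hG μ ((GC.one S).kos l) (J ⊔ Ideal.span {y}) ⊤ i := by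
  have e : (⊤ : Submodule S S).map (LinearMap.lsmul S S y) = Ideal.span {y} := by
    ext z
    rw [Ideal.mem_span_singleton']
    exact ⟨fun ⟨w, _, hw⟩ => ⟨w, (mul_comm w y).trans hw⟩,
      fun ⟨w, hw⟩ => ⟨w, trivial, (mul_comm y w).trans hw⟩⟩
  rw [← e]
  exact GC.hG_cone_reg μ (GC.sq0_kos l) le_top (fun z _ hz => hy z hz) i

variable {A C : Type u} [CommRing A] [IsLocalRing A] [IsNoetherianRing A] [CommRing C]
  [IsLocalRing C] [IsNoetherianRing C] [Algebra A C] {p a : ℕ} {Xv : Fin a → A}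
  {θ : C} {F : A[X]} {Δ Γ : A} {N n0 c2 s : ℕ} {𝔞 : ℕ → Ideal C} {O : Obj A C F.natDegree s}

omit [IsNoetherianRing A] [IsNoetherianRing C] in
/-- The Koszul homology of the parameters on `U / p`. -/
theorem kos_U {ε : ℝ≥0∞} (hD : Dat p Xv θ F Δ Γ) (h : O.Ok p θ F N 𝔞 n0 c2 ε) (i : ℤ) :
    hG (O.μ.res O.β0) ((GC.one O.U).kos (List.ofFn fun j => O.β0 (O.α0 (Xv j))))
      (Ideal.span {(p : O.U)}) ⊤ i = if i = 0 then 1 else 0 := by
  let _ : Algebra A O.U := (O.β0.comp O.α0).toAlgebra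
  have hcov : Cov p θ F (algebraMap A O.U) O.j (O.β0 O.κ0) O.τ := h.cov
  have : Module.Flat A O.U := h.cov.flat
  have hp : (p : A) ∈ maximalIdeal A := hD.max ▸ Ideal.subset_span (Set.mem_insert _ _)
  have hp0 : (p : A) ∈ nonZeroDivisors A := mem_nonZeroDivisors_iff_left.2 fun z hz => by
    simpa using hD.reg ∅ none (Set.notMem_empty _) z (by simp [hz])
  have hpU := hcov.p_reg hp0
  have e1 : (fun o : Option (Fin a) => o.elim (p : A) Xv) ∘ finSuccEquiv a =
      Fin.cons (p : A) Xv := by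
    funext k
    refine Fin.cases ?_ (fun k => ?_) k <;> simp
  have hx : PermReg (Fin.cons (p : A) Xv : Fin (a + 1) → A) :=
    e1 ▸ hD.reg.comp (finSuccEquiv a).injective
  obtain ⟨aug, haug⟩ := GC.isRes_kos hx
  obtain ⟨aug', haug'⟩ := haug.bc_quot O.U
  have h1 := (haug' i.toNat).hG_eq (O.μ.res O.β0) (Int.self_le_toNat i)
  have h2 : (O.μ.res O.β0).q ((maximalIdeal A).map (algebraMap A O.U)) = 1 := h.q_U hp
  rw [GC.map_one_kos, List.ofFn_cons, List.map_cons, map_natCast,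
    bkp_cone _ _ _ fun z hz => mem_nonZeroDivisors_iff_left.1 hpU z hz, bot_sup_eq,
    Fin.range_cons, ← hD.max, List.map_ofFn] at h1
  exact h1.trans (by rw [← h2])

omit [IsNoetherianRing A] [IsNoetherianRing C] in
/-- The Koszul homology of the parameters on `AA / p`. -/
theorem kos_AA (hD : Dat p Xv θ F Δ Γ) (h : O.Ok p θ F N 𝔞 n0 c2 0) (hκ : Null O.μ O.κ0) (i : ℤ) :
    hG (O.μ.res O.ψ) ((GC.one O.AA).kos (O.ψ O.t0 :: List.ofFn fun j => O.ψ (O.α0 (Xv j))))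
      (Ideal.span {(p : O.AA)}) ⊤ i = if i = 0 then 1 else 0 := by
  have hc : O.β.comp O.ψ = O.j.comp O.β0 := RingHom.ext h.comm
  have h1 := hG_ring O.μ ((GC.one O.A0).kos (List.ofFn fun j => O.α0 (Xv j))) O.ψ O.β
    (J := Ideal.span {(p : O.AA)} ⊔ Ideal.span {O.ψ O.t0}) (J' := Ideal.span {(p : O.B)})
    (fun y => by
      obtain ⟨x, rfl⟩ := h.pri.surj y
      exact ⟨x, by rw [sub_self]; exact zero_mem _⟩)
    (fun x => by
      constructor
      · intro hx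
        obtain ⟨w, hw⟩ := Ideal.mem_span_singleton'.1 hx
        obtain ⟨w, rfl⟩ := h.pri.surj w
        have h2 : x - w * p ∈ RingHom.ker O.β := by
          rw [RingHom.mem_ker, map_sub, map_mul, map_natCast, hw, sub_self]
        rw [h.pri.ker] at h2
        obtain ⟨z, hz⟩ := Ideal.mem_span_singleton'.1 h2
        have e : x = (w + z) * p + (-z) * O.ψ O.t0 := by linear_combination -hz
        rw [e]
        exact Submodule.add_mem_sup (Ideal.mul_mem_left _ _ (Ideal.mem_span_singleton_self _))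
          (Ideal.mul_mem_left _ _ (Ideal.mem_span_singleton_self _))
      · intro hx
        refine (sup_le ?_ ?_ : _ ≤ (Ideal.span {(p : O.B)}).comap O.β) hx
        · rw [Ideal.span_singleton_le_iff_mem, Ideal.mem_comap, map_natCast]
          exact Ideal.mem_span_singleton_self _
        · rw [Ideal.span_singleton_le_iff_mem, Ideal.mem_comap, h.comm, h.t0U, map_natCast]
          exact Ideal.mem_span_singleton_self _) i
  have h2 := hG_almost hκ (GC.sq0_kos (List.ofFn fun j => O.α0 (Xv j))) O.β0 O.j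
    (J := Ideal.span {(p : O.U)}) (J' := Ideal.span {(p : O.B)}) 1
    (fun x hx => by
      obtain ⟨w, rfl⟩ := Ideal.mem_span_singleton'.1 hx
      rw [map_mul, map_natCast]
      exact Ideal.mul_mem_left _ _ (Ideal.mem_span_singleton_self _))
    (fun y => by
      rw [pow_one]
      exact h.cov.r1 y)
    (fun x hx => by
      rw [pow_one]
      exact h.cov.r2 x hx) i
  rw [hc, ← h2, GC.map_one_kos, GC.map_one_kos, List.map_ofFn, List.map_ofFn] at h1
  rw [bkp_cone _ _ _ h.pri.tA]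
  exact h1.trans (kos_U hD h i)

variable {R : Type u} [CommRing R] [IsLocalRing R] [IsNoetherianRing R]

theorem purity_B (hD : Dat p Xv θ F Δ Γ) (h : O.Ok p θ F N 𝔞 n0 c2 0) (hκ : Null O.μ O.κ0)
    (f : R →+* C) (hf : Function.Surjective f) (i : Fin F.natDegree) {T : Type u} [CommRing T]
    [Algebra R T] {c : O.AA →+* T} {ev : T →+* O.B} {y : List T} {d : ℕ}
    (hT : Lft p d (O.I0.map O.ψ) O.β ((O.τ i).comp f) c ev y) (Q : Ideal R) [Q.IsPrime] {t : ℕ}
    (ht : maximalIdeal R ^ t ≤ RingHom.ker f ⊔ Q) {b : ℕ} (hb : ringKrullDim (R ⧸ Q) = b)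
    (hd : d = a + 1 + b) {K : GC R} {aK : (K.ι → R) →ₗ[R] R ⧸ Q} (hK : K.IsRes aK) {h' : ℕ}
    {x : Fin h' → Localization.AtPrime Q} (hx : PermReg x)
    (hm : Ideal.span (Set.range x) = maximalIdeal (Localization.AtPrime Q)) :
    ∃ ϑ : ℝ, 0 < ϑ ∧ ∀ (l : ℕ) [NeZero l], l.Prime → Odd l → IsUnit (l : R) →
      GoodPG l (O.μ.res O.toB) (K.map ((O.τ i).comp f)) (⊥ : Submodule O.B O.B) ⊤ ∧
      psiG l (O.μ.res O.toB) (K.map ((O.τ i).comp f)) (⊥ : Submodule O.B O.B) ⊤ =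
        ((l : ℝ) - 1) * (l : ℝ) ^ h' * ϑ := by
  have := hT.flat
  have := hD.loc
  obtain ⟨aug, haug⟩ := hT.res
  have e1 : ev.comp (c.comp O.ψ) = O.toB := RingHom.ext fun z => (hT.evc _).trans (h.comm z)
  have e2 : ev.comp (algebraMap R T) = (O.τ i).comp f := RingHom.ext hT.evR
  let w : List T := (O.t0 :: List.ofFn fun j => O.α0 (Xv j)).map (c.comp O.ψ)
  have hw : ∀ n : ℤ, hG (O.μ.res (c.comp O.ψ)) ((GC.one T).kos w) (mS R T) ⊤ n =
      if n = 0 then 1 else 0 := fun n => by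
    have h1 := hG_ring O.μ ((GC.one O.A0).kos (O.t0 :: List.ofFn fun j => O.α0 (Xv j))) O.ψ c
      hT.fib1 hT.fib2 n
    rw [GC.map_one_kos, GC.map_one_kos, List.map_cons (f := O.ψ), List.map_ofFn] at h1
    exact h1.symm.trans (kos_AA hD h hκ n)
  have hr : ∀ (Q' : Ideal R), Q ≤ Q' → ∀ x : T, ∀ r ∈ maximalIdeal R, ev x = O.τ i (f r) →
      ∃ n : ℕ, x ^ n ∈ Ideal.span {v | v ∈ y} ⊔ Q'.map (algebraMap R T) := fun Q' hQ x r hr e => by
    obtain ⟨k, hk, q, hq, e'⟩ := Submodule.mem_sup.1 (ht (Ideal.pow_mem_pow hr t))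
    refine ⟨t, Submodule.mem_sup.2 ⟨x ^ t - algebraMap R T q, ?_, _,
      Ideal.mem_map_of_mem _ (hQ hq), sub_add_cancel _ _⟩⟩
    rw [← hT.ker, RingHom.mem_ker, map_sub, map_pow, e, hT.evR, ← map_pow, ← map_pow, ← e',
      map_add, RingHom.mem_ker.1 hk, zero_add, RingHom.comp_apply, sub_self]
  have hA : ∀ (Q' : Ideal R), Q ≤ Q' → ∀ x : T, ∀ z ∈ maximalIdeal A,
      ev x = O.j (O.β0 (O.α0 z)) →
      ∃ n : ℕ, x ^ n ∈ Ideal.span {v | v ∈ y} ⊔ Q'.map (algebraMap R T) := fun Q' hQ x z hz e => by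
    obtain ⟨r, hr'⟩ := hf (algebraMap A C z)
    refine hr Q' hQ x r (fun hu => ?_) (by rw [hr', h.cov.tau, e]; rfl)
    exact hz ((isUnit_map_iff (algebraMap A C) z).1 (hr' ▸ hu.map f))
  have hp : (p : A) ∈ maximalIdeal A := hD.max ▸ Ideal.subset_span (Set.mem_insert _ _)
  have hX : ∀ j, Xv j ∈ maximalIdeal A := fun j =>
    hD.max ▸ Ideal.subset_span (Set.mem_insert_of_mem _ ⟨j, rfl⟩)
  have hI : (O.I0.map O.ψ).map c ≤ mS R T ⊔ Ideal.span {v | v ∈ w} := by
    rw [Ideal.map_map, Obj.I0, Ideal.map_sup, Ideal.map_map, hD.max, Ideal.map_span,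
      Ideal.map_span]
    refine sup_le (Ideal.span_le.2 ?_) (Ideal.span_le.2 ?_)
    · rintro _ ⟨z, hz | ⟨j, rfl⟩, rfl⟩
      · rw [hz, map_natCast, ← map_natCast c]
        exact Ideal.mem_sup_left ((hT.fib2 _).2 (Ideal.mem_span_singleton_self _))
      · exact Ideal.mem_sup_right (Ideal.subset_span (List.mem_map.2 ⟨O.α0 (Xv j),
          List.mem_cons_of_mem _ (List.mem_ofFn.2 ⟨j, rfl⟩), rfl⟩))
    · rintro _ ⟨z, rfl, rfl⟩
      exact Ideal.mem_sup_right (Ideal.subset_span (List.mem_map_of_mem List.mem_cons_self))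
  have key := fun (Q' : Ideal R) (hQ : Q ≤ Q') => kp (μ := O.μ.res (c.comp O.ψ)) (y := y) (w := w)
    (hw 0) (fun n hn => (hw n).trans (if_neg (by omega))) Q' (b := b)
    (by simp only [w, hT.len, hd, List.length_map, List.length_cons, List.length_ofFn])
    (hb ▸ dim_quot_anti hQ)
    (fun x hx => by
      obtain ⟨z, hz, rfl⟩ := List.mem_map.1 hx
      have e3 : ev (c.comp O.ψ z) = O.j (O.β0 z) := congrArg (fun g : O.A0 →+* O.B => g z) e1
      rcases List.mem_cons.1 hz with rfl | hz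
      · exact hA Q' hQ _ _ hp (by rw [e3, h.t0U, map_natCast O.α0, map_natCast O.β0])
      · obtain ⟨j, rfl⟩ := List.mem_ofFn.1 hz
        exact hA Q' hQ _ _ (hX j) e3)
    (fun x hx => hr Q' hQ _ x hx (hT.evR x))
    (fun x hx => by
      obtain ⟨n, hn⟩ := hT.rad x hx
      exact ⟨n, sup_le le_sup_left hI hn⟩)
  have tr : ∀ (G : GC R) (n : ℤ), hG (O.μ.res (c.comp O.ψ)) (G.map (algebraMap R T))
      (⊥ : Submodule T (T ⧸ RingHom.ker ev)) ⊤ n =
      hG (O.μ.res O.toB) (G.map ((O.τ i).comp f)) (⊥ : Submodule O.B O.B) ⊤ n := fun G n => by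
    have h1 := hG_surj (O.μ.res (c.comp O.ψ)) (G.map (algebraMap R T)) ev hT.surj ⊥ ⊤ n
    rw [res_res, GC.map_map, e1, e2, Ideal.comap_top] at h1
    exact (hG_quot _ _ _ n).symm.trans h1
  refine ⟨_, (key Q le_rfl).2.2 hb, fun l _ hl ho hu => ?_⟩
  obtain ⟨⟨g1, g2⟩, g3⟩ := purity hl ho hu (O.μ.res (c.comp O.ψ)) haug Q hK hx hm
    (fun Q' _ hQ => (key Q' hQ).1) fun Q' hQ' hQ => (key Q' hQ.le).2.1 (by
      have h1 := dim_quot_succ_le inferInstance hQ
      obtain ⟨b', hb'⟩ := exists_dim_quot hQ'.ne_top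
      rw [hb, hb'] at h1
      rw [hb']
      exact_mod_cast (by exact_mod_cast h1 : b' + 1 ≤ b))
  have s1 := tr (K.tp l)
  have s2 := tr (K.sp l)
  rw [GC.map_tp, GC.map_tp] at s1
  rw [GC.map_sp, GC.map_sp] at s2
  have t1 := good_chi_congr _ s1
  have t2 := good_chi_congr _ s2
  refine ⟨⟨t1.1.1 g1, t2.1.1 g2⟩, Eq.trans ?_ g3⟩
  unfold psiG chiG
  rw [t1.2, t2.2]

end Vale.Agent.P177
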