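import Vale.Agent.P177.Basic

/-! Constructions of matrix complexes, signed isomorphisms and homotopy equivalences. -/

namespace Vale.Agent.P177

open Vale.Agent.P202
open scoped ENNReal

universe u

variable {B : Type u} [CommRing B] {E E' : Type u} [AddCommGroup E] [Module B E]
  [AddCommGroup E'] [Module B E']

private theorem hr_le_b2 (μ : RLen B) {d : E →ₗ[B] E} {d' : E' →ₗ[B] E'}
    {F' F'' : ℤ → Submodule B E} {G' G'' : ℤ → Submodule B E'} (φ : E →ₗ[B] E') (ψ : E' →ₗ[B] E)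
    (hφ : ∀ x, φ (d x) = d' (φ x)) (hψ : ∀ x, ψ (d' x) = d (ψ x))
    (h1 : ∀ n, (F' n).map φ ≤ G' n) (h2 : ∀ n, (F'' n).map φ ≤ G'' n)
    (h3 : ∀ n, (G' n).map ψ ≤ F' n) (h4 : ∀ n, (G'' n).map ψ ≤ F'' n) (n : ℤ)
    (h5 : ∀ x ∈ Zc d F' F'' n, ψ (φ x) - x ∈ Bc d F' F'' n) :
    hr μ d F' F'' n ≤ hr μ d' G' G'' n := by
  have hB : (Bc d' G' G'' n).comap φ ⊓ Zc d F' F'' n ≤ Bc d F' F'' n := by
    rintro x ⟨hx, hz⟩
    obtain ⟨y, hy, _, ⟨w, hw, rfl⟩, h⟩ := Submodule.mem_sup.1 hx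
    have h6 : ψ (φ x) ∈ Bc d F' F'' n := by
      rw [← h, map_add, hψ]
      exact Submodule.add_mem_sup (h3 n ⟨y, hy, rfl⟩) ⟨ψ w, h4 _ ⟨w, hw, rfl⟩, rfl⟩
    simpa using Submodule.sub_mem _ h6 (h5 x hz)
  have hZ : (Zc d F' F'' n).map φ ≤ Zc d' G' G'' n := by
    rintro _ ⟨x, hx, rfl⟩
    refine ⟨h2 n ⟨x, hx.1, rfl⟩, ?_⟩
    change d' (φ x) ∈ G' (n - 1)
    rw [← hφ]
    exact h1 _ ⟨_, hx.2, rfl⟩
  unfold hr
  refine (rr_anti_left μ hB _).trans ?_
  rw [rr_inf, rr_map]
  exact rr_mono μ le_rfl hZ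

/-- Homotopy equivalent subquotient complexes have the same homology. -/
theorem hr_of_htpy (μ : RLen B) {d : E →ₗ[B] E} {d' : E' →ₗ[B] E'} {F' F'' : ℤ → Submodule B E}
    {G' G'' : ℤ → Submodule B E'} (φ : E →ₗ[B] E') (ψ : E' →ₗ[B] E)
    (hφ : ∀ x, φ (d x) = d' (φ x)) (hψ : ∀ x, ψ (d' x) = d (ψ x))
    (h1 : ∀ n, (F' n).map φ ≤ G' n) (h2 : ∀ n, (F'' n).map φ ≤ G'' n)
    (h3 : ∀ n, (G' n).map ψ ≤ F' n) (h4 : ∀ n, (G'' n).map ψ ≤ F'' n) (n : ℤ)
    (h5 : ∀ x ∈ Zc d F' F'' n, ψ (φ x) - x ∈ Bc d F' F'' n)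
    (h6 : ∀ x ∈ Zc d' G' G'' n, φ (ψ x) - x ∈ Bc d' G' G'' n) :
    hr μ d F' F'' n = hr μ d' G' G'' n := by
  exact le_antisymm (hr_le_b2 μ φ ψ hφ hψ h1 h2 h3 h4 n h5) (hr_le_b2 μ ψ φ hψ hφ h3 h4 h1 h2 n h6)

namespace GC

variable {K L L' : GC B} {B' B'' : Type u} [CommRing B'] [CommRing B'']

private theorem mk_congr_b2 {ι : Type} [Fintype ι] [DecidableEq ι] {deg : ι → ℕ}
    {A A' : Matrix ι ι B} (h : A = A') {p : ∀ a b, A a b ≠ 0 → deg b = deg a + 1}
    {p' : ∀ a b, A' a b ≠ 0 → deg b = deg a + 1} : GC.mk ι deg A p = GC.mk ι deg A' p' := by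
  subst h; rfl

private theorem sgn_sq_b2 (u : ℤˣ) : ((u : ℤ) : B) * ((u : ℤ) : B) = 1 := by
  rw [← Int.cast_mul, ← Units.val_mul, Int.units_mul_self]; simp

private theorem card_kos_b2 (K : GC B) (l : List B) :
    Fintype.card (K.kos l).ι = 2 ^ l.length * Fintype.card K.ι := by
  induction l with
  | nil => exact (one_mul _).symm
  | cons y l ih =>
    change Fintype.card ((K.kos l).ι ⊕ (K.kos l).ι) = _
    rw [Fintype.card_sum, ih, List.length_cons, pow_succ]; ring

theorem map_id (K : GC B) : K.map (RingHom.id B) = K := by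
  rfl

theorem map_map (K : GC B) (f : B →+* B') (g : B' →+* B'') :
    (K.map f).map g = K.map (g.comp f) := by
  rfl

theorem map_cone (K : GC B) (f : B →+* B') (y : B) :
    (K.cone y).map f = (K.map f).cone (f y) := by
  refine mk_congr_b2 ?_
  ext (a | a) (b | b) <;> simp [Matrix.one_apply, apply_ite f]

theorem map_kos (K : GC B) (f : B →+* B') (l : List B) :
    (K.kos l).map f = (K.map f).kos (l.map f) := by
  induction l with
  | nil => rfl
  | cons y l ih => exact (map_cone _ f y).trans (congrArg (fun X => GC.cone X (f y)) ih)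

theorem map_disc (f : B →+* B') {ι : Type} [Fintype ι] [DecidableEq ι] (e : ι → ℕ) :
    (disc B e).map f = disc B' e := by
  exact mk_congr_b2 (Matrix.map_zero _ (map_zero f))

theorem map_one_kos (f : B →+* B') (l : List B) :
    ((one B).kos l).map f = (one B').kos (l.map f) := by
  rw [map_kos, map_disc]

theorem map_std (f : B →+* B') {n : ℕ} (e : Fin n → ℕ) : (std B e).map f = std B' e := by
  exact (map_cone _ f 1).trans (by rw [map_disc, map_one])

theorem map_sum (K L : GC B) (f : B →+* B') : (K.sum L).map f = (K.map f).sum (L.map f) := by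
  refine mk_congr_b2 ?_
  ext (a | a) (b | b) <;> simp

theorem kos_append (K : GC B) (l l' : List B) : K.kos (l ++ l') = (K.kos l').kos l := by
  induction l with
  | nil => rfl
  | cons y l ih => exact congrArg (fun X => GC.cone X y) ih

theorem Sq0.map (h : K.Sq0) (f : B →+* B') : (K.map f).Sq0 := by
  unfold Sq0 at h ⊢
  rw [← Matrix.map_mul, h, Matrix.map_zero _ (map_zero f)]

theorem Sq0.cone (h : K.Sq0) (y : B) : (K.cone y).Sq0 := by
  unfold Sq0 at h ⊢
  simp [Matrix.fromBlocks_multiply, h]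

theorem Sq0.kos (h : K.Sq0) (l : List B) : (K.kos l).Sq0 := by
  induction l with
  | nil => exact h
  | cons y l ih => exact ih.cone y

theorem sq0_disc {ι : Type} [Fintype ι] [DecidableEq ι] (e : ι → ℕ) : (disc B e).Sq0 := by
  exact mul_zero _

theorem sq0_kos (l : List B) : ((one B).kos l).Sq0 := by
  exact (sq0_disc _).kos l

theorem Sq0.sum (h : K.Sq0) (h' : L.Sq0) : (K.sum L).Sq0 := by
  unfold Sq0 at h h' ⊢
  simp [Matrix.fromBlocks_multiply, h, h']

theorem Sq0.tens (h : K.Sq0) (h' : L.Sq0) : (K.tens L).Sq0 := by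
  have h1 : K.eps * K.mat = -(K.mat * K.eps) := by
    rw [(hg_mat K).eps_mul]; simp [Int.negOnePow_neg]
  unfold Sq0 at h h' ⊢
  simp only [add_mul, mul_add, ← Matrix.mul_kronecker_mul, h, h', h1, Matrix.one_mul,
    Matrix.mul_one, Matrix.zero_kronecker, Matrix.kronecker_zero, zero_add, add_zero]
  rw [← Matrix.add_kronecker]
  simp

theorem Top.kos {n : ℕ} (h : K.Top n) (l : List B) : (K.kos l).Top (n + l.length) := by
  induction l with
  | nil => exact h
  | cons y l ih =>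
    rintro (a | a)
    · exact (ih a).trans (by simp)
    · exact Nat.succ_le_succ (ih a)

theorem top_kos (l : List B) : ((one B).kos l).Top l.length := by
  simpa using Top.kos (K := one B) (n := 0) (fun _ => le_rfl) l

theorem rk_kos_le (l : List B) (i : ℕ) : ((one B).kos l).rk i ≤ 2 ^ l.length := by
  refine (Finset.card_le_univ _).trans ?_
  rw [card_kos_b2]
  simp

theorem mem_nh_cone (K : GC B) (y : B) : y ∈ (K.cone y).nh := by
  refine ⟨Matrix.fromBlocks 0 0 1 0, ?_, ?_⟩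
  · rintro (a | a) (b | b) h
    · exact absurd rfl h
    · exact absurd rfl h
    · have : a = b := by_contra fun hne => h (Matrix.one_apply_ne hne)
      simp [this]
    · exact absurd rfl h
  · rw [← Matrix.fromBlocks_one, Matrix.fromBlocks_smul]
    simp [Matrix.fromBlocks_multiply, Matrix.fromBlocks_add]

theorem nh_le_cone (K : GC B) (y : B) : K.nh ≤ (K.cone y).nh := by
  rintro z ⟨h, h1, h2⟩
  refine ⟨Matrix.fromBlocks h 0 0 (-h), ?_, ?_⟩
  · rintro (a | a) (b | b) hab
    · exact h1 a b hab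
    · exact absurd rfl hab
    · exact absurd rfl hab
    · have := h1 a b (by simpa using hab)
      simp [this]
  · rw [← Matrix.fromBlocks_one, Matrix.fromBlocks_smul]
    simp [Matrix.fromBlocks_multiply, Matrix.fromBlocks_add, h2]

theorem nh_le_kos (K : GC B) (l : List B) : K.nh ≤ (K.kos l).nh := by
  induction l with
  | nil => exact le_rfl
  | cons y l ih => exact ih.trans (nh_le_cone _ y)

theorem span_le_nh_kos (K : GC B) (l : List B) : Ideal.span {y | y ∈ l} ≤ (K.kos l).nh := by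
  rw [Ideal.span_le]
  induction l with
  | nil => simp
  | cons y l ih =>
    intro z hz
    rcases List.mem_cons.1 hz with rfl | hz
    · exact mem_nh_cone _ z
    · exact nh_le_cone _ y (ih hz)

theorem map_nh_le (K : GC B) (f : B →+* B') : K.nh.map f ≤ (K.map f).nh := by
  rw [Ideal.map_le_iff_le_comap]
  rintro z ⟨h, h1, h2⟩
  refine ⟨h.map f, fun a b hab => h1 a b fun h0 => hab (by simp [h0]), ?_⟩
  rw [← Matrix.map_mul, ← Matrix.map_mul, ← Matrix.map_add _ (map_add f), h2]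
  ext a b
  simp [Matrix.one_apply, apply_ite f]

theorem nh_inf_le_sum (K L : GC B) : K.nh ⊓ L.nh ≤ (K.sum L).nh := by
  rintro z ⟨⟨h, h1, h2⟩, ⟨h', h1', h2'⟩⟩
  refine ⟨Matrix.fromBlocks h 0 0 h', ?_, ?_⟩
  · rintro (a | a) (b | b) hab
    · exact h1 a b hab
    · exact absurd rfl hab
    · exact absurd rfl hab
    · exact h1' a b hab
  · rw [← Matrix.fromBlocks_one, Matrix.fromBlocks_smul]
    simp [Matrix.fromBlocks_multiply, Matrix.fromBlocks_add, h2, h2']

theorem hG_eq_zero_of_nh (μ : RLen B) (h : (1 : B) ∈ K.nh) (N' N'' : Submodule B E) (n : ℤ) :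
    hG μ K N' N'' n = 0 := by
  refine rr_eq_zero_of_le μ fun x hx => ?_
  simpa using smul_mem_Bd (Ideal.mem_sup_left h) hx

theorem SIso.refl (K : GC B) : SIso K K := by
  exact ⟨Equiv.refl _, fun _ => 1, fun _ => rfl, fun a b => by simp⟩

theorem SIso.symm (h : SIso K L) : SIso L K := by
  obtain ⟨e, s, h1, h2⟩ := h
  refine ⟨e.symm, fun b => s (e.symm b), fun b => ?_, fun a b => ?_⟩
  · rw [← h1, e.apply_symm_apply]
  · have h3 := h2 (e.symm a) (e.symm b)
    rw [e.apply_symm_apply, e.apply_symm_apply] at h3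
    rw [h3, ← mul_assoc, sgn_sq_b2, one_mul]

theorem SIso.trans (h : SIso K L) (h' : SIso L L') : SIso K L' := by
  obtain ⟨e, s, h1, h2⟩ := h
  obtain ⟨e', s', h1', h2'⟩ := h'
  refine ⟨e.trans e', fun a => s a * s' (e a), fun a => (h1' _).trans (h1 a), fun a b => ?_⟩
  rw [Equiv.trans_apply, Equiv.trans_apply, h2', h2]
  push_cast
  ring

theorem SIso.cone (h : SIso K L) (y : B) : SIso (K.cone y) (L.cone y) := by
  obtain ⟨e, s, h1, h2⟩ := h
  refine ⟨e.sumCongr e, Sum.elim s s, ?_, ?_⟩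
  · rintro (a | a) <;> simp [h1]
  · rintro (a | a) (b | b)
    · exact h2 a b
    · by_cases hab : a = b
      · subst hab; simp
      · simp [Matrix.one_apply_ne hab, Matrix.one_apply_ne (e.injective.ne hab)]
    · simp
    · simp [h2]

theorem SIso.kos (h : SIso K L) (l : List B) : SIso (K.kos l) (L.kos l) := by
  induction l with
  | nil => exact h
  | cons y l ih => exact ih.cone y

theorem SIso.htpy (h : SIso K L) : Htpy K L := by
  obtain ⟨e, s, h1, h2⟩ := h
  let f : Matrix K.ι L.ι B := Matrix.of fun a b => if e a = b then ((s a : ℤ) : B) else 0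
  let g : Matrix L.ι K.ι B := Matrix.of fun b a => if e a = b then ((s a : ℤ) : B) else 0
  have f1 : ∀ {τ : Type} (M : Matrix τ K.ι B) a c, (M * f) a (e c) = M a c * ((s c : ℤ) : B) :=
    fun M a c => by simp [Matrix.mul_apply, f]
  have f2 : ∀ {τ : Type} (M : Matrix L.ι τ B) a c, (f * M) a c = ((s a : ℤ) : B) * M (e a) c :=
    fun M a c => by simp [Matrix.mul_apply, f]
  have g1 : ∀ {τ : Type} (M : Matrix τ L.ι B) a c, (M * g) a c = M a (e c) * ((s c : ℤ) : B) :=
    fun M a c => by simp [Matrix.mul_apply, g]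
  have g2 : ∀ {τ : Type} (M : Matrix K.ι τ B) a c, (g * M) (e a) c = ((s a : ℤ) : B) * M a c :=
    fun M a c => by simp [Matrix.mul_apply, g]
  refine ⟨f, g, 0, 0, fun a b hab => ?_, fun b a hab => ?_, hg_zero _ _ _, hg_zero _ _ _,
    ?_, ?_, ?_, ?_⟩
  · have : e a = b := by_contra fun hne => hab (if_neg hne)
    rw [← this, h1, add_zero]
  · have : e a = b := by_contra fun hne => hab (if_neg hne)
    rw [← this, h1, add_zero]
  · ext a b
    obtain ⟨c, rfl⟩ := e.surjective b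
    rw [f1, f2, h2]
    push_cast
    linear_combination (-(K.mat a c * ((s c : ℤ) : B))) * sgn_sq_b2 (B := B) (s a)
  · ext b c
    obtain ⟨a, rfl⟩ := e.surjective b
    rw [g1, g2, h2]
    push_cast
    linear_combination (K.mat a c * ((s a : ℤ) : B)) * sgn_sq_b2 (B := B) (s c)
  · ext a c
    rw [Matrix.sub_apply, f2]
    by_cases hac : a = c
    · subst hac; simp [g, sgn_sq_b2]
    · simp [g, Matrix.one_apply_ne hac, Ne.symm hac]
  · ext b c
    obtain ⟨a, rfl⟩ := e.surjective b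
    rw [Matrix.sub_apply, g2]
    by_cases hac : e a = c
    · subst hac; simp [f, sgn_sq_b2]
    · simp [f, Matrix.one_apply_ne hac, hac]

theorem Htpy.hG_eq (h : Htpy K L) (μ : RLen B) (N' N'' : Submodule B E) (n : ℤ) :
    hG μ K N' N'' n = hG μ L N' N'' n := by
  obtain ⟨f, g, k, k', hf, hg, hk, hk', c1, c2, c3, c4⟩ := h
  have m0 : ∀ {K L : GC B} {f : Matrix K.ι L.ι B}, Hg K L 0 f → ∀ (N : Submodule B E) n,
      (L.cw N n).map (mact E f) ≤ K.cw N n := by
    rintro K L f hf N n _ ⟨x, hx, rfl⟩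
    simpa using hf.mem_cw hx
  have m1 : ∀ {K L : GC B} {f : Matrix K.ι L.ι B} {g : Matrix L.ι K.ι B} {k : Matrix K.ι K.ι B},
      Hg K K 1 k → f * g - 1 = K.mat * k + k * K.mat → ∀ x ∈ K.Zy N' N'' n,
      mact E f (mact E g x) - x ∈ K.Bd N' N'' n := by
    intro K L f g k hk c x hx
    have e : mact E f (mact E g x) - x = mact E k (K.d E x) + K.d E (mact E k x) := by
      rw [← mact_mul, ← mact_mul, ← mact_mul, ← mact_add, add_comm, ← c, mact_sub, mact_one]
    rw [e]
    exact Submodule.add_mem_sup (by simpa using hk.mem_cw hx.2) ⟨_, hk.mem_cw hx.1, rfl⟩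
  exact hr_of_htpy μ (mact E g) (mact E f) (fun x => by rw [← mact_mul, ← mact_mul, c2])
    (fun x => by rw [← mact_mul, ← mact_mul, c1]) (m0 hg N') (m0 hg N'') (m0 hf N') (m0 hf N'') n
    (m1 hk c3) (m1 hk' c4)

theorem SIso.hG_eq (h : SIso K L) (μ : RLen B) (N' N'' : Submodule B E) (n : ℤ) :
    hG μ K N' N'' n = hG μ L N' N'' n :=
  h.htpy.hG_eq μ N' N'' n

theorem cone_comm (K : GC B) (x y : B) : SIso ((K.cone x).cone y) ((K.cone y).cone x) := by
  refine ⟨Equiv.sumSumSumComm _ _ _ _, Sum.elim (fun _ => 1) (Sum.elim (fun _ => 1) fun _ => -1),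
    ?_, ?_⟩
  · rintro ((a | a) | (a | a)) <;> rfl
  · have h1 : ∀ a b : K.ι, (1 : Matrix (K.ι ⊕ K.ι) (K.ι ⊕ K.ι) B) (.inl a) (.inl b)
        = (1 : Matrix K.ι K.ι B) a b := fun a b => by simp [Matrix.one_apply]
    have h2 : ∀ a b : K.ι, (1 : Matrix (K.ι ⊕ K.ι) (K.ι ⊕ K.ι) B) (.inr a) (.inr b)
        = (1 : Matrix K.ι K.ι B) a b := fun a b => by simp [Matrix.one_apply]
    rintro ((a | a) | (a | a)) ((b | b) | (b | b)) <;> simp [h1, h2]

theorem kos_cone_comm (K : GC B) (l : List B) (y : B) :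
    SIso ((K.kos l).cone y) ((K.cone y).kos l) := by
  induction l with
  | nil => exact SIso.refl _
  | cons z l ih => exact (cone_comm _ z y).trans (ih.cone z)

theorem kos_perm (K : GC B) {l l' : List B} (h : l.Perm l') : SIso (K.kos l) (K.kos l') := by
  induction h with
  | nil => exact SIso.refl _
  | cons x _ ih => exact ih.cone x
  | swap x y l => exact cone_comm _ x y
  | trans _ _ ih1 ih2 => exact ih1.trans ih2

theorem tens_comm (K L : GC B) : SIso (K.tens L) (L.tens K) := by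
  refine ⟨Equiv.prodComm _ _, fun p => (-1) ^ (K.deg p.1 * L.deg p.2), fun p => add_comm _ _, ?_⟩
  rintro ⟨a, b⟩ ⟨a', b'⟩
  have h1 : L.mat b b' * (1 : Matrix K.ι K.ι B) a a' =
      (-1) ^ (K.deg a * L.deg b) * (-1) ^ (K.deg a' * L.deg b') * (K.eps a a' * L.mat b b') := by
    by_cases e : a = a'
    · subst e
      by_cases h0 : L.mat b b' = 0
      · simp [h0]
      · rw [L.hom b b' h0, eps, Matrix.diagonal_apply_eq, Matrix.one_apply_eq, ← mul_assoc,
          ← pow_add, ← pow_add, Even.neg_one_pow ⟨K.deg a * L.deg b + K.deg a, by ring⟩]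
        ring
    · simp [eps, Matrix.one_apply_ne e, Matrix.diagonal_apply_ne _ e]
  have h2 : L.eps b b' * K.mat a a' = (-1) ^ (K.deg a * L.deg b) * (-1) ^ (K.deg a' * L.deg b')
      * (K.mat a a' * (1 : Matrix L.ι L.ι B) b b') := by
    by_cases e : b = b'
    · subst e
      by_cases h0 : K.mat a a' = 0
      · simp [h0]
      · rw [K.hom a a' h0, eps, Matrix.diagonal_apply_eq, Matrix.one_apply_eq, ← pow_add,
          show K.deg a * L.deg b + (K.deg a + 1) * L.deg b = 2 * (K.deg a * L.deg b) + L.deg b by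
            ring, pow_add, pow_mul]
        simp
    · simp [eps, Matrix.one_apply_ne e, Matrix.diagonal_apply_ne _ e]
  change L.mat b b' * (1 : Matrix K.ι K.ι B) a a' + L.eps b b' * K.mat a a' =
    _ * (K.mat a a' * (1 : Matrix L.ι L.ι B) b b' + K.eps a a' * L.mat b b')
  rw [h1, h2]
  push_cast
  ring

theorem kos_tens (K : GC B) (l : List B) : SIso (((one B).kos l).tens K) (K.kos l) := by
  have key : ∀ (M : GC B) (y : B), SIso ((M.cone y).tens K) ((M.tens K).cone y) := by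
    intro M y
    refine ⟨Equiv.sumProdDistrib _ _ _, fun _ => 1, ?_, ?_⟩
    · rintro ⟨a | a, b⟩
      · rfl
      · simp [add_right_comm]
    · rintro ⟨a | a, b⟩ ⟨a' | a', b'⟩
      · simp [eps, Matrix.diagonal_apply]
      · simp [eps, Matrix.one_apply, ite_and]
        split_ifs <;> rfl
      · simp [eps]
      · by_cases e : a = a'
        · subst e; simp [eps, pow_add, add_comm]
        · simp [eps, e]
  induction l with
  | nil =>
    refine ⟨Equiv.punitProd _, fun _ => 1, fun p => (zero_add _).symm, ?_⟩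
    rintro ⟨⟨⟩, a⟩ ⟨⟨⟩, b⟩
    change K.mat a b = _ * ((one B).tens K).mat ((), a) ((), b)
    simp [eps]
  | cons y l ih => exact (key _ y).trans (ih.cone y)

end GC

end Vale.Agent.P177
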