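import Vale.Agent.P177.Defs

/-! Basic properties of matrix complexes. -/

namespace Vale.Agent.P177

open Vale.Agent.P202
open scoped ENNReal

universe u

variable {B : Type u} [CommRing B] {E E' : Type u} [AddCommGroup E] [Module B E]
  [AddCommGroup E'] [Module B E']

section mact

variable {ι κ ρ : Type} [Fintype κ]

theorem mact_apply (A : Matrix ι κ B) (x : κ → E) (a : ι) :
    mact E A x a = ∑ b, A a b • x b := by
  simp [mact]

theorem mact_mul [Fintype ρ] (A : Matrix ι κ B) (A' : Matrix κ ρ B) (x : ρ → E) :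
    mact E (A * A') x = mact E A (mact E A' x) := by
  funext a
  simp only [mact_apply, Matrix.mul_apply, Finset.sum_smul, Finset.smul_sum, mul_smul]
  exact Finset.sum_comm

theorem mact_one [DecidableEq κ] (x : κ → E) : mact E (1 : Matrix κ κ B) x = x := by
  funext a
  simp [mact_apply, Matrix.one_apply]

theorem mact_zero (x : κ → E) : mact E (0 : Matrix ι κ B) x = 0 := by
  funext a
  simp [mact_apply]

theorem mact_add (A A' : Matrix ι κ B) (x : κ → E) :
    mact E (A + A') x = mact E A x + mact E A' x := by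
  funext a
  simp [mact_apply, add_smul, Finset.sum_add_distrib]

theorem mact_sub (A A' : Matrix ι κ B) (x : κ → E) :
    mact E (A - A') x = mact E A x - mact E A' x := by
  funext a
  simp [mact_apply, sub_smul, Finset.sum_sub_distrib]

theorem mact_neg (A : Matrix ι κ B) (x : κ → E) : mact E (-A) x = -mact E A x := by
  funext a
  simp [mact_apply]

theorem mact_smul (c : B) (A : Matrix ι κ B) (x : κ → E) :
    mact E (c • A) x = c • mact E A x := by
  funext a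
  simp [mact_apply, Finset.smul_sum, mul_smul]

theorem mact_sum {τ : Type} (s : Finset τ) (A : τ → Matrix ι κ B) (x : κ → E) :
    mact E (∑ i ∈ s, A i) x = ∑ i ∈ s, mact E (A i) x := by
  funext a
  simp only [mact_apply, Matrix.sum_apply, Finset.sum_apply, Finset.sum_smul]
  exact Finset.sum_comm

theorem mact_compLeft (φ : E →ₗ[B] E') (A : Matrix ι κ B) (x : κ → E) :
    φ.compLeft ι (mact E A x) = mact E' A (φ.compLeft κ x) := by
  funext a
  simp [mact_apply]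

theorem mact_eq_mulVec (A : Matrix ι κ B) (x : κ → B) : mact B A x = A.mulVec x := by
  funext a
  simp [mact_apply, Matrix.mulVec, dotProduct]

theorem mact_ext {A A' : Matrix ι κ B} (h : ∀ x : κ → B, mact B A x = mact B A' x) : A = A' := by
  classical
  ext a b
  simpa [mact_apply, Pi.single_apply] using congrFun (h (Pi.single b 1)) a

theorem exists_mact (f : (κ → B) →ₗ[B] (ι → B)) : ∃ A : Matrix ι κ B, ∀ x, mact B A x = f x := by
  classical
  refine ⟨LinearMap.toMatrix' f, fun x => ?_⟩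
  rw [mact_eq_mulVec, ← Matrix.toLin'_apply, Matrix.toLin'_toMatrix']

end mact

namespace GC

variable {K L L' : GC B} {X Y : K.ι → Submodule B E} {N N' N'' : Submodule B E}

theorem mem_cf {n : ℤ} {x : K.ι → E} : x ∈ K.cf X n ↔
    (∀ a, (K.deg a : ℤ) = n → x a ∈ X a) ∧ ∀ a, (K.deg a : ℤ) ≠ n → x a = 0 := by
  simp only [cf, Submodule.mem_pi, Set.mem_univ, true_imp_iff]
  constructor
  · intro h
    refine ⟨fun a ha => ?_, fun a ha => ?_⟩
    · simpa [ha] using h a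
    · simpa [ha] using h a
  · rintro ⟨h1, h2⟩ a
    split_ifs with ha
    · exact h1 a ha
    · exact h2 a ha

theorem apply_mem_of_mem_cf {n : ℤ} {x : K.ι → E} (h : x ∈ K.cf X n) (a : K.ι) : x a ∈ X a := by
  by_cases ha : (K.deg a : ℤ) = n
  · exact (mem_cf.1 h).1 a ha
  · rw [(mem_cf.1 h).2 a ha]
    exact zero_mem _

theorem cf_mono (h : ∀ a, X a ≤ Y a) : K.cf X ≤ K.cf Y := by
  intro n x hx
  exact mem_cf.2 ⟨fun a ha => h a ((mem_cf.1 hx).1 a ha), (mem_cf.1 hx).2⟩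

theorem cw_mono (K : GC B) (h : N' ≤ N'') : K.cw N' ≤ K.cw N'' := by
  exact cf_mono fun _ => h

theorem cw_bot (K : GC B) : K.cw (⊥ : Submodule B E) = ⊥ := by
  funext n
  simp [cf]

theorem cf_sup (X Y : K.ι → Submodule B E) (n : ℤ) :
    K.cf (fun a => X a ⊔ Y a) n = K.cf X n ⊔ K.cf Y n := by
  apply le_antisymm
  · intro x hx
    have h1 : ∀ a, ∃ y ∈ X a, ∃ z ∈ Y a, y + z = x a ∧ ((K.deg a : ℤ) ≠ n → y = 0 ∧ z = 0) := by
      intro a
      by_cases ha : (K.deg a : ℤ) = n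
      · obtain ⟨y, hy, z, hz, h⟩ := Submodule.mem_sup.1 ((mem_cf.1 hx).1 a ha)
        exact ⟨y, hy, z, hz, h, fun h' => absurd ha h'⟩
      · exact ⟨0, zero_mem _, 0, zero_mem _, by rw [(mem_cf.1 hx).2 a ha, add_zero],
          fun _ => ⟨rfl, rfl⟩⟩
    choose y hy z hz h2 h3 using h1
    exact Submodule.mem_sup.2 ⟨y, mem_cf.2 ⟨fun a _ => hy a, fun a ha => (h3 a ha).1⟩, z,
      mem_cf.2 ⟨fun a _ => hz a, fun a ha => (h3 a ha).2⟩, funext h2⟩
  · exact sup_le (cf_mono (fun _ => le_sup_left) n) (cf_mono (fun _ => le_sup_right) n)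

theorem cf_inf (X Y : K.ι → Submodule B E) (n : ℤ) :
    K.cf (fun a => X a ⊓ Y a) n = K.cf X n ⊓ K.cf Y n := by
  apply le_antisymm
  · exact le_inf (cf_mono (fun _ => inf_le_left) n) (cf_mono (fun _ => inf_le_right) n)
  · rintro x ⟨h1, h2⟩
    exact mem_cf.2 ⟨fun a ha => ⟨(mem_cf.1 h1).1 a ha, (mem_cf.1 h2).1 a ha⟩, (mem_cf.1 h1).2⟩

theorem single_mem_cf {a : K.ι} {v : E} (h : v ∈ X a) :
    Pi.single a v ∈ K.cf X (K.deg a) := by
  refine mem_cf.2 ⟨fun b _ => ?_, fun b hb => ?_⟩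
  · by_cases e : b = a
    · subst e
      simpa using h
    · simp [Pi.single_eq_of_ne e]
  · exact Pi.single_eq_of_ne (fun e => hb (by rw [e])) _

theorem Hg.mact_mem {k : ℤ} {f : Matrix K.ι L.ι B} (hf : Hg K L k f) {Z : L.ι → Submodule B E}
    (h : ∀ a b, f a b ≠ 0 → ∀ v ∈ Z b, f a b • v ∈ X a) {n : ℤ} {x : L.ι → E}
    (hx : x ∈ L.cf Z n) : mact E f x ∈ K.cf X (n + k) := by
  refine mem_cf.2 ⟨fun a _ => ?_, fun a ha => ?_⟩
  · rw [mact_apply]
    refine sum_mem fun b _ => ?_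
    by_cases h0 : f a b = 0
    · rw [h0, zero_smul]
      exact zero_mem _
    · exact h a b h0 _ (apply_mem_of_mem_cf hx b)
  · rw [mact_apply]
    refine Finset.sum_eq_zero fun b _ => ?_
    by_cases h0 : f a b = 0
    · rw [h0, zero_smul]
    · rw [(mem_cf.1 hx).2 b fun e => ha (by rw [hf a b h0, e]), smul_zero]

theorem Hg.mem_cw {k : ℤ} {f : Matrix K.ι L.ι B} (hf : Hg K L k f) {n : ℤ} {x : L.ι → E}
    (hx : x ∈ L.cw N n) : mact E f x ∈ K.cw N (n + k) := by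
  exact hf.mact_mem (fun _ _ _ _ hv => Submodule.smul_mem _ _ hv) hx

theorem hg_mat (K : GC B) : Hg K K (-1) K.mat := by
  intro a b h
  rw [K.hom a b h]
  push_cast
  ring

theorem hg_one (K : GC B) : Hg K K 0 1 := by
  intro a b h
  have : a = b := by_contra fun e => h (Matrix.one_apply_ne e)
  simp [this]

theorem hg_eps (K : GC B) : Hg K K 0 K.eps := by
  intro a b h
  have : a = b := by_contra fun e => h (Matrix.diagonal_apply_ne _ e)
  simp [this]

theorem hg_zero (K L : GC B) (k : ℤ) : Hg K L k 0 := by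
  exact fun _ _ h => absurd rfl h

theorem Hg.mul {k k' : ℤ} {f : Matrix K.ι L.ι B} {g : Matrix L.ι L'.ι B} (hf : Hg K L k f)
    (hg : Hg L L' k' g) : Hg K L' (k + k') (f * g) := by
  intro a c h
  rw [Matrix.mul_apply] at h
  obtain ⟨b, -, hb⟩ := Finset.exists_ne_zero_of_sum_ne_zero h
  rw [hf a b (left_ne_zero_of_mul hb), hg b c (right_ne_zero_of_mul hb)]
  ring

theorem Hg.add {k : ℤ} {f g : Matrix K.ι L.ι B} (hf : Hg K L k f) (hg : Hg K L k g) :
    Hg K L k (f + g) := by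
  intro a b h
  by_contra hne
  have e1 : f a b = 0 := by_contra fun h0 => hne (hf a b h0)
  have e2 : g a b = 0 := by_contra fun h0 => hne (hg a b h0)
  exact h (by simp [e1, e2])

theorem Hg.smul {k : ℤ} {f : Matrix K.ι L.ι B} (hf : Hg K L k f) (c : B) : Hg K L k (c • f) := by
  exact fun a b h => hf a b fun h0 => h (by simp [h0])

theorem Hg.neg {k : ℤ} {f : Matrix K.ι L.ι B} (hf : Hg K L k f) : Hg K L k (-f) := by
  exact fun a b h => hf a b fun h0 => h (by simp [h0])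

theorem Hg.sum {k : ℤ} {τ : Type} (s : Finset τ) {f : τ → Matrix K.ι L.ι B}
    (hf : ∀ i ∈ s, Hg K L k (f i)) : Hg K L k (∑ i ∈ s, f i) := by
  intro a b h
  rw [Matrix.sum_apply] at h
  obtain ⟨i, hi, h1⟩ := Finset.exists_ne_zero_of_sum_ne_zero h
  exact hf i hi a b h1

theorem eps_mul_eps (K : GC B) : K.eps * K.eps = 1 := by
  rw [eps, Matrix.diagonal_mul_diagonal, ← Matrix.diagonal_one]
  congr 1
  funext a
  rw [← mul_pow]
  simp

/-- Homogeneous maps commute with the signs up to the sign of their degree. -/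
theorem Hg.eps_mul {k : ℤ} {f : Matrix K.ι L.ι B} (hf : Hg K L k f) :
    K.eps * f = (((k.negOnePow : ℤˣ) : ℤ) : B) • (f * L.eps) := by
  ext a b
  simp only [eps, Matrix.diagonal_mul, Matrix.smul_apply, Matrix.mul_diagonal, smul_eq_mul]
  by_cases h0 : f a b = 0
  · simp [h0]
  · have h1 : ∀ m : ℕ, (-1 : B) ^ m = ((((m : ℤ).negOnePow : ℤˣ) : ℤ) : B) := fun m => by
      rw [Int.coe_negOnePow_natCast]
      push_cast
      rfl
    rw [h1, h1, hf a b h0, Int.negOnePow_add]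
    push_cast
    ring

theorem cf_isCx (h : ∀ a b, K.mat a b ≠ 0 → ∀ v ∈ X b, K.mat a b • v ∈ X a) :
    IsCx (K.d E) (K.cf X) := by
  rintro n _ ⟨x, hx, rfl⟩
  exact (hg_mat K).mact_mem h hx

theorem cw_isCx (K : GC B) (N : Submodule B E) : IsCx (K.d E) (K.cw N) := by
  exact cf_isCx fun _ _ _ _ hv => Submodule.smul_mem _ _ hv

theorem Sq0.comp (h : K.Sq0) (E : Type u) [AddCommGroup E] [Module B E] :
    K.d E ∘ₗ K.d E = 0 := by
  refine LinearMap.ext fun x => ?_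
  rw [LinearMap.comp_apply, ← mact_mul, h, mact_zero]
  rfl

theorem Sq0.dd (h : K.Sq0) (x : K.ι → E) : K.d E (K.d E x) = 0 := by
  exact LinearMap.congr_fun (h.comp E) x

theorem Sq0.Bd_le (h : K.Sq0) (hN : N' ≤ N'') (n : ℤ) : K.Bd N' N'' n ≤ K.Zy N' N'' n := by
  exact Bc_le_Zc' (sq_of_comp (h.comp E) _ _) (K.cw_isCx _) (K.cw_isCx _) (K.cw_mono hN) n

theorem Sq0.tri (h : K.Sq0) {N1 N2 N3 : Submodule B E} (h12 : N1 ≤ N2) (h23 : N2 ≤ N3) :
    Tri (K.d E) (K.cw N1) (K.cw N2) (K.cw N3) := by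
  exact ⟨sq_of_comp (h.comp E) _ _, K.cw_isCx _, K.cw_isCx _, K.cw_isCx _, K.cw_mono h12,
    K.cw_mono h23⟩

theorem exists_top (K : GC B) : ∃ L, K.Top L := by
  exact ⟨Finset.univ.sup K.deg, fun a => Finset.le_sup (Finset.mem_univ a)⟩

theorem Top.mono {L1 L2 : ℕ} (h : K.Top L1) (h1 : L1 ≤ L2) : K.Top L2 := by
  exact fun a => (h a).trans h1

theorem cf_eq_bot_of_neg (X : K.ι → Submodule B E) {n : ℤ} (hn : n < 0) : K.cf X n = ⊥ := by
  refine eq_bot_iff.2 fun x hx => funext fun a => (mem_cf.1 hx).2 a ?_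
  omega

theorem Top.cf_eq_bot {L1 : ℕ} (h : K.Top L1) (X : K.ι → Submodule B E) {n : ℤ}
    (hn : n < 0 ∨ (L1 : ℤ) < n) : K.cf X n = ⊥ := by
  refine eq_bot_iff.2 fun x hx => funext fun a => (mem_cf.1 hx).2 a ?_
  have := h a
  omega

theorem Top.hr_eq_zero {L1 : ℕ} (h : K.Top L1) (μ : RLen B) (X Y : K.ι → Submodule B E) {n : ℤ}
    (hn : n < 0 ∨ (L1 : ℤ) < n) : hr μ (K.d E) (K.cf X) (K.cf Y) n = 0 := by
  refine hr_eq_zero_of_le μ n ?_
  rw [h.cf_eq_bot Y hn]
  exact bot_le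

theorem good_of_ne_top (μ : RLen B) (h : ∀ n, hr μ (K.d E) (K.cf X) (K.cf Y) n ≠ ⊤) :
    GoodR μ (K.d E) (K.cf X) (K.cf Y) := by
  obtain ⟨L1, hL⟩ := K.exists_top
  refine goodR_of_bounded μ (Finset.Icc 0 (L1 : ℤ)) (fun n hn => hL.hr_eq_zero μ X Y ?_)
    fun n _ => h n
  rw [Finset.mem_Icc] at hn
  omega

theorem Top.chi_eq_sum {L1 : ℕ} (h : K.Top L1) (μ : RLen B) (X Y : K.ι → Submodule B E) :
    chiR μ (K.d E) (K.cf X) (K.cf Y) = ∑ i ∈ Finset.range (L1 + 1),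
      (-1 : ℝ) ^ i * (hr μ (K.d E) (K.cf X) (K.cf Y) i).toReal := by
  rw [chiR_eq_sum μ ((Finset.range (L1 + 1)).image (Nat.cast : ℕ → ℤ)),
    Finset.sum_image fun _ _ _ _ e => Nat.cast_injective e]
  · refine Finset.sum_congr rfl fun i _ => ?_
    rw [Int.coe_negOnePow_natCast]
    push_cast
    rfl
  · intro n hn
    refine h.hr_eq_zero μ X Y ?_
    by_contra hc
    refine hn (Finset.mem_image.2 ⟨n.toNat, Finset.mem_range.2 ?_, ?_⟩) <;> omega

theorem rr_cf (μ : RLen B) (X Y : K.ι → Submodule B E) (n : ℤ) :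
    rr μ (K.cf X n) (K.cf Y n) =
      ∑ a ∈ Finset.univ.filter (fun a => (K.deg a : ℤ) = n), rr μ (X a) (Y a) := by
  rw [cf, cf, rr_pi, Finset.sum_filter]
  refine Finset.sum_congr rfl fun a _ => ?_
  split_ifs
  · rfl
  · exact rr_eq_zero_of_le μ le_rfl

theorem rr_cw_basic (μ : RLen B) (K : GC B) (N' N'' : Submodule B E) (n : ℕ) :
    rr μ (K.cw N' n) (K.cw N'' n) = K.rk n * rr μ N' N'' := by
  rw [rr_cf, Finset.sum_const, nsmul_eq_mul, rk]
  simp only [Nat.cast_inj]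

theorem cf_congr_basic {n : ℤ} (h : ∀ a, (K.deg a : ℤ) = n → X a = Y a) :
    K.cf X n = K.cf Y n := by
  ext x
  rw [mem_cf, mem_cf]
  exact and_congr_left fun _ => forall_congr' fun a => forall_congr' fun ha => by rw [h a ha]

theorem hG_le_rk (μ : RLen B) (K : GC B) (N' N'' : Submodule B E) (n : ℕ) :
    hG μ K N' N'' n ≤ K.rk n * rr μ N' N'' := by
  rw [← rr_cw_basic]
  exact rr_mono μ le_sup_left inf_le_left

/-- The Euler characteristic for coefficients of finite size. -/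
theorem Top.chi_of_rr {L1 : ℕ} (h : K.Top L1) (hK : K.Sq0) (μ : RLen B) (hN : N' ≤ N'')
    (hf : rr μ N' N'' ≠ ⊤) : GoodG μ K N' N'' ∧ chiG μ K N' N'' =
      (∑ i ∈ Finset.range (L1 + 1), (-1 : ℝ) ^ i * K.rk i) * (rr μ N' N'').toReal := by
  set F : ℕ → ℤ → Submodule B (K.ι → E) :=
    fun i => K.cf fun a => if K.deg a < i then N'' else N' with hF
  have e0 : F 0 = K.cw N' := by simp [hF]
  have e1 : F (L1 + 1) = K.cw N'' := by
    funext n
    exact cf_congr_basic fun a _ => if_pos (Nat.lt_succ_of_le (h a))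
  have hcx : ∀ i, IsCx (K.d E) (F i) := fun i => cf_isCx fun a b hab v hv => by
    have h1 := K.hom a b hab
    refine Submodule.smul_mem _ _ ?_
    split_ifs at hv ⊢ with h2 h3 h3
    · exact hv
    · exact hN hv
    · omega
    · exact hv
  have hle : ∀ i, F i ≤ F (i + 1) := fun i => cf_mono fun a => by
    split_ifs with h2 h3 h3
    · exact le_rfl
    · omega
    · exact hN
    · exact le_rfl
  have hne : ∀ (i : ℕ) (n : ℤ), n ≠ i → hr μ (K.d E) (F i) (F (i + 1)) n = 0 := fun i n hn =>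
    hr_eq_zero_of_le μ n (le_of_eq (cf_congr_basic fun a ha => if_congr (by omega) rfl rfl))
  have heq : ∀ i : ℕ, hr μ (K.d E) (F i) (F (i + 1)) i = K.rk i * rr μ N' N'' := fun i => by
    have a1 : F i i = K.cw N' i := cf_congr_basic fun a ha => if_neg (by omega)
    have a2 : F (i + 1) (i + 1) = K.cw N' (i + 1) := cf_congr_basic fun a ha => if_neg (by omega)
    have a3 : F (i + 1) i = K.cw N'' i := cf_congr_basic fun a ha => if_pos (by omega)
    have a4 : F i (i - 1) = K.cw N'' (i - 1) := cf_congr_basic fun a ha => if_pos (by omega)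
    have b1 : (K.cw N' (i + 1)).map (K.d E) ≤ K.cw N' i := by
      simpa using K.cw_isCx N' (i + 1)
    rw [hr, Bc, Zc, a1, a2, a3, a4, sup_of_le_left b1,
      inf_of_le_left (Submodule.map_le_iff_le_comap.1 (K.cw_isCx N'' i)), rr_cw_basic]
  have hg : ∀ i : ℕ, GoodR μ (K.d E) (F i) (F (i + 1)) := fun i => good_of_ne_top μ fun n => by
    by_cases hn : n = i
    · rw [hn, heq]
      exact ENNReal.mul_ne_top (ENNReal.natCast_ne_top _) hf
    · rw [hne i n hn]
      exact ENNReal.zero_ne_top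
  obtain ⟨g1, g2⟩ := good_chiR_chain μ F (L1 + 1) (sq_of_comp (hK.comp E) _ _) (fun i _ => hcx i)
    (fun i _ => hle i) fun i _ => hg i
  rw [e0, e1] at g1 g2
  refine ⟨g1, g2.trans ?_⟩
  rw [Finset.sum_mul]
  refine Finset.sum_congr rfl fun i _ => ?_
  rw [chiR_eq_single μ i (hne i), heq, Int.coe_negOnePow_natCast, ENNReal.toReal_mul,
    ENNReal.toReal_natCast]
  push_cast
  ring

/-- Elements of `nh` and of the annihilator of the coefficients kill the homology. -/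
theorem smul_mem_Bd {z : B} (hz : z ∈ K.nh ⊔ N'.colon (N'' : Set E)) {n : ℤ} {x : K.ι → E}
    (hx : x ∈ K.Zy N' N'' n) : z • x ∈ K.Bd N' N'' n := by
  obtain ⟨z1, ⟨h, h1, h2⟩, z2, hz2, rfl⟩ := Submodule.mem_sup.1 hz
  rw [add_smul]
  refine add_mem ?_ (Submodule.mem_sup_left (mem_cf.2 ⟨fun a ha => ?_, fun a ha => ?_⟩))
  · have e : z1 • x = mact E h (K.d E x) + K.d E (mact E h x) := by
      rw [← mact_mul, ← mact_mul, ← mact_add, add_comm, h2, mact_smul, mact_one]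
    rw [e]
    refine Submodule.add_mem_sup ?_ ⟨_, h1.mem_cw hx.1, rfl⟩
    simpa using h1.mem_cw (N := N') (n := n - 1) hx.2
  · exact Submodule.mem_colon.1 hz2 _ ((mem_cf.1 hx.1).1 a ha)
  · rw [Pi.smul_apply, (mem_cf.1 hx.1).2 a ha, smul_zero]

theorem cf_map_basic (φ : E →ₗ[B] E') (X : K.ι → Submodule B E) (n : ℤ) :
    (K.cf X n).map (φ.compLeft K.ι) = K.cf (fun a => (X a).map φ) n := by
  apply le_antisymm
  · rintro _ ⟨x, hx, rfl⟩
    refine mem_cf.2 ⟨fun a ha => ⟨x a, (mem_cf.1 hx).1 a ha, rfl⟩, fun a ha => ?_⟩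
    change φ (x a) = 0
    rw [(mem_cf.1 hx).2 a ha, map_zero]
  · intro y hy
    have h1 : ∀ a, ∃ x ∈ X a, φ x = y a ∧ ((K.deg a : ℤ) ≠ n → x = 0) := fun a => by
      by_cases ha : (K.deg a : ℤ) = n
      · obtain ⟨x, hx, h⟩ := (mem_cf.1 hy).1 a ha
        exact ⟨x, hx, h, fun h' => absurd ha h'⟩
      · exact ⟨0, zero_mem _, by rw [(mem_cf.1 hy).2 a ha, map_zero], fun _ => rfl⟩
    choose x hx h2 h3 using h1
    exact ⟨x, mem_cf.2 ⟨fun a _ => hx a, h3⟩, funext h2⟩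

theorem cf_comap_basic (φ : E →ₗ[B] E') (X : K.ι → Submodule B E) (Z : K.ι → Submodule B E')
    (n : ℤ) : K.cf X n ⊓ (K.cf Z n).comap (φ.compLeft K.ι) =
      K.cf (fun a => X a ⊓ (Z a).comap φ) n := by
  apply le_antisymm
  · rintro x ⟨h1, h2⟩
    exact mem_cf.2 ⟨fun a ha => ⟨(mem_cf.1 h1).1 a ha, (mem_cf.1 h2).1 a ha⟩, (mem_cf.1 h1).2⟩
  · intro x hx
    refine ⟨mem_cf.2 ⟨fun a ha => ((mem_cf.1 hx).1 a ha).1, (mem_cf.1 hx).2⟩,
      mem_cf.2 ⟨fun a ha => ((mem_cf.1 hx).1 a ha).2, fun a ha => ?_⟩⟩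
    change φ (x a) = 0
    rw [(mem_cf.1 hx).2 a ha, map_zero]

theorem cw_map_basic (φ : E →ₗ[B] E') {M : Submodule B E'} (h : N.map φ ≤ M) {n : ℤ}
    {x : K.ι → E} (hx : x ∈ K.cw N n) : φ.compLeft K.ι x ∈ K.cw M n := by
  refine K.cw_mono h n ?_
  change _ ∈ K.cf (fun _ => N.map φ) n
  rw [← cf_map_basic φ (fun _ => N)]
  exact ⟨x, hx, rfl⟩

theorem Zy_map_basic (φ : E →ₗ[B] E') {M' M'' : Submodule B E'} (h' : N'.map φ ≤ M')
    (h'' : N''.map φ ≤ M'') {n : ℤ} {x : K.ι → E} (hx : x ∈ K.Zy N' N'' n) :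
    φ.compLeft K.ι x ∈ K.Zy M' M'' n := by
  refine ⟨cw_map_basic φ h'' hx.1, ?_⟩
  change K.d E' (φ.compLeft K.ι x) ∈ K.cw M' (n - 1)
  rw [← mact_compLeft]
  exact cw_map_basic φ h' hx.2

theorem Bd_map_basic (φ : E →ₗ[B] E') {M' M'' : Submodule B E'} (h' : N'.map φ ≤ M')
    (h'' : N''.map φ ≤ M'') {n : ℤ} {x : K.ι → E} (hx : x ∈ K.Bd N' N'' n) :
    φ.compLeft K.ι x ∈ K.Bd M' M'' n := by
  obtain ⟨y, hy, _, ⟨z, hz, rfl⟩, rfl⟩ := Submodule.mem_sup.1 hx
  rw [map_add, mact_compLeft]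
  exact Submodule.add_mem_sup (cw_map_basic φ h' hy) ⟨_, cw_map_basic φ h'' hz, rfl⟩

end GC

variable (μ : RLen B) (K : GC B)

/-- Transfer along a map of coefficients that induces `N'' / N' ≃ M'' / M'`. -/
theorem hG_transfer (φ : E →ₗ[B] E') {N' N'' : Submodule B E} {M' M'' : Submodule B E'}
    (hs : N''.map φ ⊔ M' = M'') (hi : N'' ⊓ M'.comap φ = N') (n : ℤ) :
    hG μ K N' N'' n = hG μ K M' M'' n := by
  have h := hr_transfer μ (d := K.d E) (d' := K.d E') (F' := K.cw N') (F'' := K.cw N'')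
    (G' := K.cw M') (G'' := K.cw M'') (φ.compLeft K.ι) 0 1 (K.cw_isCx _) (K.cw_isCx _)
    (fun n x _ => by
      rw [mact_compLeft, Units.val_one, one_smul, sub_self]
      exact zero_mem _)
    (fun n => by rw [add_zero, GC.cf_map_basic, ← GC.cf_sup, hs])
    (fun n => by rw [add_zero, GC.cf_comap_basic, hi]) n
  rwa [add_zero] at h

theorem hG_equiv (e : E ≃ₗ[B] E') (n : ℤ) :
    hG μ K (⊥ : Submodule B E) ⊤ n = hG μ K (⊥ : Submodule B E') ⊤ n := by
  exact hG_transfer μ K (e : E →ₗ[B] E') (by simp) (by simp) n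

theorem hG_quot (N : Submodule B E) (n : ℤ) :
    hG μ K N ⊤ n = hG μ K (⊥ : Submodule B (E ⧸ N)) ⊤ n := by
  exact hG_transfer μ K N.mkQ (by simp) (by simp) n

theorem hG_sub (N : Submodule B E) (n : ℤ) :
    hG μ K ⊥ N n = hG μ K (⊥ : Submodule B N) ⊤ n := by
  exact (hG_transfer μ K N.subtype (by simp) (by simp) n).symm

theorem hG_HM {N' N'' : Submodule B E} (h : N' ≤ N'') (n : ℤ) :
    hG μ K N' N'' n = hG μ K (⊥ : Submodule B (HM N' N'')) ⊤ n := by
  rw [← hG_sub]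
  exact hG_transfer μ K N'.mkQ (by simp) (by simpa using h) n

theorem hG_self (N : Submodule B E) (n : ℤ) : hG μ K N N n = 0 := by
  exact hr_eq_zero_of_le μ n le_rfl

/-- A retract of the coefficients gives a retract of the homology. -/
theorem hG_retract (f : E →ₗ[B] E') (g : E' →ₗ[B] E) (h : ∀ x, g (f x) = x) (n : ℤ) :
    hG μ K (⊥ : Submodule B E) ⊤ n ≤ hG μ K (⊥ : Submodule B E') ⊤ n := by
  have h1 : (K.Bd (⊥ : Submodule B E') ⊤ n).comap (f.compLeft K.ι) ≤ K.Bd ⊥ ⊤ n := by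
    intro x hx
    have e : x = g.compLeft K.ι (f.compLeft K.ι x) := funext fun a => (h (x a)).symm
    rw [e]
    exact GC.Bd_map_basic g (by simp) (by simp) hx
  refine (rr_anti_left μ h1 _).trans ?_
  rw [rr_map]
  refine rr_mono μ le_rfl ?_
  rintro _ ⟨x, hx, rfl⟩
  exact GC.Zy_map_basic f (by simp) (by simp) hx

theorem cw_pi_basic {τ : Type} (N : τ → Submodule B E) (m : ℤ) (x : K.ι → τ → E) :
    x ∈ K.cw (Submodule.pi Set.univ N) m ↔ ∀ t, (fun a => x a t) ∈ K.cw (N t) m := by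
  simp only [GC.mem_cf, Submodule.mem_pi, Set.mem_univ, true_imp_iff]
  exact ⟨fun h t => ⟨fun a ha => h.1 a ha t, fun a ha => congrFun (h.2 a ha) t⟩,
    fun h => ⟨fun a ha t => (h t).1 a ha, fun a ha => funext fun t => (h t).2 a ha⟩⟩

theorem d_pi_basic {τ : Type} (x : K.ι → τ → E) (t : τ) :
    (fun a => K.d (τ → E) x a t) = K.d E fun a => x a t := by
  funext a
  simp [mact_apply]

theorem Zy_pi_basic {τ : Type} (N' N'' : τ → Submodule B E) (n : ℤ) (x : K.ι → τ → E) :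
    x ∈ K.Zy (Submodule.pi Set.univ N') (Submodule.pi Set.univ N'') n ↔
      ∀ t, (fun a => x a t) ∈ K.Zy (N' t) (N'' t) n := by
  simp only [Zc, Submodule.mem_inf, Submodule.mem_comap, cw_pi_basic, d_pi_basic, forall_and]

theorem Bd_pi_basic {τ : Type} (N' N'' : τ → Submodule B E) (n : ℤ) (x : K.ι → τ → E) :
    x ∈ K.Bd (Submodule.pi Set.univ N') (Submodule.pi Set.univ N'') n ↔
      ∀ t, (fun a => x a t) ∈ K.Bd (N' t) (N'' t) n := by
  simp only [Bc, Submodule.mem_sup, Submodule.mem_map, cw_pi_basic]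
  constructor
  · rintro ⟨y, hy, _, ⟨z, hz, rfl⟩, rfl⟩ t
    exact ⟨_, hy t, _, ⟨_, hz t, rfl⟩, by rw [← d_pi_basic]; rfl⟩
  · intro h
    choose y hy w hw h2 using h
    choose z hz h3 using hw
    refine ⟨fun a t => y t a, hy, _, ⟨fun a t => z t a, hz, rfl⟩, ?_⟩
    funext a t
    have h4 := congrFun (d_pi_basic K (fun a t => z t a) t) a
    have h5 := congrFun (h2 t) a
    rw [← h3 t] at h5
    rw [Pi.add_apply, Pi.add_apply, h4]
    exact h5

/-- Products of coefficients. -/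
theorem hG_pi {τ : Type} [Fintype τ] (N' N'' : τ → Submodule B E) (n : ℤ) :
    hG μ K (Submodule.pi Set.univ N') (Submodule.pi Set.univ N'') n =
      ∑ t, hG μ K (N' t) (N'' t) n := by
  obtain ⟨φ, hφ⟩ : ∃ φ : (K.ι → τ → E) →ₗ[B] (τ → K.ι → E), ∀ x t, φ x t = fun a => x a t :=
    ⟨⟨⟨fun x t a => x a t, fun _ _ => rfl⟩, fun _ _ => rfl⟩, fun _ _ => rfl⟩
  have e1 : K.Bd (Submodule.pi Set.univ N') (Submodule.pi Set.univ N'') n =
      (Submodule.pi Set.univ fun t => K.Bd (N' t) (N'' t) n).comap φ := by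
    ext x
    simp only [Bd_pi_basic, Submodule.mem_comap, Submodule.mem_pi, Set.mem_univ, true_imp_iff, hφ]
  have e2 : (K.Zy (Submodule.pi Set.univ N') (Submodule.pi Set.univ N'') n).map φ =
      Submodule.pi Set.univ fun t => K.Zy (N' t) (N'' t) n := by
    ext y
    simp only [Submodule.mem_map, Zy_pi_basic, Submodule.mem_pi, Set.mem_univ, true_imp_iff]
    constructor
    · rintro ⟨x, hx, rfl⟩ t
      rw [hφ]
      exact hx t
    · intro hy
      exact ⟨fun a t => y t a, hy, funext fun t => hφ _ t⟩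
  have e3 := rr_map μ φ (Submodule.pi Set.univ fun t => K.Bd (N' t) (N'' t) n)
    (K.Zy (Submodule.pi Set.univ N') (Submodule.pi Set.univ N'') n)
  rw [← e1, e2, rr_pi] at e3
  exact e3

theorem hG_disc {ι : Type} [Fintype ι] [DecidableEq ι] (e : ι → ℕ) (X Y : ι → Submodule B E)
    (h : ∀ a, X a ≤ Y a) (n : ℤ) :
    hr μ ((GC.disc B e).d E) ((GC.disc B e).cf X) ((GC.disc B e).cf Y) n =
      ∑ a ∈ Finset.univ.filter (fun a => (e a : ℤ) = n), rr μ (X a) (Y a) := by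
  have e0 : (GC.disc B e).d E = 0 := LinearMap.ext fun x => mact_zero x
  rw [e0, hr, Bc, Zc, Submodule.map_zero, Submodule.comap_zero, sup_bot_eq, inf_top_eq, GC.rr_cf]

theorem hG_one {N' N'' : Submodule B E} (h : N' ≤ N'') (n : ℤ) :
    hG μ (GC.one B) N' N'' n = if n = 0 then rr μ N' N'' else 0 := by
  refine (hG_disc μ (fun _ : Unit => 0) (fun _ => N') (fun _ => N'') (fun _ => h) n).trans ?_
  by_cases hn : n = 0
  · simp [hn]
  · simp [hn, Ne.symm hn]

/-- Equal homology gives equal Euler characteristics. -/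
theorem good_chi_congr {B' : Type u} [CommRing B'] {μ' : RLen B'} {F : Type u} [AddCommGroup F]
    [Module B' F] {d : E →ₗ[B] E} {d' : F →ₗ[B'] F} {F' F'' : ℤ → Submodule B E}
    {G' G'' : ℤ → Submodule B' F} (h : ∀ n, hr μ d F' F'' n = hr μ' d' G' G'' n) :
    (GoodR μ d F' F'' ↔ GoodR μ' d' G' G'') ∧ chiR μ d F' F'' = chiR μ' d' G' G'' := by
  have e : hr μ d F' F'' = hr μ' d' G' G'' := funext h
  unfold GoodR chiR
  rw [e]
  exact ⟨Iff.rfl, rfl⟩

end Vale.Agent.P177
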