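import Vale.Agent.P177.Defs

/-! The ideals of minors of a flag. -/

namespace Vale.Agent.P177

universe u

variable {B : Type u} [CommRing B] {ι : Type} [Fintype ι]

/-- The ideal of the minors of the first `r` columns. -/
def minorI {ι : Type} (b : ι → ℕ → B) (r : ℕ) : Ideal B :=
  Ideal.span (Set.range fun s : Fin r → ι => (Matrix.of fun i j : Fin r => b (s i) j).det)

theorem minor_fa (b : ι → ℕ → B) (r : ℕ) {h : B} (hh : h ∈ minorI b (r + 1)) :
    ∃ lam : ι → B, (∀ a, lam a ∈ minorI b r) ∧ (∀ j, j < r → ∑ a, lam a * b a j = 0) ∧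
      ∑ a, lam a * b a r = h := by
  classical
  induction hh using Submodule.span_induction with
  | mem h hh =>
    obtain ⟨s, rfl⟩ := hh
    set A : Matrix (Fin (r + 1)) (Fin (r + 1)) B := Matrix.of fun i j => b (s i) j with hA
    have key : ∀ j : Fin (r + 1),
        ∑ a, (∑ i, if s i = a then A.adjugate (Fin.last r) i else 0) * b a j =
          if Fin.last r = j then A.det else 0 := by
      intro j
      have h1 := congrFun (congrFun A.adjugate_mul (Fin.last r)) j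
      rw [Matrix.mul_apply, Matrix.smul_apply, Matrix.one_apply, smul_eq_mul, mul_ite, mul_one,
        mul_zero] at h1
      rw [← h1]
      simp only [Finset.sum_mul]
      rw [Finset.sum_comm]
      refine Finset.sum_congr rfl fun i _ => ?_
      simp [hA]
    refine ⟨fun a => ∑ i, if s i = a then A.adjugate (Fin.last r) i else 0, fun a => ?_,
      fun j hj => ?_, ?_⟩
    · refine Ideal.sum_mem _ fun i _ => ?_
      split_ifs
      · rw [Matrix.adjugate_fin_succ_eq_det_submatrix]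
        refine Ideal.mul_mem_left _ _ (Ideal.subset_span ⟨fun k => s (i.succAbove k), ?_⟩)
        simp only [Fin.succAbove_last]
        rfl
      · exact Ideal.zero_mem _
    · have := key ⟨j, by omega⟩
      rwa [if_neg fun h => by simp [Fin.ext_iff] at h; omega] at this
    · have := key (Fin.last r)
      rwa [if_pos rfl] at this
  | zero => exact ⟨0, fun _ => Ideal.zero_mem _, by simp, by simp⟩
  | add x y _ _ hx hy =>
    obtain ⟨l1, a1, b1, c1⟩ := hx
    obtain ⟨l2, a2, b2, c2⟩ := hy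
    refine ⟨l1 + l2, fun a => Ideal.add_mem _ (a1 a) (a2 a), fun j hj => ?_, ?_⟩
    · simp [add_mul, Finset.sum_add_distrib, b1 j hj, b2 j hj]
    · simp [add_mul, Finset.sum_add_distrib, c1, c2]
  | smul c x _ hx =>
    obtain ⟨l1, a1, b1, c1⟩ := hx
    refine ⟨fun a => c * l1 a, fun a => Ideal.mul_mem_left _ _ (a1 a), fun j hj => ?_, ?_⟩
    · simp [mul_assoc, ← Finset.mul_sum, b1 j hj]
    · simp [mul_assoc, ← Finset.mul_sum, c1]

theorem minor_fb {ι : Type} (b : ι → ℕ → B) (r : ℕ) {h : B} (hh : h ∈ minorI b r) :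
    ∃ w : ℕ → B, w r = h ∧ (∀ j, r < j → w j = 0) ∧
      ∀ a, ∑ j ∈ Finset.range (r + 1), b a j * w j ∈ minorI b (r + 1) := by
  induction hh using Submodule.span_induction with
  | mem h hh =>
    obtain ⟨s, rfl⟩ := hh
    let w' : Fin (r + 1) → B := fun j => (-1) ^ (r + j : ℕ) *
      (Matrix.of fun i k : Fin r => b (s i) (j.succAbove k)).det
    refine ⟨fun j => if h : j < r + 1 then w' ⟨j, h⟩ else 0, ?_, fun j hj => dif_neg (by omega),
      fun a => ?_⟩
    · have e : (⟨r, Nat.lt_succ_self r⟩ : Fin (r + 1)) = Fin.last r := rfl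
      simp only [dif_pos (Nat.lt_succ_self r), w', e, Fin.succAbove_last, Fin.val_last,
        Fin.val_castSucc]
      rw [← two_mul, pow_mul]
      simp
    · set A : Matrix (Fin (r + 1)) (Fin (r + 1)) B :=
        Matrix.of fun i j => b (Fin.snoc (α := fun _ => ι) s a i) j with hA
      have h1 := congrFun (congrFun A.mul_adjugate (Fin.last r)) (Fin.last r)
      rw [Matrix.mul_apply, Matrix.smul_apply, Matrix.one_apply_eq, smul_eq_mul, mul_one] at h1
      have h2 : A.det ∈ minorI b (r + 1) := Ideal.subset_span ⟨_, rfl⟩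
      rw [← h1] at h2
      rw [Finset.sum_range]
      refine (Set.mem_of_eq_of_mem (Finset.sum_congr rfl fun j _ => ?_) h2 : _ ∈ (_ : Set B))
      rw [Matrix.adjugate_fin_succ_eq_det_submatrix]
      simp only [dif_pos j.2, hA, w', Matrix.of_apply, Fin.snoc_last, Fin.val_last, Fin.succAbove_last]
      congr 3
      ext i k
      simp
  | zero => exact ⟨0, rfl, by simp, by simp⟩
  | add x y _ _ hx hy =>
    obtain ⟨l1, a1, b1, c1⟩ := hx
    obtain ⟨l2, a2, b2, c2⟩ := hy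
    refine ⟨l1 + l2, by simp [a1, a2], fun j hj => by simp [b1 j hj, b2 j hj], fun a => ?_⟩
    simp only [Pi.add_apply, mul_add, Finset.sum_add_distrib]
    exact Ideal.add_mem _ (c1 a) (c2 a)
  | smul c x _ hx =>
    obtain ⟨l1, a1, b1, c1⟩ := hx
    refine ⟨fun j => c * l1 j, by simp [a1], fun j hj => by simp [b1 j hj], fun a => ?_⟩
    simp only [mul_left_comm _ c, ← Finset.mul_sum]
    exact Ideal.mul_mem_left _ _ (c1 a)

theorem minor_inj {κ : Type} [Fintype κ] (b : Matrix ι κ B) (p : κ → ℕ)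
    (hp : Function.Injective p) : ∃ 𝔞 : ℕ → Ideal B, 𝔞 0 = ⊤ ∧
    (∀ j0, ∀ h ∈ 𝔞 (p j0 + 1), ∃ lam : ι → B, (∀ a, lam a ∈ 𝔞 (p j0)) ∧
      (∀ j, p j < p j0 → ∑ a, lam a * b a j = 0) ∧ ∑ a, lam a * b a j0 = h) ∧
    ∀ j0, ∀ h ∈ 𝔞 (p j0), ∃ w : κ → B, w j0 = h ∧
      (∀ j, p j0 < p j → w j = 0) ∧ ∀ a, ∑ j, b a j * w j ∈ 𝔞 (p j0 + 1) := by
  classical
  let b' : ι → ℕ → B := fun a => Function.extend p (b a) 0
  have hb : ∀ a j, b' a (p j) = b a j := fun a j => hp.extend_apply _ _ j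
  refine ⟨minorI b', ?_, fun j0 h hh => ?_, fun j0 h hh => ?_⟩
  · rw [Ideal.eq_top_iff_one]
    exact Ideal.subset_span ⟨Fin.elim0, Matrix.det_isEmpty⟩
  · obtain ⟨lam, h1, h2, h3⟩ := minor_fa b' _ hh
    refine ⟨lam, h1, fun j hj => ?_, ?_⟩
    · simpa only [hb] using h2 _ hj
    · simpa only [hb] using h3
  · obtain ⟨w, h1, h2, h3⟩ := minor_fb b' _ hh
    refine ⟨fun j => w (p j), h1, fun j hj => h2 _ hj, fun a => ?_⟩
    have e1 : ∑ j, b a j * w (p j) = ∑ m ∈ Finset.univ.image p, b' a m * w m := by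
      rw [Finset.sum_image fun x _ y _ h => hp h]
      simp only [hb]
    have e2 : ∑ m ∈ Finset.univ.image p ∩ Finset.range (p j0 + 1), b' a m * w m =
        ∑ m ∈ Finset.univ.image p, b' a m * w m := by
      refine Finset.sum_subset Finset.inter_subset_left fun m h4 h5 => ?_
      rw [h2 m, mul_zero]
      by_contra h6
      exact h5 (Finset.mem_inter.2 ⟨h4, Finset.mem_range.2 (by omega)⟩)
    have e3 : ∑ m ∈ Finset.univ.image p ∩ Finset.range (p j0 + 1), b' a m * w m =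
        ∑ m ∈ Finset.range (p j0 + 1), b' a m * w m := by
      refine Finset.sum_subset Finset.inter_subset_right fun m h4 h5 => ?_
      have : b' a m = 0 := Function.extend_apply' _ _ _ fun ⟨j, hj⟩ =>
        h5 (Finset.mem_inter.2 ⟨Finset.mem_image.2 ⟨j, Finset.mem_univ _, hj⟩, h4⟩)
      rw [this, zero_mul]
    rw [e1, ← e2, e3]
    exact h3 a

theorem exists_minors {N : ℕ} (b : Matrix ι (Fin N) B) : ∃ 𝔞 : ℕ → Ideal B, 𝔞 0 = ⊤ ∧
    (∀ j0 : Fin N, ∀ h ∈ 𝔞 (j0 + 1), ∃ lam : ι → B, (∀ a, lam a ∈ 𝔞 j0) ∧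
      (∀ j, j < j0 → ∑ a, lam a * b a j = 0) ∧ ∑ a, lam a * b a j0 = h) ∧
    ∀ j0 : Fin N, ∀ h ∈ 𝔞 j0, ∃ w : Fin N → B, w j0 = h ∧ (∀ j, j0 < j → w j = 0) ∧
      ∀ a, ∑ j, b a j * w j ∈ 𝔞 (j0 + 1) := by
  exact minor_inj b (fun j : Fin N => (j : ℕ)) Fin.val_injective

theorem exists_flag {n : ℕ} (b : Matrix ι (Fin n ⊕ Fin n) B) : ∃ 𝔞 : ℕ → Ideal B, 𝔞 0 = ⊤ ∧
    (∀ j0, ∀ h ∈ 𝔞 (pos j0 + 1), ∃ lam : ι → B, (∀ a, lam a ∈ 𝔞 (pos j0)) ∧
      (∀ j, pos j < pos j0 → ∑ a, lam a * b a j = 0) ∧ ∑ a, lam a * b a j0 = h) ∧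
    ∀ j0, ∀ h ∈ 𝔞 (pos j0), ∃ w : Fin n ⊕ Fin n → B, w j0 = h ∧
      (∀ j, pos j0 < pos j → w j = 0) ∧ ∀ a, ∑ j, b a j * w j ∈ 𝔞 (pos j0 + 1) := by
  refine minor_inj b pos ?_
  rintro (j | j) (k | k) h <;> simp only [pos, Sum.elim_inl, Sum.elim_inr] at h
  · exact congrArg _ (Fin.ext (by omega))
  · omega
  · omega
  · exact congrArg _ (Fin.ext (by omega))

end Vale.Agent.P177
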