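import Vale.Agent.P177.Bas2
import Vale.Agent.P177.Minor

/-! Contractible complexes are stably standard. -/

namespace Vale.Agent.P177

open Vale.Agent.P202

universe u

variable {B : Type u} [CommRing B]

section aux

open Matrix

variable {τ κ ρ : Type}

/-- The restriction matrix of a map. -/
def resBas (B : Type u) [CommRing B] [DecidableEq τ] (σ : κ → τ) : Matrix κ τ B :=
  Matrix.of fun k x => if x = σ k then 1 else 0

/-- The inclusion matrix of a map. -/
def incBas (B : Type u) [CommRing B] [DecidableEq τ] (σ : κ → τ) : Matrix τ κ B :=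
  Matrix.of fun x k => if x = σ k then 1 else 0

/-- The projection matrix of a predicate. -/
def dgBas (B : Type u) [CommRing B] [DecidableEq τ] (P : τ → Prop) [DecidablePred P] :
    Matrix τ τ B := Matrix.diagonal fun x => if P x then 1 else 0

variable [Fintype τ] [DecidableEq τ]

theorem res_mul_bas (σ : κ → τ) (M : Matrix τ ρ B) (k : κ) (y : ρ) :
    (resBas B σ * M) k y = M (σ k) y := by
  simp [resBas, Matrix.mul_apply]

theorem mul_inc_bas (σ : κ → τ) (M : Matrix ρ τ B) (k : κ) (y : ρ) :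
    (M * incBas B σ) y k = M y (σ k) := by
  simp [incBas, Matrix.mul_apply]

theorem dg_mul_bas (P : τ → Prop) [DecidablePred P] (M : Matrix τ ρ B) (x : τ) (y : ρ) :
    (dgBas B P * M) x y = if P x then M x y else 0 := by
  simp [dgBas, Matrix.diagonal_mul]

theorem mul_dg_bas (P : τ → Prop) [DecidablePred P] (M : Matrix ρ τ B) (x : τ) (y : ρ) :
    (M * dgBas B P) y x = if P x then M y x else 0 := by
  simp [dgBas, Matrix.mul_diagonal]

theorem dg_dg_bas (P Q : τ → Prop) [DecidablePred P] [DecidablePred Q] (h : ∀ x, P x → Q x) :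
    dgBas B P * dgBas B Q = dgBas B P ∧ dgBas B Q * dgBas B P = dgBas B P := by
  simp only [dgBas, Matrix.diagonal_mul_diagonal]
  constructor <;> congr 1 <;> funext x <;> by_cases h1 : P x <;> simp [h1, h x]

theorem res_inc_bas [DecidableEq κ] {σ : κ → τ} (hσ : Function.Injective σ) :
    resBas B σ * incBas B σ = 1 := by
  ext k k'
  rw [res_mul_bas]
  simp [incBas, Matrix.one_apply, hσ.eq_iff]

omit [Fintype τ] in
theorem inc_res_bas [Fintype κ] {σ : κ → τ} (hσ : Function.Injective σ) (P : τ → Prop)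
    [DecidablePred P] (hP : ∀ x, P x ↔ ∃ k, σ k = x) : incBas B σ * resBas B σ = dgBas B P := by
  ext x y
  simp only [incBas, resBas, dgBas, Matrix.mul_apply, Matrix.of_apply, Matrix.diagonal_apply]
  by_cases hx : P x
  · obtain ⟨k, rfl⟩ := (hP x).1 hx
    rw [Finset.sum_eq_single k (fun k' _ hk => by rw [if_neg (hσ.ne hk.symm), zero_mul])
      (by simp)]
    simp [hx, eq_comm]
  · rw [if_neg hx, ite_self]
    exact Finset.sum_eq_zero fun k _ => by
      rw [if_neg fun h => hx ((hP x).2 ⟨k, h.symm⟩), zero_mul]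

omit [DecidableEq τ] in
theorem exists_enum_bas (P : τ → Prop) (g : τ → ℕ) : ∃ (n : ℕ) (σ : Fin n → τ),
    Function.Injective σ ∧ (∀ x, P x ↔ ∃ k, σ k = x) ∧ Antitone fun k => g (σ k) := by
  classical
  let e := (Fintype.equivFin {x // P x}).symm
  let f : Fin (Fintype.card {x // P x}) → ℕᵒᵈ := fun k => OrderDual.toDual (g (e k))
  refine ⟨_, fun k => e (Tuple.sort f k), Subtype.val_injective.comp
    (e.injective.comp (Tuple.sort f).injective), fun x => ⟨fun hx => ?_, ?_⟩, ?_⟩
  · exact ⟨(Tuple.sort f).symm (e.symm ⟨x, hx⟩), by simp⟩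
  · rintro ⟨k, rfl⟩
    exact (e _).2
  · exact fun k k' h => Tuple.monotone_sort f h

end aux

theorem ring_bas {A : Type u} [Ring A] {D H E V W : A} (dd : D * D = 0) (hh : H * H = 0)
    (dh : D * H + H * D = 1) (r1 : V * D * W = D * W) (r2 : V * H * W = H * W)
    (r3 : W * D * V = D * V) (r4 : W * H * V = H * V - H * E) (r5 : E * D * W = 0)
    (r6 : E * V = E) (r7 : V * E = E) (r8 : E * (D * H) = D * H * E) (ee : E * E = E)
    (vv : V * V = V) :
    E * (D * H * V * (D * H)) * E = E * (D * H) * E ∧ E * (D * H * V * (D + H)) * W = 0 ∧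
      W * ((D + H) * V * (D * H)) * E = 0 ∧ W * ((D + H) * V * (D + H)) * W = W * W ∧
      V * (D * H * E * (D * H) + (D + H) * W * (D + H)) * V = V := by
  have pp : D * H * (D * H) = D * H := by
    linear_combination (norm := noncomm_ring) D * H * dh - D * hh * D
  have ph : D * H * H = 0 := by linear_combination (norm := noncomm_ring) D * hh
  have dp : D * (D * H) = 0 := by linear_combination (norm := noncomm_ring) dd * H
  have tt : (D + H) * (D + H) = 1 := by linear_combination (norm := noncomm_ring) dd + hh + dh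
  have t1 : V * (D + H) * W = (D + H) * W := by linear_combination (norm := noncomm_ring) r1 + r2
  have t2 : W * (D + H) * V = (D + H) * V - H * E := by
    linear_combination (norm := noncomm_ring) r3 + r4
  refine ⟨?_, ?_, ?_, ?_, ?_⟩
  · linear_combination (norm := noncomm_ring) r8 * V * (D * H) * E + D * H * r6 * (D * H) * E -
      r8 * (D * H) * E + E * pp * E
  · linear_combination (norm := noncomm_ring) E * (D * H) * t1 + r8 * D * W + D * H * r5 +
      E * ph * W
  · linear_combination (norm := noncomm_ring) t2 * (D * H) * E - (D + H) * V * r8 +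
      (D + H) * r7 * (D * H) + (D + H) * r8 - H * r8 * E - H * (D * H) * ee + dp * E
  · linear_combination (norm := noncomm_ring) W * (D + H) * t1 + W * tt * W
  · linear_combination (norm := noncomm_ring) V * (D + H) * t2 + V * tt * V + vv -
      V * hh * E - V * r8 * (D * H) * V + V * E * pp * V + V * r8 * V + V * (D * H) * r6

theorem exists_stab_bas {K : GC B} (hK : K.Sq0) {h : Matrix K.ι K.ι B} (h0 : GC.Hg K K 1 h)
    (h1 : K.mat * h + h * K.mat = 1) (h2 : h * h = 0) :
    ∃ (n0 : ℕ) (e0 : Fin n0 → ℕ) (n : ℕ) (e : Fin n → ℕ) (uK : Matrix K.ι (Fin n) B)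
      (uW : Matrix (Fin n0) (Fin n) B) (vK : Matrix (Fin n) K.ι B)
      (vW : Matrix (Fin n) (Fin n0) B), Antitone e ∧ (∀ a k, uK a k ≠ 0 → K.deg a = e k) ∧
      (∀ a k, uW a k ≠ 0 → e0 a = e k) ∧ (∀ k a, vK k a ≠ 0 → K.deg a = e k) ∧
      (∀ k a, vW k a ≠ 0 → e0 a = e k) ∧ uK * vK = K.mat * h ∧ uK * vW = 0 ∧ uW * vK = 0 ∧
      uW * vW = 1 ∧ vK * uK + vW * uW = 1 := by
  obtain ⟨L, hL⟩ := K.exists_top
  let PV : K.ι × Fin (L + 1) → Prop := fun x => K.deg x.1 ≤ x.2 ∧ (K.deg x.1 + x.2) % 2 = 0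
  let PW : K.ι × Fin (L + 1) → Prop := fun x => K.deg x.1 ≤ x.2 ∧ (K.deg x.1 + x.2) % 2 = 1
  let PE : K.ι × Fin (L + 1) → Prop := fun x => K.deg x.1 = x.2
  let γ : K.ι → K.ι × Fin (L + 1) := fun a => (a, ⟨K.deg a, Nat.lt_succ_of_le (hL a)⟩)
  have hγ : Function.Injective γ := fun a a' e => congrArg Prod.fst e
  have hγ' : ∀ x, PE x ↔ ∃ a, γ a = x := fun x =>
    ⟨fun hx => ⟨x.1, Prod.ext rfl (Fin.ext hx)⟩, by rintro ⟨a, rfl⟩; rfl⟩
  obtain ⟨n, σ, hσ, hσ', han⟩ := exists_enum_bas PV fun x => x.2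
  obtain ⟨n0, σ0, hσ0, hσ0', -⟩ := exists_enum_bas PW fun x => x.2
  let D : Matrix (K.ι × Fin (L + 1)) (K.ι × Fin (L + 1)) B := Matrix.blockDiagonal fun _ => K.mat
  let H : Matrix (K.ι × Fin (L + 1)) (K.ι × Fin (L + 1)) B := Matrix.blockDiagonal fun _ => h
  have bd : ∀ {M : Matrix K.ι K.ι B} {k : ℤ}, GC.Hg K K k M → ∀ x y : K.ι × Fin (L + 1),
      Matrix.blockDiagonal (fun _ => M) x y = 0 ∨
        ((x.2 : ℕ) = y.2 ∧ (K.deg x.1 : ℤ) = K.deg y.1 + k) := by
    intro M k hM x y
    rw [Matrix.blockDiagonal_apply]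
    split_ifs with e
    · exact (eq_or_ne _ 0).imp_right fun e' => ⟨by rw [e], hM _ _ e'⟩
    · exact Or.inl rfl
  have hD := bd K.hg_mat
  have hH := bd h0
  have hP := bd (K.hg_mat.mul h0)
  have DH : D * H = Matrix.blockDiagonal fun _ => K.mat * h := (Matrix.blockDiagonal_mul _ _).symm
  have dd : D * D = 0 := by
    rw [← Matrix.blockDiagonal_mul, show K.mat * K.mat = 0 from hK]
    exact Matrix.blockDiagonal_zero
  have hh : H * H = 0 := by
    rw [← Matrix.blockDiagonal_mul, h2]
    exact Matrix.blockDiagonal_zero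
  have dh : D * H + H * D = 1 := by
    rw [← Matrix.blockDiagonal_mul, ← Matrix.blockDiagonal_mul, ← Matrix.blockDiagonal_add,
      ← Matrix.blockDiagonal_one]
    exact congrArg _ (funext fun _ => h1)
  have key := ring_bas (E := dgBas B PE) (V := dgBas B PV) (W := dgBas B PW) dd hh dh
    (by
      ext x y
      simp only [mul_dg_bas, dg_mul_bas]
      rcases hD x y with e | e
      · simp [D, e]
      · split_ifs with e1 e2 <;> first | rfl | exact absurd (by simp only [PV, PW] at *; omega) e2)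
    (by
      ext x y
      simp only [mul_dg_bas, dg_mul_bas]
      rcases hH x y with e | e
      · simp [H, e]
      · split_ifs with e1 e2 <;> first | rfl | exact absurd (by simp only [PV, PW] at *; omega) e2)
    (by
      ext x y
      simp only [mul_dg_bas, dg_mul_bas]
      rcases hD x y with e | e
      · simp [D, e]
      · split_ifs with e1 e2 <;> first | rfl | exact absurd (by simp only [PV, PW] at *; omega) e2)
    (by
      ext x y
      simp only [mul_dg_bas, dg_mul_bas, Matrix.sub_apply]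
      rcases hH x y with e | e
      · simp [H, e]
      · split_ifs <;> first | (simp; done) | (exfalso; simp only [PV, PW, PE] at *; omega))
    (by
      ext x y
      simp only [mul_dg_bas, dg_mul_bas, Matrix.zero_apply]
      rcases hD x y with e | e
      · simp [D, e]
      · split_ifs <;> first | rfl | (exfalso; simp only [PW, PE] at *; omega))
    (dg_dg_bas PE PV fun x hx => by simp only [PV, PE] at *; omega).1
    (dg_dg_bas PE PV fun x hx => by simp only [PV, PE] at *; omega).2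
    (by
      ext x y
      rw [mul_dg_bas, dg_mul_bas, DH]
      rcases hP x y with e | e
      · simp [e]
      · split_ifs <;> first | rfl | (exfalso; simp only [PE] at *; omega))
    (dg_dg_bas PE PE fun _ hx => hx).1 (dg_dg_bas PV PV fun _ hx => hx).1
  rw [← inc_res_bas hγ PE hγ', ← inc_res_bas hσ PV hσ', ← inc_res_bas hσ0 PW hσ0'] at key
  obtain ⟨k1, k2, k3, k4, k5⟩ := key
  have c1 : ∀ {ρ : Type} (M : Matrix K.ι ρ B), resBas B γ * (incBas B γ * M) = M := fun M => by
    rw [← Matrix.mul_assoc, res_inc_bas hγ, Matrix.one_mul]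
  have c2 : ∀ {ρ : Type} (M : Matrix (Fin n) ρ B), resBas B σ * (incBas B σ * M) = M :=
    fun M => by rw [← Matrix.mul_assoc, res_inc_bas hσ, Matrix.one_mul]
  have c3 : ∀ {ρ : Type} (M : Matrix (Fin n0) ρ B), resBas B σ0 * (incBas B σ0 * M) = M :=
    fun M => by rw [← Matrix.mul_assoc, res_inc_bas hσ0, Matrix.one_mul]
  have hT : ∀ x y, (D + H) x y ≠ 0 → (x.2 : ℕ) = y.2 := fun x y e => by
    rcases hD x y with e1 | e1
    · rcases hH x y with e2 | e2
      · exact absurd (by simp [D, H, e1, e2]) e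
      · exact e2.1
    · exact e1.1
  refine ⟨n0, fun k => (σ0 k).2, n, fun k => (σ k).2, resBas B γ * (D * H) * incBas B σ,
    resBas B σ0 * (D + H) * incBas B σ, resBas B σ * (D * H) * incBas B γ,
    resBas B σ * (D + H) * incBas B σ0, han, fun a k e => ?_, fun a k e => ?_, fun k a e => ?_,
    fun k a e => ?_, ?_, ?_, ?_, ?_, ?_⟩
  · rw [mul_inc_bas, res_mul_bas, DH] at e
    exact ((hP _ _).resolve_left e).1
  · rw [mul_inc_bas, res_mul_bas] at e
    exact hT _ _ e
  · rw [mul_inc_bas, res_mul_bas, DH] at e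
    exact ((hP _ _).resolve_left e).1.symm
  · rw [mul_inc_bas, res_mul_bas] at e
    exact (hT _ _ e).symm
  · have e1 := congrArg (fun M => resBas B γ * M * incBas B γ) k1
    simp only [Matrix.mul_assoc, c1, res_inc_bas hγ, Matrix.mul_one] at e1 ⊢
    rw [e1, ← Matrix.mul_assoc D, ← Matrix.mul_assoc, DH]
    ext a c
    rw [mul_inc_bas, res_mul_bas]
    rcases eq_or_ne ((K.mat * h) a c) 0 with e | e
    · simp [Matrix.blockDiagonal_apply, γ, e]
    · have := (K.hg_mat.mul h0) a c e
      rw [Matrix.blockDiagonal_apply, if_pos (Fin.ext (by simp only [γ]; omega))]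
  · have e1 := congrArg (fun M => resBas B γ * M * incBas B σ0) k2
    simpa only [Matrix.mul_assoc, c1, res_inc_bas hσ0, Matrix.mul_one, Matrix.mul_zero,
      Matrix.zero_mul] using e1
  · have e1 := congrArg (fun M => resBas B σ0 * M * incBas B γ) k3
    simpa only [Matrix.mul_assoc, c3, res_inc_bas hγ, Matrix.mul_one, Matrix.mul_zero,
      Matrix.zero_mul] using e1
  · have e1 := congrArg (fun M => resBas B σ0 * M * incBas B σ0) k4
    simpa only [Matrix.mul_assoc, c3, res_inc_bas hσ0, Matrix.mul_one] using e1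
  · have e1 := congrArg (fun M => resBas B σ * M * incBas B σ) k5
    simp only [Matrix.mul_assoc, c2, res_inc_bas hσ, Matrix.mul_one] at e1 ⊢
    rw [← e1, Matrix.add_mul (D * _), Matrix.mul_add (resBas B σ)]
    simp only [Matrix.mul_assoc]

theorem exists_basis {K : GC B} (hK : K.Sq0) (h1 : (1 : B) ∈ K.nh) :
    ∃ (n0 : ℕ) (e0 : Fin n0 → ℕ) (n : ℕ) (e : Fin n → ℕ)
      (b : Matrix (K.sum (GC.std B e0)).ι (Fin n ⊕ Fin n) B)
      (b' : Matrix (Fin n ⊕ Fin n) (K.sum (GC.std B e0)).ι B), Antitone e ∧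
      GC.Hg (K.sum (GC.std B e0)) (GC.std B e) 0 b ∧ GC.Hg (GC.std B e) (K.sum (GC.std B e0)) 0 b' ∧
      b * b' = 1 ∧ b' * b = 1 ∧ (K.sum (GC.std B e0)).mat * b = b * (GC.std B e).mat := by
  obtain ⟨h', h0', h1'⟩ := h1
  rw [one_smul] at h1'
  have dd : K.mat * K.mat = 0 := hK
  have h0 : GC.Hg K K 1 (h' * K.mat * h') := by simpa using (h0'.mul K.hg_mat).mul h0'
  have h1 : K.mat * (h' * K.mat * h') + h' * K.mat * h' * K.mat = 1 := by
    linear_combination (norm := noncomm_ring) h1' * (K.mat * h') + h' * K.mat * h1' -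
      h' * dd * h' - h' * dd * h' + h1'
  have h2 : h' * K.mat * h' * (h' * K.mat * h') = 0 := by
    linear_combination (norm := noncomm_ring) h' * K.mat * h' * h1' * h' -
      h' * K.mat * h1' * h' * h' + h' * dd * h' * h' * h'
  generalize h' * K.mat * h' = h at h0 h1 h2
  obtain ⟨n0, e0, n, e, uK, uW, vK, vW, han, g1, g2, g3, g4, k1, k2, k3, k4, k5⟩ :=
    exists_stab_bas hK h0 h1 h2
  have q1 : K.mat * (h * uK) = uK := by
    have := congrArg (fun M => uK * M) k5
    simp only [Matrix.mul_add, ← Matrix.mul_assoc, k1, k2, Matrix.zero_mul, add_zero,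
      Matrix.mul_one] at this ⊢
    exact this
  have q2 : vK * (K.mat * h) = vK := by
    have := congrArg (fun M => M * vK) k5
    simp only [Matrix.add_mul, Matrix.mul_assoc, k1, k3, Matrix.mul_zero, add_zero,
      Matrix.one_mul] at this ⊢
    exact this
  have q3 : K.mat * uK = 0 := by rw [← q1, ← Matrix.mul_assoc, dd, Matrix.zero_mul]
  have q4 : vK * (h * uK) = 0 := by
    rw [← q2, Matrix.mul_assoc, Matrix.mul_assoc, ← Matrix.mul_assoc h, h2, Matrix.zero_mul,
      Matrix.mul_zero, Matrix.mul_zero]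
  have q5 : K.mat * h + h * (K.mat * (h * K.mat)) = 1 := by
    linear_combination (norm := noncomm_ring) h1 + h * K.mat * h1 - h * dd * h
  have g1' : GC.Hg K (GC.disc B e) 0 uK := fun a k hk => by simp [g1 a k hk]
  have g3' : GC.Hg (GC.disc B e) K 0 vK := fun k a hk => by simp [g3 k a hk]
  refine ⟨n0, e0, n, e,
    Matrix.fromRows (Matrix.fromCols uK (h * uK)) (Matrix.fromBlocks uW 0 0 uW),
    Matrix.fromCols (Matrix.fromRows vK (vK * K.mat)) (Matrix.fromBlocks vW 0 0 vW), han,
    ?_, ?_, ?_, ?_, ?_⟩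
  · rintro (a | a | a) (k | k) hk
    · simpa using g1 a k hk
    · simpa using (h0.mul g1') a k hk
    · simpa using g2 a k hk
    · exact absurd rfl hk
    · exact absurd rfl hk
    · simpa using g2 a k hk
  · rintro (k | k) (a | a | a) hk
    · simpa using (g3 k a hk).symm
    · simpa using (g4 k a hk).symm
    · exact absurd rfl hk
    · have := (g3'.mul K.hg_mat) k a hk
      simp at this ⊢
      omega
    · exact absurd rfl hk
    · simpa using (g4 k a hk).symm
  · rw [Matrix.fromRows_mul_fromCols, Matrix.fromCols_mul_fromRows, Matrix.fromCols_mul_fromBlocks,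
      Matrix.fromBlocks_mul_fromRows, Matrix.fromBlocks_multiply]
    simp only [Matrix.mul_assoc, ← Matrix.mul_assoc uK vK, ← Matrix.mul_assoc uW vK, k1, k2, k3,
      k4, Matrix.mul_zero, Matrix.zero_mul, add_zero, zero_add, Matrix.fromCols_zero,
      Matrix.fromRows_zero, Matrix.fromBlocks_one, q5]
  · rw [Matrix.fromCols_mul_fromRows, Matrix.fromRows_mul_fromCols, Matrix.fromBlocks_multiply,
      Matrix.fromBlocks_add]
    simp only [Matrix.mul_assoc, q1, q3, q4, k5, Matrix.mul_zero, Matrix.zero_mul, add_zero,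
      zero_add, Matrix.fromBlocks_one]
  · change Matrix.fromBlocks K.mat 0 0 (Matrix.fromBlocks 0 ((1 : B) • 1) 0 (-0)) * _ =
      _ * Matrix.fromBlocks 0 ((1 : B) • 1) 0 (-0)
    rw [Matrix.fromBlocks_mul_fromRows, Matrix.fromRows_mul, Matrix.mul_fromCols,
      Matrix.fromCols_mul_fromBlocks, Matrix.fromBlocks_multiply, Matrix.fromBlocks_multiply]
    simp [q1, q3]

theorem exists_setup {K : GC B} (hK : K.Sq0) {π : B} (hπ : π ∈ nonZeroDivisors B) {t : ℕ}
    (h : π ^ t ∈ K.nh) : ∃ (n0 : ℕ) (e0 : Fin n0 → ℕ) (n : ℕ) (e : Fin n → ℕ)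
      (b : Matrix (K.sum (GC.std B e0)).ι (Fin n ⊕ Fin n) B)
      (b' : Matrix (Fin n ⊕ Fin n) (K.sum (GC.std B e0)).ι B) (c : ℕ) (𝔞 : ℕ → Ideal B),
      Setup (K.sum (GC.std B e0)) π e b b' c 𝔞 := by
  let S := Localization.Away π
  let f : B →+* S := algebraMap B S
  have hf : Function.Injective f :=
    IsLocalization.injective S (M := Submonoid.powers π) (Submonoid.powers_le.2 hπ)
  have h1 : (1 : S) ∈ (K.map f).nh := by
    have h2 : f (π ^ t) ∈ (K.map f).nh := K.map_nh_le f (Ideal.mem_map_of_mem _ h)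
    have h3 : IsUnit (f (π ^ t)) := by
      rw [map_pow]
      exact (IsLocalization.Away.algebraMap_isUnit π).pow t
    exact (Ideal.eq_top_iff_one _).1 (Ideal.eq_top_of_isUnit_mem _ h2 h3)
  obtain ⟨n0, e0, n, e, b, b', han, g1, g2, k1, k2, k3⟩ := exists_basis (hK.map f) h1
  have clear : ∀ {ι κ : Type} [Finite ι] [Finite κ] (M : Matrix ι κ S),
      ∃ (c : ℕ) (M' : Matrix ι κ B), M'.map f = f π ^ c • M := by
    intro ι κ _ _ M
    obtain ⟨⟨_, c, rfl⟩, hc⟩ := IsLocalization.exist_integer_multiples_of_finite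
      (Submonoid.powers π) fun x : ι × κ => M x.1 x.2
    choose M' hM' using hc
    refine ⟨c, Matrix.of fun a j => M' (a, j), ?_⟩
    ext a j
    rw [Matrix.map_apply, Matrix.of_apply, Matrix.smul_apply, ← map_pow, smul_eq_mul,
      ← Algebra.smul_def]
    exact hM' (a, j)
  obtain ⟨c1, β, hβ⟩ := clear b
  obtain ⟨c2, β', hβ'⟩ := clear b'
  have inj : ∀ {ι κ : Type} {M M' : Matrix ι κ B}, M.map f = M'.map f → M = M' :=
    fun h => Matrix.map_injective hf h
  have m1 : ∀ {m : ℕ} (g : Fin m → ℕ), (GC.std B g).mat.map f = (GC.std S g).mat := by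
    intro m g
    ext (a | a) (j | j) <;> simp [Matrix.one_apply, apply_ite f]
  have m2 : (K.sum (GC.std B e0)).mat.map f = ((K.map f).sum (GC.std S e0)).mat := by
    change (Matrix.fromBlocks K.mat 0 0 (GC.std B e0).mat).map f = _
    rw [Matrix.fromBlocks_map, m1]
    simp
  have m3 : ∀ {ι : Type} [DecidableEq ι], (π ^ (c1 + c2) • (1 : Matrix ι ι B)).map f =
      f π ^ (c1 + c2) • (1 : Matrix ι ι S) := by
    intro ι _
    ext a j
    simp [Matrix.one_apply, apply_ite f]
  have k4 : (GC.std S e).mat * b' = b' * ((K.map f).sum (GC.std S e0)).mat := by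
    calc (GC.std S e).mat * b' = b' * (b * (GC.std S e).mat) * b' := by
          rw [← Matrix.mul_assoc, k2, Matrix.one_mul]
      _ = _ := by rw [← k3, Matrix.mul_assoc, Matrix.mul_assoc, k1, Matrix.mul_one]
  obtain ⟨𝔞, a1, a2, a3⟩ := exists_flag β
  refine ⟨n0, e0, n, e, β, β', c1 + c2, 𝔞, hK.sum ((GC.sq0_disc e0).cone 1), han,
    fun a j hj => g1 a j fun h0 => hj (hf ?_), fun j a hj => g2 j a fun h0 => hj (hf ?_),
    inj ?_, inj ?_, inj ?_, inj ?_, a1, a2, a3⟩
  · have := congrFun (congrFun hβ a) j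
    rw [Matrix.map_apply, Matrix.smul_apply, h0, smul_zero] at this
    rw [this, map_zero]
  · have := congrFun (congrFun hβ' j) a
    rw [Matrix.map_apply, Matrix.smul_apply, h0, smul_zero] at this
    rw [this, map_zero]
  · rw [Matrix.map_mul, hβ, hβ', m3, Matrix.smul_mul, Matrix.mul_smul, k1, smul_smul, pow_add]
  · rw [Matrix.map_mul, hβ, hβ', m3, Matrix.smul_mul, Matrix.mul_smul, k2, smul_smul, pow_add,
      mul_comm]
  · rw [Matrix.map_mul, Matrix.map_mul, hβ, m1, m2, Matrix.smul_mul, Matrix.mul_smul, k3]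
  · rw [Matrix.map_mul, Matrix.map_mul, hβ', m1, m2, Matrix.smul_mul, Matrix.mul_smul, k4]

end Vale.Agent.P177
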