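import Vale.Agent.P177.Free

/-! The trace computation for subcomplexes of the tensor power of a contractible cone. -/

namespace Vale.Agent.P177

open Vale.Agent.P202
open scoped ENNReal

universe u

variable {B : Type u} [CommRing B] {E : Type u} [AddCommGroup E] [Module B E] {l : ℕ} [NeZero l]

/-- The family increases when `b` is replaced by `a` in one slot. -/
def Cmp {ι : Type} (X : (ZMod l → ι ⊕ ι) → Submodule B E) (a b : ι) : Prop :=
  ∀ α i, (α i = Sum.inl b → X α ≤ X (Function.update α i (Sum.inl a))) ∧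
    (α i = Sum.inr b → X α ≤ X (Function.update α i (Sum.inr a)))

section blk

variable {ι : Type}

/-- Replace every index by its left copy. -/
def blkBig (α : ZMod l → ι ⊕ ι) : ZMod l → ι ⊕ ι := fun i => Sum.inl ((α i).elim id id)

/-- The number of right indices. -/
def blkCnt (α : ZMod l → ι ⊕ ι) : ℕ := (Finset.univ.filter fun i => (α i).isRight).card

/-- The elementary moves. -/
def BlkRel (X : (ZMod l → ι ⊕ ι) → Submodule B E) (α β : ZMod l → ι ⊕ ι) : Prop :=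
  ∃ i, (∀ j, j ≠ i → α j = β j) ∧
    ((∃ a b, α i = Sum.inl a ∧ β i = Sum.inl b ∧ Cmp X a b) ∨
      (∃ a b, α i = Sum.inr a ∧ β i = Sum.inr b ∧ Cmp X a b) ∨
      ∃ a, α i = Sum.inl a ∧ β i = Sum.inr a)

/-- The filtration. -/
def blkY (X : (ZMod l → ι ⊕ ι) → Submodule B E) (j : ℕ) (α : ZMod l → ι ⊕ ι) : Submodule B E :=
  if blkCnt α ≤ j then X (blkBig α) else X α

omit [NeZero l] in
theorem blk_upd {τ : Type} {α β : ZMod l → τ} {i : ZMod l} (h : ∀ j, j ≠ i → α j = β j) {a : τ}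
    (ha : α i = a) : Function.update β i a = α := by
  funext j
  by_cases e : j = i
  · subst e
    rw [Function.update_self, ha]
  · rw [Function.update_of_ne e, h j e]

variable {X : (ZMod l → ι ⊕ ι) → Submodule B E}

theorem blk_le_big
    (m1 : ∀ α i a, α i = Sum.inr a → X α ≤ X (Function.update α i (Sum.inl a)))
    (α : ZMod l → ι ⊕ ι) : X α ≤ X (blkBig α) := by
  have key : ∀ s : Finset (ZMod l), X α ≤ X fun i => if i ∈ s then blkBig α i else α i := by
    intro s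
    induction s using Finset.induction_on with
    | empty => simp
    | insert i s hi ih =>
      refine ih.trans ?_
      rcases e : α i with a | a
      · refine le_of_eq (congrArg X (funext fun j => ?_))
        by_cases h : j = i
        · subst h
          simp [hi, blkBig, e]
        · simp [h]
      · refine (m1 _ i a (by simp [hi, e])).trans (le_of_eq (congrArg X (funext fun j => ?_)))
        by_cases h : j = i
        · subst h
          simp [blkBig, e]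
        · simp [h]
  simpa using key Finset.univ

omit [NeZero l] in
theorem BlkRel.le (m1 : ∀ α i a, α i = Sum.inr a → X α ≤ X (Function.update α i (Sum.inl a)))
    {α β : ZMod l → ι ⊕ ι} (h : BlkRel X α β) : X β ≤ X α := by
  obtain ⟨i, h0, ⟨a, b, ha, hb, hc⟩ | ⟨a, b, ha, hb, hc⟩ | ⟨a, ha, hb⟩⟩ := h
  · have := (hc β i).1 hb
    rwa [blk_upd h0 ha] at this
  · have := (hc β i).2 hb
    rwa [blk_upd h0 ha] at this
  · have := m1 β i a hb
    rwa [blk_upd h0 ha] at this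

omit [NeZero l] in
theorem BlkRel.big {α β : ZMod l → ι ⊕ ι} (h : BlkRel X α β) : X (blkBig β) ≤ X (blkBig α) := by
  obtain ⟨i, h0, h1⟩ := h
  have h2 : ∀ j, j ≠ i → blkBig α j = blkBig β j := fun j hj => by simp [blkBig, h0 j hj]
  obtain ⟨a, b, ha, hb, hc⟩ | ⟨a, b, ha, hb, hc⟩ | ⟨a, ha, hb⟩ := h1
  · have := (hc (blkBig β) i).1 (by simp [blkBig, hb])
    rwa [blk_upd h2 (by simp [blkBig, ha])] at this
  · have := (hc (blkBig β) i).1 (by simp [blkBig, hb])
    rwa [blk_upd h2 (by simp [blkBig, ha])] at this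
  · refine le_of_eq (congrArg X (funext fun j => ?_))
    by_cases e : j = i
    · subst e
      simp [blkBig, ha, hb]
    · exact (h2 j e).symm

theorem BlkRel.sub {α β : ZMod l → ι ⊕ ι} (h : BlkRel X α β) :
    (Finset.univ.filter fun i => (α i).isRight) ⊆ Finset.univ.filter fun i => (β i).isRight := by
  obtain ⟨i, h0, h1⟩ := h
  intro j hj
  simp only [Finset.mem_filter, Finset.mem_univ, true_and] at hj ⊢
  by_cases e : j = i
  · subst e
    obtain ⟨a, b, ha, hb, hc⟩ | ⟨a, b, ha, hb, hc⟩ | ⟨a, ha, hb⟩ := h1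
    · simp [ha] at hj
    · simp [hb]
    · simp [hb]
  · rwa [← h0 j e]

theorem BlkRel.pat {α β : ZMod l → ι ⊕ ι} (h : BlkRel X α β) (hc : blkCnt α = blkCnt β) :
    (fun i => (α i).isRight) = fun i => (β i).isRight := by
  have h1 := Finset.eq_of_subset_of_card_le h.sub hc.ge
  funext i
  have h2 := Finset.ext_iff.1 h1 i
  simp only [Finset.mem_filter, Finset.mem_univ, true_and] at h2
  exact Bool.eq_iff_iff.2 h2

theorem blk_le_Y (m1 : ∀ α i a, α i = Sum.inr a → X α ≤ X (Function.update α i (Sum.inl a)))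
    (j : ℕ) (α : ZMod l → ι ⊕ ι) : X α ≤ blkY X j α := by
  unfold blkY
  split_ifs
  · exact blk_le_big m1 α
  · exact le_rfl

theorem blkY_le_big (m1 : ∀ α i a, α i = Sum.inr a → X α ≤ X (Function.update α i (Sum.inl a)))
    (j : ℕ) (α : ZMod l → ι ⊕ ι) : blkY X j α ≤ X (blkBig α) := by
  unfold blkY
  split_ifs
  · exact le_rfl
  · exact blk_le_big m1 α

theorem blkY_pos {j : ℕ} {α : ZMod l → ι ⊕ ι} (h : blkCnt α ≤ j) :
    blkY X j α = X (blkBig α) := if_pos h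

theorem blkY_neg {j : ℕ} {α : ZMod l → ι ⊕ ι} (h : ¬ blkCnt α ≤ j) : blkY X j α = X α := if_neg h

theorem BlkRel.Y (m1 : ∀ α i a, α i = Sum.inr a → X α ≤ X (Function.update α i (Sum.inl a)))
    {α β : ZMod l → ι ⊕ ι} (h : BlkRel X α β) (j : ℕ) : blkY X j β ≤ blkY X j α := by
  by_cases e : blkCnt β ≤ j
  · rw [blkY_pos e, blkY_pos ((Finset.card_le_card h.sub).trans e)]
    exact h.big
  · rw [blkY_neg e]
    exact (h.le m1).trans (blk_le_Y m1 j α)

theorem blkY_succ (m1 : ∀ α i a, α i = Sum.inr a → X α ≤ X (Function.update α i (Sum.inl a)))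
    (j : ℕ) (α : ZMod l → ι ⊕ ι) : blkY X j α ≤ blkY X (j + 1) α := by
  by_cases e : blkCnt α ≤ j
  · rw [blkY_pos e, blkY_pos (e.trans j.le_succ)]
  · rw [blkY_neg e]
    exact blk_le_Y m1 _ α

theorem blkY_succ_le {j : ℕ} {α : ZMod l → ι ⊕ ι} (h : blkCnt α ≠ j + 1) :
    blkY X (j + 1) α ≤ blkY X j α := by
  by_cases e : blkCnt α ≤ j
  · rw [blkY_pos e, blkY_pos (e.trans j.le_succ)]
  · rw [blkY_neg e, blkY_neg (by omega)]

theorem blkCnt_rot (α : ZMod l → ι ⊕ ι) : blkCnt (rot l _ 1 α) = blkCnt α := by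
  unfold blkCnt
  refine Finset.card_bijective (· + 1) (Equiv.addRight (1 : ZMod l)).bijective fun i => ?_
  rw [Finset.mem_filter, Finset.mem_filter]
  simp only [Finset.mem_univ, true_and]
  rfl

theorem blkY_rot (hinv : ∀ α, X (rot l _ 1 α) = X α) (j : ℕ) (α : ZMod l → ι ⊕ ι) :
    blkY X j (rot l _ 1 α) = blkY X j α := by
  unfold blkY
  rw [blkCnt_rot, hinv, show blkBig (rot l _ 1 α) = rot l _ 1 (blkBig α) from rfl, hinv]

theorem blkCnt_le (α : ZMod l → ι ⊕ ι) : blkCnt α ≤ l :=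
  (Finset.card_le_univ _).trans (ZMod.card l).le

theorem blkY_zero (X : (ZMod l → ι ⊕ ι) → Submodule B E) : blkY X 0 = X := by
  funext α
  unfold blkY
  split_ifs with h
  · congr 1
    funext i
    have h1 := Finset.filter_eq_empty_iff.1 (Finset.card_eq_zero.1 (Nat.le_zero.1 h))
      (Finset.mem_univ i)
    rcases e : α i with a | a
    · simp [blkBig, e]
    · simp [e] at h1
  · rfl

theorem blkY_top (X : (ZMod l → ι ⊕ ι) → Submodule B E) : blkY X l = fun α => X (blkBig α) :=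
  funext fun α => blkY_pos (blkCnt_le α)

theorem blkCnt_inr (γ : ZMod l → ι) : blkCnt (Sum.inr ∘ γ : ZMod l → ι ⊕ ι) = l := by
  simp [blkCnt]

theorem blk_eq_inr {α : ZMod l → ι ⊕ ι} (h : blkCnt α = l) :
    α = Sum.inr ∘ fun i => (α i).elim id id := by
  have h1 : (Finset.univ.filter fun i => (α i).isRight) = Finset.univ :=
    Finset.eq_univ_of_card _ (h.trans (ZMod.card l).symm)
  funext i
  have h2 := Finset.filter_eq_self.1 h1 i (Finset.mem_univ i)
  rcases e : α i with a | a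
  · simp [e] at h2
  · simp [e]

theorem blk_nonconst {α : ZMod l → ι ⊕ ι} (h0 : blkCnt α ≠ 0) (h1 : blkCnt α ≠ l) :
    ¬ ∀ i j, (α i).isRight = (α j).isRight := by
  intro h
  by_cases e : (α 0).isRight
  · apply h1
    unfold blkCnt
    rw [Finset.filter_true_of_mem fun i _ => (h i 0).trans e, Finset.card_univ, ZMod.card]
  · apply h0
    unfold blkCnt
    rw [Finset.filter_false_of_mem fun i _ => by rwa [h i 0], Finset.card_empty]

end blk

section cone

variable {K : GC B} {X : (ZMod l → K.ι ⊕ K.ι) → Submodule B E}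

theorem blk_rel_mat (m2 : ∀ a b, K.mat a b ≠ 0 → Cmp X a b) {α β : ZMod l → K.ι ⊕ K.ι}
    (h : ((K.cone 1).tp l).mat α β ≠ 0) : BlkRel X α β := by
  obtain ⟨i, h1, h2⟩ := GC.tp_mat_ne_zero (K := K.cone 1) h
  refine ⟨i, h2, ?_⟩
  rcases ea : α i with a | a <;> rcases eb : β i with b | b <;> rw [ea, eb] at h1
  · exact Or.inl ⟨a, b, rfl, rfl, m2 a b h1⟩
  · have : a = b := by
      by_contra hne
      exact h1 (by simp [Matrix.one_apply_ne hne])
    exact Or.inr (Or.inr ⟨a, rfl, by rw [this]⟩)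
  · exact absurd rfl h1
  · exact Or.inr (Or.inl ⟨a, b, rfl, rfl, m2 a b (by simpa using h1)⟩)

theorem blk_rel_htpy {h : Matrix K.ι K.ι B} (m2 : ∀ a b, h a b ≠ 0 → Cmp X a b)
    {α β : ZMod l → K.ι ⊕ K.ι}
    (h0 : prodM l (GC.slot l (K.cone 1) 0 (Matrix.fromBlocks h 0 0 (-h))) α β ≠ 0) :
    BlkRel X α β := by
  obtain ⟨h1, h2⟩ := GC.slot_ne_zero (K := K.cone 1) h0
  refine ⟨0, h2, ?_⟩
  rcases ea : α 0 with a | a <;> rcases eb : β 0 with b | b <;> rw [ea, eb] at h1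
  · exact Or.inl ⟨a, b, rfl, rfl, m2 a b h1⟩
  · exact absurd rfl h1
  · exact absurd rfl h1
  · exact Or.inr (Or.inl ⟨a, b, rfl, rfl, m2 a b (by simpa using h1)⟩)

theorem blk_isCx (m1 : ∀ α i a, α i = Sum.inr a → X α ≤ X (Function.update α i (Sum.inl a)))
    (m2 : ∀ a b, K.mat a b ≠ 0 → Cmp X a b) (j : ℕ) :
    IsCx (((K.cone 1).tp l).d E) (((K.cone 1).tp l).cf (blkY X j)) :=
  GC.cf_isCx (K := (K.cone 1).tp l) fun _ _ h _ hv =>
    Submodule.smul_mem _ _ ((blk_rel_mat m2 h).Y m1 j hv)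

/-- The big complex is exact. -/
theorem blk_exact (ho : Odd l) (hu : IsUnit (l : B)) (μ : RLen B) (Nb : Submodule B E)
    (hinv : ∀ α, X (rot l _ 1 α) = X α) :
    GoodP μ (((K.cone 1).tp l).d E) (rotL l B (K.ι ⊕ K.ι) E) (((K.cone 1).tp l).cw Nb)
      (((K.cone 1).tp l).cf fun α => X (blkBig α)) ∧
    psi μ l (((K.cone 1).tp l).d E) (rotL l B (K.ι ⊕ K.ι) E) (((K.cone 1).tp l).cw Nb)
      (((K.cone 1).tp l).cf fun α => X (blkBig α)) = 0 := by
  let s : Matrix (K.ι ⊕ K.ι) (K.ι ⊕ K.ι) B := Matrix.fromBlocks 0 0 1 0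
  have s0 : ∀ p q, s p q ≠ 0 → ∃ a, p = Sum.inr a ∧ q = Sum.inl a := by
    rintro (a | a) (b | b) h
    · exact absurd rfl h
    · exact absurd rfl h
    · have : a = b := by
        by_contra hne
        exact h (by simp [s, Matrix.one_apply_ne hne])
      exact ⟨a, rfl, by rw [this]⟩
    · exact absurd rfl h
  have s1 : GC.Hg (K.cone 1) (K.cone 1) 1 s := by
    intro p q h
    obtain ⟨a, rfl, rfl⟩ := s0 p q h
    simp
  have s2 : (K.cone 1).mat * s + s * (K.cone 1).mat =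
      (1 : B) • (1 : Matrix (K.ι ⊕ K.ι) (K.ι ⊕ K.ι) B) := by
    simp [s, Matrix.fromBlocks_multiply, Matrix.fromBlocks_add, Matrix.fromBlocks_one]
  have s3 := GC.tp_slot_htpy (K := K.cone 1) ho 0 s1 s2
  have s4 := GC.hg_slot (l := l) s1 0
  refine (GC.tp_act (E := E) (K.cone 1) hu).psi_exact
    (GC.tp_stab (K := K.cone 1) fun _ => rfl)
    (GC.tp_stab (K := K.cone 1) fun α => hinv (blkBig α))
    (mact E (prodM l (GC.slot l (K.cone 1) 0 s))) (fun x => ?_) (fun n => ?_) fun n => ?_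
  · rw [GC.d, ← mact_mul, ← mact_mul, ← mact_add, s3, one_smul, mact_one]
  · rintro _ ⟨x, hx, rfl⟩
    exact s4.mem_cw hx
  · rintro _ ⟨x, hx, rfl⟩
    refine s4.mact_mem (fun α β h v hv => Submodule.smul_mem _ _ ?_) hx
    obtain ⟨h1, h2⟩ := GC.slot_ne_zero (K := K.cone 1) h
    obtain ⟨a, ha, hb⟩ := s0 _ _ h1
    have e : blkBig α = blkBig β := by
      funext j
      by_cases e : j = 0
      · subst e
        simp [blkBig, ha, hb]
      · simp [blkBig, h2 j e]
    rwa [e]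

/-- Finiteness of the steps of the filtration. -/
theorem blk_good (ho : Odd l) (hu : IsUnit (l : B)) (μ : RLen B)
    (hinv : ∀ α, X (rot l _ 1 α) = X α)
    (m1 : ∀ α i a, α i = Sum.inr a → X α ≤ X (Function.update α i (Sum.inl a)))
    (m2 : ∀ a b, K.mat a b ≠ 0 → Cmp X a b) (𝔷 : Ideal B)
    (hz : ∀ z ∈ 𝔷, ∃ h : Matrix K.ι K.ι B, GC.Hg K K 1 h ∧
      K.mat * h + h * K.mat = z • (1 : Matrix K.ι K.ι B) ∧ ∀ a b, h a b ≠ 0 → Cmp X a b)
    (hfin : ∀ A' A : Submodule B ((ZMod l → K.ι ⊕ K.ι) → E), Submodule.pi Set.univ X ≤ A' →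
      A ≤ Submodule.pi Set.univ (fun α => X fun i => Sum.inl ((α i).elim id id)) →
      𝔷 • A ≤ A' → rr μ A' A ≠ ⊤) (j : ℕ) :
    GoodR μ (((K.cone 1).tp l).d E) (((K.cone 1).tp l).cf (blkY X j))
      (((K.cone 1).tp l).cf (blkY X (j + 1))) := by
  refine GC.good_of_ne_top (K := (K.cone 1).tp l) μ fun n => ?_
  have h1 := hfin (Bc (((K.cone 1).tp l).d E) (((K.cone 1).tp l).cf (blkY X j))
      (((K.cone 1).tp l).cf (blkY X (j + 1))) n ⊔ Submodule.pi Set.univ X)
    (Zc (((K.cone 1).tp l).d E) (((K.cone 1).tp l).cf (blkY X j))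
      (((K.cone 1).tp l).cf (blkY X (j + 1))) n) le_sup_right
    (fun x hx α _ => blkY_le_big m1 _ α
      (GC.apply_mem_of_mem_cf (K := (K.cone 1).tp l) hx.1 α)) ?_
  · refine ne_top_of_le_ne_top h1 ?_
    rw [← rr_inf]
    refine rr_mono μ ?_ le_rfl
    rintro x ⟨hx1, hx2⟩
    obtain ⟨b, hb, p, hp, rfl⟩ := Submodule.mem_sup.1 hx1
    refine add_mem hb (Submodule.mem_sup_left ?_)
    have hb1 : b ∈ ((K.cone 1).tp l).cf (blkY X (j + 1)) n := by
      refine (sup_le (GC.cf_mono (K := (K.cone 1).tp l) (blkY_succ m1 j) n) ?_ :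
        _ ≤ ((K.cone 1).tp l).cf (blkY X (j + 1)) n) hb
      simpa using blk_isCx m1 m2 (j + 1) (n + 1)
    have hp1 : p ∈ ((K.cone 1).tp l).cf (blkY X (j + 1)) n := by
      simpa using sub_mem hx2.1 hb1
    exact GC.mem_cf.2 ⟨fun α _ => blk_le_Y m1 j α (hp α trivial), (GC.mem_cf.1 hp1).2⟩
  · refine Submodule.smul_le.2 fun z hz1 x hx => Submodule.mem_sup_left ?_
    obtain ⟨h, g1, g2, g3⟩ := hz z hz1
    have s1 : GC.Hg (K.cone 1) (K.cone 1) 1 (Matrix.fromBlocks h 0 0 (-h)) := by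
      rintro (a | a) (b | b) h0
      · exact g1 a b h0
      · exact absurd rfl h0
      · exact absurd rfl h0
      · have := g1 a b (by simpa using h0)
        simp [this]
    have s2 : (K.cone 1).mat * Matrix.fromBlocks h 0 0 (-h) +
        Matrix.fromBlocks h 0 0 (-h) * (K.cone 1).mat =
        z • (1 : Matrix (K.ι ⊕ K.ι) (K.ι ⊕ K.ι) B) := by
      rw [← Matrix.fromBlocks_one, Matrix.fromBlocks_smul]
      simp [Matrix.fromBlocks_multiply, Matrix.fromBlocks_add, g2]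
    have s3 := GC.tp_slot_htpy (K := K.cone 1) ho 0 s1 s2
    have s4 := GC.hg_slot (l := l) s1 0
    have s5 : ∀ (i : ℕ) (m : ℤ), (((K.cone 1).tp l).cf (blkY X i) m).map
        (mact E (prodM l (GC.slot l (K.cone 1) 0 (Matrix.fromBlocks h 0 0 (-h))))) ≤
        ((K.cone 1).tp l).cf (blkY X i) (m + 1) := by
      rintro i m _ ⟨y, hy, rfl⟩
      exact s4.mact_mem
        (fun α β h0 v hv => Submodule.smul_mem _ _ ((blk_rel_htpy g3 h0).Y m1 i hv)) hy
    refine ((GC.tp_act (E := E) (K.cone 1) hu).smul_mem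
      (GC.tp_stab (K := K.cone 1) (blkY_rot hinv j))
      (GC.tp_stab (K := K.cone 1) (blkY_rot hinv (j + 1))) _ (fun y => ?_) (s5 j) (s5 (j + 1))
      n).1 x hx
    rw [GC.d, ← mact_mul, ← mact_mul, ← mact_add, s3, mact_smul, mact_one]

/-- The signs on the top block. -/
def blkSg (B : Type u) [CommRing B] (t : ZMod l) : Bˣ := if t = 0 ∨ inS l 0 t then -1 else 1

omit [NeZero l] in
theorem blk_slot (i j : ZMod l) (a b : K.ι) :
    GC.slot l (K.cone 1) i (K.cone 1).mat j (Sum.inr a) (Sum.inr b) =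
      (blkSg B (j - i) : B) * GC.slot l K i K.mat j a b := by
  have e : inS l 0 (j - i) ↔ inS l i j := by simp [inS]
  unfold GC.slot blkSg
  by_cases h1 : j = i
  · simp [h1]
  · have h2 : j - i ≠ 0 := sub_ne_zero.2 h1
    by_cases h3 : inS l i j
    · simp only [if_neg h1, if_pos h3, if_pos (Or.inr (e.2 h3)), GC.eps, Matrix.diagonal_apply]
      by_cases h4 : a = b
      · simp [h4, pow_succ]
      · simp [h4]
    · rw [if_neg h1, if_neg h3, if_neg h1, if_neg h3,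
        if_neg (not_or.2 ⟨h2, fun h => h3 (e.1 h)⟩)]
      simp [Matrix.one_apply]

theorem blk_mat_inr (γ γ' : ZMod l → K.ι) :
    ((K.cone 1).tp l).mat (Sum.inr ∘ γ) (Sum.inr ∘ γ') =
      ((∏ t : ZMod l, blkSg B t : Bˣ) : B) * (K.tp l).mat γ γ' := by
  simp only [Matrix.sum_apply, prodM, Matrix.of_apply, Function.comp_apply, Finset.mul_sum,
    Units.coe_prod]
  refine Finset.sum_congr rfl fun i _ => ?_
  refine (Finset.prod_congr rfl fun j _ => blk_slot i j (γ j) (γ' j)).trans ?_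
  rw [Finset.prod_mul_distrib]
  congr 1
  exact Equiv.prod_comp (Equiv.subRight i) fun t => (blkSg B t : B)

theorem blk_d_inr (x : (ZMod l → K.ι ⊕ K.ι) → E) (γ : ZMod l → K.ι) :
    ((K.cone 1).tp l).d E x (Sum.inr ∘ γ) =
      ((∏ t : ZMod l, blkSg B t : Bˣ) : B) • (K.tp l).d E (fun γ' => x (Sum.inr ∘ γ')) γ := by
  rw [GC.d, GC.d, mact_apply, mact_apply, Finset.smul_sum]
  symm
  refine Fintype.sum_of_injective (fun γ' : ZMod l → K.ι => (Sum.inr ∘ γ' : ZMod l → K.ι ⊕ K.ι))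
    (fun γ1 γ2 h => funext fun i => Sum.inr_injective (congrFun h i)) _ _ (fun β hβ => ?_)
    fun γ' => ?_
  · have h0 : ((K.cone 1).tp l).mat (Sum.inr ∘ γ) β = 0 := by
      by_contra h
      obtain ⟨i, h1, h2⟩ := GC.tp_mat_ne_zero (K := K.cone 1) h
      rcases e : β i with b | b
      · rw [e] at h1
        exact h1 rfl
      · refine hβ ⟨Function.update γ i b, funext fun j => ?_⟩
        by_cases e1 : j = i
        · subst e1
          simp [e]
        · simp [e1, ← h2 j e1]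
    rw [h0, zero_smul]
  · rw [smul_smul, ← blk_mat_inr]

theorem blk_deg_inr (γ : ZMod l → K.ι) :
    (((K.cone 1).tp l).deg (Sum.inr ∘ γ) : ℤ) = (K.tp l).deg γ + l := by
  simp [Finset.sum_add_distrib]

theorem blk_res_mem {Y : (ZMod l → K.ι ⊕ K.ι) → Submodule B E} {n : ℤ}
    {x : (ZMod l → K.ι ⊕ K.ι) → E} (hx : x ∈ ((K.cone 1).tp l).cf Y n) :
    (fun γ : ZMod l → K.ι => x (Sum.inr ∘ γ)) ∈
      (K.tp l).cf (fun γ => Y (Sum.inr ∘ γ)) (n + -(l : ℤ)) := by
  refine GC.mem_cf.2 ⟨fun γ _ => GC.apply_mem_of_mem_cf (K := (K.cone 1).tp l) hx _,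
    fun γ hγ => (GC.mem_cf.1 hx).2 _ fun h => hγ ?_⟩
  rw [blk_deg_inr] at h
  omega

/-- The last step of the filtration. -/
theorem blk_last (ho : Odd l) (hu : IsUnit (l : B)) (μ : RLen B)
    (hinv : ∀ α, X (rot l _ 1 α) = X α)
    (m1 : ∀ α i a, α i = Sum.inr a → X α ≤ X (Function.update α i (Sum.inl a)))
    (m2 : ∀ a b, K.mat a b ≠ 0 → Cmp X a b) {m : ℕ} (hm : m + 1 = l) :
    (GoodP μ (((K.cone 1).tp l).d E) (rotL l B (K.ι ⊕ K.ι) E) (((K.cone 1).tp l).cf (blkY X m))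
      (((K.cone 1).tp l).cf (blkY X (m + 1))) ↔
    GoodP μ ((K.tp l).d E) (rotL l B K.ι E) ((K.tp l).cf fun γ => X (Sum.inr ∘ γ))
      ((K.tp l).cf fun γ => X (Sum.inl ∘ γ))) ∧
    psi μ l (((K.cone 1).tp l).d E) (rotL l B (K.ι ⊕ K.ι) E) (((K.cone 1).tp l).cf (blkY X m))
      (((K.cone 1).tp l).cf (blkY X (m + 1))) =
    -psi μ l ((K.tp l).d E) (rotL l B K.ι E) ((K.tp l).cf fun γ => X (Sum.inr ∘ γ))
      ((K.tp l).cf fun γ => X (Sum.inl ∘ γ)) := by
  classical
  have y1 : (fun γ : ZMod l → K.ι => blkY X m (Sum.inr ∘ γ)) = fun γ => X (Sum.inr ∘ γ) :=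
    funext fun γ => blkY_neg (by rw [blkCnt_inr]; omega)
  have y2 : (fun γ : ZMod l → K.ι => blkY X (m + 1) (Sum.inr ∘ γ)) = fun γ => X (Sum.inl ∘ γ) :=
    funext fun γ => blkY_pos (by rw [blkCnt_inr]; omega)
  have key := Act.psi_transfer (μ := μ) (F' := ((K.cone 1).tp l).cf (blkY X m))
    (F'' := ((K.cone 1).tp l).cf (blkY X (m + 1)))
    (G' := (K.tp l).cf fun γ => X (Sum.inr ∘ γ)) (G'' := (K.tp l).cf fun γ => X (Sum.inl ∘ γ))
    (GC.tp_act (E := E) (K.cone 1) hu) (GC.tp_act (E := E) K hu)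
    (LinearMap.funLeft B E fun γ : ZMod l → K.ι => (Sum.inr ∘ γ : ZMod l → K.ι ⊕ K.ι))
    (fun _ => rfl) (-(l : ℤ)) (∏ t : ZMod l, blkSg B t)
    (GC.tp_stab (K := K.cone 1) (blkY_rot hinv _))
    (GC.tp_stab (K := K) fun γ => hinv (Sum.inr ∘ γ)) (blk_isCx m1 m2 _) ?_ ?_ ?_ ?_
  · refine ⟨key.1, key.2.trans ?_⟩
    rw [Int.negOnePow_neg, Int.negOnePow_odd _ (Int.odd_coe_nat l |>.2 ho)]
    simp
  · refine GC.cf_isCx (K := K.tp l) fun γ γ' h v hv => Submodule.smul_mem _ _ ?_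
    obtain ⟨i, h1, h2⟩ := GC.tp_mat_ne_zero h
    have h3 : BlkRel X (Sum.inr ∘ γ) (Sum.inr ∘ γ') :=
      ⟨i, fun j hj => congrArg Sum.inr (h2 j hj), Or.inr (Or.inl ⟨_, _, rfl, rfl, m2 _ _ h1⟩)⟩
    exact h3.le m1 hv
  · intro n x _
    have e : LinearMap.funLeft B E (fun γ : ZMod l → K.ι => (Sum.inr ∘ γ : ZMod l → K.ι ⊕ K.ι))
        (((K.cone 1).tp l).d E x) = ((∏ t : ZMod l, blkSg B t : Bˣ) : B) • (K.tp l).d E
          (LinearMap.funLeft B E
            (fun γ : ZMod l → K.ι => (Sum.inr ∘ γ : ZMod l → K.ι ⊕ K.ι)) x) :=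
      funext fun γ => blk_d_inr x γ
    rw [e, sub_self]
    exact zero_mem _
  · intro n
    apply le_antisymm
    · refine sup_le ?_ (GC.cf_mono (K := K.tp l) (fun γ => blk_le_big m1 (Sum.inr ∘ γ)) _)
      rintro _ ⟨x, hx, rfl⟩
      rw [← y2]
      exact blk_res_mem hx
    · intro y hy
      refine Submodule.mem_sup_left
        ⟨fun α => if blkCnt α = l then y (fun i => (α i).elim id id) else 0,
          GC.mem_cf.2 ⟨fun α _ => ?_, fun α hα => ?_⟩, funext fun γ => ?_⟩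
      · by_cases h : blkCnt α = l
        · simp only [if_pos h]
          rw [blkY_pos (by omega)]
          exact GC.apply_mem_of_mem_cf (K := K.tp l) hy _
        · simp only [if_neg h]
          exact zero_mem _
      · by_cases h : blkCnt α = l
        · simp only [if_pos h]
          refine (GC.mem_cf.1 hy).2 _ fun h0 => hα ?_
          rw [blk_eq_inr h, blk_deg_inr]
          omega
        · simp only [if_neg h]
      · exact if_pos (blkCnt_inr γ)
  · intro n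
    apply le_antisymm
    · rintro x ⟨hx, hx1⟩
      refine free_mem_cf (K := (K.cone 1).tp l) (S := fun α => blkCnt α = m + 1)
        (fun α h => blkY_succ_le h) hx fun α h => blk_le_Y m1 m α ?_
      rw [blk_eq_inr (h.trans hm)]
      exact GC.apply_mem_of_mem_cf (K := K.tp l) hx1 _
    · intro x hx
      refine ⟨GC.cf_mono (K := (K.cone 1).tp l) (blkY_succ m1 m) n hx, ?_⟩
      rw [← y1]
      exact blk_res_mem hx

end cone

theorem psi_trace (hl : l.Prime) (ho : Odd l) (hu : IsUnit (l : B)) (μ : RLen B) {K : GC B}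
    (hK : K.Sq0) (X : (ZMod l → K.ι ⊕ K.ι) → Submodule B E) (Nb : Submodule B E)
    (hinv : ∀ α, X (rot l _ 1 α) = X α) (hb : ∀ α, Nb ≤ X α)
    (m1 : ∀ α i a, α i = Sum.inr a → X α ≤ X (Function.update α i (Sum.inl a)))
    (m2 : ∀ a b, K.mat a b ≠ 0 → Cmp X a b) (𝔷 : Ideal B)
    (hz : ∀ z ∈ 𝔷, ∃ h : Matrix K.ι K.ι B, GC.Hg K K 1 h ∧
      K.mat * h + h * K.mat = z • (1 : Matrix K.ι K.ι B) ∧ ∀ a b, h a b ≠ 0 → Cmp X a b)
    (hfin : ∀ A' A : Submodule B ((ZMod l → K.ι ⊕ K.ι) → E), Submodule.pi Set.univ X ≤ A' →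
      A ≤ Submodule.pi Set.univ (fun α => X fun i => Sum.inl ((α i).elim id id)) →
      𝔷 • A ≤ A' → rr μ A' A ≠ ⊤)
    (htop : GoodP μ ((K.tp l).d E) (rotL l B K.ι E) ((K.tp l).cf fun γ => X (Sum.inr ∘ γ))
      ((K.tp l).cf fun γ => X (Sum.inl ∘ γ))) :
    GoodP μ (((K.cone 1).tp l).d E) (rotL l B (K.ι ⊕ K.ι) E) (((K.cone 1).tp l).cw Nb)
      (((K.cone 1).tp l).cf X) ∧
    psi μ l (((K.cone 1).tp l).d E) (rotL l B (K.ι ⊕ K.ι) E) (((K.cone 1).tp l).cw Nb)
      (((K.cone 1).tp l).cf X) =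
    psi μ l ((K.tp l).d E) (rotL l B K.ι E) ((K.tp l).cf fun γ => X (Sum.inr ∘ γ))
      ((K.tp l).cf fun γ => X (Sum.inl ∘ γ)) := by
  obtain ⟨m, hm⟩ : ∃ m, m + 1 = l := ⟨l - 1, by have := hl.pos; omega⟩
  obtain ⟨lab, hlab⟩ := exists_lab hl Bool
  have act := GC.tp_act (E := E) (l := l) (K.cone 1) hu
  have hd := (GC.Sq0.tp ho (hK.cone 1)).comp E
  have step : ∀ j < m, GoodP μ (((K.cone 1).tp l).d E) (rotL l B (K.ι ⊕ K.ι) E)
      (((K.cone 1).tp l).cf (blkY X j)) (((K.cone 1).tp l).cf (blkY X (j + 1))) ∧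
      psi μ l (((K.cone 1).tp l).d E) (rotL l B (K.ι ⊕ K.ι) E)
        (((K.cone 1).tp l).cf (blkY X j)) (((K.cone 1).tp l).cf (blkY X (j + 1))) = 0 := by
    intro j hj
    refine psi_free μ (K.cone 1) (blkY_succ m1 j) (blkY_rot hinv j) (blkY_rot hinv (j + 1))
      (fun _ _ h _ hv => Submodule.smul_mem _ _ ((blk_rel_mat m2 h).Y m1 _ hv))
      (fun _ _ h _ hv => Submodule.smul_mem _ _ ((blk_rel_mat m2 h).Y m1 _ hv))
      (fun α => blkCnt α = j + 1) (fun α => lab fun i => (α i).isRight)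
      (fun α h => blkY_succ_le h) (fun α h => ⟨(blkCnt_rot α).trans h, ?_⟩)
      (fun α β h1 h2 h => congrArg lab ((blk_rel_mat m2 h).pat (h1.trans h2.symm)))
      (blk_good ho hu μ hinv m1 m2 𝔷 hz hfin j)
    exact hlab _ (blk_nonconst (by omega) (by omega))
  have last := blk_last ho hu μ hinv m1 m2 hm
  have chain := act.psi_chain (μ := μ) hd (fun j => ((K.cone 1).tp l).cf (blkY X j)) (m + 1)
    (fun j _ => blk_isCx m1 m2 j)
    (fun j _ => GC.cf_mono (K := (K.cone 1).tp l) (blkY_succ m1 j)) fun j hj => by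
      rcases Nat.lt_succ_iff_lt_or_eq.1 hj with h | rfl
      · exact (step j h).1
      · exact last.1.2 htop
  rw [Finset.sum_range_succ, Finset.sum_eq_zero fun j hj => (step j (Finset.mem_range.1 hj)).2,
    zero_add, last.2, hm] at chain
  simp only [blkY_zero, blkY_top] at chain
  have ex := blk_exact (X := X) ho hu μ Nb hinv
  have tri : Tri (((K.cone 1).tp l).d E) (((K.cone 1).tp l).cw Nb) (((K.cone 1).tp l).cf X)
      (((K.cone 1).tp l).cf fun α => X (blkBig α)) := by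
    refine ⟨sq_of_comp hd _ _, GC.cw_isCx _ _, ?_, ?_, GC.cf_mono (K := (K.cone 1).tp l) hb,
      GC.cf_mono (K := (K.cone 1).tp l) (blk_le_big m1)⟩
    · have := blk_isCx m1 m2 0
      rwa [blkY_zero] at this
    · have := blk_isCx m1 m2 l
      rwa [blkY_top] at this
  have fin := act.psi_left tri ex.1 chain.1
  refine ⟨fin.1, fin.2.trans ?_⟩
  rw [ex.2, chain.2, zero_sub, neg_neg]

end Vale.Agent.P177
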