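import Vale.Agent.P177.Cone
import Vale.Agent.P177.Res2
import Vale.Agent.P177.EFn

/-! The dimension formula for primes of a regular local ring. -/

namespace Vale.Agent.P177

open Vale.Agent.P202 IsLocalRing

universe u

variable {R : Type u} [CommRing R] [IsLocalRing R] [IsNoetherianRing R]

/-- `y` is regular on `R / I`. -/
def DReg {R : Type u} [CommRing R] (I : Ideal R) (y : R) : Prop := ∀ z, y * z ∈ I → z ∈ I

/-- The depth of `R / I` is at least `n`. -/
def Dp {R : Type u} [CommRing R] [IsLocalRing R] : ℕ → Ideal R → Prop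
  | 0, I => I ≤ maximalIdeal R
  | n + 1, I => ∃ x ∈ maximalIdeal R, DReg I x ∧ Dp n (I ⊔ Ideal.span {x})

omit [IsLocalRing R] [IsNoetherianRing R] in
theorem depth_mem {I : Ideal R} {x a : R} : a ∈ I ⊔ Ideal.span {x} ↔ ∃ c, a - x * c ∈ I := by
  rw [sup_comm, Ideal.mem_span_singleton_sup]
  constructor
  · rintro ⟨c, b, hb, rfl⟩
    exact ⟨c, by simpa [mul_comm] using hb⟩
  · rintro ⟨c, hc⟩
    exact ⟨c, _, hc, by ring⟩

omit [IsNoetherianRing R] in
theorem Dp.le : ∀ {n : ℕ} {I : Ideal R}, Dp n I → I ≤ maximalIdeal R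
  | 0, _, h => h
  | _ + 1, _, ⟨_, _, _, h⟩ => le_sup_left.trans h.le

omit [IsLocalRing R] in
theorem depth_avoid (Q I J : Ideal R) (hI : ∀ z, (∀ q ∈ Q, q * z ∈ I) → z ∈ I)
    (hJ : ∀ z, (∀ q ∈ Q, q * z ∈ J) → z ∈ J) : ∃ y ∈ Q, DReg I y ∧ DReg J y := by
  have key : ∀ (I : Ideal R), (∀ z, (∀ q ∈ Q, q * z ∈ I) → z ∈ I) → ∀ u : R ⧸ I,
      (∀ q ∈ Q, q • u = 0) → u = 0 := by
    intro I hI u hu
    obtain ⟨z, rfl⟩ := Ideal.Quotient.mk_surjective u
    exact Ideal.Quotient.eq_zero_iff_mem.2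
      (hI z fun q hq => Ideal.Quotient.eq_zero_iff_mem.1 (hu q hq))
  have hs : Subsingleton ((R ⧸ Q) →ₗ[R] (R ⧸ I) × (R ⧸ J)) := by
    refine subsingleton_of_forall_eq 0 fun f => ?_
    have h1 : ∀ q ∈ Q, q • f 1 = 0 := by
      intro q hq
      rw [← map_smul]
      have : q • (1 : R ⧸ Q) = 0 := by
        rw [Algebra.smul_def, mul_one]
        exact Ideal.Quotient.eq_zero_iff_mem.2 hq
      rw [this, map_zero]
    have h2 : f 1 = 0 := Prod.ext (key I hI _ fun q hq => congrArg Prod.fst (h1 q hq))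
      (key J hJ _ fun q hq => congrArg Prod.snd (h1 q hq))
    refine LinearMap.ext fun u => ?_
    obtain ⟨z, rfl⟩ := Ideal.Quotient.mk_surjective u
    have : Ideal.Quotient.mk Q z = z • (1 : R ⧸ Q) := by
      rw [Algebra.smul_def, mul_one]
      rfl
    rw [this, map_smul, h2]
    simp
  obtain ⟨y, hy, hr⟩ := IsSMulRegular.subsingleton_linearMap_iff.1 hs
  rw [Ideal.annihilator_quotient] at hy
  refine ⟨y, hy, fun z hz => ?_, fun z hz => ?_⟩
  · have : y • ((Ideal.Quotient.mk I z, 0) : (R ⧸ I) × (R ⧸ J)) = y • 0 := by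
      rw [smul_zero]
      exact Prod.ext (Ideal.Quotient.eq_zero_iff_mem.2 hz) (smul_zero _)
    exact Ideal.Quotient.eq_zero_iff_mem.1 (congrArg Prod.fst (hr this))
  · have : y • ((0, Ideal.Quotient.mk J z) : (R ⧸ I) × (R ⧸ J)) = y • 0 := by
      rw [smul_zero]
      exact Prod.ext (smul_zero _) (Ideal.Quotient.eq_zero_iff_mem.2 hz)
    exact Ideal.Quotient.eq_zero_iff_mem.1 (congrArg Prod.snd (hr this))

theorem depth_nak {I K : Ideal R} {x : R} (hx : x ∈ maximalIdeal R)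
    (h : ∀ a ∈ K, ∃ c ∈ K, a - x * c ∈ I) : K ≤ I := by
  refine Submodule.le_of_le_smul_of_le_jacobson_bot (I := maximalIdeal R)
    (IsNoetherian.noetherian K) (maximalIdeal_le_jacobson _) fun a ha => ?_
  obtain ⟨c, hc, h1⟩ := h a ha
  have : a = (a - x * c) + x • c := by simp
  rw [this]
  exact Submodule.add_mem_sup h1 (Submodule.smul_mem_smul hx hc)

theorem depth_perm {I : Ideal R} {x z : R} (hx : x ∈ maximalIdeal R) (h1 : DReg I x)
    (h2 : DReg (I ⊔ Ideal.span {x}) z) : DReg I z ∧ DReg (I ⊔ Ideal.span {z}) x := by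
  constructor
  · intro a ha
    refine depth_nak (K := Submodule.comap (LinearMap.lsmul R R z) I) hx (fun a ha => ?_) ha
    have ha' : z * a ∈ I := ha
    obtain ⟨c, hc⟩ := depth_mem.1 (h2 a (Ideal.mem_sup_left ha'))
    refine ⟨c, h1 (z * c) ?_, hc⟩
    have : x * (z * c) = z * a - z * (a - x * c) := by ring
    rw [this]
    exact I.sub_mem ha' (I.mul_mem_left _ hc)
  · intro a ha
    obtain ⟨b, hb⟩ := depth_mem.1 ha
    obtain ⟨c, hc⟩ := depth_mem.1 (h2 b (depth_mem.2 ⟨a, by simpa using I.neg_mem hb⟩))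
    refine depth_mem.2 ⟨c, h1 _ ?_⟩
    have : x * (a - z * c) = (x * a - z * b) + z * (b - x * c) := by ring
    rw [this]
    exact I.add_mem hb (I.mul_mem_left _ hc)

theorem Dp.quot : ∀ {n : ℕ} {I : Ideal R} {y : R}, Dp (n + 1) I → y ∈ maximalIdeal R →
    DReg I y → Dp n (I ⊔ Ideal.span {y})
  | 0, _, _, h, hy, _ => sup_le h.le ((Ideal.span_singleton_le_iff_mem _).2 hy)
  | n + 1, I, y, ⟨x, hx, h1, h2⟩, hy, h3 => by
    have s1 : ∀ u, (∀ q ∈ maximalIdeal R, q * u ∈ I ⊔ Ideal.span {x}) → u ∈ I ⊔ Ideal.span {x} := by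
      obtain ⟨x', hx', h4, -⟩ := h2
      exact fun u hu => h4 u (hu x' hx')
    have s2 : ∀ u, (∀ q ∈ maximalIdeal R, q * u ∈ I ⊔ Ideal.span {y}) → u ∈ I ⊔ Ideal.span {y} := by
      intro u hu
      obtain ⟨v, hv⟩ := depth_mem.1 (hu x hx)
      have h4 : v ∈ I ⊔ Ideal.span {x} := by
        refine s1 v fun a ha => ?_
        obtain ⟨w, hw⟩ := depth_mem.1 (hu a ha)
        refine depth_mem.2 ⟨w, h3 _ ?_⟩
        have : y * (a * v - x * w) = x * (a * u - y * w) - a * (x * u - y * v) := by ring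
        rw [this]
        exact I.sub_mem (I.mul_mem_left _ hw) (I.mul_mem_left _ hv)
      obtain ⟨c, hc⟩ := depth_mem.1 h4
      refine depth_mem.2 ⟨c, h1 _ ?_⟩
      have : x * (u - y * c) = (x * u - y * v) + y * (v - x * c) := by ring
      rw [this]
      exact I.add_mem hv (I.mul_mem_left _ hc)
    obtain ⟨z, hz, r1, r2⟩ := depth_avoid _ _ _ s1 s2
    have a1 := Dp.quot h2 hz r1
    rw [sup_right_comm] at a1
    have a2 : Dp (n + 1) (I ⊔ Ideal.span {z}) := ⟨x, hx, (depth_perm hx h1 r1).2, a1⟩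
    have a3 := Dp.quot a2 hy (depth_perm hy h3 r2).2
    rw [sup_right_comm] at a3
    exact ⟨z, hz, r2, a3⟩

theorem depth_succ {S : Type u} [CommRing S] {I : Ideal S} {y : S} (h : DReg I y) :
    ringKrullDim (S ⧸ (I ⊔ Ideal.span {y})) + 1 ≤ ringKrullDim (S ⧸ I) := by
  refine ringKrullDim_succ_le_of_surjective (Ideal.Quotient.factor le_sup_left)
    (Ideal.Quotient.factor_surjective _) (r := Ideal.Quotient.mk I y) ?_ ?_
  · rw [mem_nonZeroDivisors_iff_left]
    intro u hu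
    obtain ⟨z, rfl⟩ := Ideal.Quotient.mk_surjective u
    exact Ideal.Quotient.eq_zero_iff_mem.2 (h z (Ideal.Quotient.eq_zero_iff_mem.1 hu))
  · exact Ideal.Quotient.eq_zero_iff_mem.2
      (Ideal.mem_sup_right (Ideal.mem_span_singleton_self y))

theorem Dp.le_dim : ∀ {n : ℕ} {I Q : Ideal R} {z : R}, Dp n I → z ∉ I → (∀ q ∈ Q, q * z ∈ I) →
    (n : WithBot ℕ∞) ≤ ringKrullDim (R ⧸ Q)
  | 0, I, Q, z, _, hz, hQ => by
    have : Nontrivial (R ⧸ Q) := Ideal.Quotient.nontrivial_iff.2 fun h =>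
      hz (by simpa using hQ 1 (h ▸ Submodule.mem_top))
    exact_mod_cast ringKrullDim_nonneg_of_nontrivial
  | n + 1, I, Q, z, ⟨x, hx, h1, h2⟩, hz, hQ => by
    let Q' : Ideal R := Submodule.comap (LinearMap.toSpanSingleton R R z) I
    have hQ' : ∀ q, q ∈ Q' ↔ q * z ∈ I := fun q => Iff.rfl
    have r1 : DReg Q' x := fun a ha => h1 (a * z) (by rw [← mul_assoc]; exact ha)
    let K : Ideal R := ⨅ q ∈ Q', Submodule.comap (LinearMap.lsmul R R q) I
    have hK : ∀ a, a ∈ K ↔ ∀ q ∈ Q', q * a ∈ I := fun a => by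
      simp only [K, Submodule.mem_iInf]
      rfl
    obtain ⟨z', k1, k2⟩ : ∃ z' ∈ K, z' ∉ I ⊔ Ideal.span {x} := by
      by_contra hc
      refine hz (depth_nak (K := K) hx (fun a ha => ?_) ((hK z).2 fun q hq => hq))
      obtain ⟨c, h3⟩ := depth_mem.1 (by_contra fun h => hc ⟨a, ha, h⟩)
      refine ⟨c, (hK c).2 fun q hq => h1 _ ?_, h3⟩
      have : x * (q * c) = q * a - q * (a - x * c) := by ring
      rw [this]
      exact I.sub_mem ((hK a).1 ha q hq) (I.mul_mem_left _ h3)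
    have ih := Dp.le_dim (Q := Q' ⊔ Ideal.span {x}) h2 k2 fun q hq => by
      obtain ⟨c, hc⟩ := depth_mem.1 hq
      refine depth_mem.2 ⟨c * z', ?_⟩
      have : q * z' - x * (c * z') = (q - x * c) * z' := by ring
      rw [this]
      exact (hK z').1 k1 _ hc
    calc ((n + 1 : ℕ) : WithBot ℕ∞) = n + 1 := by push_cast; rfl
      _ ≤ ringKrullDim (R ⧸ (Q' ⊔ Ideal.span {x})) + 1 := add_le_add ih le_rfl
      _ ≤ ringKrullDim (R ⧸ Q') := depth_succ r1
      _ ≤ ringKrullDim (R ⧸ Q) := ringKrullDim_le_of_surjective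
          (Ideal.Quotient.factor (show Q ≤ Q' from hQ)) (Ideal.Quotient.factor_surjective _)

theorem Dp.le_add (Q : Ideal R) [Q.IsPrime] : ∀ {n : ℕ} {I : Ideal R}, Dp n I → I ≤ Q →
    (n : WithBot ℕ∞) ≤ ringKrullDim (Localization.AtPrime Q ⧸
      I.map (algebraMap R (Localization.AtPrime Q))) + ringKrullDim (R ⧸ Q) := by
  have h0 : ∀ I : Ideal R, I ≤ Q → 0 ≤ ringKrullDim (Localization.AtPrime Q ⧸
      I.map (algebraMap R (Localization.AtPrime Q))) := by
    intro I hI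
    have : Nontrivial (Localization.AtPrime Q ⧸ I.map (algebraMap R (Localization.AtPrime Q))) := by
      refine Ideal.Quotient.nontrivial_iff.2 (ne_top_of_le_ne_top ?_ (Ideal.map_mono hI))
      rw [Localization.AtPrime.map_eq_maximalIdeal]
      exact (maximalIdeal.isMaximal _).ne_top
    exact ringKrullDim_nonneg_of_nontrivial
  intro n
  induction n with
  | zero =>
    intro I _ hI
    exact_mod_cast add_nonneg (h0 I hI) ringKrullDim_nonneg_of_nontrivial
  | succ n ih =>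
    intro I h hI
    by_cases hs : ∀ z, (∀ q ∈ Q, q * z ∈ I) → z ∈ I
    · obtain ⟨y, hy, r1, -⟩ := depth_avoid Q I I hs hs
      have h1 := ih (h.quot (le_maximalIdeal (Ideal.IsPrime.ne_top inferInstance) hy) r1)
        (sup_le hI ((Ideal.span_singleton_le_iff_mem _).2 hy))
      rw [Ideal.map_sup, Ideal.map_span, Set.image_singleton] at h1
      have r2 : DReg (I.map (algebraMap R (Localization.AtPrime Q)))
          (algebraMap R (Localization.AtPrime Q) y) := by
        intro z hz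
        obtain ⟨⟨a, s⟩, rfl⟩ := IsLocalization.mk'_surjective Q.primeCompl z
        simp only at hz ⊢
        rw [IsLocalization.mul_mk'_eq_mk'_of_mul,
          IsLocalization.mk'_mem_map_algebraMap_iff Q.primeCompl] at hz
        obtain ⟨t, ht, h2⟩ := hz
        rw [IsLocalization.mk'_mem_map_algebraMap_iff Q.primeCompl]
        exact ⟨t, ht, r1 _ (by rwa [mul_left_comm])⟩
      calc ((n + 1 : ℕ) : WithBot ℕ∞) = n + 1 := by push_cast; rfl
        _ ≤ _ := add_le_add h1 le_rfl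
        _ = _ := add_right_comm _ _ _
        _ ≤ _ := add_le_add (depth_succ r2) le_rfl
    · obtain ⟨z, h1, h2⟩ : ∃ z, (∀ q ∈ Q, q * z ∈ I) ∧ z ∉ I := by
        by_contra hc
        exact hs fun z hz => by_contra fun h3 => hc ⟨z, hz, h3⟩
      exact (h.le_dim h2 h1).trans (le_add_of_nonneg_left (h0 I hI))

theorem le_dim_loc_add {d : ℕ} {x : Fin d → R} (hx : PermReg x)
    (hm : Ideal.span (Set.range x) = maximalIdeal R) (Q : Ideal R) [Q.IsPrime] :
    (d : WithBot ℕ∞) ≤ ringKrullDim (Localization.AtPrime Q) + ringKrullDim (R ⧸ Q) := by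
  have hxm : ∀ i, x i ∈ maximalIdeal R := fun i => hm ▸ Ideal.subset_span ⟨i, rfl⟩
  have key : ∀ j k, j + k = d → Dp j (Ideal.span (x '' {i | (i : ℕ) < k})) := by
    intro j
    induction j with
    | zero =>
      intro k _
      exact Ideal.span_le.2 (by rintro _ ⟨i, -, rfl⟩; exact hxm i)
    | succ j ih =>
      intro k hk
      refine ⟨x ⟨k, by omega⟩, hxm _, hx _ _ (lt_irrefl k), ?_⟩
      have e : {i : Fin d | (i : ℕ) < k + 1} = {i : Fin d | (i : ℕ) < k} ∪ {⟨k, by omega⟩} := by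
        ext i
        simp only [Set.mem_ofPred_eq, Set.mem_union, Set.mem_singleton_iff, Fin.ext_iff]
        omega
      have := ih (k + 1) (by omega)
      rwa [e, Set.image_union, Ideal.span_union, Set.image_singleton] at this
  have h0 : Ideal.span (x '' {i | (i : ℕ) < 0}) ≤ Q := by simp
  exact ((key d 0 rfl).le_add Q h0).trans (add_le_add (ringKrullDim_quotient_le _) le_rfl)

end Vale.Agent.P177
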