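import Vale.Agent.P177.Basic
import Vale.Agent.P202.MRes

/-! Existence of truncated and minimal resolutions. -/

namespace Vale.Agent.P177

open Vale.Agent.P202 IsLocalRing
open scoped ENNReal

universe u

variable {R : Type u} [CommRing R] {N : Type u} [AddCommGroup N] [Module R N]

theorem mem_Bd_res {K : GC R} {n : ℤ} {x : K.ι → R} : x ∈ K.Bd (⊥ : Submodule R R) ⊤ n ↔
    ∃ y ∈ K.cw (⊤ : Submodule R R) (n + 1), K.d R y = x := by
  rw [GC.Bd, Bc, K.cw_bot, Pi.bot_apply, bot_sup_eq]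
  rfl

theorem mem_Zy_res {K : GC R} {n : ℤ} {x : K.ι → R} : x ∈ K.Zy (⊥ : Submodule R R) ⊤ n ↔
    x ∈ K.cw (⊤ : Submodule R R) n ∧ K.d R x = 0 := by
  rw [GC.Zy, Zc, K.cw_bot, Pi.bot_apply]
  rfl

theorem mem_cw_res {K : GC R} {n : ℤ} {x : K.ι → R} : x ∈ K.cw (⊤ : Submodule R R) n ↔
    ∀ a, (K.deg a : ℤ) ≠ n → x a = 0 :=
  GC.mem_cf.trans ⟨fun h => h.2, fun h => ⟨fun _ _ => trivial, h⟩⟩

section seq

variable (r : ℕ → ℕ) (D : ∀ j, Matrix (Fin (r j)) (Fin (r (j + 1))) R) (m : ℕ)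

/-- The index type. -/
structure IRes : Type where
  j : ℕ
  b : Fin (r j)
  lt : j < m

instance : Finite (IRes r m) :=
  Finite.of_surjective (fun a : (j : Fin m) × Fin (r j) => (⟨a.1, a.2, a.1.2⟩ : IRes r m))
    fun a => ⟨⟨⟨a.j, a.lt⟩, a.b⟩, rfl⟩

noncomputable instance : Fintype (IRes r m) := Fintype.ofFinite _

noncomputable instance : DecidableEq (IRes r m) := Classical.decEq _

/-- The complex of a sequence of matrices, in degrees less than `m`. -/
@[reducible] noncomputable def seqRes : GC R where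
  ι := IRes r m
  deg a := a.j
  mat := Matrix.of fun a b =>
    if h : b.j = a.j + 1 then D a.j a.b (Fin.cast (congrArg r h) b.b) else 0
  hom _ _ h := by_contra fun hc => h (dif_neg hc)

/-- The component of degree `j`. -/
def cmpRes (j : ℕ) : (IRes r m → R) →ₗ[R] (Fin (r j) → R) :=
  LinearMap.pi fun b => if h : j < m then LinearMap.proj (⟨j, b, h⟩ : IRes r m) else 0

/-- The vector with one component. -/
def injRes (j : ℕ) (w : Fin (r j) → R) : IRes r m → R :=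
  fun c => if h : c.j = j then w (Fin.cast (congrArg r h) c.b) else 0

variable {r m}

theorem cmpRes_pos {j : ℕ} (h : j < m) (v : IRes r m → R)
    (b : Fin (r j)) : cmpRes r m j v b = v ⟨j, b, h⟩ := by
  rw [cmpRes, LinearMap.pi_apply, dif_pos h]
  rfl

theorem cmpRes_neg {j : ℕ} (h : ¬j < m) (v : IRes r m → R) :
    cmpRes r m j v = 0 := by
  funext b
  simp [cmpRes, h]

theorem cmpRes_ext {v v' : IRes r m → R}
    (h : ∀ j, cmpRes r m j v = cmpRes r m j v') : v = v' := by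
  funext ⟨j, b, hj⟩
  exact (cmpRes_pos hj v b).symm.trans ((congrFun (h j) b).trans (cmpRes_pos hj v' b))

theorem cmp_inj_res {j : ℕ} (h : j < m) (w : Fin (r j) → R) :
    cmpRes r m j (injRes r m j w) = w := by
  funext b
  rw [cmpRes_pos h]
  exact dif_pos rfl

theorem cmp_cw_res {n : ℤ} {v : (seqRes r D m).ι → R}
    (hv : v ∈ (seqRes r D m).cw (⊤ : Submodule R R) n) {j : ℕ} (h : (j : ℤ) ≠ n) :
    cmpRes r m j v = 0 := by
  by_cases hj : j < m
  · funext b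
    rw [cmpRes_pos hj]
    exact mem_cw_res.1 hv _ h
  · exact cmpRes_neg hj v

theorem inj_cw_res (j : ℕ) (w : Fin (r j) → R) :
    injRes r m j w ∈ (seqRes r D m).cw (⊤ : Submodule R R) j :=
  mem_cw_res.2 fun _ h => dif_neg fun e => h (congrArg _ e)

theorem cmp_d_res (j : ℕ) (v : (seqRes r D m).ι → R) :
    cmpRes r m j ((seqRes r D m).d R v) = (D j).mulVecLin (cmpRes r m (j + 1) v) := by
  by_cases hj : j < m
  swap
  · rw [cmpRes_neg hj, cmpRes_neg (by omega), map_zero]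
  funext a
  refine (cmpRes_pos hj _ a).trans ((mact_apply _ _ _).trans ?_)
  by_cases hj' : j + 1 < m
  · change _ = ∑ b, D j a b * cmpRes r m (j + 1) v b
    refine (Fintype.sum_of_injective
      (fun b : Fin (r (j + 1)) => (⟨j + 1, b, hj'⟩ : IRes r m))
      (fun b b' e => eq_of_heq (IRes.mk.inj e).2) _ _ ?_ fun b => ?_).symm
    · rintro ⟨k, b, hk⟩ hb
      have : k ≠ j + 1 := by
        rintro rfl
        exact hb ⟨b, rfl⟩
      exact smul_eq_zero_of_left (dif_neg this) _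
    · rw [cmpRes_pos hj']
      have e : (seqRes r D m).mat ⟨j, a, hj⟩ ⟨j + 1, b, hj'⟩ = D j a b := dif_pos rfl
      rw [e, smul_eq_mul]
  · rw [cmpRes_neg hj', map_zero]
    refine Finset.sum_eq_zero ?_
    rintro ⟨k, b, hk⟩ -
    have : k ≠ j + 1 := by
      rintro rfl
      exact hj' hk
    exact smul_eq_zero_of_left (dif_neg this) _

theorem bd_seq_res {k : ℕ} (hk : k + 1 < m) {v : (seqRes r D m).ι → R}
    (hv : v ∈ (seqRes r D m).cw (⊤ : Submodule R R) k)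
    (h : cmpRes r m k v ∈ LinearMap.range (D k).mulVecLin) :
    v ∈ (seqRes r D m).Bd (⊥ : Submodule R R) ⊤ k := by
  obtain ⟨w, hw⟩ := h
  refine mem_Bd_res.2 ⟨injRes r m (k + 1) w, inj_cw_res D (k + 1) w, cmpRes_ext fun j => ?_⟩
  rw [cmp_d_res]
  by_cases e : j = k
  · subst e
    rw [cmp_inj_res hk, hw]
  · rw [cmp_cw_res D (inj_cw_res D (k + 1) w) (by omega), cmp_cw_res D hv (by omega), map_zero]

end seq

/-- A truncated resolution from a sequence of matrices. -/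
theorem pres_of_seq (r : ℕ → ℕ) (D : ∀ j, Matrix (Fin (r j)) (Fin (r (j + 1))) R)
    (a0 : (Fin (r 0) → R) →ₗ[R] N) (h0 : Function.Surjective a0)
    (h1 : LinearMap.ker a0 = LinearMap.range (D 0).mulVecLin)
    (h2 : ∀ j, LinearMap.ker (D j).mulVecLin = LinearMap.range (D (j + 1)).mulVecLin) (L : ℕ) :
    ∃ (K : GC R) (aug : (K.ι → R) →ₗ[R] N), K.PRes aug L ∧ K.Top (L + 1) ∧
      ∀ I : Ideal R, (∀ j a b, D j a b ∈ I) → ∀ a b, K.mat a b ∈ I := by
  refine ⟨seqRes r D (L + 2), a0 ∘ₗ cmpRes r (L + 2) 0, ⟨?_, ?_, ?_, ?_, ?_, ?_⟩,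
    fun a => Nat.le_of_lt_succ a.lt, fun I hI a b => ?_⟩
  · refine mact_ext fun x => cmpRes_ext fun j => ?_
    rw [mact_mul, mact_zero, map_zero, cmp_d_res, cmp_d_res]
    exact (h2 j).ge ⟨_, rfl⟩
  · intro n hn x hx
    rw [LinearMap.comp_apply, cmp_cw_res D hx (by omega), map_zero]
  · intro y
    obtain ⟨w, rfl⟩ := h0 y
    exact ⟨injRes r (L + 2) 0 w, congrArg a0 (cmp_inj_res (by omega) w)⟩
  · intro x
    rw [LinearMap.comp_apply, cmp_d_res]
    exact h1.ge ⟨_, rfl⟩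
  · intro x hx h
    exact bd_seq_res D (k := 0) (by omega) hx (h1.le h)
  · intro n hn hn' x hx
    obtain ⟨k, rfl⟩ : ∃ k : ℕ, n = ((k + 1 : ℕ) : ℤ) := ⟨(n - 1).toNat, by omega⟩
    obtain ⟨h3, h4⟩ := mem_Zy_res.1 hx
    refine bd_seq_res D (by omega) h3 ((h2 k).le ?_)
    rw [LinearMap.mem_ker, ← cmp_d_res, h4, map_zero]
  · change dite _ _ _ ∈ I
    split_ifs
    · exact hI _ _ _
    · exact I.zero_mem

theorem exists_seq_res [IsNoetherianRing R] [Module.Finite R N] (I : Ideal R)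
    (hI : ∀ (F : Type u) [AddCommGroup F] [Module R F] (Z : Submodule R F), Z.FG →
      ∃ (n : ℕ) (v : Fin n → F), Submodule.span R (Set.range v) = Z ∧
        ∀ c : Fin n → R, ∑ a, c a • v a = 0 → ∀ a, c a ∈ I) (L : ℕ) :
    ∃ (K : GC R) (aug : (K.ι → R) →ₗ[R] N), K.PRes aug L ∧ K.Top (L + 1) ∧
      ∀ a b, K.mat a b ∈ I := by
  obtain ⟨n, v, hv, hmin⟩ := hI N ⊤ Module.Finite.fg_top
  let St : Type u := {s : (r : ℕ) × Submodule R (Fin r → R) // ∀ x ∈ s.2, ∀ a, x a ∈ I}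
  have hstep : ∀ s : St, ∃ (s' : St) (D : Matrix (Fin s.1.1) (Fin s'.1.1) R),
      LinearMap.range D.mulVecLin = s.1.2 ∧ LinearMap.ker D.mulVecLin = s'.1.2 := by
    intro s
    obtain ⟨k, w, hw, hm⟩ := hI _ s.1.2 (IsNoetherian.noetherian _)
    let D : Matrix (Fin s.1.1) (Fin k) R := Matrix.of fun a b => w b a
    have hD : ∀ c, D.mulVecLin c = ∑ b, c b • w b := fun c => by
      funext a
      simp [D, Matrix.mulVec, dotProduct, Finset.sum_apply, mul_comm]
    refine ⟨⟨⟨k, LinearMap.ker D.mulVecLin⟩, fun x hx => hm x ((hD x).symm.trans hx)⟩, D, ?_, rfl⟩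
    rw [← hw]
    ext x
    rw [LinearMap.mem_range, Submodule.mem_span_range_iff_exists_fun]
    simp only [hD]
  choose nx D hD1 hD2 using hstep
  let s : ℕ → St := fun j => Nat.rec
    ⟨⟨n, LinearMap.ker (Fintype.linearCombination R v)⟩, fun x hx => hmin x hx⟩ (fun _ => nx) j
  obtain ⟨K, aug, k1, k2, k3⟩ := pres_of_seq (fun j => (s j).1.1) (fun j => D (s j))
    (Fintype.linearCombination R v)
    (by rw [← LinearMap.range_eq_top, Fintype.range_linearCombination, hv]) (hD1 (s 0)).symm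
    (fun j => (hD2 (s j)).trans (hD1 (s (j + 1))).symm) L
  refine ⟨K, aug, k1, k2, k3 I fun j a b => (s j).2 (fun a => D (s j) a b) ?_ a⟩
  rw [← hD1 (s j)]
  exact ⟨Pi.single b 1, by funext a; simp⟩

theorem exists_pres [IsNoetherianRing R] [Module.Finite R N] (L : ℕ) :
    ∃ (K : GC R) (aug : (K.ι → R) →ₗ[R] N), K.PRes aug L ∧ K.Top (L + 1) := by
  obtain ⟨K, aug, k1, k2, -⟩ := exists_seq_res (N := N) (⊤ : Ideal R) (fun F _ _ Z hZ => by
    obtain ⟨n, v, hv⟩ := Submodule.fg_iff_exists_fin_generating_family.1 hZ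
    exact ⟨n, v, hv, fun _ _ _ => trivial⟩) L
  exact ⟨K, aug, k1, k2⟩

theorem exists_minres [IsNoetherianRing R] [IsLocalRing R] [Module.Finite R N] (L : ℕ) :
    ∃ (K : GC R) (aug : (K.ι → R) →ₗ[R] N), K.PRes aug L ∧ K.Top (L + 1) ∧
      ∀ a b, K.mat a b ∈ maximalIdeal R :=
  exists_seq_res _ (fun _ _ _ _ hZ => exists_mingen_mres hZ) L

theorem GC.PRes.mono {K : GC R} {aug : (K.ι → R) →ₗ[R] N} {L L' : ℕ} (h : K.PRes aug L)
    (hL : L' ≤ L) : K.PRes aug L' :=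
  ⟨h.sq, h.aug0, h.surj, h.comp, h.ex0, fun n h1 h2 => h.ex n h1 (by omega)⟩

section trunc

variable (K : GC R) (i : ℕ)

/-- The subcomplex of degrees at most `i`. -/
@[reducible] def trRes : GC R where
  ι := {a : K.ι // K.deg a ≤ i}
  deg a := K.deg a.1
  mat := K.mat.submatrix Subtype.val Subtype.val
  hom a b h := K.hom a.1 b.1 h

/-- Extension by zero. -/
def extRes : ((trRes K i).ι → R) →ₗ[R] (K.ι → R) :=
  LinearMap.pi fun a => if h : K.deg a ≤ i then LinearMap.proj (⟨a, h⟩ : (trRes K i).ι) else 0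

variable {K i}

theorem extRes_pos (x : (trRes K i).ι → R) (a : (trRes K i).ι) : extRes K i x a.1 = x a := by
  simp [extRes, a.2]

theorem extRes_neg (x : (trRes K i).ι → R) {a : K.ι} (h : ¬K.deg a ≤ i) : extRes K i x a = 0 := by
  simp [extRes, h]

theorem res_d_res {y : K.ι → R} (a : (trRes K i).ι)
    (h : ∀ b, ¬K.deg b ≤ i → K.mat a.1 b • y b = 0) :
    K.d R y a.1 = (trRes K i).d R (fun b => y b.1) a := by
  rw [mact_apply, mact_apply]
  exact (Fintype.sum_of_injective (Subtype.val : (trRes K i).ι → K.ι) Subtype.val_injective _ _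
    (fun b hb => h b fun e => hb ⟨⟨b, e⟩, rfl⟩) fun b => rfl).symm

theorem ext_d_res (x : (trRes K i).ι → R) :
    extRes K i ((trRes K i).d R x) = K.d R (extRes K i x) := by
  funext a
  by_cases ha : K.deg a ≤ i
  · rw [extRes_pos _ ⟨a, ha⟩, res_d_res ⟨a, ha⟩ fun b hb => by rw [extRes_neg x hb, smul_zero]]
    exact congrArg (fun v => (trRes K i).d R v ⟨a, ha⟩) (funext fun b => (extRes_pos x b).symm)
  · rw [extRes_neg _ ha, mact_apply]
    refine (Finset.sum_eq_zero fun b _ => ?_).symm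
    by_cases hb : K.mat a b = 0
    · rw [hb, zero_smul]
    · rw [extRes_neg x (by have := K.hom a b hb; omega), smul_zero]

theorem ext_cw_res {n : ℤ} {x : (trRes K i).ι → R}
    (hx : x ∈ (trRes K i).cw (⊤ : Submodule R R) n) :
    extRes K i x ∈ K.cw (⊤ : Submodule R R) n := by
  refine mem_cw_res.2 fun a ha => ?_
  by_cases h : K.deg a ≤ i
  · rw [extRes_pos _ ⟨a, h⟩]
    exact mem_cw_res.1 hx ⟨a, h⟩ ha
  · exact extRes_neg x h

theorem bd_tr_res (h0 : K.rk (i + 1) = 0) {n : ℤ} {x : (trRes K i).ι → R}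
    (hx : extRes K i x ∈ K.Bd (⊥ : Submodule R R) ⊤ n) :
    x ∈ (trRes K i).Bd (⊥ : Submodule R R) ⊤ n := by
  obtain ⟨y, hy, e⟩ := mem_Bd_res.1 hx
  refine mem_Bd_res.2 ⟨fun b => y b.1, mem_cw_res.2 fun a ha => mem_cw_res.1 hy a.1 ha, ?_⟩
  funext a
  rw [← res_d_res a, e, extRes_pos]
  intro b hb
  refine smul_eq_zero_of_left (by_contra fun hm => ?_) _
  have h1 := K.hom _ _ hm
  have h2 := a.2
  have h3 : b ∈ Finset.univ.filter fun a => K.deg a = i + 1 :=
    Finset.mem_filter.2 ⟨Finset.mem_univ _, by omega⟩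
  rw [Finset.card_eq_zero.1 h0] at h3
  exact Finset.notMem_empty _ h3

end trunc

/-- Truncation below a degree of rank zero. -/
theorem GC.PRes.trunc {K : GC R} {aug : (K.ι → R) →ₗ[R] N} {L i : ℕ} (h : K.PRes aug L)
    (hi : i ≤ L) (h0 : K.rk (i + 1) = 0) :
    ∃ (K' : GC R) (aug' : (K'.ι → R) →ₗ[R] N), K'.IsRes aug' ∧ K'.Top i ∧
      ∀ I : Ideal R, (∀ a b, K.mat a b ∈ I) → ∀ a b, K'.mat a b ∈ I := by
  have ht : (trRes K i).Top i := fun a => a.2
  refine ⟨trRes K i, aug ∘ₗ extRes K i, fun L' => ⟨?_, ?_, ?_, ?_, ?_, ?_⟩, ht,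
    fun I hI a b => hI a.1 b.1⟩
  · refine mact_ext fun x => funext fun a => ?_
    rw [mact_mul, mact_zero]
    refine (extRes_pos _ a).symm.trans ?_
    rw [ext_d_res, ext_d_res, h.sq.dd]
    rfl
  · exact fun n hn x hx => h.aug0 n hn _ (ext_cw_res hx)
  · intro y
    obtain ⟨x, rfl⟩ := h.surj y
    refine ⟨fun b => x b.1, ?_⟩
    rw [LinearMap.comp_apply, ← sub_eq_zero, ← map_sub,
      ← Finset.univ_sum_single (extRes K i (fun b => x b.1) - x), map_sum]
    refine Finset.sum_eq_zero fun a _ => ?_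
    by_cases ha : K.deg a ≤ i
    · rw [Pi.sub_apply, extRes_pos _ ⟨a, ha⟩, sub_self, Pi.single_zero, map_zero]
    · exact h.aug0 (K.deg a) (by omega) _ (GC.single_mem_cf trivial)
  · intro x
    rw [LinearMap.comp_apply, ext_d_res, h.comp]
  · exact fun x hx e => bd_tr_res h0 (h.ex0 _ (ext_cw_res hx) e)
  · intro n hn _ x hx
    obtain ⟨h1, h2⟩ := mem_Zy_res.1 hx
    by_cases hn' : n ≤ i
    · refine bd_tr_res h0 (h.ex n hn (by omega) (mem_Zy_res.2 ⟨ext_cw_res h1, ?_⟩))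
      rw [← ext_d_res, h2, map_zero]
    · rw [GC.cw, ht.cf_eq_bot _ (Or.inr (by omega)), Submodule.mem_bot] at h1
      rw [h1]
      exact zero_mem _

theorem hG_min [IsLocalRing R] {K : GC R} (h : ∀ a b, K.mat a b ∈ maximalIdeal R) (n : ℕ) :
    hG (RLen.ofLen R) K (maximalIdeal R) ⊤ n = K.rk n := by
  have hd : ∀ (k : ℤ), ∀ x ∈ K.cw (⊤ : Submodule R R) k, K.d R x ∈ K.cw (maximalIdeal R) (k - 1) :=
    fun k x hx => K.hg_mat.mact_mem (fun a b _ v _ => Ideal.mul_mem_right _ _ (h a b)) hx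
  have h1 : Zc (K.d R) (K.cw (maximalIdeal R)) (K.cw ⊤) n = K.cw ⊤ n :=
    inf_eq_left.2 (hd n)
  have h2 : Bc (K.d R) (K.cw (maximalIdeal R)) (K.cw ⊤) n = K.cw (maximalIdeal R) n := by
    refine sup_eq_left.2 ?_
    rintro _ ⟨x, hx, rfl⟩
    have := hd _ x hx
    rwa [add_sub_cancel_right] at this
  have h3 : rr (RLen.ofLen R) (maximalIdeal R) ⊤ = 1 := by
    have : IsSimpleModule R (R ⧸ maximalIdeal R) :=
      (isSimpleModule_iff_isCoatom).2 (Ideal.isMaximal_def.1 (maximalIdeal.isMaximal R))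
    rw [rr_top]
    change ((Module.length R (R ⧸ maximalIdeal R) : ℕ∞) : ℝ≥0∞) = 1
    rw [Module.length_eq_one R _, ENat.toENNReal_one]
  rw [hG, hr, h1, h2, GC.rr_cf, h3, Finset.sum_const, nsmul_one, GC.rk]
  simp only [Nat.cast_inj]

end Vale.Agent.P177
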