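import Vale.Agent.P177.Reg1
import Vale.Agent.P177.Res
import Vale.Agent.P177.Hyp
import Vale.Agent.P177.Depth

/-! Finite resolutions over regular local rings and the theorem of Serre. -/

namespace Vale.Agent.P177

open Vale.Agent.P202 IsLocalRing

universe u

variable {R : Type u} [CommRing R] [IsLocalRing R] [IsNoetherianRing R] {d : ℕ}

theorem serre_aux {L : ℕ} (N : Type u) [AddCommGroup N] [Module R N] [Module.Finite R N]
    (h : ∀ (K : GC R) (aK : (K.ι → R) →ₗ[R] N), K.PRes aK (L + 1) →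
      hG (RLen.ofLen R) K (⊥ : Submodule R (R ⧸ maximalIdeal R)) ⊤ ((L + 1 : ℕ) : ℤ) = 0) :
    ∃ (K : GC R) (aug : (K.ι → R) →ₗ[R] N), K.IsRes aug ∧ K.Top L ∧
      ∀ a b, K.mat a b ∈ maximalIdeal R := by
  obtain ⟨K, aK, hK, -, hm⟩ := exists_minres (R := R) (N := N) (L + 1)
  have h1 := hG_min hm (L + 1)
  rw [hG_quot, h K aK hK] at h1
  obtain ⟨K', a', k1, k2, k3⟩ := hK.trunc (i := L) (Nat.le_succ L) (by exact_mod_cast h1.symm)
  exact ⟨K', a', k1, k2, k3 _ hm⟩

/-- A finite resolution of the residue field gives finite resolutions of all modules. -/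
theorem exists_res_of_res {G : GC R} {aG : (G.ι → R) →ₗ[R] R ⧸ maximalIdeal R} (hG' : G.IsRes aG)
    {L : ℕ} (hL : G.Top L) (N : Type u) [AddCommGroup N] [Module R N] [Module.Finite R N] :
    ∃ (K : GC R) (aug : (K.ι → R) →ₗ[R] N), K.IsRes aug ∧ K.Top L ∧
      ∀ a b, K.mat a b ∈ maximalIdeal R := by
  refine serre_aux N fun K aK hK => ?_
  rw [hG_swap _ hK (hG' (L + 1)) le_rfl]
  exact hL.hr_eq_zero _ _ _ (Or.inr (by omega))

theorem RegL.exists_res (h : RegL R d) (N : Type u) [AddCommGroup N] [Module R N]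
    [Module.Finite R N] : ∃ (K : GC R) (aug : (K.ι → R) →ₗ[R] N), K.IsRes aug ∧ K.Top d := by
  obtain ⟨x, hx⟩ := h.2
  have h1 := GC.isRes_kos (h.permReg hx)
  rw [hx] at h1
  obtain ⟨aG, hG'⟩ := h1
  have h2 := GC.top_kos (List.ofFn x)
  rw [List.length_ofFn] at h2
  obtain ⟨K, aK, k1, k2, -⟩ := exists_res_of_res hG' h2 N
  exact ⟨K, aK, k1, k2⟩

theorem RegL.hasRes (h : RegL R d) : HasRes R := by
  intro N _ _ _
  obtain ⟨K, aK, k1, -⟩ := h.exists_res N
  exact ⟨K, aK, k1⟩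

theorem res_of_retract {N : Type u} [AddCommGroup N] [Module R N] {G : GC R}
    {aG : (G.ι → R) →ₗ[R] N} (hG' : G.IsRes aG) (f : (R ⧸ maximalIdeal R) →ₗ[R] N)
    (g : N →ₗ[R] R ⧸ maximalIdeal R) (h : ∀ x, g (f x) = x) :
    ∃ (K : GC R) (aug : (K.ι → R) →ₗ[R] R ⧸ maximalIdeal R), K.IsRes aug ∧
      ∀ a b, K.mat a b ∈ maximalIdeal R := by
  obtain ⟨L, hL⟩ := G.exists_top
  obtain ⟨K, aK, k1, -, k3⟩ := serre_aux (L := L) (R ⧸ maximalIdeal R) fun K aK hK => by
    refine le_antisymm ((hG_retract _ K f g h _).trans (le_of_eq ?_)) bot_le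
    rw [hG_swap _ hK (hG' (L + 1)) le_rfl]
    exact hL.hr_eq_zero _ _ _ (Or.inr (by omega))
  exact ⟨K, aK, k1, k3⟩

omit [IsNoetherianRing R] in
/-- The case of depth zero. -/
theorem serre_socle {K : GC R} {aug : (K.ι → R) →ₗ[R] R ⧸ maximalIdeal R} (hK : K.IsRes aug)
    (hm : ∀ a b, K.mat a b ∈ maximalIdeal R) {s : R} (hs : s ≠ 0)
    (hs' : ∀ y ∈ maximalIdeal R, y * s = 0) : maximalIdeal R = ⊥ := by
  have hT : K.Top 0 := by
    intro a0
    by_contra hne
    obtain ⟨a, -, ha⟩ := Finset.exists_max_image Finset.univ K.deg ⟨a0, Finset.mem_univ _⟩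
    have h1 : K.Top (K.deg a) := fun b => ha b (Finset.mem_univ b)
    have h2 := ha a0 (Finset.mem_univ _)
    have h3 : (Pi.single a s : K.ι → R) ∈ K.Zy (⊥ : Submodule R R) ⊤ (K.deg a) := by
      refine mem_Zy_res.2 ⟨GC.single_mem_cf trivial, funext fun b => ?_⟩
      rw [mact_apply]
      refine Finset.sum_eq_zero fun c _ => ?_
      by_cases e : c = a
      · subst e
        rw [Pi.single_eq_same]
        exact hs' _ (hm b c)
      · rw [Pi.single_eq_of_ne e, smul_zero]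
    obtain ⟨y, hy, e⟩ := mem_Bd_res.1 ((hK (K.deg a)).ex _ (by omega) le_rfl h3)
    rw [GC.cw, h1.cf_eq_bot _ (Or.inr (by omega)), Submodule.mem_bot] at hy
    rw [hy, map_zero] at e
    have := congrFun e a
    rw [Pi.single_eq_same] at this
    exact hs this.symm
  obtain ⟨v, hv⟩ := (hK 0).surj 1
  have hvc : ∀ w : K.ι → R, w ∈ K.cw (⊤ : Submodule R R) 0 := fun w =>
    mem_cw_res.2 fun a ha => absurd (by have := hT a; omega) ha
  have h0 : ∀ w : K.ι → R, aug w = 0 → w = 0 := by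
    intro w hw
    obtain ⟨y, hy, e⟩ := mem_Bd_res.1 ((hK 0).ex0 w (hvc w) hw)
    rw [GC.cw, hT.cf_eq_bot _ (Or.inr (by omega)), Submodule.mem_bot] at hy
    rw [← e, hy, map_zero]
  have hsv : ∀ y ∈ maximalIdeal R, y • v = 0 := fun y hy => h0 _ (by
    rw [map_smul, hv, ← Algebra.algebraMap_eq_smul_one]
    exact Ideal.Quotient.eq_zero_iff_mem.2 hy)
  have hu : ∃ a, v a ∉ maximalIdeal R := by
    by_contra hcon
    push Not at hcon
    have h1 : aug v = 0 := by
      rw [← Finset.univ_sum_single v, map_sum]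
      refine Finset.sum_eq_zero fun a _ => ?_
      have : (Pi.single a (v a) : K.ι → R) = v a • Pi.single a 1 := by
        rw [← Pi.single_smul', smul_eq_mul, mul_one]
      rw [this, map_smul, Algebra.smul_def]
      exact mul_eq_zero_of_left (Ideal.Quotient.eq_zero_iff_mem.2 (hcon a)) _
    rw [hv] at h1
    exact (maximalIdeal.isMaximal R).ne_top (Ideal.Quotient.zero_eq_one_iff.1 h1.symm)
  obtain ⟨a, ha⟩ := hu
  refine eq_bot_iff.2 fun y hy => ?_
  have h1 : y * v a = 0 := congrFun (hsv y hy) a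
  exact (notMem_maximalIdeal.1 ha).mul_left_eq_zero.1 h1

/-- Either the socle is nonzero, or there is a regular minimal generator. -/
theorem serre_avoid (h : ∀ s : R, (∀ y ∈ maximalIdeal R, y * s = 0) → s = 0) :
    ∃ x ∈ maximalIdeal R, x ∉ maximalIdeal R ^ 2 ∧ x ∈ nonZeroDivisors R := by
  classical
  by_contra hcon
  push Not at hcon
  have hfin := associatedPrimes.finite R R
  have hsub : ((maximalIdeal R : Ideal R) : Set R) ⊆
      ⋃ i ∈ ((insert (maximalIdeal R ^ 2) hfin.toFinset : Finset (Ideal R)) : Set (Ideal R)),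
        ((id i : Ideal R) : Set R) := by
    intro y hy
    simp only [Set.mem_iUnion]
    by_cases hy2 : y ∈ maximalIdeal R ^ 2
    · exact ⟨_, by simp, hy2⟩
    · have h1 : y ∈ ((nonZeroDivisors R : Set R))ᶜ := hcon y hy hy2
      rw [← biUnion_associatedPrimes_eq_compl_nonZeroDivisors] at h1
      simp only [Set.mem_iUnion] at h1
      obtain ⟨p, hp, hyp⟩ := h1
      exact ⟨p, by simp [hp], hyp⟩
  rw [Ideal.subset_union_prime (maximalIdeal R ^ 2) (maximalIdeal R ^ 2) (fun i hi h1 _ => by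
    rcases Finset.mem_insert.1 hi with hi | hi
    · exact absurd hi h1
    · exact (hfin.mem_toFinset.1 hi).isPrime)] at hsub
  obtain ⟨p, hp, hle⟩ := hsub
  rcases Finset.mem_insert.1 hp with hp | hp
  · have hb : maximalIdeal R = ⊥ := by
      refine Submodule.eq_bot_of_le_smul_of_le_jacobson_bot (maximalIdeal R) _
        (IsNoetherian.noetherian _) ?_ (maximalIdeal_le_jacobson _)
      rw [smul_eq_mul, ← pow_two, ← hp]
      exact hle
    exact one_ne_zero (h 1 fun y hy => by rwa [hb, Ideal.mem_bot, ← mul_one y] at hy)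
  · obtain ⟨hp1, s, rfl⟩ := isAssociatedPrime_iff.1 (hfin.mem_toFinset.1 hp)
    have h1 := h s fun y hy => by simpa using hle hy
    apply hp1.ne_top
    rw [h1, eq_top_iff]
    intro y _
    simp

omit [IsNoetherianRing R] in
theorem serre_form {x : R} (hx : x ∈ maximalIdeal R) (hx2 : x ∉ maximalIdeal R ^ 2) :
    ∃ φ : maximalIdeal R →ₗ[R] R ⧸ maximalIdeal R, φ ⟨x, hx⟩ = 1 := by
  have h1 : (maximalIdeal R).toCotangent ⟨x, hx⟩ ≠ 0 := fun h =>
    hx2 ((Ideal.toCotangent_eq_zero _ _).1 h)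
  obtain ⟨ψ, hψ⟩ := Module.Projective.exists_dual_eq_one (ResidueField R)
    (V := CotangentSpace R) h1
  exact ⟨(ψ.restrictScalars R) ∘ₗ (maximalIdeal R).toCotangent, hψ⟩

/-- The inductive step: pass to the quotient by a regular minimal generator. -/
theorem serre_step (hR : HasRes R) {x : R} (hx : x ∈ maximalIdeal R)
    (hx2 : x ∉ maximalIdeal R ^ 2) (hx0 : x ∈ nonZeroDivisors R)
    [IsLocalRing (R ⧸ Ideal.span {x})] :
    ∃ (K : GC (R ⧸ Ideal.span {x})) (aug : (K.ι → R ⧸ Ideal.span {x}) →ₗ[R ⧸ Ideal.span {x}]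
      (R ⧸ Ideal.span {x}) ⧸ maximalIdeal (R ⧸ Ideal.span {x})), K.IsRes aug := by
  obtain ⟨G, aG, hG'⟩ := hR (maximalIdeal R)
  obtain ⟨φ, hφ⟩ := serre_form hx hx2
  set I : Ideal R := Ideal.span {x} with hI
  have hsurj : Function.Surjective (algebraMap R (R ⧸ I)) := Ideal.Quotient.mk_surjective
  have hmap : (maximalIdeal R).map (Ideal.Quotient.mk I) = maximalIdeal (R ⧸ I) :=
    map_maximalIdeal_of_surjective _ Ideal.Quotient.mk_surjective
  let N' := (maximalIdeal R) ⧸ (I • ⊤ : Submodule R (maximalIdeal R))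
  let ρ : maximalIdeal R →ₛₗ[Ideal.Quotient.mk I] N' :=
    { toFun := Submodule.Quotient.mk
      map_add' := fun _ _ => rfl
      map_smul' := fun _ _ => rfl }
  obtain ⟨aG', hG''⟩ := hG'.mod (Ideal.Quotient.mk I) Ideal.Quotient.mk_surjective
    Ideal.mk_ker hx0 (fun y hy => Subtype.ext (hx0.1 _ (congrArg Subtype.val hy))) ρ
    (Submodule.Quotient.mk_surjective _) (fun y => by
      change Submodule.Quotient.mk y = 0 ↔ _
      rw [Submodule.Quotient.mk_eq_zero, hI, Submodule.ideal_span_singleton_smul,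
        Submodule.mem_smul_pointwise_iff_exists]
      simp)
  let f : ((R ⧸ I) ⧸ maximalIdeal (R ⧸ I)) →ₗ[R ⧸ I] N' :=
    (maximalIdeal (R ⧸ I)).liftQ (LinearMap.toSpanSingleton _ _ (ρ ⟨x, hx⟩)) (by
      rw [← hmap]
      intro z hz
      obtain ⟨y, hy, rfl⟩ := (Ideal.mem_map_iff_of_surjective _ Ideal.Quotient.mk_surjective).1 hz
      rw [LinearMap.mem_ker, LinearMap.toSpanSingleton_apply, ← map_smulₛₗ]
      refine (Submodule.Quotient.mk_eq_zero _).2 ?_
      have : y • (⟨x, hx⟩ : maximalIdeal R) = x • ⟨y, hy⟩ := Subtype.ext (mul_comm y x)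
      rw [this]
      exact Submodule.smul_mem_smul (Ideal.mem_span_singleton_self x) trivial)
  let e : (R ⧸ maximalIdeal R) →ₗ[R] (R ⧸ I) ⧸ maximalIdeal (R ⧸ I) :=
    (maximalIdeal R).liftQ (Algebra.linearMap R _) (by
      intro y hy
      refine Ideal.Quotient.eq_zero_iff_mem.2 ?_
      rw [← hmap]
      exact Ideal.mem_map_of_mem _ hy)
  let g0 : N' →ₗ[R] (R ⧸ I) ⧸ maximalIdeal (R ⧸ I) :=
    (I • ⊤ : Submodule R (maximalIdeal R)).liftQ (e ∘ₗ φ) (by
      refine Submodule.smul_le.2 fun r hr y _ => ?_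
      rw [LinearMap.mem_ker, map_smul, Algebra.smul_def]
      refine mul_eq_zero_of_left (Ideal.Quotient.eq_zero_iff_mem.2 ?_) _
      rw [Ideal.Quotient.algebraMap_eq, Ideal.Quotient.eq_zero_iff_mem.2 hr]
      exact zero_mem _)
  have hg0 : g0 (ρ ⟨x, hx⟩) = 1 := by
    change e (φ ⟨x, hx⟩) = 1
    rw [hφ]
    exact map_one (algebraMap R _)
  obtain ⟨K, aK, k1, -⟩ := res_of_retract hG'' f (g0.extendScalarsOfSurjective hsurj) (by
    intro z
    obtain ⟨z, rfl⟩ := Submodule.Quotient.mk_surjective _ z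
    change (g0.extendScalarsOfSurjective hsurj) (z • ρ ⟨x, hx⟩) = _
    rw [map_smul, LinearMap.extendScalarsOfSurjective_apply, hg0,
      ← Algebra.algebraMap_eq_smul_one]
    rfl)
  exact ⟨K, aK, k1⟩

theorem serre_ind (n : ℕ) : ∀ (R : Type u) [CommRing R] [IsLocalRing R] [IsNoetherianRing R],
    ringKrullDim R = n → ∀ (K : GC R) (aug : (K.ι → R) →ₗ[R] R ⧸ maximalIdeal R), K.IsRes aug →
      RegL R n := by
  induction n using Nat.strong_induction_on with
  | _ n ih =>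
  intro R _ _ _ hd K aug hK
  obtain ⟨L, hL⟩ := K.exists_top
  by_cases hs : ∀ s : R, (∀ y ∈ maximalIdeal R, y * s = 0) → s = 0
  · obtain ⟨x, hx, hx2, hx0⟩ := serre_avoid hs
    have := isLocalRing_quot_reg1 ((Ideal.span_singleton_le_iff_mem _).2 hx)
    obtain ⟨K', aug', hK'⟩ := serre_step (fun N _ _ _ => by
      obtain ⟨K', a', k1, -⟩ := exists_res_of_res hK hL N
      exact ⟨K', a', k1⟩) hx hx2 hx0
    obtain ⟨m, hm⟩ := LC.exists_dim (R ⧸ Ideal.span {x})
    have h1 := ringKrullDim_quotient_span_singleton_succ_eq_ringKrullDim_of_mem_nonZeroDivisors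
      hx0 hx
    rw [hm, hd] at h1
    obtain rfl : m + 1 = n := by exact_mod_cast h1
    obtain ⟨-, y, hy⟩ := ih m (Nat.lt_succ_self m) _ hm K' aug' hK'
    choose z hz using fun i => Ideal.Quotient.mk_surjective (y i)
    refine ⟨hd, Fin.cons x z, ?_⟩
    have h2 : Ideal.span (Set.range y) = (Ideal.span (Set.range z)).map
        (Ideal.Quotient.mk (Ideal.span {x})) := by
      rw [Ideal.map_span, ← Set.range_comp]
      exact congrArg (fun w => Ideal.span (Set.range w)) (funext fun i => (hz i).symm)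
    have h3 := congrArg (Ideal.comap (Ideal.Quotient.mk (Ideal.span {x}))) (h2.symm.trans hy)
    rw [← map_maximalIdeal_of_surjective _ Ideal.Quotient.mk_surjective,
      Ideal.comap_map_of_surjective _ Ideal.Quotient.mk_surjective,
      Ideal.comap_map_of_surjective _ Ideal.Quotient.mk_surjective, ← RingHom.ker_eq_comap_bot,
      Ideal.mk_ker, sup_eq_left.2 ((Ideal.span_singleton_le_iff_mem _).2 hx)] at h3
    rw [Fin.range_cons, Ideal.span_insert, sup_comm, h3]
  · push Not at hs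
    obtain ⟨s, hs, hs0⟩ := hs
    obtain ⟨K', a', k1, -, k3⟩ := exists_res_of_res hK hL (R ⧸ maximalIdeal R)
    have hb := serre_socle k1 k3 hs0 hs
    have h0 : n = 0 := by
      rw [← maximalIdeal_height_eq_ringKrullDim, hb, Ideal.height_bot] at hd
      exact_mod_cast hd.symm
    subst h0
    exact ⟨hd, Fin.elim0, by simp [hb]⟩

/-- The theorem of Serre. -/
theorem regL_of_res {K : GC R} {aug : (K.ι → R) →ₗ[R] R ⧸ maximalIdeal R} (hK : K.IsRes aug) :
    ∃ h, RegL R h := by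
  obtain ⟨n, hn⟩ := LC.exists_dim R
  exact ⟨n, serre_ind n R hn K aug hK⟩

theorem RegL.exists_loc (h : RegL R d) (Q : Ideal R) [Q.IsPrime] {b : ℕ}
    (hb : ringKrullDim (R ⧸ Q) = b) : ∃ (g : ℕ) (x : Fin g → Localization.AtPrime Q),
      PermReg x ∧ Ideal.span (Set.range x) = maximalIdeal (Localization.AtPrime Q) ∧
      d ≤ g + b := by
  obtain ⟨K, aK, hK, -⟩ := h.exists_res (R ⧸ Q)
  have h1 := hK.bc_quot (Localization.AtPrime Q)
  rw [Localization.AtPrime.map_eq_maximalIdeal] at h1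
  obtain ⟨a', h1⟩ := h1
  obtain ⟨g, hg⟩ := regL_of_res h1
  obtain ⟨x, hx⟩ := hg.2
  obtain ⟨y, hy⟩ := h.2
  refine ⟨g, x, hg.permReg hx, hx, ?_⟩
  have h2 := le_dim_loc_add (h.permReg hy) hy Q
  rw [hg.1, hb] at h2
  exact_mod_cast h2

end Vale.Agent.P177
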