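import Vale.Agent.P177.Hyp
import Vale.Agent.P177.Serre

/-! Comparison with the Tor functor of the library. -/

namespace Vale.Agent.P177

open Vale.Agent.P202 IsLocalRing CategoryTheory TensorProduct
open scoped ENNReal

universe u

variable {R : Type u} [CommRing R] {M N : Type u} [AddCommGroup M] [Module R M] [AddCommGroup N]
  [Module R N]

section br

variable (K : GC R) {E : Type u} [AddCommGroup E] [Module R E]

/-- The projection onto one degree. -/
def brD (i : ℕ) : Matrix K.ι K.ι R := Matrix.diagonal fun a => if K.deg a = i then 1 else 0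

theorem brD_apply (i : ℕ) (x : K.ι → E) (a : K.ι) :
    mact E (brD K i) x a = if K.deg a = i then x a else 0 := by
  rw [mact_apply, Finset.sum_eq_single a (fun b _ hb => by
    rw [brD, Matrix.diagonal_apply_ne _ hb.symm, zero_smul]) (by simp), brD,
    Matrix.diagonal_apply_eq, ite_smul, one_smul, zero_smul]

theorem brD_mem (i : ℕ) (x : K.ι → E) : mact E (brD K i) x ∈ K.cw (⊤ : Submodule R E) i :=
  GC.mem_cw_res2.2 fun a ha => by rw [brD_apply, if_neg (by omega)]

variable {K}

theorem brD_eq {i : ℕ} {x : K.ι → E} (hx : x ∈ K.cw (⊤ : Submodule R E) i) :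
    mact E (brD K i) x = x := by
  funext a
  rw [brD_apply]
  split_ifs with h
  · rfl
  · exact (GC.mem_cw_res2.1 hx a (by omega)).symm

theorem brD_zero {i : ℕ} {n : ℤ} {x : K.ι → E} (hx : x ∈ K.cw (⊤ : Submodule R E) n)
    (h : n ≠ i) : mact E (brD K i) x = 0 := by
  funext a
  rw [brD_apply]
  split_ifs with h'
  · exact GC.mem_cw_res2.1 hx a (by omega)
  · rfl

theorem brD_d {i : ℕ} {x : K.ι → E} (hx : x ∈ K.cw (⊤ : Submodule R E) ((i + 1 : ℕ) : ℤ)) :
    mact E (brD K i) (K.d E x) = K.d E x :=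
  brD_eq (by simpa using GC.d_mem_res2 hx)

theorem brD_next {i : ℕ} {x : K.ι → E} (hx : x ∈ K.cw (⊤ : Submodule R E) i) :
    mact E (brD K ((ComplexShape.down ℕ).next i)) (K.d E x) = K.d E x := by
  cases i with
  | zero => rw [GC.eq_zero_res2 (by omega) (GC.d_mem_res2 hx), map_zero]
  | succ i =>
    rw [ChainComplex.next_nat_succ]
    exact brD_d hx

variable (K) in
/-- The projection onto one degree, with values in the submodule. -/
def brP (i : ℕ) : (K.ι → R) →ₗ[R] K.cw (⊤ : Submodule R R) i :=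
  (mact R (brD K i)).codRestrict _ (brD_mem K i)

/-- The chain complex of the library. -/
@[reducible]
def brCx (hK : K.Sq0) : ChainComplex (ModuleCat.{u} R) ℕ where
  X i := ModuleCat.of R (K.cw (⊤ : Submodule R R) i)
  d i j := ModuleCat.ofHom (brP K j ∘ₗ K.d R ∘ₗ (K.cw (⊤ : Submodule R R) i).subtype)
  shape i j h := ModuleCat.hom_ext (LinearMap.ext fun x => Subtype.ext
    (brD_zero (GC.d_mem_res2 x.2) fun e => h (by change j + 1 = i; omega)))
  d_comp_d' i j k h _ := ModuleCat.hom_ext (LinearMap.ext fun x => Subtype.ext (by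
    obtain rfl : j + 1 = i := h
    change mact R (brD K k) (K.d R (mact R (brD K j) (K.d R x.1))) = 0
    rw [brD_d x.2, hK.dd, map_zero]))

/-- The projective resolution of the library. -/
noncomputable def brRes {aug : (K.ι → R) →ₗ[R] N} (hK : K.IsRes aug) :
    ProjectiveResolution (ModuleCat.of R N) where
  complex := brCx (hK 0).sq
  projective i := by
    have : Module.Projective R (K.cw (⊤ : Submodule R R) i) :=
      Module.Projective.of_split (Submodule.subtype _) (brP K i)
        (LinearMap.ext fun x => Subtype.ext (brD_eq x.2))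
    exact ModuleCat.projective_of_categoryTheory_projective _
  π := (ChainComplex.toSingle₀Equiv _ _).symm
    ⟨ModuleCat.ofHom (aug ∘ₗ (K.cw (⊤ : Submodule R R) (0 : ℕ)).subtype),
      ModuleCat.hom_ext (LinearMap.ext fun x => by
        change aug (mact R (brD K 0) (K.d R x.1)) = 0
        rw [brD_d x.2, (hK 0).comp])⟩
  quasiIso := ⟨fun n => by
    cases n with
    | zero =>
      rw [ChainComplex.quasiIsoAt₀_iff, ShortComplex.quasiIso_iff_of_zeros' _
        ((brCx (hK 0).sq).shape 0 0 (by simp)) rfl rfl, ShortComplex.moduleCat_exact_iff,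
        ModuleCat.epi_iff_surjective]
      refine ⟨fun x hx => ?_, fun y => ?_⟩
      · obtain ⟨w, hw, e⟩ := GC.mem_Bd_res2.1 ((hK 0).ex0 x.1 x.2 hx)
        exact ⟨⟨w, hw⟩, Subtype.ext ((brD_d hw).trans e)⟩
      · obtain ⟨x, hx, e⟩ := (hK 0).surj_res2 y
        exact ⟨⟨x, hx⟩, e⟩
    | succ n =>
      rw [quasiIsoAt_iff_exactAt' _ _ (ChainComplex.exactAt_succ_single_obj _ _),
        HomologicalComplex.exactAt_iff' _ (n + 2) (n + 1) n (by simp) (by simp),
        ShortComplex.moduleCat_exact_iff]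
      intro x hx
      have h1 : mact R (brD K n) (K.d R x.1) = 0 := congrArg Subtype.val hx
      rw [brD_d x.2] at h1
      obtain ⟨w, hw, e⟩ := GC.mem_Bd_res2.1 ((hK (n + 1)).ex _ (by omega) le_rfl
        (GC.mem_Zy_res2.2 ⟨x.2, h1⟩))
      exact ⟨⟨w, hw⟩, Subtype.ext ((brD_d hw).trans e)⟩⟩

theorem br_tensor (A : Matrix K.ι K.ι R) (u : M ⊗[R] (K.ι → R)) :
    piScalarRight R R M K.ι ((mact R A).lTensor M u) = mact M A (piScalarRight R R M K.ι u) := by
  induction u with
  | zero => simp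
  | tmul m x =>
    funext a
    simp [mact_apply, Finset.sum_smul, mul_smul]
  | add x y hx hy => rw [map_add, map_add, hx, hy, map_add, map_add]

variable (K M) in
/-- The comparison map. -/
noncomputable def brφ (i : ℕ) : M ⊗[R] K.cw (⊤ : Submodule R R) i →ₗ[R] (K.ι → M) :=
  (piScalarRight R R M K.ι).toLinearMap ∘ₗ (K.cw (⊤ : Submodule R R) i).subtype.lTensor M

theorem brφ_P (i : ℕ) (u : M ⊗[R] (K.ι → R)) :
    brφ M K i ((brP K i).lTensor M u) = mact M (brD K i) (piScalarRight R R M K.ι u) := by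
  rw [← br_tensor, brφ, LinearMap.comp_apply, ← LinearMap.lTensor_comp_apply]
  rfl

theorem brP_φ (i : ℕ) (u : M ⊗[R] K.cw (⊤ : Submodule R R) i) :
    (brP K i).lTensor M ((K.cw (⊤ : Submodule R R) i).subtype.lTensor M u) = u := by
  rw [← LinearMap.lTensor_comp_apply, show brP K i ∘ₗ (K.cw (⊤ : Submodule R R) i).subtype =
    LinearMap.id from LinearMap.ext fun x => Subtype.ext (brD_eq x.2), LinearMap.lTensor_id]
  rfl

theorem brφ_inj (i : ℕ) : Function.Injective (brφ M K i) :=
  (piScalarRight R R M K.ι).injective.comp (Function.LeftInverse.injective (brP_φ i))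

theorem brφ_mem (i : ℕ) (u : M ⊗[R] K.cw (⊤ : Submodule R R) i) :
    brφ M K i u ∈ K.cw (⊤ : Submodule R M) i := by
  rw [← brP_φ i u, brφ_P]
  exact brD_mem K i _

theorem brφ_surj {i : ℕ} {x : K.ι → M} (hx : x ∈ K.cw (⊤ : Submodule R M) i) :
    ∃ u, brφ M K i u = x :=
  ⟨_, (brφ_P i ((piScalarRight R R M K.ι).symm x)).trans
    (by rw [LinearEquiv.apply_symm_apply, brD_eq hx])⟩

theorem brφ_d (i j : ℕ) (u : M ⊗[R] K.cw (⊤ : Submodule R R) i) :
    brφ M K j ((brP K j ∘ₗ K.d R ∘ₗ (K.cw (⊤ : Submodule R R) i).subtype).lTensor M u) =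
      mact M (brD K j) (K.d M (brφ M K i u)) := by
  rw [LinearMap.lTensor_comp_apply, LinearMap.lTensor_comp_apply, brφ_P, br_tensor]
  rfl

end br

theorem br_len (S : ShortComplex (ModuleCat.{u} R)) :
    ((Module.length R S.homology : ℕ∞) : ℝ≥0∞) =
      rr (RLen.ofLen R) (LinearMap.range S.f.hom) (LinearMap.ker S.g.hom) := by
  have e : LinearMap.range S.moduleCatToCycles =
      (LinearMap.range S.f.hom).comap (LinearMap.ker S.g.hom).subtype :=
    LinearMap.range_codRestrict _ _ _
  have h := rr_map (RLen.ofLen R) (LinearMap.ker S.g.hom).subtype (LinearMap.range S.f.hom) ⊤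
  rw [Submodule.map_top, Submodule.range_subtype, ← e, rr_top] at h
  rw [← h, S.moduleCatHomologyIso.toLinearEquiv.length_eq]
  rfl

theorem length_tor {K : GC R} {aug : (K.ι → R) →ₗ[R] N} (hK : K.IsRes aug) (i : ℕ) :
    ((Module.length R (((Tor (ModuleCat.{u} R) i).obj (ModuleCat.of R M)).obj (ModuleCat.of R N)) :
      ℕ∞) : ℝ≥0∞) = hG (RLen.ofLen R) K (⊥ : Submodule R M) ⊤ i := by
  refine (congrArg ENat.toENNReal ((brRes hK).isoLeftDerivedObj ((MonoidalCategory.tensoringLeft
    _).obj (ModuleCat.of R M)) i).toLinearEquiv.length_eq).trans ((br_len _).trans ?_)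
  change rr (RLen.ofLen R) (LinearMap.range ((brP K i ∘ₗ K.d R ∘ₗ (K.cw (⊤ : Submodule R R)
      ((ComplexShape.down ℕ).prev i : ℕ)).subtype).lTensor M))
    (LinearMap.ker ((brP K ((ComplexShape.down ℕ).next i) ∘ₗ K.d R ∘ₗ
      (K.cw (⊤ : Submodule R R) i).subtype).lTensor M)) = _
  rw [ChainComplex.prev]
  refine (congrArg (rr _ · _) ?_).trans ((rr_map _ (brφ M K i) _ _).trans (congrArg _ ?_))
  · refine Submodule.ext fun u => ?_
    rw [Submodule.mem_comap, GC.mem_Bd_res2]
    constructor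
    · rintro ⟨v, rfl⟩
      exact ⟨_, brφ_mem (i + 1) v, by rw [brφ_d, brD_d (brφ_mem _ _)]⟩
    · rintro ⟨w, hw, e⟩
      obtain ⟨v, rfl⟩ := brφ_surj (i := i + 1) hw
      exact ⟨v, brφ_inj i (by rw [brφ_d, brD_d (brφ_mem _ _), e])⟩
  · refine Submodule.ext fun x => ?_
    rw [GC.mem_Zy_res2]
    constructor
    · rintro ⟨u, hu, rfl⟩
      refine ⟨brφ_mem i u, ?_⟩
      rw [← brD_next (brφ_mem i u), ← brφ_d, LinearMap.mem_ker.1 hu, map_zero]
    · rintro ⟨h1, h2⟩
      obtain ⟨u, rfl⟩ := brφ_surj h1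
      exact ⟨u, brφ_inj _ (by rw [brφ_d, h2, map_zero, map_zero]), rfl⟩

theorem exists_pow_le_ann [IsLocalRing R] [IsNoetherianRing R] [Module.Finite R M]
    [Module.Finite R N] (h : Module.length R (M ⊗[R] N) ≠ ⊤) :
    ∃ t : ℕ, maximalIdeal R ^ t ≤ Module.annihilator R M ⊔ Module.annihilator R N := by
  have h1 : maximalIdeal R ≤ (Module.annihilator R M ⊔ Module.annihilator R N).radical := by
    rw [Ideal.radical_eq_sInf, le_sInf_iff]
    rintro P ⟨h1, hP⟩
    have hs : (⟨P, hP⟩ : PrimeSpectrum R) ∈ Module.support R (M ⊗[R] N) := by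
      have hM := (Module.mem_support_iff_nontrivial_residueField_tensorProduct (M := M) ⟨P, hP⟩).1
        (Module.mem_support_iff_of_finite.2 (le_sup_left.trans h1))
      have hN := (Module.mem_support_iff_nontrivial_residueField_tensorProduct (M := N) ⟨P, hP⟩).1
        (Module.mem_support_iff_of_finite.2 (le_sup_right.trans h1))
      rw [Module.mem_support_iff_nontrivial_residueField_tensorProduct,
        (AlgebraTensorModule.distribBaseChange R _ M N).nontrivial_congr]
      infer_instance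
    obtain ⟨t, ht⟩ := ring_ind (A := R)
      (fun E _ _ => ∃ t, maximalIdeal R ^ t ≤ Module.annihilator R E)
      (fun E _ _ _ => ⟨0, (Module.annihilator_eq_top_iff.2 ‹_›).ge.trans' le_top⟩)
      ⟨1, by rw [pow_one, Ideal.annihilator_quotient]⟩ (by
        rintro A B C _ _ _ _ _ _ f g - - he ⟨a, ha⟩ ⟨b, hb⟩
        refine ⟨a + b, ?_⟩
        rw [pow_add, Ideal.mul_le]
        refine fun r hr s hs => Module.mem_annihilator.2 fun x => ?_
        obtain ⟨y, hy⟩ := (he (s • x)).1 (by rw [map_smul, Module.mem_annihilator.1 (hb hs)])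
        rw [mul_smul, ← hy, ← map_smul, Module.mem_annihilator.1 (ha hr), map_zero]) _ h
    exact Ideal.IsPrime.le_of_pow_le (ht.trans (Module.mem_support_iff_of_finite.1 hs))
  exact Ideal.exists_pow_le_of_le_radical_of_fg h1 (IsNoetherian.noetherian _)

theorem serre_of_posM [IsLocalRing R] [IsNoetherianRing R] {d : ℕ} (hR : RegL R d)
    (hp : PosM R d) [Module.Finite R M] [Module.Finite R N]
    (hl : Module.length R (M ⊗[R] N) ≠ ⊤)
    (hd : Module.supportDim R M + Module.supportDim R N = d) :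
    (∀ i : ℕ, Module.length R
      (((Tor (ModuleCat.{u} R) i).obj (ModuleCat.of R M)).obj (ModuleCat.of R N)) ≠ ⊤) ∧
    (∀ i : ℕ, d < i → Module.length R
      (((Tor (ModuleCat.{u} R) i).obj (ModuleCat.of R M)).obj (ModuleCat.of R N)) = 0) ∧
    0 < ∑ i ∈ Finset.range (d + 1), (-1 : ℤ) ^ i * ((Module.length R
      (((Tor (ModuleCat.{u} R) i).obj (ModuleCat.of R M)).obj (ModuleCat.of R N))).toNat : ℤ) := by
  obtain ⟨x, hx, hc⟩ := hp M N (exists_pow_le_ann hl) hd
  obtain ⟨K, aug, hK, hT⟩ := hR.exists_res N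
  obtain ⟨h1, h2⟩ := hc K aug hK
  refine ⟨fun i h => h1.1 i ?_, fun i hi => ?_, ?_⟩
  · exact (length_tor hK i).symm.trans (ENat.toENNReal_eq_top.2 h)
  · have := (length_tor (M := M) hK i).trans (hT.hr_eq_zero _ _ _ (Or.inr (by omega)))
    exact_mod_cast this
  · have e : ∀ a : ℕ∞, (a : ℝ≥0∞).toReal = a.toNat := fun a => by induction a <;> simp
    rw [← h2, chiG, hT.chi_eq_sum] at hx
    rw [← Int.cast_pos (R := ℝ), Int.cast_sum]
    refine hx.trans_eq (Finset.sum_congr rfl fun i _ => ?_)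
    rw [Int.cast_mul, Int.cast_pow, Int.cast_neg, Int.cast_one, Int.cast_natCast]
    exact congrArg _ ((congrArg ENNReal.toReal (length_tor hK i)).symm.trans (e _))

end Vale.Agent.P177
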