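import Vale.Agent.P177.Flag
import Vale.Agent.P177.Pur
import Vale.Agent.P177.RR

/-! The intersection multiplicity in terms of the flag. -/

namespace Vale.Agent.P177

open Vale.Agent.P202 IsLocalRing
open scoped ENNReal

universe u

variable {R C : Type u} [CommRing R] [IsLocalRing R] [IsNoetherianRing R] [CommRing C]
  [IsLocalRing C] [IsNoetherianRing C] [IsDomain C] {l : ℕ} [NeZero l]

omit [IsLocalRing R] [IsNoetherianRing R] in
theorem Chi.ideal_cform (hR : HasRes R) {P Q : Ideal R} {x : ℝ} (h : Chi R (R ⧸ P) (R ⧸ Q) x)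
    {G : GC R} {aG : (G.ι → R) →ₗ[R] R ⧸ P} (hG' : G.IsRes aG) :
    GoodG (RLen.ofLen R) G (Q.map (algebraMap R R)) ⊤ ∧
      chiG (RLen.ofLen R) G (Q.map (algebraMap R R)) ⊤ = x := by
  have h1 := h.symm hR G aG hG'
  have h2 := good_chi_congr _ fun n => hG_quot (RLen.ofLen R) G Q n
  have h3 : Q.map (algebraMap R R) = Q := Ideal.map_id Q
  rw [h3]
  exact ⟨h2.1.2 h1.1, h2.2.trans h1.2⟩

/-- Coefficients of smaller support do not contribute. -/
theorem chi_quot_zero (hR : HasRes R) {P Q : Ideal R} (hv : VanAb P Q) {G : GC R} (hG' : G.Sq0)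
    (hQ : Q ≤ G.nh) {I : Ideal R} (hP : P ≤ I) (hI : ∀ P' : Ideal R, P'.IsPrime → I ≤ P' → P' ≠ P) :
    GoodG (RLen.ofLen R) G I ⊤ ∧ chiG (RLen.ofLen R) G I ⊤ = 0 := by
  have h2 := good_chi_congr _ fun n => hG_quot (RLen.ofLen R) G I n
  have key := (EFn.ofG (RLen.ofLen R) G hG').dev_zero (N := R ⧸ I) (I := I)
    (by rw [Ideal.annihilator_quotient]) fun P' hP' hIP => by
      obtain ⟨K, aK, hK⟩ := hR (R ⧸ P')
      have h3 := hyper_zero (B := R) (R := R) (RLen.ofLen R) hG' hK hQ fun Q' hQ' hQQ =>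
        (hv P' Q' hP' hQ' (hP.trans hIP) hQQ (Or.inl (hI P' hP' hIP))).ideal_cform hR hK
      have h4 : G.map (algebraMap R R) = G := G.map_id
      rw [h4] at h3
      exact h3
  exact ⟨h2.1.2 key.1, h2.2.trans key.2⟩

omit [IsLocalRing C] [IsNoetherianRing C] [IsDomain C] in
theorem chi_move_cform (hR : HasRes R) (f : R →+* C) (hf : Function.Surjective f) {Q : Ideal R}
    (hv : VanAb (RingHom.ker f) Q) {K : GC R} (hK : K.Sq0) (hQ : Q ≤ K.nh) {J : Ideal C}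
    (hJ : J ≠ ⊥) (hg : GoodG (RLen.ofLen R) K (⊥ : Submodule R (R ⧸ RingHom.ker f)) ⊤) :
    chiG (RLen.ofLen R) K (⊥ : Submodule R (R ⧸ RingHom.ker f)) ⊤ =
      chiG (RLen.ofLen C) (K.map f) ⊥ J := by
  have h1 := good_chi_congr _ fun n => hG_quot (RLen.ofLen R) K (RingHom.ker f) n
  have hle : RingHom.ker f ≤ J.comap f := Ideal.comap_mono bot_le
  obtain ⟨y, hy, hy0⟩ := Submodule.exists_mem_ne_zero_of_ne_bot hJ
  obtain ⟨y, rfl⟩ := hf y
  have h2 := chi_quot_zero hR hv hK hQ hle fun P' _ hP' h => hy0 (by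
    have : y ∈ RingHom.ker f := h ▸ hP' hy
    exact this)
  have ht := hK.tri (E := R) hle (le_top : J.comap f ≤ ⊤)
  have g12 := ht.good_left (RLen.ofLen R) (h1.1.2 hg) h2.1
  have h3 := ht.chi_add (RLen.ofLen R) g12 h2.1
  have h4 := good_chi_congr _ fun n => hG_surj (RLen.ofLen R) K f hf ⊥ J n
  rw [res_ofLen f hf] at h4
  refine h1.2.symm.trans (h3.trans ?_)
  have h5 : chiR (RLen.ofLen R) (K.d R) (K.cw (J.comap f)) (K.cw ⊤) = 0 := h2.2
  rw [h5, add_zero]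
  exact h4.2

theorem cform (hl : l.Prime) (ho : Odd l) (hu : IsUnit (l : R)) (hR : HasRes R) (f : R →+* C)
    (hf : Function.Surjective f) (Q : Ideal R) [Q.IsPrime] (hv : VanAb (RingHom.ker f) Q) {t : ℕ}
    (ht : maximalIdeal R ^ t ≤ RingHom.ker f ⊔ Q) {F : GC R} {aF : (F.ι → R) →ₗ[R] R ⧸ Q}
    (hF : F.IsRes aF) {h : ℕ} {x : Fin h → Localization.AtPrime Q} (hx : PermReg x)
    (hm : Ideal.span (Set.range x) = maximalIdeal (Localization.AtPrime Q)) {π : C} (hπ : π ≠ 0)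
    {n : ℕ} {e : Fin n → ℕ} {b : Matrix F.ι (Fin n ⊕ Fin n) C} {b' : Matrix (Fin n ⊕ Fin n) F.ι C}
    {c n0 ρ : ℕ} {𝔞 : ℕ → Ideal C} (hS : Setup (F.map f) π e b b' c 𝔞)
    (hM : Filt (2 * n) 𝔞 π 1 n0 (EE (2 * n) 𝔞)) (hρ : n0 + l ≤ ρ) {χ : ℝ}
    (hχ : Chi R (R ⧸ RingHom.ker f) (R ⧸ Q) χ) :
    (l : ℝ) ^ h * χ = fl (RLen.ofLen C) (EE (2 * n) 𝔞) e l ρ := by
  have hP : (RingHom.ker f).IsPrime := RingHom.ker_isPrime f
  obtain ⟨G, aG, hG'⟩ := hR (R ⧸ RingHom.ker f)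
  have hχ' := hχ.ideal_cform hR hG'
  have hpur := purity (T := R) hl ho hu (RLen.ofLen R) hG' Q hF hx hm
    (fun Q' hQ' h1 => by
      rcases eq_or_lt_of_le h1 with rfl | h2
      · exact hχ'.1
      · exact ((hv _ Q' hP hQ' le_rfl h1 (Or.inr h2.ne')).ideal_cform hR hG').1)
    fun Q' hQ' h2 => ((hv _ Q' hP hQ' le_rfl h2.le (Or.inr h2.ne')).ideal_cform hR hG').2
  have h4 : F.map (algebraMap R R) = F := F.map_id
  rw [h4, hχ'.2] at hpur
  obtain ⟨⟨g1, g2⟩, hpsi⟩ := hpur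
  have hQF : Q ≤ F.nh := by
    have := hF.ann_le_nh
    rwa [Ideal.annihilator_quotient] at this
  have hsq := (hF 0).sq
  have hπ' : π ∈ nonZeroDivisors C := mem_nonZeroDivisors_of_ne_zero hπ
  have hJ : EE (2 * n) 𝔞 (cst ρ) ≠ ⊥ := fun h0 => by
    have h1 := pow_mem_EE (N := 2 * n) (fun r hr => hS.pow_mem hr) (cst ρ)
    rw [h0] at h1
    exact pow_ne_zero _ hπ h1
  have e1 := chi_move_cform hR f hf hv (hsq.tp ho) (hQF.trans (F.nh_le_tp ho)) hJ g1
  have e2 := chi_move_cform hR f hf hv (hsq.sp ho) (hQF.trans (F.nh_le_sp ho hu)) hJ g2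
  rw [GC.map_tp] at e1
  rw [GC.map_sp] at e2
  have hmC : maximalIdeal C ^ t ≤ (F.map f).nh := by
    rw [← map_maximalIdeal_of_surjective f hf, ← Ideal.map_pow]
    refine (Ideal.map_mono ht).trans ?_
    rw [Ideal.map_sup, (Ideal.map_eq_bot_iff_le_ker f).2 le_rfl, bot_sup_eq]
    exact (Ideal.map_mono hQF).trans (F.map_nh_le f)
  have hfl := (flag hl ho (by simpa using hu.map f) hS hπ' hM (null_one (RLen.ofLen C))
    (fun k m hm' => rr_ofLen_ne_top (t := t) fun z hz y hy => by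
      have h1 := hS.EE_u2 hπ' k (j := 1) (m := m) fun r => le_trans (by push_cast; omega) (hm' r)
      rw [pow_one, Nat.cast_one, one_smul, one_smul] at h1
      exact h1 (Ideal.mul_mem_mul (hmC hz) hy)) hρ).2
  have h1 : (1 : ℝ) < l := by exact_mod_cast hl.one_lt
  refine mul_left_cancel₀ (sub_pos.2 h1).ne' ?_
  rw [← hfl, ← mul_assoc, ← hpsi]
  unfold psiG
  rw [e1, e2]

end Vale.Agent.P177
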