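import Vale.Agent.P177.PDefs
import Vale.Agent.P202.PS

/-! Adic completeness. -/

namespace Vale.Agent.P177

open Vale.Agent.P202

universe u

variable {A : Type u} [CommRing A]

theorem haus_cpl {I : Ideal A} (h : IsAdicComplete I A) {x : A}
    (hx : ∀ n : ℕ, x ∈ I ^ n) : x = 0 :=
  h.toIsHausdorff.haus x fun n => by
    rw [SModEq.zero, smul_eq_mul, Ideal.mul_top]
    exact hx n

theorem cauchy_cpl {I : Ideal A} {f : ℕ → A} (hf : ∀ n, f (n + 1) - f n ∈ I ^ n) {m n : ℕ}
    (h : m ≤ n) : f n - f m ∈ I ^ m := by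
  induction n, h using Nat.le_induction with
  | base => simp
  | succ n h ih =>
    have h1 := Ideal.add_mem _ (Ideal.pow_le_pow_right h (hf n)) ih
    rwa [sub_add_sub_cancel] at h1

theorem lim_cpl {I : Ideal A} (h : IsAdicComplete I A) {f : ℕ → A}
    (hf : ∀ n, f (n + 1) - f n ∈ I ^ n) : ∃ L, ∀ n, L - f n ∈ I ^ n := by
  obtain ⟨L, hL⟩ := h.toIsPrecomplete.prec (f := f) fun {m n} hmn => by
    rw [SModEq.sub_mem, smul_eq_mul, Ideal.mul_top, ← neg_mem_iff, neg_sub]
    exact cauchy_cpl hf hmn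
  refine ⟨L, fun n => ?_⟩
  have h1 := hL n
  rwa [SModEq.sub_mem, smul_eq_mul, Ideal.mul_top, ← neg_mem_iff, neg_sub] at h1

theorem mk_cpl {I : Ideal A} (h1 : ∀ x, (∀ n : ℕ, x ∈ I ^ n) → x = 0)
    (h2 : ∀ f : ℕ → A, (∀ n, f (n + 1) - f n ∈ I ^ n) → ∃ L, ∀ n, L - f n ∈ I ^ n) :
    IsAdicComplete I A where
  haus' x hx := h1 x fun n => by
    have h := hx n
    rwa [SModEq.zero, smul_eq_mul, Ideal.mul_top] at h
  prec' f hf := by
    obtain ⟨L, hL⟩ := h2 f fun n => by
      have h := hf (Nat.le_succ n)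
      rwa [SModEq.sub_mem, smul_eq_mul, Ideal.mul_top, ← neg_mem_iff, neg_sub] at h
    refine ⟨L, fun n => ?_⟩
    rw [SModEq.sub_mem, smul_eq_mul, Ideal.mul_top, ← neg_mem_iff, neg_sub]
    exact hL n

theorem lim_pow_cpl {I J : Ideal A} (h : IsAdicComplete I A) {c : ℕ} (hc : J ^ c ≤ I)
    {f : ℕ → A} (hf : ∀ n, f (n + 1) - f n ∈ J ^ n) :
    ∃ L, ∀ k n, c * k ≤ n → L - f n ∈ I ^ k := by
  have hle : ∀ k, J ^ (c * k) ≤ I ^ k := fun k => by
    rw [pow_mul]
    exact Ideal.pow_right_mono hc k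
  obtain ⟨L, hL⟩ := lim_cpl h (f := fun k => f (c * k)) fun k =>
    hle k (cauchy_cpl hf (Nat.mul_le_mul_left c (Nat.le_succ k)))
  refine ⟨L, fun k n hn => ?_⟩
  have h1 := Ideal.sub_mem _ (hL k) (hle k (cauchy_cpl hf hn))
  rwa [sub_sub_sub_cancel_right] at h1

theorem mem_pow_ps_cpl {σ : Type} [Finite σ] (I : Ideal A) (n : ℕ) (p : PS σ A) :
    p ∈ (I.map (MvPowerSeries.C : A →+* PS σ A) ⊔
      Ideal.span (Set.range (MvPowerSeries.X : σ → PS σ A))) ^ n ↔
    ∀ d : σ →₀ ℕ, MvPowerSeries.coeff d p ∈ I ^ (n - d.degree) := by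
  classical
  set K := I.map (MvPowerSeries.C : A →+* PS σ A) ⊔
      Ideal.span (Set.range (MvPowerSeries.X : σ → PS σ A)) with hK
  have hK0 : K ≤ I.comap (MvPowerSeries.constantCoeff : PS σ A →+* A) := by
    refine sup_le (Ideal.map_le_iff_le_comap.2 fun a ha => ?_) (Ideal.span_le.2 ?_)
    · simpa using ha
    · rintro _ ⟨i, rfl⟩
      simp
  constructor
  · induction n generalizing p with
    | zero => intro _ d; simp
    | succ n ih =>
      intro hp
      rw [pow_succ] at hp
      refine Submodule.mul_induction_on hp (fun a ha b hb d => ?_) fun a b ha hb d => ?_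
      · rw [MvPowerSeries.coeff_mul]
        refine Ideal.sum_mem _ fun q hq => ?_
        have h1 : q.1.degree + q.2.degree = d.degree := by
          rw [← map_add, Finset.HasAntidiagonal.mem_antidiagonal.1 hq]
        by_cases h2 : q.2 = 0
        · have h3 : MvPowerSeries.coeff q.2 b ∈ I := by
            rw [h2, MvPowerSeries.coeff_zero_eq_constantCoeff_apply]
            exact hK0 hb
          have h4 := Ideal.mul_mem_mul (ih a ha q.1) h3
          rw [← pow_succ] at h4
          exact Ideal.pow_le_pow_right (by omega) h4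
        · have h3 : q.2.degree ≠ 0 := fun h => h2 ((Finsupp.degree_eq_zero_iff _).1 h)
          exact Ideal.mul_mem_right _ _ (Ideal.pow_le_pow_right (by omega) (ih a ha q.1))
      · rw [map_add]
        exact Ideal.add_mem _ (ha d) (hb d)
  · intro h
    have hX : Ideal.span (Set.range (MvPowerSeries.X : σ → PS σ A)) ≤ K := le_sup_right
    have hC : I.map (MvPowerSeries.C : A →+* PS σ A) ≤ K := le_sup_left
    have h1 := Ideal.pow_right_mono hX n (ps_sub_trunc_mem n p)
    have h2 : ((MvPowerSeries.truncTotal n p : MvPolynomial σ A) : PS σ A) ∈ K ^ n := by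
      rw [(MvPowerSeries.truncTotal n p).as_sum, ← MvPolynomial.coeToMvPowerSeries.ringHom_apply,
        map_sum]
      refine Ideal.sum_mem _ fun d _ => ?_
      rw [MvPolynomial.coeToMvPowerSeries.ringHom_apply, MvPolynomial.coe_monomial]
      have h3 : (MvPowerSeries.monomial d
          (MvPolynomial.coeff d (MvPowerSeries.truncTotal n p)) : PS σ A) =
          MvPowerSeries.C (MvPolynomial.coeff d (MvPowerSeries.truncTotal n p)) *
            MvPowerSeries.monomial d 1 := by
        rw [← MvPowerSeries.monomial_zero_eq_C_apply, MvPowerSeries.monomial_mul_monomial,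
          zero_add, mul_one]
      have h4 : (MvPowerSeries.monomial d 1 : PS σ A) ∈ K ^ d.degree := by
        refine Ideal.pow_right_mono hX _ (ps_mem_pow_of_truncTotal ?_)
        ext x
        rw [MvPowerSeries.coeff_truncTotal_eq_ite]
        split_ifs with hx
        · rw [MvPowerSeries.coeff_monomial, if_neg, MvPolynomial.coeff_zero]
          rintro rfl
          exact lt_irrefl _ hx
        · simp
      have h5 : MvPolynomial.coeff d (MvPowerSeries.truncTotal n p) ∈ I ^ (n - d.degree) := by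
        rw [MvPowerSeries.coeff_truncTotal_eq_ite]
        split_ifs
        · exact h d
        · exact Ideal.zero_mem _
      have h6 := Ideal.mem_map_of_mem (MvPowerSeries.C : A →+* PS σ A) h5
      rw [Ideal.map_pow] at h6
      have h7 := Ideal.mul_mem_mul (Ideal.pow_right_mono hC _ h6) h4
      rw [← pow_add] at h7
      rw [h3]
      exact Ideal.pow_le_pow_right (by omega) h7
    have h3 := Ideal.add_mem _ h1 h2
    rwa [sub_add_cancel] at h3

/-- Completeness passes to finitely generated ideals inside the radical. -/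
theorem complete_of_pow_le {I J : Ideal A} (h : IsAdicComplete I A) (hJ : J.FG) {c : ℕ}
    (hc : J ^ c ≤ I) : IsAdicComplete J A := by
  have hle : ∀ k, J ^ (c * k) ≤ I ^ k := fun k => by
    rw [pow_mul]
    exact Ideal.pow_right_mono hc k
  refine mk_cpl (fun x hx => haus_cpl h fun k => hle k (hx _)) fun f hf => ?_
  obtain ⟨L, hL⟩ := lim_pow_cpl h hc hf
  refine ⟨L, fun N => ?_⟩
  obtain ⟨r, g, hg⟩ := Submodule.fg_iff_exists_fin_generating_family.1 (hJ.pow (n := N))
  have h1 : ∀ n, ∃ a : Fin r → A, (∀ i, a i ∈ J ^ n) ∧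
      ∑ i, a i * g i = f (N + n + 1) - f (N + n) := by
    intro n
    have h2 := hf (N + n)
    rw [add_comm N n, pow_add, ← smul_eq_mul, ← hg] at h2
    obtain ⟨a, ha, h3⟩ := (Submodule.mem_ideal_smul_span_iff_exists_sum _ _ _).1 h2
    refine ⟨a, ha, ?_⟩
    rw [add_comm N n, ← h3]
    exact (Finsupp.sum_fintype a (fun i c => c • g i) fun i => zero_smul _ _).symm
  choose a ha hs using h1
  have h2 : ∀ i, ∃ b, ∀ k n, c * k ≤ n → b - ∑ j ∈ Finset.range n, a j i ∈ I ^ k := fun i =>
    lim_pow_cpl h hc (f := fun n => ∑ j ∈ Finset.range n, a j i) fun n => by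
      rw [Finset.sum_range_succ, add_sub_cancel_left]
      exact ha n i
  choose b hb using h2
  have h3 : ∀ n, ∑ i, (∑ j ∈ Finset.range n, a j i) * g i = f (N + n) - f N := by
    intro n
    induction n with
    | zero => simp
    | succ n ih =>
      simp only [Finset.sum_range_succ, add_mul, Finset.sum_add_distrib, ih, hs, ← add_assoc]
      ring
  have h4 : L - f N - ∑ i, b i * g i = 0 := by
    refine haus_cpl h fun k => ?_
    have e : L - f N - ∑ i, b i * g i = (L - f (N + c * k)) -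
        ∑ i, (b i - ∑ j ∈ Finset.range (c * k), a j i) * g i := by
      simp only [sub_mul, Finset.sum_sub_distrib, h3]
      ring
    rw [e]
    exact Ideal.sub_mem _ (hL k _ (Nat.le_add_left _ _))
      (Ideal.sum_mem _ fun i _ => Ideal.mul_mem_right _ _ (hb i k _ le_rfl))
  rw [sub_eq_zero.1 h4, ← hg]
  exact Ideal.sum_mem _ fun i _ => Ideal.mul_mem_left _ _ (Ideal.subset_span ⟨i, rfl⟩)

theorem complete_of_forall_pow {I : Ideal A} (h : IsAdicComplete I A) {σ : Type} [Finite σ]
    (x : σ → A) (hx : ∀ j, ∃ c : ℕ, x j ^ c ∈ I) :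
    IsAdicComplete (Ideal.span (Set.range x)) A := by
  have hfg : (Ideal.span (Set.range x)).FG := Submodule.fg_span (Set.finite_range x)
  obtain ⟨c, hc⟩ := Ideal.exists_pow_le_of_le_radical_of_fg (J := I)
    (Ideal.span_le.2 (by rintro _ ⟨j, rfl⟩; exact hx j)) hfg
  exact complete_of_pow_le h hfg hc

/-- Membership in a finitely generated ideal of a product is checked componentwise. -/
theorem mem_pi_of_fg {B : ℕ → Type u} [∀ k, CommRing (B k)] {I : Ideal (Π k, B k)}
    (hI : I.FG) (b : Π k, B k) (h : ∀ k, b k ∈ I.map (Pi.evalRingHom B k)) : b ∈ I := by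
  obtain ⟨n, g, rfl⟩ := Submodule.fg_iff_exists_fin_generating_family.1 hI
  have h1 : ∀ k, ∃ c : Fin n → B k, ∑ i, c i * g i k = b k := by
    intro k
    have h2 := h k
    rw [Ideal.submodule_span_eq, Ideal.map_span, ← Set.range_comp] at h2
    exact Ideal.mem_span_range_iff_exists_fun.1 h2
  choose c hc using h1
  refine Ideal.mem_span_range_iff_exists_fun.2 ⟨fun i k => c k i, funext fun k => ?_⟩
  rw [Finset.sum_apply]
  exact hc k

theorem flat_eval (B : ℕ → Type u) [∀ k, CommRing (B k)] (k : ℕ) :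
    (Pi.evalRingHom B k).Flat := by
  classical
  let := (Pi.evalRingHom B k).toAlgebra
  let i : B k →ₗ[Π k, B k] (Π k, B k) :=
    { toFun := Pi.single k
      map_add' := Pi.single_add k
      map_smul' := fun c x => funext fun j => by
        by_cases h : j = k
        · subst h
          simp only [Pi.single_eq_same, RingHom.id_apply, smul_eq_mul, Pi.mul_apply]
          rfl
        · simp [Pi.single_eq_of_ne h] }
  exact Module.Flat.of_retract i (Algebra.linearMap (Π k, B k) (B k))
    (LinearMap.ext fun x => Pi.single_eq_same k x)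

theorem complete_pi {B : ℕ → Type u} [∀ k, CommRing (B k)] {I : Ideal (Π k, B k)} (hI : I.FG)
    (h : ∀ k, IsAdicComplete (I.map (Pi.evalRingHom B k)) (B k)) :
    IsAdicComplete I (Π k, B k) := by
  have hm : ∀ (k n : ℕ) (x : Π k, B k), x ∈ I ^ n → x k ∈ (I.map (Pi.evalRingHom B k)) ^ n := by
    intro k n x hx
    rw [← Ideal.map_pow]
    exact Ideal.mem_map_of_mem (Pi.evalRingHom B k) hx
  refine mk_cpl (fun x hx => funext fun k => haus_cpl (h k) fun n => hm k n x (hx n))
    fun f hf => ?_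
  choose L hL using fun k => lim_cpl (h k) (f := fun n => f n k) fun n => hm k n _ (hf n)
  refine ⟨L, fun n => mem_pi_of_fg hI.pow _ fun k => ?_⟩
  rw [Ideal.map_pow]
  exact hL k n

/-- Power series over a complete ring. -/
theorem complete_ps {σ : Type} [Finite σ] {I : Ideal A} (hI : I.FG) (h : IsAdicComplete I A) :
    IsAdicComplete (I.map (MvPowerSeries.C : A →+* PS σ A) ⊔
      Ideal.span (Set.range (MvPowerSeries.X : σ → PS σ A))) (PS σ A) := by
  refine mk_cpl (fun x hx => MvPowerSeries.ext fun d => ?_) fun f hf => ?_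
  · rw [map_zero]
    refine haus_cpl h fun n => ?_
    have h1 := (mem_pow_ps_cpl I _ _).1 (hx (n + d.degree)) d
    rwa [Nat.add_sub_cancel] at h1
  have hf' : ∀ {m n : ℕ}, m ≤ n → ∀ d : σ →₀ ℕ,
      MvPowerSeries.coeff d (f n) - MvPowerSeries.coeff d (f m) ∈ I ^ (m - d.degree) := by
    intro m n h d
    have h1 := (mem_pow_ps_cpl I _ _).1 (cauchy_cpl hf h) d
    rwa [map_sub] at h1
  have h2 : ∀ d : σ →₀ ℕ, ∃ L : A, ∀ n,
      L - MvPowerSeries.coeff d (f (n + d.degree)) ∈ I ^ n := by
    intro d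
    refine lim_cpl h (f := fun n => MvPowerSeries.coeff d (f (n + d.degree))) fun n => ?_
    have h1 := hf' (Nat.add_le_add_right (Nat.le_succ n) d.degree) d
    rwa [Nat.add_sub_cancel] at h1
  choose L hL using h2
  obtain ⟨L', hL'⟩ : ∃ L' : PS σ A, ∀ d, MvPowerSeries.coeff d L' = L d := ⟨L, fun _ => rfl⟩
  refine ⟨L', fun n => (mem_pow_ps_cpl I _ _).2 fun d => ?_⟩
  have h3 := Ideal.add_mem _ (Ideal.pow_le_pow_right (Nat.sub_le n d.degree) (hL d n))
    (hf' (Nat.le_add_right n d.degree) d)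
  rw [sub_add_sub_cancel] at h3
  rw [map_sub, hL']
  exact h3

/-- A quotient by a closed ideal is complete. -/
theorem complete_quot {B : Type u} [CommRing B] (f : A →+* B) (hf : Function.Surjective f)
    {I : Ideal A} (h : IsAdicComplete I A)
    (hc : ∀ x, (∀ n : ℕ, x ∈ RingHom.ker f ⊔ I ^ n) → f x = 0) : IsAdicComplete (I.map f) B := by
  refine mk_cpl (fun y hy => ?_) fun g hg => ?_
  · obtain ⟨x, rfl⟩ := hf y
    refine hc x fun n => ?_
    have h1 := hy n
    rw [← Ideal.map_pow, ← Ideal.mem_comap, Ideal.comap_map_of_surjective f hf] at h1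
    rw [sup_comm, RingHom.ker_eq_comap_bot]
    exact h1
  have h1 : ∀ n, ∃ d, d ∈ I ^ n ∧ f d = g (n + 1) - g n := fun n => by
    have h2 := hg n
    rw [← Ideal.map_pow] at h2
    exact (Ideal.mem_map_iff_of_surjective f hf).1 h2
  choose d hd hfd using h1
  obtain ⟨s, hs⟩ := lim_cpl h (f := fun n => ∑ i ∈ Finset.range n, d i) fun n => by
    rw [Finset.sum_range_succ, add_sub_cancel_left]
    exact hd n
  refine ⟨g 0 + f s, fun n => ?_⟩
  have h2 := Ideal.mem_map_of_mem f (hs n)
  rw [Ideal.map_pow, map_sub, map_sum] at h2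
  simp only [hfd, Finset.sum_range_sub] at h2
  convert h2 using 1
  ring

/-- Sums of null sequences. -/
theorem exists_sum_of_complete {I : Ideal A} (h : IsAdicComplete I A) (x : ℕ → A)
    (hx : ∀ n, x n ∈ I ^ n) : ∃ s, ∀ n, s - ∑ i ∈ Finset.range n, x i ∈ I ^ n := by
  exact lim_cpl h (f := fun n => ∑ i ∈ Finset.range n, x i) fun n => by
    rw [Finset.sum_range_succ, add_sub_cancel_left]
    exact hx n

theorem eq_zero_of_complete {I : Ideal A} (h : IsAdicComplete I A) {x : A}
    (hx : ∀ n : ℕ, x ∈ I ^ n) : x = 0 := by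
  exact haus_cpl h hx

/-- The completion at a finitely generated ideal. -/
theorem exists_completion (J : Ideal A) (hJ : J.FG) : ∃ (B : Type u) (_ : CommRing B)
    (f : A →+* B), IsAdicComplete (J.map f) B ∧ ∀ n : ℕ, MIso f (J ^ n) := by
  refine ⟨AdicCompletion J A, inferInstance, algebraMap A _,
    (IsAdicComplete.map_algebraMap_iff J _).2 (AdicCompletion.isAdicComplete hJ), fun n => ?_⟩
  have hk : ∀ y : AdicCompletion J A, y ∈ (J ^ n).map (algebraMap A (AdicCompletion J A)) ↔
      AdicCompletion.eval J A n y = 0 := by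
    intro y
    rw [← LinearMap.mem_ker, ← AdicCompletion.pow_smul_top_eq_ker_eval hJ, Ideal.smul_top_eq_map,
      Submodule.restrictScalars_mem]
  have he : ∀ x : A, AdicCompletion.eval J A n (algebraMap A (AdicCompletion J A) x) =
      Submodule.mkQ _ x := fun x => AdicCompletion.eval_of J A n x
  constructor
  · intro y
    obtain ⟨x, hx⟩ := Submodule.mkQ_surjective _ (AdicCompletion.eval J A n y)
    exact ⟨x, by rw [hk, map_sub, he, hx, sub_self]⟩
  · intro x hx
    rw [hk, he, Submodule.mkQ_apply, Submodule.Quotient.mk_eq_zero, smul_eq_mul,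
      Ideal.mul_top] at hx
    exact hx

/-- The completion of a perfect ring is perfect. -/
theorem exists_hat (p : ℕ) [Fact p.Prime] [CharP A p] [PerfectRing A p] (J : Ideal A) (hJ : J.FG)
    (h1 : J ≠ ⊤) : ∃ (B : Type u) (_ : CommRing B) (_ : CharP B p) (_ : PerfectRing B p)
      (f : A →+* B), IsAdicComplete (J.map f) B ∧ ∀ n : ℕ, MIso f (J ^ n) := by
  obtain ⟨B, _, f, hB, hf⟩ := exists_completion J hJ
  have hp : p.Prime := Fact.out
  have hnt : Nontrivial B := by
    refine nontrivial_of_ne 1 0 fun h => h1 ((Ideal.eq_top_iff_one J).2 ?_)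
    have h2 := (hf 1).n2 1 (by rw [map_one, h]; exact Ideal.zero_mem _)
    rwa [pow_one] at h2
  have hch : CharP B p := (CharP.charP_iff_prime_eq_zero hp).2 (by
    rw [← map_natCast f, CharP.cast_eq_zero, map_zero])
  let ρ : A →+* A := (frobeniusEquiv A p).symm
  have hρ1 : ∀ x, ρ x ^ p = x := frobeniusEquiv_symm_pow_p A p
  have hρ2 : ∀ x, ρ (x ^ p) = x := frobeniusEquiv_symm_pow A p
  obtain ⟨c, hc⟩ := Ideal.exists_pow_le_of_le_radical_of_fg (I := J.map ρ) (J := J)
    (Ideal.map_le_iff_le_comap.2 fun x hx => ⟨p, by rw [hρ1]; exact hx⟩) (hJ.map ρ)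
  have key : ∀ m x, x ^ p ∈ J ^ ((c + 1) * m) → x ∈ J ^ m := by
    intro m x hx
    have h2 := Ideal.mem_map_of_mem ρ hx
    rw [hρ2, Ideal.map_pow, pow_mul] at h2
    exact Ideal.pow_right_mono ((Ideal.pow_le_pow_right (Nat.le_succ c)).trans hc) m h2
  have hle : ∀ m, (J ^ ((c + 1) * m)).map f ≤ (J.map f) ^ m := fun m => by
    rw [Ideal.map_pow]
    exact Ideal.pow_le_pow_right (by nlinarith)
  have hin : ∀ m x, x ∈ J ^ m → f x ∈ (J.map f) ^ m := fun m x hx => by
    rw [← Ideal.map_pow]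
    exact Ideal.mem_map_of_mem f hx
  refine ⟨B, inferInstance, hch, ⟨⟨fun y y' h => ?_, fun y => ?_⟩⟩, f, hB, hf⟩
  · have h0 : (y - y') ^ p = 0 := by
      rw [sub_pow_char, sub_eq_zero]
      exact h
    refine sub_eq_zero.1 (haus_cpl hB fun m => ?_)
    obtain ⟨x, hx⟩ := (hf ((c + 1) * m)).n1 (y - y')
    have h2 := Ideal.pow_mem_of_mem _ hx p hp.pos
    rw [sub_pow_char, h0, zero_sub, neg_mem_iff, ← map_pow] at h2
    have h3 := Ideal.add_mem _ (hle m hx) (hin m x (key m x ((hf _).n2 _ h2)))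
    rwa [sub_add_cancel] at h3
  · choose x hx using fun m => (hf ((c + 1) * m)).n1 y
    obtain ⟨z, hz⟩ := lim_cpl hB (f := fun m => f (ρ (x m))) fun m => by
      rw [← map_sub, ← map_sub]
      refine hin m _ (key m _ ?_)
      rw [hρ1]
      refine (hf _).n2 _ ?_
      have h2 := Ideal.sub_mem _ (hx m) (Ideal.map_mono (Ideal.pow_le_pow_right
        (Nat.mul_le_mul_left (c + 1) (Nat.le_succ m))) (hx (m + 1)))
      rwa [sub_sub_sub_cancel_left, ← map_sub] at h2
    refine ⟨z, sub_eq_zero.1 (haus_cpl hB fun m => ?_)⟩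
    have h2 := Ideal.pow_mem_of_mem _ (hz m) p hp.pos
    rw [sub_pow_char, ← map_pow, hρ1] at h2
    have h3 := Ideal.sub_mem _ h2 (hle m (hx m))
    rwa [sub_sub_sub_cancel_right] at h3

end Vale.Agent.P177
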