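import Vale.Agent.P177.Bas2

/-! Properties of the ideals of minors and of filtrations. -/

namespace Vale.Agent.P177

open Vale.Agent.P202

universe u

variable {B : Type u} [CommRing B] {N : ℕ} {𝔞 : ℕ → Ideal B}

theorem EE_congr {n n' : ℕ → ℤ} (h : ∀ r ≤ N, (n r).toNat = (n' r).toNat) :
    EE N 𝔞 n = EE N 𝔞 n' := by
  exact Finset.prod_congr rfl fun r hr => by rw [h r (Nat.lt_succ_iff.1 (Finset.mem_range.1 hr))]

theorem EE_add {n n' : ℕ → ℤ} (h : Ge 0 n) (h' : Ge 0 n') :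
    EE N 𝔞 (n + n') = EE N 𝔞 n * EE N 𝔞 n' := by
  unfold EE
  rw [← Finset.prod_mul_distrib]
  exact Finset.prod_congr rfl fun r _ => by
    rw [Pi.add_apply, Int.toNat_add (h r) (h' r), pow_add]

theorem EE_ev {r : ℕ} (h : r ≤ N) : EE N 𝔞 (ev r) = 𝔞 r := by
  unfold EE
  rw [Finset.prod_eq_single r]
  · simp [ev]
  · intro s _ hs
    simp [ev, hs]
  · intro hr
    exact absurd (Finset.mem_range.2 (by omega)) hr

theorem EE_cst_zero : EE N 𝔞 (cst 0) = ⊤ := by
  simp [EE, cst]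

theorem EE_anti {n n' : ℕ → ℤ} (h : n ≤ n') : EE N 𝔞 n' ≤ EE N 𝔞 n := by
  exact Finset.prod_le_prod' fun r _ => Ideal.pow_le_pow_right (Int.toNat_le_toNat (h r))

theorem EE_map {B' : Type u} [CommRing B'] (f : B →+* B') (n : ℕ → ℤ) :
    EE N (fun r => (𝔞 r).map f) n = (EE N 𝔞 n).map f := by
  unfold EE
  have := map_prod (Ideal.mapHom f) (fun r => 𝔞 r ^ (n r).toNat) (Finset.range (N + 1))
  simp only [Ideal.mapHom_apply, Ideal.map_pow] at this
  exact this.symm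

theorem toNat_smul_setl (m : ℕ) (n : ℕ → ℤ) (r : ℕ) :
    (((m : ℤ) • n) r).toNat = m * (n r).toNat := by
  rw [Pi.smul_apply, smul_eq_mul]
  rcases le_total 0 (n r) with h | h
  · rw [Int.toNat_mul (Int.natCast_nonneg m) h, Int.toNat_natCast]
  · rw [Int.toNat_eq_zero.2 h, Int.toNat_eq_zero.2
      (mul_nonpos_of_nonneg_of_nonpos (Int.natCast_nonneg m) h), mul_zero]

theorem EE_smul (m : ℕ) (n : ℕ → ℤ) : EE N 𝔞 ((m : ℤ) • n) = EE N 𝔞 n ^ m := by
  unfold EE
  rw [← Finset.prod_pow]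
  exact Finset.prod_congr rfl fun r _ => by rw [toNat_smul_setl, ← pow_mul, mul_comm]

theorem pow_mem_EE {π : B} {c : ℕ} (h : ∀ r ≤ N, π ^ c ∈ 𝔞 r) (n : ℕ → ℤ) :
    π ^ (c * sz N n) ∈ EE N 𝔞 n := by
  unfold EE sz
  rw [pow_mul, ← Finset.prod_pow_eq_pow_sum]
  exact Ideal.prod_mem_prod fun r hr =>
    Ideal.pow_mem_pow (h r (Nat.lt_succ_iff.1 (Finset.mem_range.1 hr))) _

theorem sz_le {n : ℕ → ℤ} {m : ℕ} (h : ∀ r, n r ≤ m) : sz N n ≤ (N + 1) * m := by
  have := Finset.sum_le_card_nsmul (Finset.range (N + 1)) (fun r => (n r).toNat) m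
    fun r _ => Int.toNat_le.2 (h r)
  simpa [sz] using this

theorem sz_smul (m : ℕ) (n : ℕ → ℤ) : sz N ((m : ℤ) • n) = m * sz N n := by
  unfold sz
  rw [Finset.mul_sum]
  exact Finset.sum_congr rfl fun r _ => toNat_smul_setl m n r

theorem ge_ev (r : ℕ) : Ge 0 (ev r) := by
  intro s
  unfold ev
  by_cases h : s = r
  · simp [h]
  · simp [h]

theorem dl_bounds (r s : ℕ) : -1 ≤ dl r s ∧ dl r s ≤ 1 := by
  unfold dl ev
  simp only [Pi.sub_apply, Pi.single_apply]
  split_ifs <;> omega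

theorem GenBy.mono {s s' : ℕ} {I : Ideal B} (h : GenBy s I) (hs : s ≤ s') : GenBy s' I := by
  obtain ⟨a, rfl⟩ := h
  refine ⟨fun i => if hi : i.1 < s then a ⟨i.1, hi⟩ else 0, le_antisymm ?_ ?_⟩
  · rw [Ideal.span_le]
    rintro _ ⟨i, rfl⟩
    dsimp only
    split_ifs with hi
    · exact Ideal.subset_span ⟨_, rfl⟩
    · exact zero_mem _
  · refine Ideal.span_mono ?_
    rintro _ ⟨i, rfl⟩
    exact ⟨⟨i.1, lt_of_lt_of_le i.2 hs⟩, dif_pos i.2⟩

theorem GenBy.map {s : ℕ} {I : Ideal B} (h : GenBy s I) {B' : Type u} [CommRing B']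
    (f : B →+* B') : GenBy s (I.map f) := by
  obtain ⟨a, rfl⟩ := h
  exact ⟨f ∘ a, by rw [Ideal.map_span, Set.range_comp]⟩

theorem exists_genBy [IsNoetherianRing B] (N : ℕ) (𝔞 : ℕ → Ideal B) :
    ∃ s, (∀ r ≤ N, GenBy s (𝔞 r)) ∧ GenBy s (EE N 𝔞 (cst 1)) := by
  have h : ∀ I : Ideal B, ∃ s, GenBy s I := fun I =>
    Submodule.fg_iff_exists_fin_generating_family.1 (IsNoetherian.noetherian I)
  choose s hs using h
  refine ⟨(Finset.range (N + 1)).sup (fun r => s (𝔞 r)) ⊔ s (EE N 𝔞 (cst 1)), fun r hr => ?_,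
    (hs _).mono le_sup_right⟩
  exact (hs _).mono ((Finset.le_sup (f := fun r => s (𝔞 r))
    (Finset.mem_range.2 (by omega))).trans le_sup_left)

theorem ge_add_setl {k : ℕ} {n n' : ℕ → ℤ} (h : Ge k n) (h' : Ge 0 n') : Ge k (n + n') :=
  fun r => by have := h r; have := h' r; simp only [Pi.add_apply]; omega

theorem le_add_setl (n : ℕ → ℤ) {n' : ℕ → ℤ} (h' : Ge 0 n') : n ≤ n + n' :=
  fun r => by have := h' r; simp only [Pi.add_apply]; omega

theorem EE_of_sz_setl {n : ℕ → ℤ} (h : sz N n = 0) : EE N 𝔞 n = ⊤ := by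
  unfold EE
  rw [← Ideal.one_eq_top]
  exact Finset.prod_eq_one fun r hr => by rw [Finset.sum_eq_zero_iff.1 h r hr, pow_zero]

theorem sz_add_ev_setl {n : ℕ → ℤ} (h : Ge 0 n) {r : ℕ} (hr : r ≤ N) :
    sz N (n + ev r) = sz N n + 1 := by
  unfold sz
  have : ∀ s, ((n + ev r) s).toNat = (n s).toNat + if s = r then 1 else 0 := fun s => by
    rw [Pi.add_apply, Int.toNat_add (h s) (ge_ev r s)]
    by_cases e : s = r <;> simp [ev, e]
  simp only [this, Finset.sum_add_distrib, Finset.sum_ite_eq', Finset.mem_range]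
  rw [if_pos (by omega)]

theorem ind_setl (P : (ℕ → ℤ) → Prop) (h0 : ∀ n, Ge 0 n → sz N n = 0 → P n)
    (hs : ∀ n r, r ≤ N → Ge 0 n → P n → P (n + ev r)) (n : ℕ → ℤ) (hn : Ge 0 n) : P n := by
  induction hk : sz N n generalizing n with
  | zero => exact h0 n hn hk
  | succ k ih =>
    obtain ⟨r, hr, h1⟩ := Finset.exists_ne_zero_of_sum_ne_zero (hk ▸ k.succ_ne_zero : sz N n ≠ 0)
    have hr' : r ≤ N := Nat.lt_succ_iff.1 (Finset.mem_range.1 hr)
    have hg : Ge 0 (n - ev r) := fun s => by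
      have := hn s
      by_cases e : s = r
      · subst e; simp only [ev, Pi.sub_apply, Pi.single_eq_same]; omega
      · simp only [ev, Pi.sub_apply, Pi.single_eq_of_ne e]; omega
    have h2 := sz_add_ev_setl hg hr'
    rw [sub_add_cancel] at h2
    have := hs _ r hr' hg (ih _ hg (by omega))
    rwa [sub_add_cancel] at this

namespace Filt

variable {π κ : B} {n0 : ℕ} {M : (ℕ → ℤ) → Ideal B}

theorem EE_mul_le (h : Filt N 𝔞 π κ n0 M) {n n' : ℕ → ℤ} (hn : Ge 0 n) (hn' : Ge 0 n') :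
    EE N 𝔞 n' * M n ≤ M (n + n') := by
  refine ind_setl (N := N) (fun n' => EE N 𝔞 n' * M n ≤ M (n + n')) (fun m hm h0 => ?_)
    (fun m r hr hm ih => ?_) n' hn'
  · refine Ideal.mul_le_right.trans (h.mono _ _ ?_)
    rw [EE_add hn hm, EE_of_sz_setl h0, Ideal.mul_top]
  · rw [EE_add hm (ge_ev r), EE_ev hr, mul_comm (EE N 𝔞 m), mul_assoc, ← add_assoc]
    exact (Ideal.mul_mono_right ih).trans (h.mul r hr _ (ge_add_setl hn hm))

theorem EE_le (h : Filt N 𝔞 π κ n0 M) (n : ℕ → ℤ) : EE N 𝔞 n ≤ M n := by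
  have hg : Ge 0 fun r => max (n r) 0 := fun r => le_max_right _ _
  have e : EE N 𝔞 n = EE N 𝔞 fun r => max (n r) 0 := EE_congr fun r _ => by omega
  have h1 := h.EE_mul_le (n := cst 0) (fun _ => le_rfl) hg
  rw [h.top, Ideal.mul_top, ← e] at h1
  refine h1.trans (h.mono _ _ ?_)
  rw [EE_add (n := cst 0) (fun _ => le_rfl) hg, ← e]
  exact Ideal.mul_le_right

theorem gen_EE (h : Filt N 𝔞 π κ n0 M) {n n' : ℕ → ℤ} (hn : Ge n0 n) (hn' : Ge 0 n') {x : B}
    (hx : x ∈ M (n + n')) : κ ^ sz N n' * x ∈ EE N 𝔞 n' * M n := by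
  refine ind_setl (N := N) (fun n' => ∀ x ∈ M (n + n'), κ ^ sz N n' * x ∈ EE N 𝔞 n' * M n)
    (fun m hm h0 x hx => ?_) (fun m r hr hm ih x hx => ?_) n' hn' x hx
  · rw [h0, pow_zero, one_mul, EE_of_sz_setl h0, Ideal.top_mul]
    exact h.mono _ _ (EE_anti (le_add_setl n hm)) hx
  · rw [← add_assoc] at hx
    have h1 := h.gen r hr _ (ge_add_setl hn hm) x hx
    rw [sz_add_ev_setl hm hr, pow_succ, mul_assoc, EE_add hm (ge_ev r), EE_ev hr,
      mul_comm (EE N 𝔞 m)]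
    refine Submodule.mul_induction_on h1 (fun a ha y hy => ?_) fun y z hy hz => ?_
    · rw [mul_left_comm, mul_assoc (𝔞 r)]
      exact Ideal.mul_mem_mul ha (ih y hy)
    · rw [mul_add]
      exact add_mem hy hz

theorem canc_EE (h : Filt N 𝔞 π κ n0 M) {n n' : ℕ → ℤ} (hn : Ge n0 n) (hn' : Ge 0 n') (C : ℕ)
    {y : B} (hy : ∀ z ∈ EE N 𝔞 n', z * y ∈ Ideal.span {π ^ C} * M (n + n')) :
    κ ^ sz N n' * y ∈ Ideal.span {π ^ C} * M n := by
  refine ind_setl (N := N) (fun n' => ∀ y, (∀ z ∈ EE N 𝔞 n',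
      z * y ∈ Ideal.span {π ^ C} * M (n + n')) → κ ^ sz N n' * y ∈ Ideal.span {π ^ C} * M n)
    (fun m hm h0 y hy => ?_) (fun m r hr hm ih y hy => ?_) n' hn' y hy
  · rw [h0, pow_zero]
    exact Ideal.mul_mono_right (h.mono _ _ (EE_anti (le_add_setl n hm)))
      (hy 1 (by rw [EE_of_sz_setl h0]; trivial))
  · rw [sz_add_ev_setl hm hr, pow_succ, mul_assoc]
    refine ih _ fun z hz => ?_
    rw [mul_left_comm]
    refine h.canc r hr _ (ge_add_setl hn hm) C _ fun a ha => ?_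
    rw [← mul_assoc, add_assoc, mul_comm a]
    exact hy _ (by rw [EE_add hm (ge_ev r), EE_ev hr]; exact Ideal.mul_mem_mul hz ha)

theorem weaken (h : Filt N 𝔞 π κ n0 M) {κ' : B} (hκ : κ ∣ κ') {n1 : ℕ} (hn : n0 ≤ n1) :
    Filt N 𝔞 π κ' n1 M := by
  obtain ⟨t, rfl⟩ := hκ
  have g : ∀ n, Ge n1 n → Ge n0 n := fun n h r => le_trans (by exact_mod_cast hn) (h r)
  refine ⟨h.top, h.mono, h.mul, fun r hr n hg x hx => ?_, fun r hr n hg C y hy => ?_⟩
  · rw [mul_comm κ, mul_assoc]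
    exact Ideal.mul_mem_left _ _ (h.gen r hr n (g n hg) x hx)
  · rw [mul_comm κ, mul_assoc]
    exact Ideal.mul_mem_left _ _ (h.canc r hr n (g n hg) C y hy)

end Filt

namespace Setup

variable {K : GC B} {π : B} {n : ℕ} {e : Fin n → ℕ} {b : Matrix K.ι (Fin n ⊕ Fin n) B}
  {b' : Matrix (Fin n ⊕ Fin n) K.ι B} {c : ℕ}

theorem map (h : Setup K π e b b' c 𝔞) {B' : Type u} [CommRing B'] (f : B →+* B') :
    Setup (K.map f) (f π) e (b.map f) (b'.map f) c fun r => (𝔞 r).map f := by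
  have es : (GC.std B e).mat.map f = (GC.std B' e).mat := by
    ext (i | i) (j | j) <;> simp [Matrix.one_apply, apply_ite f]
  have sm : ∀ {ι : Type} [DecidableEq ι], (π ^ c • (1 : Matrix ι ι B)).map f =
      f π ^ c • (1 : Matrix ι ι B') := by
    intro ι _
    ext i j
    simp [Matrix.one_apply, apply_ite f]
  refine ⟨h.sq.map f, h.anti, fun a j hj => h.hb a j fun e => hj (by simp [e]),
    fun a j hj => h.hb' a j fun e => hj (by simp [e]), ?_, ?_, ?_, ?_, ?_, fun j0 z hz => ?_,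
    fun j0 z hz => ?_⟩
  · rw [← Matrix.map_mul, h.bb', sm]
  · rw [← Matrix.map_mul, h.b'b, sm]
  · rw [← es, ← Matrix.map_mul, ← Matrix.map_mul, h.ch]
  · rw [← es, ← Matrix.map_mul, ← Matrix.map_mul, h.ch']
  · rw [h.top, Ideal.map_top]
  · induction hz using Submodule.span_induction with
    | mem z hz =>
      obtain ⟨y, hy, rfl⟩ := hz
      obtain ⟨lam, h1, h2, h3⟩ := h.fa j0 y hy
      refine ⟨fun a => f (lam a), fun a => Ideal.mem_map_of_mem f (h1 a), fun j hj => ?_, ?_⟩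
      · simp only [Matrix.map_apply, ← map_mul, ← map_sum, h2 j hj, map_zero]
      · simp only [Matrix.map_apply, ← map_mul, ← map_sum, h3]
    | zero => exact ⟨0, fun _ => zero_mem _, fun j _ => by simp, by simp⟩
    | add x y _ _ hx hy =>
      obtain ⟨l1, h1, h2, h3⟩ := hx
      obtain ⟨l2, k1, k2, k3⟩ := hy
      refine ⟨l1 + l2, fun a => add_mem (h1 a) (k1 a), fun j hj => ?_, ?_⟩
      · simp only [Pi.add_apply, add_mul, Finset.sum_add_distrib, h2 j hj, k2 j hj, add_zero]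
      · simp only [Pi.add_apply, add_mul, Finset.sum_add_distrib, h3, k3]
    | smul t x _ hx =>
      obtain ⟨l1, h1, h2, h3⟩ := hx
      refine ⟨t • l1, fun a => Ideal.mul_mem_left _ _ (h1 a), fun j hj => ?_, ?_⟩
      · simp only [Pi.smul_apply, smul_eq_mul, mul_assoc, ← Finset.mul_sum, h2 j hj, mul_zero]
      · simp only [Pi.smul_apply, smul_eq_mul, mul_assoc, ← Finset.mul_sum, h3]
  · induction hz using Submodule.span_induction with
    | mem z hz =>
      obtain ⟨y, hy, rfl⟩ := hz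
      obtain ⟨w, h1, h2, h3⟩ := h.fb j0 y hy
      refine ⟨fun j => f (w j), congrArg f h1,
        fun j hj => (congrArg f (h2 j hj)).trans (map_zero f), fun a => ?_⟩
      simp only [Matrix.map_apply, ← map_mul, ← map_sum]
      exact Ideal.mem_map_of_mem f (h3 a)
    | zero => exact ⟨0, rfl, fun _ _ => rfl, fun a => by simp⟩
    | add x y _ _ hx hy =>
      obtain ⟨l1, h1, h2, h3⟩ := hx
      obtain ⟨l2, k1, k2, k3⟩ := hy
      refine ⟨l1 + l2, by rw [Pi.add_apply, h1, k1],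
        fun j hj => by rw [Pi.add_apply, h2 j hj, k2 j hj, add_zero], fun a => ?_⟩
      simp only [Pi.add_apply, mul_add, Finset.sum_add_distrib]
      exact add_mem (h3 a) (k3 a)
    | smul t x _ hx =>
      obtain ⟨l1, h1, h2, h3⟩ := hx
      refine ⟨t • l1, by rw [Pi.smul_apply, h1],
        fun j hj => by rw [Pi.smul_apply, h2 j hj, smul_zero], fun a => ?_⟩
      simp only [Pi.smul_apply, smul_eq_mul, mul_left_comm _ t, ← Finset.mul_sum]
      exact Ideal.mul_mem_left _ _ (h3 a)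

theorem pow_mem (h : Setup K π e b b' c 𝔞) {r : ℕ} (hr : r ≤ 2 * n) :
    π ^ (c * (2 * n)) ∈ 𝔞 r := by
  have key : ∀ r ≤ 2 * n, π ^ (c * r) ∈ 𝔞 r := by
    intro r
    induction r with
    | zero => intro _; rw [h.top]; trivial
    | succ r ih =>
      intro hr
      obtain ⟨j0, rfl⟩ : ∃ j0 : Fin n ⊕ Fin n, pos j0 = r := by
        obtain ⟨k, rfl | rfl⟩ := Nat.even_or_odd' r
        · exact ⟨Sum.inl ⟨k, by omega⟩, rfl⟩
        · exact ⟨Sum.inr ⟨k, by omega⟩, rfl⟩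
      obtain ⟨w, h1, -, h3⟩ := h.fb j0 _ (ih (by omega))
      have e1 := congrFun (Matrix.mulVec_mulVec w b' b) j0
      rw [h.b'b, Matrix.smul_mulVec, Matrix.one_mulVec, Pi.smul_apply, h1, smul_eq_mul] at e1
      rw [mul_add, mul_one, pow_add, mul_comm, ← e1]
      exact Ideal.sum_mem _ fun a _ => Ideal.mul_mem_left _ _ (h3 a)
  obtain ⟨t, ht⟩ := Nat.exists_eq_add_of_le hr
  rw [ht, mul_add, pow_add]
  exact Ideal.mul_mem_right _ _ (key r hr)

theorem pos_lt_setl {j j0 : Fin n ⊕ Fin n} (hj : j ≠ j0) (hle : j.elim id id ≤ j0.elim id id)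
    (hd : (GC.std B e).deg j = (GC.std B e).deg j0) : pos j < pos j0 := by
  rcases j with j | j <;> rcases j0 with k | k <;>
    simp only [Sum.elim_inl, Sum.elim_inr, id, pos, ne_eq, Sum.inl.injEq, Sum.inr.injEq,
      Fin.le_def, Fin.ext_iff] at hj hle hd ⊢
  · omega
  · omega
  · have : j.1 ≠ k.1 := fun e' => by
      rw [Fin.ext e'] at hd
      omega
    omega
  · omega

theorem fa' (h : Setup K π e b b' c 𝔞) (j0 : Fin n ⊕ Fin n) {z : B} (hz : z ∈ 𝔞 (pos j0 + 1)) :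
    ∃ lam : K.ι → B, (∀ a, lam a ∈ 𝔞 (pos j0)) ∧
      (∀ j, j ≠ j0 → j.elim id id ≤ j0.elim id id → ∑ a, lam a * b a j = 0) ∧
      ∑ a, lam a * b a j0 = z := by
  obtain ⟨lam, h1, h2, h3⟩ := h.fa j0 z hz
  have key : ∀ j, ∑ a, (if K.deg a = (GC.std B e).deg j0 then lam a else 0) * b a j =
      if (GC.std B e).deg j = (GC.std B e).deg j0 then ∑ a, lam a * b a j else 0 := by
    intro j
    have hd : ∀ a, b a j ≠ 0 → K.deg a = (GC.std B e).deg j := fun a ha => by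
      have := h.hb a j ha
      omega
    split_ifs with hj
    · refine Finset.sum_congr rfl fun a _ => ?_
      by_cases ha : b a j = 0
      · rw [ha, mul_zero, mul_zero]
      · rw [if_pos ((hd a ha).trans hj)]
    · refine Finset.sum_eq_zero fun a _ => ?_
      by_cases ha : b a j = 0
      · rw [ha, mul_zero]
      · rw [if_neg fun e => hj ((hd a ha).symm.trans e), zero_mul]
  refine ⟨fun a => if K.deg a = (GC.std B e).deg j0 then lam a else 0, fun a => ?_,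
    fun j hj hle => ?_, by rw [key, if_pos rfl, h3]⟩
  · dsimp only
    split_ifs
    · exact h1 a
    · exact zero_mem _
  · rw [key]
    split_ifs with hd
    · exact h2 j (pos_lt_setl hj hle hd)
    · rfl

theorem fb' (h : Setup K π e b b' c 𝔞) (j0 : Fin n ⊕ Fin n) {z : B} (hz : z ∈ 𝔞 (pos j0)) :
    ∃ w : Fin n ⊕ Fin n → B, w j0 = z ∧ (∀ j, j ≠ j0 → j0.elim id id ≤ j.elim id id → w j = 0) ∧
      (∀ j, w j ≠ 0 → (GC.std B e).deg j = (GC.std B e).deg j0) ∧
      ∀ a, ∑ j, b a j * w j ∈ 𝔞 (pos j0 + 1) := by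
  obtain ⟨w, h1, h2, h3⟩ := h.fb j0 z hz
  refine ⟨fun j => if (GC.std B e).deg j = (GC.std B e).deg j0 then w j else 0,
    by simp only [if_true, h1], fun j hj hle => ?_, fun j hj => ?_, fun a => ?_⟩
  · dsimp only
    split_ifs with hd
    · exact h2 j (pos_lt_setl (B := B) (e := e) hj.symm hle hd.symm)
    · rfl
  · by_contra hd
    exact hj (if_neg hd)
  · have hd : ∀ j, b a j ≠ 0 → K.deg a = (GC.std B e).deg j := fun j ha => by
      have := h.hb a j ha
      omega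
    dsimp only
    by_cases ha : K.deg a = (GC.std B e).deg j0
    · rw [Finset.sum_congr rfl (g := fun j => b a j * w j)]
      · exact h3 a
      · intro j _
        by_cases hj : b a j = 0
        · rw [hj, zero_mul, zero_mul]
        · rw [if_pos ((hd j hj).symm.trans ha)]
    · rw [Finset.sum_eq_zero]
      · exact zero_mem _
      · intro j _
        by_cases hj : b a j = 0
        · rw [hj, zero_mul]
        · rw [if_neg fun e => ha ((hd j hj).trans e), mul_zero]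

theorem u1 (h : Setup K π e b b' c 𝔞) (k : Fin n) :
    𝔞 (2 * k + 1) ^ 2 ≤ 𝔞 (2 * k) * 𝔞 (2 * k + 2) := by
  rw [pow_two, Ideal.mul_le]
  intro z' hz' z hz
  obtain ⟨w, w1, w2, -, w3⟩ := h.fb' (Sum.inr k) (z := z) hz
  obtain ⟨lam, l1, l2, l3⟩ := h.fa' (Sum.inl k) (z := z') hz'
  have e1 : lam ⬝ᵥ K.mat.mulVec (b.mulVec w) =
      Matrix.vecMul lam b ⬝ᵥ (GC.std B e).mat.mulVec w := by
    rw [Matrix.mulVec_mulVec, h.ch, ← Matrix.mulVec_mulVec, Matrix.dotProduct_mulVec]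
  have e2 : Matrix.vecMul lam b ⬝ᵥ (GC.std B e).mat.mulVec w = z' * z := by
    have d1 : ∀ j, (GC.std B e).mat.mulVec w (Sum.inl j) = w (Sum.inr j) := fun j => by
      simp [Matrix.mulVec, dotProduct, Matrix.one_apply]
    have d2 : ∀ j, (GC.std B e).mat.mulVec w (Sum.inr j) = 0 := fun j => by
      simp [Matrix.mulVec, dotProduct]
    rw [dotProduct, Fintype.sum_sum_type]
    simp only [d1, d2, mul_zero, Finset.sum_const_zero, add_zero]
    rw [Finset.sum_eq_single k, w1]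
    · exact congrArg (· * z) l3
    · intro j _ hj
      rcases le_total j k with hle | hle
      · exact mul_eq_zero_of_left (l2 (Sum.inl j) (by simpa using hj) hle) _
      · rw [w2 (Sum.inr j) (by simpa using hj) hle, mul_zero]
    · intro hk; exact absurd (Finset.mem_univ k) hk
  rw [← e2, ← e1]
  exact Ideal.sum_mem _ fun a _ => Ideal.mul_mem_mul (l1 a)
    (Ideal.sum_mem _ fun a' _ => Ideal.mul_mem_left _ _ (w3 a'))

theorem u2 (h : Setup K π e b b' c 𝔞) (hπ : π ∈ nonZeroDivisors B) (k : Fin n) :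
    K.nh * (𝔞 (2 * k) * 𝔞 (2 * k + 2)) ≤ 𝔞 (2 * k + 1) ^ 2 := by
  rw [Ideal.mul_le]
  rintro s ⟨H, hH, eH⟩ y hy
  refine Submodule.mul_induction_on hy (fun z hz z' hz' => ?_) fun y y' hy hy' => ?_
  swap
  · rw [mul_add]; exact add_mem hy hy'
  obtain ⟨w, w1, w2, w4, w3⟩ := h.fb' (Sum.inl k) (z := z) hz
  obtain ⟨lam, l1, l2, l3⟩ := h.fa' (Sum.inr k) (z := z') hz'
  have hH' : GC.Hg (GC.std B e) (GC.std B e) 1 (b' * H * b) := by
    simpa using (h.hb'.mul hH).mul h.hb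
  have eH' : (GC.std B e).mat * (b' * H * b) + b' * H * b * (GC.std B e).mat =
      (s * π ^ c) • (1 : Matrix _ _ B) := by
    rw [← Matrix.mul_assoc, ← Matrix.mul_assoc, h.ch', Matrix.mul_assoc _ b, ← h.ch,
      ← Matrix.mul_assoc, ← Matrix.add_mul, Matrix.mul_assoc b', Matrix.mul_assoc b',
      ← Matrix.mul_add, eH, Matrix.mul_smul, Matrix.mul_one, Matrix.smul_mul, h.b'b, smul_smul]
  have eC : ∀ j j', (b' * H * b) (Sum.inr j) (Sum.inl j') = if j = j' then s * π ^ c else 0 := by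
    intro j j'
    have := congrFun (congrFun eH' (Sum.inl j)) (Sum.inl j')
    generalize b' * H * b = G at this ⊢
    simpa [Matrix.mul_apply, Matrix.one_apply] using this
  have e1 : π ^ c * (lam ⬝ᵥ H.mulVec (b.mulVec w)) =
      Matrix.vecMul lam b ⬝ᵥ (b' * H * b).mulVec w := by
    rw [← Matrix.dotProduct_mulVec, Matrix.mulVec_mulVec, Matrix.mulVec_mulVec,
      ← Matrix.mul_assoc, ← Matrix.mul_assoc, h.bb', Matrix.smul_mul, Matrix.smul_mul,
      Matrix.one_mul, Matrix.smul_mulVec, dotProduct_smul, smul_eq_mul]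
  have e2 : Matrix.vecMul lam b ⬝ᵥ (b' * H * b).mulVec w = π ^ c * (s * (z * z')) := by
    have key : ∀ j j', Matrix.vecMul lam b j * ((b' * H * b) j j' * w j') ≠ 0 →
        j = Sum.inr k ∧ j' = Sum.inl k := by
      intro j j' h0
      have a1 : Matrix.vecMul lam b j ≠ 0 := left_ne_zero_of_mul h0
      have a2 : (b' * H * b) j j' ≠ 0 := left_ne_zero_of_mul (right_ne_zero_of_mul h0)
      have a3 : w j' ≠ 0 := right_ne_zero_of_mul (right_ne_zero_of_mul h0)
      have b1 : k ≤ j.elim id id := by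
        by_contra hc
        have hlt := not_le.1 hc
        exact a1 (l2 j (by rintro rfl; exact lt_irrefl _ hlt) hlt.le)
      have b3 : j'.elim id id ≤ k := by
        by_contra hc
        have hlt := not_le.1 hc
        exact a3 (w2 j' (by rintro rfl; exact lt_irrefl _ hlt) hlt.le)
      have c1 := h.anti b1
      have c3 := h.anti b3
      have d2 := hH' j j' a2
      have d3 := w4 j' a3
      rcases j with j | j <;> rcases j' with j' | j' <;>
        simp only [Sum.elim_inl, Sum.elim_inr, id] at b1 b3 c1 c3 d2 d3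
      · omega
      · omega
      · rw [eC] at a2
        have : j = j' := by_contra fun e => a2 (if_neg e)
        subst this
        rw [le_antisymm b3 b1]
        exact ⟨rfl, rfl⟩
      · omega
    simp only [dotProduct, Matrix.mulVec, Finset.mul_sum]
    rw [Finset.sum_eq_single (Sum.inr k), Finset.sum_eq_single (Sum.inl k), eC, if_pos rfl, w1]
    · have : Matrix.vecMul lam b (Sum.inr k) = z' := l3
      rw [this]; ring
    · intro j' _ hj; by_contra h0; exact hj (key _ _ h0).2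
    · intro hk; exact absurd (Finset.mem_univ _) hk
    · intro j _ hj
      exact Finset.sum_eq_zero fun j' _ => by_contra fun h0 => hj (key _ _ h0).1
    · intro hk; exact absurd (Finset.mem_univ _) hk
  rw [← (mul_cancel_left_mem_nonZeroDivisors (_root_.pow_mem hπ c)).1 (e1.trans e2), pow_two]
  exact Ideal.sum_mem _ fun a _ => Ideal.mul_mem_mul (l1 a)
    (Ideal.sum_mem _ fun a' _ => Ideal.mul_mem_left _ _ (w3 a'))

theorem EE_split_setl (k : Fin n) {j : ℕ} {m : ℕ → ℤ} (hm : Ge j m) : ∃ P : Ideal B,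
    EE (2 * n) 𝔞 (m + (j : ℤ) • dl (2 * k + 1)) = P * (𝔞 (2 * k + 1) ^ 2) ^ j ∧
    EE (2 * n) 𝔞 (m + (j : ℤ) • dl (2 * k)) = P * (𝔞 (2 * k) * 𝔞 (2 * k + 2)) ^ j := by
  have hk := k.2
  have hp : Ge 0 (m - (j : ℤ) • (ev (2 * k + 1) + ev (2 * k + 2))) := fun r => by
    have := hm r
    simp only [ev, Pi.sub_apply, Pi.smul_apply, Pi.add_apply, Pi.single_apply, smul_eq_mul]
    split_ifs <;> omega
  have g : ∀ r s, Ge 0 ((j : ℤ) • (ev r + ev s)) := fun r s t =>
    mul_nonneg (Int.natCast_nonneg j) (ge_add_setl (ge_ev r) (ge_ev s) t)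
  refine ⟨EE (2 * n) 𝔞 (m - (j : ℤ) • (ev (2 * k + 1) + ev (2 * k + 2))), ?_, ?_⟩
  · rw [pow_two, ← EE_ev (N := 2 * n) (𝔞 := 𝔞) (r := 2 * k + 1) (by omega),
      ← EE_add (ge_ev _) (ge_ev _), ← EE_smul, ← EE_add hp (g _ _)]
    congr 1
    simp only [dl, smul_add, smul_sub]
    abel
  · rw [← EE_ev (N := 2 * n) (𝔞 := 𝔞) (r := 2 * k) (by omega),
      ← EE_ev (N := 2 * n) (𝔞 := 𝔞) (r := 2 * k + 2) (by omega),
      ← EE_add (ge_ev _) (ge_ev _), ← EE_smul, ← EE_add hp (g _ _)]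
    congr 1
    simp only [dl, smul_add, smul_sub]
    abel

theorem EE_u1 (h : Setup K π e b b' c 𝔞) (k : Fin n) {j : ℕ} {m : ℕ → ℤ} (hm : Ge j m) :
    EE (2 * n) 𝔞 (m + (j : ℤ) • dl (2 * k + 1)) ≤ EE (2 * n) 𝔞 (m + (j : ℤ) • dl (2 * k)) := by
  obtain ⟨p, e1, e2⟩ := EE_split_setl (𝔞 := 𝔞) k hm
  rw [e1, e2]
  exact Ideal.mul_mono_right (Ideal.pow_right_mono (h.u1 k) j)

theorem EE_u2 (h : Setup K π e b b' c 𝔞) (hπ : π ∈ nonZeroDivisors B) (k : Fin n) {j : ℕ}
    {m : ℕ → ℤ} (hm : Ge j m) : K.nh ^ j * EE (2 * n) 𝔞 (m + (j : ℤ) • dl (2 * k)) ≤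
      EE (2 * n) 𝔞 (m + (j : ℤ) • dl (2 * k + 1)) := by
  obtain ⟨p, e1, e2⟩ := EE_split_setl (𝔞 := 𝔞) k hm
  rw [e1, e2, mul_left_comm, ← mul_pow]
  exact Ideal.mul_mono_right (Ideal.pow_right_mono (h.u2 hπ k) j)

end Setup

end Vale.Agent.P177
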