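import Vale.Agent.P177.FLC
import Vale.Agent.P177.SetL

/-! Descent along an almost isomorphism over which the polynomial splits. -/

namespace Vale.Agent.P177

open Vale.Agent.P202 Polynomial TensorProduct IsLocalRing

universe u

variable {A C U B : Type u} [CommRing A] [CommRing C] [Algebra A C] [CommRing U] [CommRing B]
  [Algebra A U] {p : ℕ} {θ : C} {F : A[X]} {j : U →+* B} {κ : U}
  {τ : Fin F.natDegree → C →+* B}

theorem Cov.p_reg (h : Cov p θ F (algebraMap A U) j κ τ) (hp : (p : A) ∈ nonZeroDivisors A) :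
    (p : U) ∈ nonZeroDivisors U := by
  have := RingHom.flat_algebraMap_iff.1 h.flat
  have h1 := Module.Flat.isSMulRegular_of_nonZeroDivisors (M := U) hp
  refine mem_nonZeroDivisors_iff_left.2 fun x hx => h1 ?_
  dsimp only
  rw [smul_zero, Algebra.smul_def, map_natCast, hx]

theorem Cov.r1_pow (h : Cov p θ F (algebraMap A U) j κ τ) (n : ℕ) (b : B) :
    ∃ u, j κ ^ n * b - j u ∈ Ideal.span {(p : B) ^ n} := by
  induction n with
  | zero => exact ⟨0, by simp⟩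
  | succ n ih =>
    obtain ⟨u, hu⟩ := ih
    obtain ⟨c, hc⟩ := Ideal.mem_span_singleton'.1 hu
    obtain ⟨u', hu'⟩ := h.r1 c
    obtain ⟨c', hc'⟩ := Ideal.mem_span_singleton'.1 hu'
    refine ⟨κ * u + (p : U) ^ n * u', Ideal.mem_span_singleton'.2 ⟨c', ?_⟩⟩
    rw [map_add, map_mul, map_mul, map_pow, map_natCast]
    linear_combination j κ * hc + (p : B) ^ n * hc'

theorem Cov.r2_pow (h : Cov p θ F (algebraMap A U) j κ τ) (n : ℕ) (u : U)
    (hu : j u ∈ Ideal.span {(p : B) ^ n}) : κ ^ n * u ∈ Ideal.span {(p : U) ^ n} := by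
  induction n generalizing u with
  | zero => simp
  | succ n ih =>
    obtain ⟨c, hc⟩ := Ideal.mem_span_singleton'.1 hu
    obtain ⟨u', hu'⟩ := Ideal.mem_span_singleton'.1 (h.r2 u (Ideal.mem_span_singleton'.2
      ⟨c * (p : B) ^ n, by rw [← hc]; ring⟩))
    have h1 := congrArg j hu'
    rw [map_mul, map_mul, map_natCast] at h1
    have h2 : j κ * c * (p : B) ^ n = j u' := by
      refine (mul_cancel_right_mem_nonZeroDivisors h.pB).1 ?_
      rw [h1, ← hc]
      ring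
    obtain ⟨v, hv⟩ := Ideal.mem_span_singleton'.1 (ih u' (Ideal.mem_span_singleton'.2 ⟨_, h2⟩))
    refine Ideal.mem_span_singleton'.2 ⟨v, ?_⟩
    linear_combination (p : U) * hv + κ ^ n * hu'

/-- Extended ideals that contain a power of `p` almost contract. -/
theorem Cov.r2_map (h : Cov p θ F (algebraMap A U) j κ τ) {I : Ideal A} {n : ℕ}
    (hI : (p : A) ^ n ∈ I) (u : U) (hu : j u ∈ I.map (j.comp (algebraMap A U))) :
    κ ^ (2 * n) * u ∈ I.map (algebraMap A U) := by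
  have key : ∀ y ∈ I.map (j.comp (algebraMap A U)), ∀ b, ∃ v ∈ I.map (algebraMap A U),
      j κ ^ n * (b * y) - j v ∈ Ideal.span {(p : B) ^ n} := by
    intro y hy
    induction hy using Submodule.span_induction with
    | mem y hy =>
      obtain ⟨a, ha, rfl⟩ := hy
      intro b
      obtain ⟨u, hu⟩ := h.r1_pow n b
      refine ⟨u * algebraMap A U a, Ideal.mul_mem_left _ _ (Ideal.mem_map_of_mem _ ha), ?_⟩
      rw [map_mul, ← mul_assoc, RingHom.comp_apply, ← sub_mul]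
      exact Ideal.mul_mem_right _ _ hu
    | zero => exact fun b => ⟨0, zero_mem _, by simp⟩
    | add y z _ _ h1 h2 =>
      intro b
      obtain ⟨v, hv, h1⟩ := h1 b
      obtain ⟨w, hw, h2⟩ := h2 b
      refine ⟨v + w, add_mem hv hw, ?_⟩
      rw [map_add, mul_add, mul_add, add_sub_add_comm]
      exact add_mem h1 h2
    | smul c y _ h1 =>
      intro b
      rw [smul_eq_mul, ← mul_assoc b]
      exact h1 _
  obtain ⟨v, hv, h1⟩ := key _ hu 1
  rw [one_mul, ← map_pow, ← map_mul, ← map_sub] at h1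
  have h2 : Ideal.span {(p : U) ^ n} ≤ I.map (algebraMap A U) := by
    rw [Ideal.span_singleton_le_iff_mem]
    simpa using Ideal.mem_map_of_mem (algebraMap A U) hI
  have h3 := add_mem (h2 (h.r2_pow n _ h1)) (Ideal.mul_mem_left _ (κ ^ n) hv)
  rwa [← mul_add, sub_add_cancel, ← mul_assoc, ← pow_add, ← two_mul] at h3

theorem Cov.exists_phi (h : Cov p θ F (algebraMap A U) j κ τ) :
    ∃ Φ : Fin F.natDegree → U ⊗[A] C →+* B, ∀ i u c, Φ i (u ⊗ₜ c) = j u * τ i c := by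
  letI := (j.comp (algebraMap A U)).toAlgebra
  exact ⟨fun i => (Algebra.TensorProduct.productMap (⟨j, fun _ => rfl⟩ : U →ₐ[A] B)
    (⟨τ i, h.tau i⟩ : C →ₐ[A] B)).toRingHom, fun i u c => rfl⟩

variable {Φ : Fin F.natDegree → U ⊗[A] C →+* B} {Δ Γ : A}

theorem Cov.approx_dd (h : Cov p θ F (algebraMap A U) j κ τ)
    (hΦ : ∀ i u c, Φ i (u ⊗ₜ c) = j u * τ i c) (n : ℕ) (H : B[X]) :
    ∃ d, ∀ i, j κ ^ n * H.eval (τ i θ) - Φ i d ∈ Ideal.span {(p : B) ^ n} := by
  induction H using Polynomial.induction_on' with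
  | add H H' h1 h2 =>
    obtain ⟨d, h1⟩ := h1
    obtain ⟨d', h2⟩ := h2
    refine ⟨d + d', fun i => ?_⟩
    rw [map_add, eval_add, mul_add, add_sub_add_comm]
    exact add_mem (h1 i) (h2 i)
  | monomial k b =>
    obtain ⟨u, hu⟩ := h.r1_pow n b
    refine ⟨u ⊗ₜ (θ ^ k), fun i => ?_⟩
    rw [hΦ, eval_monomial, map_pow, ← mul_assoc, ← sub_mul]
    exact Ideal.mul_mem_right _ _ hu

theorem Cov.phi_surj (h : Cov p θ F (algebraMap A U) j κ τ)
    (hΦ : ∀ i u c, Φ i (u ⊗ₜ c) = j u * τ i c)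
    (hΓ : Polynomial.C Γ ∈ Ideal.span {F, derivative F}) (n : ℕ) (b : Fin F.natDegree → B) :
    ∃ d, ∀ i, j (algebraMap A U Γ * κ ^ n) * b i - Φ i d ∈ Ideal.span {(p : B) ^ n} := by
  obtain ⟨a, c, e⟩ := Ideal.mem_span_pair.1 hΓ
  have hs : F.map (j.comp (algebraMap A U)) = Lagrange.nodal Finset.univ fun i => τ i θ := h.split
  obtain ⟨d, hd⟩ := h.approx_dd hΦ n (∑ i, Polynomial.C (b i) * (c.map (j.comp (algebraMap A U)) *
    Lagrange.nodal (Finset.univ.erase i) fun i => τ i θ))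
  refine ⟨d, fun i => ?_⟩
  have h1 := congrArg (fun G => (G.map (j.comp (algebraMap A U))).eval (τ i θ)) e
  simp only [Polynomial.map_add, Polynomial.map_mul, ← derivative_map, hs, eval_add, eval_mul, map_C,
    eval_C] at h1
  rw [Lagrange.eval_nodal_at_node (v := fun i => τ i θ) (Finset.mem_univ i), mul_zero, zero_add,
    Lagrange.eval_nodal_derivative_eval_node_eq (v := fun i => τ i θ) (Finset.mem_univ i)] at h1
  have h2 := hd i
  rw [eval_finsetSum, Finset.sum_eq_single_of_mem i (Finset.mem_univ i), eval_mul, eval_mul, h1,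
    eval_C] at h2
  · rw [map_mul, map_pow, mul_comm (j _), mul_assoc, mul_comm _ (b i)]
    exact h2
  · intro k _ hk
    rw [eval_mul, eval_mul, Lagrange.eval_nodal_at_node (v := fun i => τ i θ)
      (Finset.mem_erase.2 ⟨hk.symm, Finset.mem_univ i⟩), mul_zero, mul_zero]

theorem dvd_dd {R : Type u} [CommRing R] {m : ℕ} (r : Fin m → R) {H : R[X]}
    (h : ∀ i, H.eval (r i) = 0) :
    Lagrange.nodal Finset.univ r ∣ derivative (Lagrange.nodal Finset.univ r) * H := by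
  rw [Lagrange.derivative_nodal, Finset.sum_mul]
  refine Finset.dvd_sum fun i hi => ?_
  rw [Lagrange.nodal_eq_mul_nodal_erase hi, mul_comm]
  exact mul_dvd_mul_left _ (dvd_iff_isRoot.2 (h i))

theorem Cov.phi_inj (h : Cov p θ F (algebraMap A U) j κ τ)
    (hΦ : ∀ i u c, Φ i (u ⊗ₜ c) = j u * τ i c) (hF : F.Monic) (h0 : aeval θ F = 0)
    (hΔ : ∀ c : C, ∃ H : A[X], aeval θ H = Δ • c)
    (hΓ : Polynomial.C Γ ∈ Ideal.span {F, derivative F}) (n : ℕ) {d : U ⊗[A] C}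
    (hd : ∀ i, Φ i d ∈ Ideal.span {(p : B) ^ n}) :
    (algebraMap A U (Δ * Γ) * κ ^ n) ⊗ₜ (1 : C) * d ∈ Ideal.span {(p : U ⊗[A] C) ^ n} := by
  obtain ⟨a, c, e⟩ := Ideal.mem_span_pair.1 hΓ
  have hm : ∀ H : A[X], aeval ((1 : U) ⊗ₜ[A] θ) (H.map (algebraMap A U)) = 1 ⊗ₜ aeval θ H := fun H => by
    rw [aeval_map_algebraMap]
    exact aeval_algHom_apply (Algebra.TensorProduct.includeRight : C →ₐ[A] U ⊗[A] C) θ H
  obtain ⟨H, hH⟩ : ∃ H : U[X], aeval ((1 : U) ⊗ₜ[A] θ) H = algebraMap A U Δ ⊗ₜ (1 : C) * d := by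
    clear hd
    induction d with
    | zero => exact ⟨0, by simp⟩
    | tmul u c =>
      obtain ⟨H, hH⟩ := hΔ c
      refine ⟨Polynomial.C u * H.map (algebraMap A U), ?_⟩
      rw [map_mul, hm, hH, aeval_C, Algebra.TensorProduct.algebraMap_apply, Algebra.algebraMap_self_apply,
        Algebra.TensorProduct.tmul_mul_tmul, Algebra.TensorProduct.tmul_mul_tmul, mul_one, one_mul, one_mul,
        tmul_smul, smul_tmul', Algebra.smul_def]
    | add x y h1 h2 =>
      obtain ⟨H, h1⟩ := h1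
      obtain ⟨H', h2⟩ := h2
      exact ⟨H + H', by rw [map_add, h1, h2, mul_add]⟩
  let g : U →+* B ⧸ Ideal.span {(p : B) ^ n} := (Ideal.Quotient.mk _).comp j
  have hr : ∀ i, (H.map g).eval (Ideal.Quotient.mk _ (τ i θ)) = 0 := fun i => by
    have h1 : Φ i (aeval ((1 : U) ⊗ₜ[A] θ) H) = H.eval₂ j (τ i θ) := by
      rw [aeval_def, hom_eval₂, hΦ, map_one, one_mul]
      congr 1
      ext u
      rw [RingHom.comp_apply, Algebra.TensorProduct.algebraMap_apply, Algebra.algebraMap_self_apply, hΦ,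
        map_one, mul_one]
    rw [eval_map, ← hom_eval₂, ← h1, hH, map_mul, Ideal.Quotient.eq_zero_iff_mem]
    exact Ideal.mul_mem_left _ _ (hd i)
  have hs : (F.map (algebraMap A U)).map g =
      Lagrange.nodal Finset.univ fun i => Ideal.Quotient.mk _ (τ i θ) := by
    rw [← Polynomial.map_map, Polynomial.map_map _ j, h.split, Polynomial.map_prod]
    simp only [Polynomial.map_sub, map_X, map_C]
    rfl
  have h1 : ((Polynomial.C (algebraMap A U Γ) * H) %ₘ F.map (algebraMap A U)).map g = 0 := by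
    rw [map_modByMonic _ (hF.map _), modByMonic_eq_zero_iff_dvd ((hF.map _).map _), ← map_C, ← e]
    simp only [Polynomial.map_add, Polynomial.map_mul, ← derivative_map, add_mul, mul_assoc]
    refine dvd_add (Dvd.dvd.mul_left (dvd_mul_right _ _) _) (Dvd.dvd.mul_left ?_ _)
    rw [hs]
    exact dvd_dd _ hr
  have h2 := aeval_modByMonic_eq_self_of_root (p := Polynomial.C (algebraMap A U Γ) * H)
    ((hm F).trans (by rw [h0, tmul_zero]))
  generalize (Polynomial.C (algebraMap A U Γ) * H) %ₘ F.map (algebraMap A U) = G at h1 h2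
  have h3 : (algebraMap A U (Δ * Γ) * κ ^ n) ⊗ₜ (1 : C) * d =
      algebraMap U (U ⊗[A] C) (κ ^ n) * aeval ((1 : U) ⊗ₜ[A] θ) G := by
    rw [h2, map_mul (aeval _), hH, aeval_C, ← mul_assoc, ← mul_assoc]
    simp only [Algebra.TensorProduct.algebraMap_apply, Algebra.algebraMap_self_apply,
      Algebra.TensorProduct.tmul_mul_tmul, mul_one, map_mul]
    congr 2
    ring
  rw [h3, aeval_def, eval₂_eq_sum_range, Finset.mul_sum]
  refine Ideal.sum_mem _ fun k _ => ?_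
  have h4 := congrArg (fun G => G.coeff k) h1
  simp only [coeff_map, coeff_zero] at h4
  obtain ⟨v, hv⟩ := Ideal.mem_span_singleton'.1 (h.r2_pow n _ (Ideal.Quotient.eq_zero_iff_mem.1 h4))
  rw [← mul_assoc, ← map_mul, ← hv, map_mul, map_pow, map_natCast]
  exact Ideal.mul_mem_right _ _ (Ideal.mul_mem_left _ _ (Ideal.mem_span_singleton_self _))

theorem single_mem_dd {𝔟 : Ideal C} {i : Fin F.natDegree} {y : B} (hy : y ∈ 𝔟.map (τ i))
    (k : Fin F.natDegree) : (Pi.single i y : Fin F.natDegree → B) k ∈ 𝔟.map (τ k) := by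
  rcases eq_or_ne k i with rfl | hk
  · rwa [Pi.single_eq_same]
  · rw [Pi.single_eq_of_ne hk]
    exact zero_mem _

theorem Cov.surj_dd (h : Cov p θ F (algebraMap A U) j κ τ)
    (hΦ : ∀ i u c, Φ i (u ⊗ₜ c) = j u * τ i c)
    (hΓ : Polynomial.C Γ ∈ Ideal.span {F, derivative F}) (𝔟 : Ideal C) (n : ℕ)
    {y : Fin F.natDegree → B} (hy : ∀ i, y i ∈ 𝔟.map (τ i)) :
    ∃ d ∈ 𝔟.map (Algebra.TensorProduct.includeRight : C →ₐ[A] U ⊗[A] C),
      ∀ i, j (algebraMap A U Γ * κ ^ n) * y i - Φ i d ∈ Ideal.span {(p : B) ^ n} := by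
  let G : (Fin F.natDegree → B) → Prop := fun y =>
    ∃ d ∈ 𝔟.map (Algebra.TensorProduct.includeRight : C →ₐ[A] U ⊗[A] C),
      ∀ i, j (algebraMap A U Γ * κ ^ n) * y i - Φ i d ∈ Ideal.span {(p : B) ^ n}
  have g0 : G 0 := ⟨0, zero_mem _, fun i => by simp⟩
  have g1 : ∀ y z, G y → G z → G (y + z) := by
    rintro y z ⟨d, hd, h1⟩ ⟨d', hd', h2⟩
    refine ⟨d + d', add_mem hd hd', fun i => ?_⟩
    rw [map_add, Pi.add_apply, mul_add, add_sub_add_comm]
    exact add_mem (h1 i) (h2 i)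
  have g2 : ∀ i, ∀ z ∈ 𝔟.map (τ i), ∀ b, G (Pi.single i (b * z)) := by
    intro i z hz
    induction hz using Submodule.span_induction with
    | mem z hz =>
      obtain ⟨c, hc, rfl⟩ := hz
      intro b
      obtain ⟨d, hd⟩ := h.phi_surj hΦ hΓ n (Pi.single i b)
      refine ⟨d * (1 : U) ⊗ₜ c, Ideal.mul_mem_left _ _ (Ideal.mem_map_of_mem _ hc), fun k => ?_⟩
      have e : (Pi.single i (b * τ i c) : Fin F.natDegree → B) k =
          (Pi.single i b : Fin F.natDegree → B) k * τ k c := by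
        rcases eq_or_ne k i with rfl | hk
        · rw [Pi.single_eq_same, Pi.single_eq_same]
        · rw [Pi.single_eq_of_ne hk, Pi.single_eq_of_ne hk, zero_mul]
      rw [e, map_mul (Φ k), hΦ, map_one, one_mul, ← mul_assoc, ← sub_mul]
      exact Ideal.mul_mem_right _ _ (hd k)
    | zero =>
      intro b
      rw [mul_zero, Pi.single_zero]
      exact g0
    | add y z _ _ h1 h2 =>
      intro b
      rw [mul_add, Pi.single_add]
      exact g1 _ _ (h1 b) (h2 b)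
    | smul c y _ h1 =>
      intro b
      rw [smul_eq_mul, ← mul_assoc b]
      exact h1 _
  have g3 := Finset.sum_induction (s := Finset.univ) (fun i => Pi.single i (y i)) G g1 g0
    fun i _ => by simpa only [one_mul] using g2 i _ (hy i) 1
  rwa [Finset.univ_sum_single] at g3

theorem Cov.pullback [IsNoetherianRing C] (h : Cov p θ F (algebraMap A U) j κ τ)
    (hΦ : ∀ i u c, Φ i (u ⊗ₜ c) = j u * τ i c) (hF : F.Monic) (h0 : aeval θ F = 0)
    (hΔ : ∀ c : C, ∃ H : A[X], aeval θ H = Δ • c)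
    (hΓ : Polynomial.C Γ ∈ Ideal.span {F, derivative F}) {𝔟 : Ideal C} {n : ℕ}
    (hn : (p : C) ^ n ∈ 𝔟) {d : U ⊗[A] C} (hd : ∀ i, Φ i d ∈ 𝔟.map (τ i)) :
    (algebraMap A U ((Δ * Γ) ^ 2) * κ ^ (2 * n)) ⊗ₜ (1 : C) * d ∈
      𝔟.map (Algebra.TensorProduct.includeRight : C →ₐ[A] U ⊗[A] C) := by
  obtain ⟨d', h1, h2⟩ := h.surj_dd hΦ hΓ 𝔟 n hd
  have h3 := h.phi_inj hΦ hF h0 hΔ hΓ n (d := (algebraMap A U Γ * κ ^ n) ⊗ₜ (1 : C) * d - d')
    fun i => by
      rw [map_sub, map_mul, hΦ, map_one, mul_one]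
      exact h2 i
  have h4 : Ideal.span {(p : U ⊗[A] C) ^ n} ≤
      𝔟.map (Algebra.TensorProduct.includeRight : C →ₐ[A] U ⊗[A] C) := by
    rw [Ideal.span_singleton_le_iff_mem]
    simpa only [map_pow, map_natCast] using
      Ideal.mem_map_of_mem (Algebra.TensorProduct.includeRight : C →ₐ[A] U ⊗[A] C) hn
  have h5 := Ideal.mul_mem_left _ (algebraMap A U Δ ⊗ₜ (1 : C)) (add_mem (h4 h3)
    (Ideal.mul_mem_left _ ((algebraMap A U (Δ * Γ) * κ ^ n) ⊗ₜ (1 : C)) h1))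
  rw [← mul_add, sub_add_cancel, ← mul_assoc, ← mul_assoc, Algebra.TensorProduct.tmul_mul_tmul,
    Algebra.TensorProduct.tmul_mul_tmul, mul_one, mul_one] at h5
  rw [show algebraMap A U ((Δ * Γ) ^ 2) * κ ^ (2 * n) = algebraMap A U Δ *
    (algebraMap A U (Δ * Γ) * κ ^ n) * (algebraMap A U Γ * κ ^ n) by
      simp only [map_pow, map_mul]
      ring]
  exact h5

/-- Artin-Rees for powers. -/
theorem Cov.ar_pow [IsNoetherianRing C] (h : Cov p θ F (algebraMap A U) j κ τ) (hF : F.Monic)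
    (h0 : aeval θ F = 0) (hΔ : ∀ c : C, ∃ H : A[X], aeval θ H = Δ • c)
    (hΓ : Polynomial.C Γ ∈ Ideal.span {F, derivative F}) {N c0 c1 : ℕ} {𝔞 : ℕ → Ideal C}
    {𝔪 : Ideal C} (hp : (p : C) ∈ 𝔪) (hc : ∀ r ≤ N, (p : C) ^ c0 ∈ 𝔞 r) (hL : LAR N 𝔞 𝔪 c1)
    (i : Fin F.natDegree) (n n' : ℕ → ℤ) (m k : ℕ) (hle : 𝔪 ^ m * EE N 𝔞 n ≤ EE N 𝔞 n') (y : B)
    (h1 : y ∈ (EE N 𝔞 n ^ k).map (τ i)) (h2 : y ∈ (𝔪 ^ ((m + c1 * sz N n) * k)).map (τ i)) :
    j (algebraMap A U ((Δ * Γ) ^ 3)) * j κ ^ (3 * (m + (c0 + c1) * sz N n) * k) * y ∈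
      (EE N 𝔞 n' ^ k).map (τ i) := by
  obtain ⟨Φ, hΦ⟩ := h.exists_phi
  obtain ⟨n0, hn0⟩ : ∃ n0, n0 = (m + (c0 + c1) * sz N n) * k := ⟨_, rfl⟩
  have up : ∀ {I : Ideal C} {a : ℕ}, (p : C) ^ a ∈ I → a * k ≤ n0 → (p : C) ^ n0 ∈ I ^ k :=
    fun {I a} ha hle => by
      refine Ideal.pow_mem_of_pow_mem _ ?_ hle
      rw [pow_mul]
      exact Ideal.pow_mem_pow ha k
  have a1 : (p : C) ^ n0 ∈ EE N 𝔞 n ^ k :=
    up (pow_mem_EE hc n) (hn0 ▸ Nat.mul_le_mul_right k (by nlinarith))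
  have a2 : (p : C) ^ n0 ∈ 𝔪 ^ ((m + c1 * sz N n) * k) :=
    Ideal.pow_le_pow_right (hn0 ▸ Nat.mul_le_mul_right k (by nlinarith)) (Ideal.pow_mem_pow hp n0)
  have a3 : (p : C) ^ n0 ∈ EE N 𝔞 n' ^ k :=
    up (a := m + c0 * sz N n) (by
      rw [pow_add]
      exact hle (Ideal.mul_mem_mul (Ideal.pow_mem_pow hp m) (pow_mem_EE hc n)))
      (hn0 ▸ Nat.mul_le_mul_right k (by nlinarith))
  have sp : ∀ {I : Ideal C}, (p : C) ^ n0 ∈ I → ∀ l, Ideal.span {(p : B) ^ n0} ≤ I.map (τ l) :=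
    fun {I} hI l => by
      rw [Ideal.span_singleton_le_iff_mem]
      simpa only [map_pow, map_natCast] using Ideal.mem_map_of_mem (τ l) hI
  obtain ⟨d, hd⟩ := h.phi_surj hΦ hΓ n0 (Pi.single i y)
  have pb : ∀ {I : Ideal C}, (p : C) ^ n0 ∈ I → y ∈ I.map (τ i) →
      (algebraMap A U ((Δ * Γ) ^ 2) * κ ^ (2 * n0)) ⊗ₜ (1 : C) * d ∈
        I.map (Algebra.TensorProduct.includeRight : C →ₐ[A] U ⊗[A] C).toRingHom := fun {I} hI hy =>
    h.pullback hΦ hF h0 hΔ hΓ hI fun l => by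
      have := sub_mem (Ideal.mul_mem_left _ (j (algebraMap A U Γ * κ ^ n0)) (single_mem_dd hy l))
        (sp hI l (hd l))
      rwa [sub_sub_cancel] at this
  have hf : (Algebra.TensorProduct.includeRight : C →ₐ[A] U ⊗[A] C).toRingHom.Flat := by
    have := RingHom.flat_algebraMap_iff.1 h.flat
    exact (RingHom.flat_algebraMap_iff.2 (inferInstance : Module.Flat C (C ⊗[A] U))).comp
      (g := (Algebra.TensorProduct.comm A C U).toRingEquiv.toRingHom)
      (RingHom.Flat.of_bijective (Algebra.TensorProduct.comm A C U).bijective)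
  have b1 : EE N 𝔞 n ^ k ⊓ 𝔪 ^ ((m + c1 * sz N n) * k) ≤ EE N 𝔞 n' ^ k := by
    have := hL ((k : ℤ) • n) (m * k)
    rw [EE_smul, sz_smul, pow_mul 𝔪 m k, ← mul_pow,
      show m * k + c1 * (k * sz N n) = (m + c1 * sz N n) * k by ring] at this
    exact this.trans (Ideal.pow_right_mono hle k)
  have b2 := Ideal.mem_map_of_mem (Φ i) (Ideal.map_mono b1
    ((map_inf_of_flat hf _ _).ge ⟨pb a1 h1, pb a2 h2⟩))
  have b3 : (Φ i).comp (Algebra.TensorProduct.includeRight : C →ₐ[A] U ⊗[A] C).toRingHom = τ i := by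
    ext c
    exact (hΦ i 1 c).trans (by rw [map_one, one_mul])
  rw [Ideal.map_map, b3, map_mul, hΦ, map_one, mul_one] at b2
  have b4 := sp a3 i (hd i)
  rw [Pi.single_eq_same] at b4
  have b5 := Ideal.mul_mem_left _ (j (algebraMap A U Δ)) (add_mem (Ideal.mul_mem_left _
    (j (algebraMap A U ((Δ * Γ) ^ 2) * κ ^ (2 * n0))) b4) b2)
  rw [← mul_add, sub_add_cancel] at b5
  rw [mul_assoc 3, ← hn0, show j (algebraMap A U ((Δ * Γ) ^ 3)) * j κ ^ (3 * n0) * y =
    j (algebraMap A U Δ) * (j (algebraMap A U ((Δ * Γ) ^ 2) * κ ^ (2 * n0)) *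
      (j (algebraMap A U Γ * κ ^ n0) * y)) by
      simp only [map_pow, map_mul]
      ring]
  exact b5

end Vale.Agent.P177
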