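import Vale.Agent.P177.EFn
import Vale.Agent.P177.Cone
import Vale.Agent.P177.Ring

/-! Euler characteristics in a family over the affine line. -/

namespace Vale.Agent.P177

open Vale.Agent.P202 IsLocalRing Polynomial

universe u

variable {S Λ : Type u} [CommRing S] [IsLocalRing S] [IsNoetherianRing S] [CommRing Λ]

theorem rr_max_def1 {J : Ideal Λ} (hJ : J.IsMaximal) : rr (RLen.ofLen Λ) J ⊤ = 1 := by
  have : IsSimpleModule Λ (Λ ⧸ J) := (isSimpleModule_iff_isCoatom).2 (Ideal.isMaximal_def.1 hJ)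
  rw [rr_top]
  change ((Module.length Λ (Λ ⧸ J) : ℕ∞) : ENNReal) = 1
  rw [Module.length_eq_one Λ _, ENat.toENNReal_one]

omit [IsNoetherianRing S] in
theorem cases_def1 (Q : Ideal S[X]) (hQ : Q.IsPrime) (hm : (maximalIdeal S).map C ≤ Q) :
    Q.IsMaximal ∨ Q = (maximalIdeal S).map C := by
  have hs : Function.Surjective (mapRingHom (residue S)) :=
    Polynomial.map_surjective _ residue_surjective
  have hk : RingHom.ker (mapRingHom (residue S)) = (maximalIdeal S).map C := by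
    rw [Polynomial.ker_mapRingHom, ker_residue]
  have h1 := Ideal.map_isPrime_of_surjective hs (hk.le.trans hm)
  have h2 : (Q.map (mapRingHom (residue S))).comap (mapRingHom (residue S)) = Q := by
    rw [Ideal.comap_map_of_surjective _ hs, ← RingHom.ker_eq_comap_bot, hk, sup_eq_left.2 hm]
  by_cases h0 : Q.map (mapRingHom (residue S)) = ⊥
  · right
    rw [← h2, h0, ← RingHom.ker_eq_comap_bot, hk]
  · left
    have := IsPrime.to_maximal_ideal h0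
    rw [← h2]
    exact Ideal.comap_isMaximal_of_surjective _ hs

theorem fam_prime (ϑ : S[X] →+* Λ) (hϑ : Function.Surjective ϑ) (Q : Ideal Λ) (hQ : Q.IsPrime)
    (hm : (maximalIdeal S).map (ϑ.comp C) ≤ Q) : ∃ x : ℝ, ∀ c : S,
      GoodG (RLen.ofLen Λ) ((GC.one Λ).cone (ϑ (X - C c))) (⊥ : Submodule Λ (Λ ⧸ Q)) ⊤ ∧
      chiG (RLen.ofLen Λ) ((GC.one Λ).cone (ϑ (X - C c))) (⊥ : Submodule Λ (Λ ⧸ Q)) ⊤ = x := by
  suffices h : ∃ x : ℝ, ∀ c : S, (ck (RLen.ofLen Λ) (ϑ (X - C c)) Q ⊤ ≠ ⊤ ∧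
      kr (RLen.ofLen Λ) (ϑ (X - C c)) Q ⊤ ≠ ⊤) ∧ (ck (RLen.ofLen Λ) (ϑ (X - C c)) Q ⊤).toReal -
        (kr (RLen.ofLen Λ) (ϑ (X - C c)) Q ⊤).toReal = x by
    obtain ⟨x, hx⟩ := h
    refine ⟨x, fun c => ?_⟩
    obtain ⟨h1, h2⟩ := good_chi_congr (RLen.ofLen Λ)
      (hG_quot (RLen.ofLen Λ) ((GC.one Λ).cone (ϑ (X - C c))) Q)
    obtain ⟨h3, h4⟩ := GC.chi_one_cone (RLen.ofLen Λ) (le_top : Q ≤ ⊤) (ϑ (X - C c))
    exact ⟨h1.1 (h3.2 (hx c).1), h2.symm.trans (h4.trans (hx c).2)⟩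
  have hmax : ∀ (J : Ideal Λ) (I : Ideal S[X]), I.IsMaximal → I ≤ J.comap ϑ → J ≠ ⊤ →
      J.IsMaximal := by
    intro J I hI h1 h2
    have h3 := Ideal.map_le_iff_le_comap.2 h1
    rcases Ideal.map_eq_top_or_isMaximal_of_surjective ϑ hϑ hI with h4 | h4
    · exact absurd (top_le_iff.1 (h4 ▸ h3)) h2
    · exact h4.eq_of_le h2 h3 ▸ h4
  rcases cases_def1 (Q.comap ϑ) inferInstance (by
    rw [← Ideal.map_le_iff_le_comap, Ideal.map_map]; exact hm) with h | h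
  · have h1 : rr (RLen.ofLen Λ) Q ⊤ ≠ ⊤ := by
      rw [rr_max_def1 (hmax Q _ h le_rfl hQ.ne_top)]
      exact ENNReal.one_ne_top
    refine ⟨0, fun c => ⟨⟨ne_top_of_le_ne_top h1 (ck_le _ _ _ _),
      ne_top_of_le_ne_top h1 (kr_le _ _ _ _)⟩, ?_⟩⟩
    rw [ck_eq_kr _ _ le_top h1, sub_self]
  · refine ⟨1, fun c => ?_⟩
    let ψ : S[X] →+* ResidueField S := (residue S).comp (evalRingHom c)
    have hψ : ∀ f, ϑ f ∈ Q → ψ f = 0 := by
      intro f hf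
      have h1 : (maximalIdeal S).map C ≤ RingHom.ker ψ :=
        Ideal.map_le_iff_le_comap.2 fun a ha => by simpa [ψ] using ha
      exact h1 (h.le hf)
    have h1 : kr (RLen.ofLen Λ) (ϑ (X - C c)) Q ⊤ = 0 := by
      refine rr_eq_zero_of_le _ fun z hz => (hQ.mem_or_mem hz.2).resolve_left fun h2 => ?_
      have h3 := Ideal.mem_map_C_iff.1 (h.le h2) 1
      simp at h3
    have h2 : ck (RLen.ofLen Λ) (ϑ (X - C c)) Q ⊤ = 1 := by
      refine rr_max_def1 (hmax _ (RingHom.ker ψ) (RingHom.ker_isMaximal_of_surjective ψ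
        (residue_surjective.comp fun a => ⟨C a, eval_C⟩)) (fun f hf => ?_) fun h3 => ?_)
      · obtain ⟨q, hq⟩ := X_sub_C_dvd_sub_C_eval (a := c) (p := f)
        rw [Ideal.mem_comap, eq_add_of_sub_eq hq, map_add, add_comm, map_mul]
        refine Submodule.add_mem_sup (hm (Ideal.mem_map_of_mem (ϑ.comp C) ?_)) ⟨_, trivial, rfl⟩
        simpa [ψ] using hf
      · obtain ⟨q, hq, _, ⟨a, -, rfl⟩, e⟩ := Submodule.mem_sup.1 ((Ideal.eq_top_iff_one _).1 h3)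
        obtain ⟨a, rfl⟩ := hϑ a
        have h4 := hψ (1 - (X - C c) * a) (by
          rw [map_sub, map_one, map_mul, ← e]
          exact (add_sub_cancel_right q _).symm ▸ hq)
        simp [ψ] at h4
    rw [h1, h2]
    simp

theorem fam_eq (ϑ : S[X] →+* Λ) (hϑ : Function.Surjective ϑ) {E : Type u} [AddCommGroup E]
    [Module Λ E] [Module.Finite Λ E] {A Z : Submodule Λ E} (hA : A ≤ Z) {t : ℕ}
    (ht : ∀ z ∈ maximalIdeal S ^ t, ∀ x ∈ Z, ϑ (C z) • x ∈ A) (c c' : S) :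
    ck (RLen.ofLen Λ) (ϑ (X - C c)) A Z ≠ ⊤ ∧ kr (RLen.ofLen Λ) (ϑ (X - C c)) A Z ≠ ⊤ ∧
      (ck (RLen.ofLen Λ) (ϑ (X - C c)) A Z).toReal - (kr (RLen.ofLen Λ) (ϑ (X - C c)) A Z).toReal =
      (ck (RLen.ofLen Λ) (ϑ (X - C c')) A Z).toReal -
        (kr (RLen.ofLen Λ) (ϑ (X - C c')) A Z).toReal := by
  have := isNoetherianRing_of_surjective S[X] Λ ϑ hϑ
  have hI : (maximalIdeal S ^ t).map (ϑ.comp C) ≤ Module.annihilator Λ (HM A Z) := by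
    refine Ideal.map_le_iff_le_comap.2 fun z hz => Module.mem_annihilator.2 ?_
    rintro ⟨_, x, hx, rfl⟩
    exact Subtype.ext ((Submodule.Quotient.mk_eq_zero A).2 (ht z hz x hx))
  obtain ⟨⟨h1, h2⟩, h3⟩ :=
    ((EFn.ofG (RLen.ofLen Λ) _ ((GC.sq0_disc fun _ : Unit => 0).cone (ϑ (X - C c)))).sub
      (EFn.ofG (RLen.ofLen Λ) _ ((GC.sq0_disc fun _ : Unit => 0).cone (ϑ (X - C c'))))).dev_zero
      hI fun Q hQ h => by
        rw [Ideal.map_pow] at h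
        obtain ⟨x, hx⟩ := fam_prime ϑ hϑ Q hQ (Ideal.IsPrime.le_of_pow_le h)
        exact ⟨⟨(hx c).1, (hx c').1⟩, sub_eq_zero.2 ((hx c).2.trans (hx c').2.symm)⟩
  obtain ⟨e1, e2⟩ := good_chi_congr (RLen.ofLen Λ)
    (hG_HM (RLen.ofLen Λ) ((GC.one Λ).cone (ϑ (X - C c))) hA)
  obtain ⟨-, e3⟩ := good_chi_congr (RLen.ofLen Λ)
    (hG_HM (RLen.ofLen Λ) ((GC.one Λ).cone (ϑ (X - C c'))) hA)
  obtain ⟨h4, h5⟩ := GC.chi_one_cone (RLen.ofLen Λ) hA (ϑ (X - C c))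
  obtain ⟨-, h6⟩ := GC.chi_one_cone (RLen.ofLen Λ) hA (ϑ (X - C c'))
  exact ⟨(h4.1 (e1.2 h1)).1, (h4.1 (e1.2 h1)).2,
    h5.symm.trans (e2.trans ((sub_eq_zero.1 h3).trans (e3.symm.trans h6)))⟩

theorem sum_def1 (a b : ℤ → ℝ) (L : ℕ) : ∑ i ∈ Finset.range (L + 1),
    (-1 : ℝ) ^ i * (a i + b (i - 1)) =
      ∑ i ∈ Finset.range (L + 1), (-1 : ℝ) ^ i * (a i - b i) + (-1) ^ L * b L + b (-1) := by
  induction L with
  | zero => simp
  | succ L ih =>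
    rw [Finset.sum_range_succ, ih, Finset.sum_range_succ _ (L + 1), Nat.cast_succ,
      add_sub_cancel_right]
    ring

/-- Truncated Euler characteristics of the fibres agree. -/
theorem fam_sum (ϑ : S[X] →+* Λ) (hϑ : Function.Surjective ϑ) {G : GC Λ} (hG' : G.Sq0)
    (J : Ideal Λ) {L t : ℕ} (ht : ∀ n : ℤ, n ≤ L → ∀ z ∈ maximalIdeal S ^ t,
      ∀ x ∈ G.Zy J ⊤ n, ϑ (C z) • x ∈ G.Bd J ⊤ n) (c c' : S)
    (h : hG (RLen.ofLen Λ) (G.cone (ϑ (X - C c))) J ⊤ (L + 1) = 0)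
    (h' : hG (RLen.ofLen Λ) (G.cone (ϑ (X - C c'))) J ⊤ (L + 1) = 0) :
    ∑ i ∈ Finset.range (L + 1),
      (-1 : ℝ) ^ i * (hG (RLen.ofLen Λ) (G.cone (ϑ (X - C c))) J ⊤ i).toReal =
    ∑ i ∈ Finset.range (L + 1),
      (-1 : ℝ) ^ i * (hG (RLen.ofLen Λ) (G.cone (ϑ (X - C c'))) J ⊤ i).toReal := by
  have key := fun n hn => fam_eq ϑ hϑ (hG'.Bd_le (le_top : J ≤ ⊤) n) (ht n hn)
  have e : ∀ a : S, hG (RLen.ofLen Λ) (G.cone (ϑ (X - C a))) J ⊤ (L + 1) = 0 →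
      ∑ i ∈ Finset.range (L + 1),
        (-1 : ℝ) ^ i * (hG (RLen.ofLen Λ) (G.cone (ϑ (X - C a))) J ⊤ i).toReal =
      ∑ i ∈ Finset.range (L + 1), (-1 : ℝ) ^ i *
        ((ck (RLen.ofLen Λ) (ϑ (X - C a)) (G.Bd J ⊤ i) (G.Zy J ⊤ i)).toReal -
          (kr (RLen.ofLen Λ) (ϑ (X - C a)) (G.Bd J ⊤ i) (G.Zy J ⊤ i)).toReal) := by
    intro a ha
    rw [GC.hG_cone _ hG' le_top, add_sub_cancel_right] at ha
    have h0 : kr (RLen.ofLen Λ) (ϑ (X - C a)) (G.Bd J ⊤ (-1)) (G.Zy J ⊤ (-1)) = 0 := by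
      obtain ⟨L', hL⟩ := G.exists_top
      exact le_antisymm ((kr_le _ _ _ _).trans
        (hL.hr_eq_zero _ _ _ (Or.inl (by omega))).le) zero_le
    have h1 := sum_def1
      (fun i => (ck (RLen.ofLen Λ) (ϑ (X - C a)) (G.Bd J ⊤ i) (G.Zy J ⊤ i)).toReal)
      (fun i => (kr (RLen.ofLen Λ) (ϑ (X - C a)) (G.Bd J ⊤ i) (G.Zy J ⊤ i)).toReal) L
    rw [(add_eq_zero.1 ha).2, h0, ENNReal.toReal_zero, mul_zero, add_zero, add_zero] at h1
    refine (Finset.sum_congr rfl fun i hi => ?_).trans h1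
    have hi' := Finset.mem_range.1 hi
    rw [GC.hG_cone _ hG' le_top,
      ENNReal.toReal_add (key i (by omega) a a).1 (key (i - 1) (by omega) a a).2.1]
  rw [e c h, e c' h']
  refine Finset.sum_congr rfl fun i hi => ?_
  have hi' := Finset.mem_range.1 hi
  rw [(key i (by omega) c c').2.2]

end Vale.Agent.P177
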