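import Vale.Agent.P177.Def1
import Vale.Agent.P177.Hyp
import Vale.Agent.P177.Res

/-! Intersection multiplicities do not depend on the hypersurface. -/

namespace Vale.Agent.P177

open Vale.Agent.P202 IsLocalRing Polynomial

universe u

/-- Two partial resolutions of the same module have the same homology in low degrees. -/
theorem hG_pres_eq {B : Type u} [CommRing B] [IsNoetherianRing B] (μ : RLen B) {N : Type u}
    [AddCommGroup N] [Module B N] {K K' : GC B} {a : (K.ι → B) →ₗ[B] N} {a' : (K'.ι → B) →ₗ[B] N}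
    {L : ℕ} (h : K.PRes a L) (h' : K'.PRes a' L) (J : Ideal B) {n : ℤ} (hn : n ≤ L) :
    hG μ K J ⊤ n = hG μ K' J ⊤ n := by
  obtain ⟨G, aG, hG', -⟩ := exists_pres (R := B) (N := B ⧸ J) L
  rw [hG_quot μ K, hG_quot μ K', hG_swap μ h hG' hn, hG_swap μ h' hG' hn]

variable {S : Type u} [CommRing S] [IsDomain S] [IsLocalRing S] [IsNoetherianRing S]

omit [IsDomain S] [IsLocalRing S] [IsNoetherianRing S] in
theorem reg_deform {f g : S} {P : Ideal S} (hf : f ∈ P) (hg : g ∈ P) {Λ : Type u}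
    [CommRing Λ] (ϑ : S[X] →+* Λ) (hϑ : Function.Surjective ϑ)
    (hk : RingHom.ker ϑ = Ideal.span {C f - X * C g}) (c : S) (z : Λ)
    (hz : ϑ (X - C c) * z ∈ P.map (ϑ.comp C)) : z ∈ P.map (ϑ.comp C) := by
  obtain ⟨z, rfl⟩ := hϑ z
  have h1 : (P.map (ϑ.comp C)).comap ϑ = RingHom.ker (mapRingHom (Ideal.Quotient.mk P)) := by
    rw [Polynomial.ker_mapRingHom, Ideal.mk_ker, ← Ideal.map_map,
      Ideal.comap_map_of_surjective _ hϑ, ← RingHom.ker_eq_comap_bot, hk, sup_eq_left,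
      Ideal.span_singleton_le_iff_mem]
    exact sub_mem (Ideal.mem_map_of_mem _ hf) (Ideal.mul_mem_left _ _ (Ideal.mem_map_of_mem _ hg))
  rw [← map_mul, ← Ideal.mem_comap, h1, RingHom.mem_ker, map_mul] at hz
  rw [← Ideal.mem_comap, h1, RingHom.mem_ker]
  exact ((monic_X_sub_C c).map (Ideal.Quotient.mk P)).mul_right_eq_zero_iff.1 hz

omit [IsDomain S] [IsLocalRing S] [IsNoetherianRing S] in
theorem comap_deform {R Λ : Type u} [CommRing R] [CommRing Λ] (ρ : Λ →+* R)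
    (hρ : Function.Surjective ρ) {y : Λ} (hy : RingHom.ker ρ = Ideal.span {y}) (J : Ideal Λ) :
    (J.map ρ).comap ρ = J ⊔ Submodule.map (LinearMap.lsmul Λ Λ y) ⊤ := by
  rw [Ideal.comap_map_of_surjective _ hρ, ← RingHom.ker_eq_comap_bot, hy]
  refine congrArg _ (Submodule.ext fun x => ?_)
  rw [Ideal.mem_span_singleton']
  exact ⟨fun ⟨a, h⟩ => ⟨a, trivial, (mul_comm _ _).trans h⟩,
    fun ⟨a, _, h⟩ => ⟨a, (mul_comm _ _).trans h⟩⟩

omit [IsLocalRing S] in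
/-- The fibre of a partial resolution over the total space of the family. -/
theorem fam_fibre {f g : S} {P Q : Ideal S} (hf : f ∈ P ⊓ Q) (hg : g ∈ P ⊓ Q) {Λ : Type u}
    [CommRing Λ] (ϑ : S[X] →+* Λ) (hϑ : Function.Surjective ϑ)
    (hk : RingHom.ker ϑ = Ideal.span {C f - X * C g}) {G : GC Λ}
    {aG : (G.ι → Λ) →ₗ[Λ] Λ ⧸ Q.map (ϑ.comp C)} {L : ℕ} (hG' : G.PRes aG L) (c : S)
    (hc : f - c * g ≠ 0) {R : Type u} [CommRing R] (π : S →+* R) (hπ : Function.Surjective π)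
    (hπk : RingHom.ker π = Ideal.span {f - c * g}) {K : GC R}
    {aK : (K.ι → R) →ₗ[R] R ⧸ Q.map π} (hK : K.IsRes aK) {n : ℤ} (hn : n ≤ L) :
    hG (RLen.ofLen Λ) (G.cone (ϑ (X - C c))) (P.map (ϑ.comp C)) ⊤ n =
      hG (RLen.ofLen R) K (⊥ : Submodule R (R ⧸ P.map π)) ⊤ n := by
  have := isNoetherianRing_of_surjective S R π hπ
  let ψ : S[X] →+* R := π.comp (evalRingHom c)
  have hψ : RingHom.ker ϑ ≤ RingHom.ker ψ := by
    rw [hk, Ideal.span_singleton_le_iff_mem, RingHom.mem_ker]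
    have h1 : π (f - c * g) = 0 := by
      rw [← RingHom.mem_ker, hπk]
      exact Ideal.mem_span_singleton_self _
    rw [mul_comm] at h1
    simpa [ψ] using h1
  let ρ : Λ →+* R := ϑ.liftOfSurjective hϑ ⟨ψ, hψ⟩
  have hρ : ∀ a, ρ (ϑ a) = π (a.eval c) := fun a => ϑ.liftOfSurjective_comp_apply hϑ ⟨ψ, hψ⟩ a
  have hρs : Function.Surjective ρ := fun r => by
    obtain ⟨a, rfl⟩ := hπ r
    exact ⟨ϑ (C a), by rw [hρ, eval_C]⟩
  have hρk : RingHom.ker ρ = Ideal.span {ϑ (X - C c)} := by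
    refine le_antisymm (fun z hz => ?_) ?_
    · obtain ⟨a, rfl⟩ := hϑ z
      rw [RingHom.mem_ker, hρ, ← RingHom.mem_ker, hπk, Ideal.mem_span_singleton'] at hz
      obtain ⟨b, hb⟩ := hz
      obtain ⟨q, hq⟩ := X_sub_C_dvd_sub_C_eval (a := c) (p := a)
      have h1 : ϑ (C f - X * C g) = 0 := by
        rw [← RingHom.mem_ker, hk]
        exact Ideal.mem_span_singleton_self _
      have h2 : a = (q + C b * C g) * (X - C c) + C b * (C f - X * C g) := by
        rw [eq_add_of_sub_eq hq, ← hb]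
        simp only [map_mul, map_sub]
        ring
      rw [h2, map_add, map_mul, map_mul ϑ (C b), h1, mul_zero, add_zero]
      exact Ideal.mul_mem_left _ _ (Ideal.mem_span_singleton_self _)
    · rw [Ideal.span_singleton_le_iff_mem, RingHom.mem_ker, hρ]
      simp
  have hy : ϑ (X - C c) ∈ nonZeroDivisors Λ := by
    refine mem_nonZeroDivisors_iff_left.2 fun z hz => ?_
    obtain ⟨a, rfl⟩ := hϑ z
    rw [← map_mul, ← RingHom.mem_ker, hk, Ideal.mem_span_singleton'] at hz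
    obtain ⟨b, hb⟩ := hz
    have h1 : b.eval c = 0 := by
      have h2 := congrArg (eval c) hb
      simp only [eval_mul, eval_sub, eval_C, eval_X, sub_self, zero_mul] at h2
      exact (mul_eq_zero.1 h2).resolve_right hc
    obtain ⟨q, rfl⟩ := dvd_iff_isRoot.2 h1
    rw [mul_assoc] at hb
    rw [← RingHom.mem_ker, hk, ← mul_left_cancel₀ (X_sub_C_ne_zero c) hb]
    exact Ideal.mul_mem_left _ _ (Ideal.mem_span_singleton_self _)
  have hmap : ∀ I : Ideal S, (I.map (ϑ.comp C)).map ρ = I.map π := fun I => by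
    rw [Ideal.map_map]
    exact congrArg (I.map ·) (RingHom.ext fun a => (hρ (C a)).trans (by rw [eval_C]))
  let σ : (Λ ⧸ Q.map (ϑ.comp C)) →ₛₗ[ρ] R ⧸ Q.map π :=
    Submodule.mapQ _ _ ρ.toSemilinearMap fun x hx => (hmap Q).le (Ideal.mem_map_of_mem ρ hx)
  obtain ⟨a', -, h1⟩ := hG'.mod ρ hρs hρk hy (fun x hx => by
      obtain ⟨x, rfl⟩ := Ideal.Quotient.mk_surjective x
      exact Ideal.Quotient.eq_zero_iff_mem.2 (reg_deform hf.2 hg.2 ϑ hϑ hk c x
        (Ideal.Quotient.eq_zero_iff_mem.1 hx))) σ (fun r => by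
      obtain ⟨r, rfl⟩ := Ideal.Quotient.mk_surjective r
      obtain ⟨a, rfl⟩ := hρs r
      exact ⟨Ideal.Quotient.mk _ a, rfl⟩) fun x => by
    obtain ⟨x, rfl⟩ := Ideal.Quotient.mk_surjective x
    refine Ideal.Quotient.eq_zero_iff_mem.trans ?_
    change x ∈ (Q.map π).comap ρ ↔ _
    rw [← hmap, comap_deform ρ hρs hρk, sup_comm, Submodule.mem_sup]
    constructor
    · rintro ⟨_, ⟨a, -, rfl⟩, q, hq, rfl⟩
      refine ⟨Ideal.Quotient.mk _ a, ?_⟩
      rw [map_add, Ideal.Quotient.eq_zero_iff_mem.2 hq, add_zero]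
      rfl
    · rintro ⟨a, ha⟩
      obtain ⟨a, rfl⟩ := Ideal.Quotient.mk_surjective a
      exact ⟨_, ⟨a, trivial, rfl⟩, _, Ideal.Quotient.eq.1 ha.symm, add_sub_cancel _ _⟩
  rw [GC.hG_cone_reg _ hG'.sq le_top fun x _ => reg_deform hf.1 hg.1 ϑ hϑ hk c x,
    ← comap_deform ρ hρs hρk, hmap, ← hG_quot, ← hG_pres_eq _ h1 (hK L) _ hn,
    ← res_ofLen ρ hρs, ← hG_surj _ _ ρ hρs, Ideal.comap_top]

theorem deform {f0 f1 : S} (h0 : f0 ≠ 0) (h1 : f1 ≠ 0) {R0 R1 : Type u} [CommRing R0]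
    [CommRing R1] (π0 : S →+* R0) (π1 : S →+* R1) (hs0 : Function.Surjective π0)
    (hs1 : Function.Surjective π1) (hk0 : RingHom.ker π0 = Ideal.span {f0})
    (hk1 : RingHom.ker π1 = Ideal.span {f1}) (hR1 : HasRes R1) {P Q : Ideal S}
    (hf0 : f0 ∈ P ⊓ Q) (hf1 : f1 ∈ P ⊓ Q) {t : ℕ} (ht : maximalIdeal S ^ t ≤ P ⊔ Q) {x : ℝ}
    (h : Chi R1 (R1 ⧸ P.map π1) (R1 ⧸ Q.map π1) x) :
    Chi R0 (R0 ⧸ P.map π0) (R0 ⧸ Q.map π0) x := by
  intro K0 a0 hK0
  have := isNoetherianRing_of_surjective S R1 π1 hs1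
  obtain ⟨K1, a1, hK1⟩ := hR1 (R1 ⧸ Q.map π1)
  obtain ⟨L0, hL0⟩ := K0.exists_top
  obtain ⟨L1, hL1⟩ := K1.exists_top
  have hT0 := hL0.mono (le_max_left L0 L1)
  have hT1 := hL1.mono (le_max_right L0 L1)
  generalize max L0 L1 = L at hT0 hT1
  let ϑ := Ideal.Quotient.mk (Ideal.span {C f0 - X * C (f0 - f1)})
  have hϑ : Function.Surjective ϑ := Ideal.Quotient.mk_surjective
  obtain ⟨G, aG, hG', -⟩ := exists_pres (R := S[X] ⧸ Ideal.span {C f0 - X * C (f0 - f1)})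
    (N := _ ⧸ Q.map (ϑ.comp C)) (L + 1)
  have hg : f0 - f1 ∈ P ⊓ Q := sub_mem hf0 hf1
  have e0 := fun n hn => fam_fibre hf0 hg ϑ hϑ Ideal.mk_ker hG' 0 (by simpa using h0) π0 hs0
    (by simpa using hk0) hK0 (n := n) hn
  have e1 := fun n hn => fam_fibre hf0 hg ϑ hϑ Ideal.mk_ker hG' 1 (by simpa using h1) π1 hs1
    (by simpa using hk1) hK1 (n := n) hn
  have hkill : ∀ n : ℤ, n ≤ (L + 1 : ℕ) → ∀ z ∈ maximalIdeal S ^ t,
      ∀ x ∈ G.Zy (P.map (ϑ.comp C)) ⊤ n, ϑ (C z) • x ∈ G.Bd (P.map (ϑ.comp C)) ⊤ n := by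
    intro n hn z hz x hx
    obtain ⟨a, ha, b, hb, rfl⟩ := Submodule.mem_sup.1 (ht hz)
    rw [map_add, map_add, add_smul]
    refine add_mem (GC.smul_mem_Bd (Ideal.mem_sup_right ?_) hx) (hG'.smul_mem ?_ hn hx)
    · exact Submodule.mem_colon.2 fun y _ =>
        Ideal.mul_mem_right _ _ (Ideal.mem_map_of_mem (ϑ.comp C) ha)
    · rw [Ideal.annihilator_quotient]
      exact Ideal.mem_map_of_mem (ϑ.comp C) hb
  refine ⟨GC.good_of_ne_top _ fun n => ?_, ?_⟩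
  · by_cases hn : n ≤ L
    · have key := fun m hm => fam_eq ϑ hϑ (hG'.sq.Bd_le le_top m) (hkill m hm) 0 0
      refine ne_of_eq_of_ne (e0 n (by omega)).symm ?_
      rw [GC.hG_cone _ hG'.sq le_top]
      exact ENNReal.add_ne_top.2 ⟨(key n (by omega)).1, (key (n - 1) (by omega)).2.1⟩
    · rw [hT0.hr_eq_zero _ _ _ (Or.inr (by omega))]
      exact ENNReal.zero_ne_top
  · have h2 := fam_sum ϑ hϑ hG'.sq _ (L := L) (fun n hn => hkill n (by omega)) 0 1
      ((e0 _ (by omega)).trans (hT0.hr_eq_zero _ _ _ (Or.inr (by omega))))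
      ((e1 _ (by omega)).trans (hT1.hr_eq_zero _ _ _ (Or.inr (by omega))))
    refine (hT0.chi_eq_sum _ _ _).trans (Eq.trans ?_ (h2.trans (Eq.trans ?_
      ((hT1.chi_eq_sum _ _ _).symm.trans (h K1 a1 hK1).2))))
    · refine Finset.sum_congr rfl fun i hi => ?_
      have := Finset.mem_range.1 hi
      rw [e0 i (by omega)]
    · refine Finset.sum_congr rfl fun i hi => ?_
      have := Finset.mem_range.1 hi
      rw [e1 i (by omega)]

end Vale.Agent.P177
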