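import Vale.Agent.P202.MBi
import Vale.Agent.P202.MLen2
import Vale.Agent.P202.Kos

/-! Definitions for the positivity of intersection multiplicities. See notes P177. -/

namespace Vale.Agent.P177

open IsLocalRing TensorProduct Vale.Agent.P202
open scoped ENNReal Kronecker

universe u

noncomputable section

/-- A matrix acting on vectors with entries in `E`. -/
def mact {B : Type u} [CommRing B] {ι κ : Type} [Fintype κ] (E : Type u) [AddCommGroup E]
    [Module B E] (A : Matrix ι κ B) : (κ → E) →ₗ[B] (ι → E) :=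
  LinearMap.pi fun a => ∑ b, A a b • (LinearMap.proj b : (κ → E) →ₗ[B] E)

/-- The subquotient `(A ⊔ B) / A` as a module. -/
abbrev HM {B E : Type u} [CommRing B] [AddCommGroup E] [Module B E] (N' N'' : Submodule B E) :
    Type u := N''.map N'.mkQ

/-- A finite graded matrix complex. -/
structure GC (B : Type u) [CommRing B] where
  ι : Type
  [fin : Fintype ι]
  [dec : DecidableEq ι]
  deg : ι → ℕ
  mat : Matrix ι ι B
  hom : ∀ a b, mat a b ≠ 0 → deg b = deg a + 1

attribute [instance] GC.fin GC.dec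

namespace GC

variable {B : Type u} [CommRing B] (K : GC B)

/-- The square of the differential vanishes. -/
def Sq0 : Prop := K.mat * K.mat = 0

/-- All degrees are at most `L`. -/
def Top (L : ℕ) : Prop := ∀ a, K.deg a ≤ L

/-- The rank in degree `i`. -/
def rk (i : ℕ) : ℕ := (Finset.univ.filter fun a => K.deg a = i).card

/-- The sign matrix. -/
def eps : Matrix K.ι K.ι B := Matrix.diagonal fun a => (-1) ^ K.deg a

/-- The matrix `f` is a map `L → K` that raises degrees by `k`. -/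
def Hg (K L : GC B) (k : ℤ) (f : Matrix K.ι L.ι B) : Prop :=
  ∀ a b, f a b ≠ 0 → (K.deg a : ℤ) = L.deg b + k

/-- Elements that act null-homotopically. -/
def nh : Ideal B where
  carrier := {z | ∃ h : Matrix K.ι K.ι B, Hg K K 1 h ∧
    K.mat * h + h * K.mat = z • (1 : Matrix K.ι K.ι B)}
  zero_mem' := ⟨0, fun a b h => absurd rfl h, by simp⟩
  add_mem' := by
    rintro z z' ⟨h, h1, h2⟩ ⟨h', h1', h2'⟩
    refine ⟨h + h', fun a b hab => ?_, ?_⟩
    · by_contra hne
      have e1 : h a b = 0 := by_contra fun h0 => hne (h1 a b h0)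
      have e2 : h' a b = 0 := by_contra fun h0 => hne (h1' a b h0)
      exact hab (by simp [e1, e2])
    · rw [mul_add, add_mul, add_smul, ← h2, ← h2']
      abel
  smul_mem' := by
    rintro c z ⟨h, h1, h2⟩
    refine ⟨c • h, fun a b hab => h1 a b fun h0 => hab (by simp [h0]), ?_⟩
    rw [Matrix.mul_smul, Matrix.smul_mul, ← smul_add, h2, smul_assoc]

/-- Homotopy equivalence. -/
def Htpy (K L : GC B) : Prop :=
  ∃ (f : Matrix K.ι L.ι B) (g : Matrix L.ι K.ι B) (h : Matrix K.ι K.ι B) (h' : Matrix L.ι L.ι B),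
    Hg K L 0 f ∧ Hg L K 0 g ∧ Hg K K 1 h ∧ Hg L L 1 h' ∧ K.mat * f = f * L.mat ∧
    L.mat * g = g * K.mat ∧ f * g - 1 = K.mat * h + h * K.mat ∧
    g * f - 1 = L.mat * h' + h' * L.mat

/-- Isomorphism given by a bijection of the bases and signs. -/
def SIso (K L : GC B) : Prop :=
  ∃ (e : K.ι ≃ L.ι) (s : K.ι → ℤˣ), (∀ a, L.deg (e a) = K.deg a) ∧
    ∀ a b, L.mat (e a) (e b) = (((s a * s b : ℤˣ) : ℤ) : B) * K.mat a b

/-- Base change. -/
@[reducible] def map {B' : Type u} [CommRing B'] (f : B →+* B') : GC B' where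
  ι := K.ι
  deg := K.deg
  mat := K.mat.map f
  hom a b h := K.hom a b fun h1 => h (by simp [h1])

/-- The mapping cone of multiplication by `y`. -/
@[reducible] def cone (y : B) : GC B where
  ι := K.ι ⊕ K.ι
  deg := Sum.elim K.deg fun a => K.deg a + 1
  mat := Matrix.fromBlocks K.mat (y • (1 : Matrix K.ι K.ι B)) 0 (-K.mat)
  hom := by
    rintro (a | a) (b | b) h
    · exact K.hom a b h
    · have : a = b := by
        by_contra hne
        exact h (by simp [Matrix.one_apply_ne hne])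
      simp [this]
    · exact absurd rfl h
    · have := K.hom a b (by simpa using h)
      simp [this]

/-- The iterated cone. -/
def kos (K : GC B) : List B → GC B
  | [] => K
  | y :: l => (kos K l).cone y

/-- A complex with zero differential. -/
@[reducible] def disc (B : Type u) [CommRing B] {ι : Type} [Fintype ι] [DecidableEq ι]
    (e : ι → ℕ) : GC B where
  ι := ι
  deg := e
  mat := 0
  hom _ _ h := absurd rfl h

/-- The ring in degree zero. -/
@[reducible] def one (B : Type u) [CommRing B] : GC B := disc B fun _ : Unit => 0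

/-- The standard contractible complex. -/
@[reducible] def std (B : Type u) [CommRing B] {n : ℕ} (e : Fin n → ℕ) : GC B :=
  (disc B e).cone 1

/-- Direct sum. -/
@[reducible] def sum (K L : GC B) : GC B where
  ι := K.ι ⊕ L.ι
  deg := Sum.elim K.deg L.deg
  mat := Matrix.fromBlocks K.mat 0 0 L.mat
  hom := by
    rintro (a | a) (b | b) h
    · exact K.hom a b h
    · exact absurd rfl h
    · exact absurd rfl h
    · exact L.hom a b h

/-- Tensor product. -/
@[reducible] def tens (K L : GC B) : GC B where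
  ι := K.ι × L.ι
  deg a := K.deg a.1 + L.deg a.2
  mat := K.mat ⊗ₖ (1 : Matrix L.ι L.ι B) + K.eps ⊗ₖ L.mat
  hom := by
    rintro ⟨a, b⟩ ⟨a', b'⟩ h
    by_contra hne
    apply h
    simp only [Matrix.add_apply, Matrix.kroneckerMap_apply, eps]
    have h1 : K.mat a a' * (1 : Matrix L.ι L.ι B) b b' = 0 := by
      by_cases e : b = b'
      · subst e
        have : K.mat a a' = 0 := by_contra fun h0 => hne (by have := K.hom a a' h0; simp; omega)
        simp [this]
      · simp [Matrix.one_apply_ne e]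
    have h2 : (Matrix.diagonal fun a => (-1 : B) ^ K.deg a) a a' * L.mat b b' = 0 := by
      by_cases e : a = a'
      · subst e
        have : L.mat b b' = 0 := by_contra fun h0 => hne (by have := L.hom b b' h0; simp; omega)
        simp [this]
      · simp [Matrix.diagonal_apply_ne _ e]
    rw [h1, h2, add_zero]

section coef

variable {E : Type u} [AddCommGroup E] [Module B E]

/-- The differential of `K ⊗ E`. -/
abbrev d (E : Type u) [AddCommGroup E] [Module B E] : (K.ι → E) →ₗ[B] (K.ι → E) := mact E K.mat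

/-- The graded family with coefficients `X a` at the basis vector `a`. -/
def cf (X : K.ι → Submodule B E) (n : ℤ) : Submodule B (K.ι → E) :=
  Submodule.pi Set.univ fun a => if (K.deg a : ℤ) = n then X a else ⊥

/-- The complex `K ⊗ N`. -/
abbrev cw (N : Submodule B E) : ℤ → Submodule B (K.ι → E) := K.cf fun _ => N

/-- Cycles of `K ⊗ (N'' / N')`. -/
abbrev Zy (N' N'' : Submodule B E) (n : ℤ) : Submodule B (K.ι → E) :=
  Zc (K.d E) (K.cw N') (K.cw N'') n

/-- Boundaries of `K ⊗ (N'' / N')`. -/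
abbrev Bd (N' N'' : Submodule B E) (n : ℤ) : Submodule B (K.ι → E) :=
  Bc (K.d E) (K.cw N') (K.cw N'') n

/-- The homology modules of `K`. -/
abbrev H (n : ℤ) : Type u := HM (K.Bd (⊥ : Submodule B B) ⊤ n) (K.Zy (⊥ : Submodule B B) ⊤ n)

/-- The signed coefficient differential. -/
def sg (δ : E →ₗ[B] E) : (K.ι → E) →ₗ[B] (K.ι → E) :=
  LinearMap.pi fun a => (((-1 : ℤ) ^ K.deg a : ℤ) : B) •
    (δ ∘ₗ (LinearMap.proj a : (K.ι → E) →ₗ[B] E))

/-- The total differential of `K ⊗ E`. -/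
def dt (δ : E →ₗ[B] E) : (K.ι → E) →ₗ[B] (K.ι → E) := K.sg δ + K.d E

/-- The total complex with coefficient complex `G`. -/
def T (G : ℤ → Submodule B E) (n : ℤ) : Submodule B (K.ι → E) :=
  Submodule.pi Set.univ fun a => G (n - K.deg a)

/-- A resolution of the target of `aug` that is exact in degrees at most `L`. -/
structure PRes (aug : (K.ι → B) →ₗ[B] E) (L : ℕ) : Prop where
  sq : K.Sq0
  aug0 : ∀ n : ℤ, n ≠ 0 → ∀ x ∈ K.cw (⊤ : Submodule B B) n, aug x = 0
  surj : Function.Surjective aug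
  comp : ∀ x, aug (K.d B x) = 0
  ex0 : ∀ x ∈ K.cw (⊤ : Submodule B B) 0, aug x = 0 → x ∈ K.Bd (⊥ : Submodule B B) ⊤ 0
  ex : ∀ n : ℤ, 1 ≤ n → n ≤ L → K.Zy (⊥ : Submodule B B) ⊤ n ≤ K.Bd ⊥ ⊤ n

/-- A finite free resolution. -/
def IsRes (aug : (K.ι → B) →ₗ[B] E) : Prop := ∀ L, K.PRes aug L

end coef

end GC

section sizes

variable {B : Type u} [CommRing B] {E : Type u} [AddCommGroup E] [Module B E]

/-- Size of the homology of `K ⊗ (N'' / N')`. -/
abbrev hG (μ : RLen B) (K : GC B) (N' N'' : Submodule B E) (n : ℤ) : ℝ≥0∞ :=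
  hr μ (K.d E) (K.cw N') (K.cw N'') n

/-- Finiteness of the homology of `K ⊗ (N'' / N')`. -/
abbrev GoodG (μ : RLen B) (K : GC B) (N' N'' : Submodule B E) : Prop :=
  GoodR μ (K.d E) (K.cw N') (K.cw N'')

/-- Euler characteristic of `K ⊗ (N'' / N')`. -/
abbrev chiG (μ : RLen B) (K : GC B) (N' N'' : Submodule B E) : ℝ :=
  chiR μ (K.d E) (K.cw N') (K.cw N'')

/-- Size of the cokernel of `y` on `Z / A`. -/
def ck (μ : RLen B) (y : B) (A Z : Submodule B E) : ℝ≥0∞ :=
  rr μ (A ⊔ Z.map (LinearMap.lsmul B E y)) Z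

/-- Size of the kernel of `y` on `Z / A`. -/
def kr (μ : RLen B) (y : B) (A Z : Submodule B E) : ℝ≥0∞ :=
  rr μ A (Z ⊓ A.comap (LinearMap.lsmul B E y))

/-- Modules killed by `κ` have size zero. -/
def Null (μ : RLen B) (κ : B) : Prop :=
  ∀ (M : Type u) [AddCommGroup M] [Module B M], (∀ x : M, κ • x = 0) → μ.len M = 0

/-- The invariants of `r` in a family. -/
def iv (r : E →ₗ[B] E) (F : ℤ → Submodule B E) (n : ℤ) : Submodule B E :=
  F n ⊓ LinearMap.eqLocus r LinearMap.id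

/-- The family is stable under `r`. -/
def Stab (r : E →ₗ[B] E) (F : ℤ → Submodule B E) : Prop := ∀ n, (F n).map r ≤ F n

/-- An action of the cyclic group of order `l`. -/
structure Act (l : ℕ) (d r : E →ₗ[B] E) : Prop where
  comm : ∀ x, r (d x) = d (r x)
  ord : r ^ l = 1
  unit : IsUnit (l : B)

/-- Finiteness for the complex and its invariants. -/
def GoodP (μ : RLen B) (d r : E →ₗ[B] E) (F' F'' : ℤ → Submodule B E) : Prop :=
  GoodR μ d F' F'' ∧ GoodR μ d (iv r F') (iv r F'')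

/-- The cyclic Adams operation, numerically. -/
def psi (μ : RLen B) (l : ℕ) (d r : E →ₗ[B] E) (F' F'' : ℤ → Submodule B E) : ℝ :=
  l * chiR μ d (iv r F') (iv r F'') - chiR μ d F' F''

end sizes

section power

variable {B : Type u} [CommRing B] (l : ℕ) [NeZero l]

/-- The tensor product of a family of matrices. -/
def prodM {ι κ : Type} (A : ZMod l → Matrix ι κ B) : Matrix (ZMod l → ι) (ZMod l → κ) B :=
  Matrix.of fun α β => ∏ i, A i (α i) (β i)

/-- The cyclic tournament. -/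
def inS (i j : ZMod l) : Prop := 1 ≤ (j - i).val ∧ (j - i).val ≤ l / 2

instance (i j : ZMod l) : Decidable (inS l i j) := inferInstanceAs (Decidable (_ ∧ _))

/-- Rotation of multi-indices. -/
def rot (ι : Type) (c : ZMod l) (α : ZMod l → ι) : ZMod l → ι := fun i => α (i + c)

/-- Rotation acting on vectors. -/
def rotL (B : Type u) [CommRing B] (ι : Type) (E : Type u) [AddCommGroup E] [Module B E] :
    ((ZMod l → ι) → E) →ₗ[B] ((ZMod l → ι) → E) := LinearMap.funLeft B E (rot l ι 1)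

/-- Orbits of rotation. -/
def orb (ι : Type) : Setoid (ZMod l → ι) where
  r α β := ∃ c, β = rot l ι c α
  iseqv := by
    refine ⟨fun α => ⟨0, by funext i; simp [rot]⟩, ?_, ?_⟩
    · rintro α _ ⟨c, rfl⟩
      exact ⟨-c, by funext i; simp [rot]⟩
    · rintro α _ _ ⟨c, rfl⟩ ⟨c', rfl⟩
      exact ⟨c' + c, by funext i; simp [rot, add_assoc]⟩

namespace GC

variable (K : GC B)

/-- The matrix `A` in slot `i`, with the Koszul signs. -/
def slot (i : ZMod l) (A : Matrix K.ι K.ι B) (j : ZMod l) : Matrix K.ι K.ι B :=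
  if j = i then A else if inS l i j then K.eps else 1

/-- The `l`-th tensor power. -/
@[reducible] def tp : GC B where
  ι := ZMod l → K.ι
  deg α := ∑ i, K.deg (α i)
  mat := ∑ i, prodM l (slot l K i K.mat)
  hom := by
    intro α β h
    rw [Matrix.sum_apply] at h
    obtain ⟨i, -, hi⟩ := Finset.exists_ne_zero_of_sum_ne_zero h
    have h1 : ∀ j, slot l K i K.mat j (α j) (β j) ≠ 0 := fun j h0 =>
      hi (Finset.prod_eq_zero (Finset.mem_univ j) h0)
    have h2 : ∀ j, K.deg (β j) = K.deg (α j) + if j = i then 1 else 0 := by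
      intro j
      have h3 := h1 j
      unfold slot at h3
      split_ifs at h3 ⊢ with e1 e2
      · exact K.hom _ _ h3
      · have : α j = β j := by_contra fun e => h3 (Matrix.diagonal_apply_ne _ e)
        simp [this]
      · have : α j = β j := by_contra fun e => h3 (Matrix.one_apply_ne e)
        simp [this]
    simp [h2, Finset.sum_add_distrib]

open Classical in
/-- The invariants of the `l`-th tensor power. -/
@[reducible] def sp : GC B where
  ι := Quotient (orb l K.ι)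
  fin := Fintype.ofFinite _
  dec := Classical.decEq _
  deg O := (tp l K).deg O.out
  mat := Matrix.of fun O O' =>
    ∑ β ∈ Finset.univ.filter fun β => Quotient.mk (orb l K.ι) β = O', (tp l K).mat O.out β
  hom := by
    intro O O' h
    obtain ⟨β, hβ, hi⟩ := Finset.exists_ne_zero_of_sum_ne_zero h
    have h1 := (tp l K).hom _ _ hi
    have h2 : Quotient.mk (orb l K.ι) β = Quotient.mk (orb l K.ι) O'.out := by
      rw [Quotient.out_eq]
      exact (Finset.mem_filter.1 hβ).2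
    obtain ⟨c, hc⟩ := Quotient.exact h2
    rw [← h1, hc]
    exact Equiv.sum_comp (Equiv.addRight c) fun i => K.deg (β i)

end GC

variable {E : Type u} [AddCommGroup E] [Module B E]

/-- Finiteness for the tensor power and its invariants. -/
def GoodPG (μ : RLen B) (K : GC B) (N' N'' : Submodule B E) : Prop :=
  GoodG μ (K.tp l) N' N'' ∧ GoodG μ (K.sp l) N' N''

/-- The cyclic Adams operation on `K`, numerically. -/
def psiG (μ : RLen B) (K : GC B) (N' N'' : Submodule B E) : ℝ :=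
  l * chiG μ (K.sp l) N' N'' - chiG μ (K.tp l) N' N''

end power

/-- A partially defined additive function on modules. -/
structure EFn (R : Type u) [CommRing R] where
  good : ∀ (M : Type u) [AddCommGroup M] [Module R M], Prop
  val : ∀ (M : Type u) [AddCommGroup M] [Module R M], ℝ
  zero : ∀ (M : Type u) [AddCommGroup M] [Module R M] [Subsingleton M], good M ∧ val M = 0
  ses : ∀ {N M P : Type u} [AddCommGroup N] [Module R N] [AddCommGroup M] [Module R M]
    [AddCommGroup P] [Module R P] (f : N →ₗ[R] M) (g : M →ₗ[R] P), Function.Injective f →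
    Function.Surjective g → Function.Exact f g → good N → good P →
      good M ∧ val M = val N + val P

section reg

variable (R : Type u) [CommRing R]

/-- The intersection multiplicity of `M` and `N` is `x`. -/
def Chi (M N : Type u) [AddCommGroup M] [Module R M] [AddCommGroup N] [Module R N] (x : ℝ) :
    Prop :=
  ∀ (K : GC R) (aug : (K.ι → R) →ₗ[R] N), K.IsRes aug →
    GoodG (RLen.ofLen R) K (⊥ : Submodule R M) ⊤ ∧
      chiG (RLen.ofLen R) K (⊥ : Submodule R M) ⊤ = x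

/-- Finitely generated modules have finite free resolutions. -/
def HasRes : Prop :=
  ∀ (N : Type u) [AddCommGroup N] [Module R N] [Module.Finite R N],
    ∃ (K : GC R) (aug : (K.ι → R) →ₗ[R] N), K.IsRes aug

variable [IsLocalRing R]

/-- Regular of dimension `d`. -/
def RegL (d : ℕ) : Prop :=
  ringKrullDim R = d ∧ ∃ x : Fin d → R, Ideal.span (Set.range x) = maximalIdeal R

/-- Positivity for primes. -/
def Pos (d : ℕ) : Prop :=
  ∀ (P Q : Ideal R), P.IsPrime → Q.IsPrime → (∃ t, maximalIdeal R ^ t ≤ P ⊔ Q) →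
    ringKrullDim (R ⧸ P) + ringKrullDim (R ⧸ Q) = d → ∃ x, 0 < x ∧ Chi R (R ⧸ P) (R ⧸ Q) x

/-- Positivity for modules. -/
def PosM (d : ℕ) : Prop :=
  ∀ (M N : Type u) [AddCommGroup M] [Module R M] [Module.Finite R M] [AddCommGroup N]
    [Module R N] [Module.Finite R N],
    (∃ t, maximalIdeal R ^ t ≤ Module.annihilator R M ⊔ Module.annihilator R N) →
    Module.supportDim R M + Module.supportDim R N = d → ∃ x, 0 < x ∧ Chi R M N x

variable {R} in
/-- Vanishing for all pairs of primes strictly above `(P, Q)`. -/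
def VanAb (P Q : Ideal R) : Prop :=
  ∀ (P' Q' : Ideal R), P'.IsPrime → Q'.IsPrime → P ≤ P' → Q ≤ Q' → (P' ≠ P ∨ Q' ≠ Q) →
    Chi R (R ⧸ P') (R ⧸ Q') 0

end reg

section flag

variable {B : Type u} [CommRing B]

/-- Position in the flag. -/
def pos {n : ℕ} : Fin n ⊕ Fin n → ℕ := Sum.elim (fun k => 2 * k) fun k => 2 * k + 1

/-- A trivialisation of `K` away from `π` with the ideals of minors of the associated flag. -/
structure Setup (K : GC B) (π : B) {n : ℕ} (e : Fin n → ℕ) (b : Matrix K.ι (Fin n ⊕ Fin n) B)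
    (b' : Matrix (Fin n ⊕ Fin n) K.ι B) (c : ℕ) (𝔞 : ℕ → Ideal B) : Prop where
  sq : K.Sq0
  anti : Antitone e
  hb : GC.Hg K (GC.std B e) 0 b
  hb' : GC.Hg (GC.std B e) K 0 b'
  bb' : b * b' = π ^ c • (1 : Matrix K.ι K.ι B)
  b'b : b' * b = π ^ c • (1 : Matrix (Fin n ⊕ Fin n) (Fin n ⊕ Fin n) B)
  ch : K.mat * b = b * (GC.std B e).mat
  ch' : (GC.std B e).mat * b' = b' * K.mat
  top : 𝔞 0 = ⊤
  fa : ∀ j0, ∀ h ∈ 𝔞 (pos j0 + 1), ∃ lam : K.ι → B, (∀ a, lam a ∈ 𝔞 (pos j0)) ∧
    (∀ j, pos j < pos j0 → ∑ a, lam a * b a j = 0) ∧ ∑ a, lam a * b a j0 = h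
  fb : ∀ j0, ∀ h ∈ 𝔞 (pos j0), ∃ w : Fin n ⊕ Fin n → B, w j0 = h ∧
    (∀ j, pos j0 < pos j → w j = 0) ∧ ∀ a, ∑ j, b a j * w j ∈ 𝔞 (pos j0 + 1)

/-- Products of powers of the ideals. -/
def EE (N : ℕ) (𝔞 : ℕ → Ideal B) (n : ℕ → ℤ) : Ideal B :=
  ∏ r ∈ Finset.range (N + 1), 𝔞 r ^ (n r).toNat

/-- The size of an exponent. -/
def sz (N : ℕ) (n : ℕ → ℤ) : ℕ := ∑ r ∈ Finset.range (N + 1), (n r).toNat

/-- A basis exponent. -/
def ev (r : ℕ) : ℕ → ℤ := Pi.single r 1

/-- The exponent of the `r`-th graded piece of the flag. -/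
def dl (r : ℕ) : ℕ → ℤ := ev r - ev (r + 1)

/-- A constant exponent. -/
def cst (ρ : ℤ) : ℕ → ℤ := fun _ => ρ

/-- All exponents are at least `n0`. -/
def Ge (n0 : ℕ) (n : ℕ → ℤ) : Prop := ∀ r, (n0 : ℤ) ≤ n r

/-- A substitute for the sections of the line bundles on the blow-up. -/
structure Filt (N : ℕ) (𝔞 : ℕ → Ideal B) (π κ : B) (n0 : ℕ) (M : (ℕ → ℤ) → Ideal B) : Prop where
  top : M (cst 0) = ⊤
  mono : ∀ n n', EE N 𝔞 n' ≤ EE N 𝔞 n → M n' ≤ M n
  mul : ∀ r ≤ N, ∀ n, Ge 0 n → 𝔞 r * M n ≤ M (n + ev r)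
  gen : ∀ r ≤ N, ∀ n, Ge n0 n → ∀ x ∈ M (n + ev r), κ * x ∈ 𝔞 r * M n
  canc : ∀ r ≤ N, ∀ n, Ge n0 n → ∀ (C : ℕ) (y : B),
    (∀ h ∈ 𝔞 r, h * y ∈ Ideal.span {π ^ C} * M (n + ev r)) → κ * y ∈ Ideal.span {π ^ C} * M n

/-- The right hand side of the flag formula. -/
def fl (μ : RLen B) (M : (ℕ → ℤ) → Ideal B) {n : ℕ} (e : Fin n → ℕ) (l ρ : ℕ) : ℝ :=
  ∑ k : Fin n, (-1) ^ e k *
    (rr μ (M (cst ρ + (l : ℤ) • dl (2 * k + 1))) (M (cst ρ + (l : ℤ) • dl (2 * k)))).toReal

/-- The valuative closure of an ideal, away from `π`. -/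
def VM (π : B) (𝔢 : Ideal B) : Ideal B where
  carrier := {x | ∀ (Γ : Type u) [LinearOrderedCommGroupWithZero Γ] (v : Valuation B Γ),
    (∀ y, v y ≤ 1) → v π ≠ 0 → ∀ c : Γ, (∀ y ∈ 𝔢, v y ≤ c) → v x ≤ c}
  zero_mem' := fun Γ _ v _ _ c _ => by simp
  add_mem' := fun hx hy Γ _ v h1 h2 c hc => v.map_add_le (hx Γ v h1 h2 c hc) (hy Γ v h1 h2 c hc)
  smul_mem' := fun a x hx Γ _ v h1 h2 c hc => by
    rw [smul_eq_mul, map_mul]
    exact (mul_le_mul' (h1 a) (hx Γ v h1 h2 c hc)).trans (one_mul c).le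

/-- The strand of the Koszul complex with coefficients `G n` in degree `n` is exact up to `κ`. -/
def KEx (κ : B) {s : ℕ} (y : Fin s → B) (G : ℕ → Ideal B) : Prop :=
  ∀ n : ℕ, ∀ ξ ∈ Kos Finset.univ (G n) (n : ℤ), kd y B ξ = 0 →
    ∃ η ∈ Kos Finset.univ (G (n + 1)) ((n + 1 : ℕ) : ℤ), kd y B η = κ • ξ

/-- The ideal is generated by `s` elements. -/
def GenBy (s : ℕ) (I : Ideal B) : Prop := ∃ a : Fin s → B, Ideal.span (Set.range a) = I

/-- Linear Artin-Rees with constant `c`. -/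
def LAR (N : ℕ) (𝔞 : ℕ → Ideal B) (𝔪 : Ideal B) (c : ℕ) : Prop :=
  ∀ (n : ℕ → ℤ) (J : ℕ), EE N 𝔞 n ⊓ 𝔪 ^ (J + c * sz N n) ≤ 𝔪 ^ J * EE N 𝔞 n

end flag

section objects

open Polynomial

variable {A C : Type u} [CommRing A] [CommRing C] [Algebra A C]

/-- A finite extension of a regular local ring with a primitive element. -/
structure Dat [IsLocalRing A] [IsLocalRing C] (p : ℕ) {σ : Type} (Xv : σ → A) (θ : C) (F : A[X])
    (Δ Γ : A) : Prop where
  max : maximalIdeal A = Ideal.span (insert (p : A) (Set.range Xv))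
  reg : PermReg fun o : Option σ => o.elim (p : A) Xv
  dimA : ringKrullDim A ≤ (Nat.card σ + 1 : ℕ)
  dimC : ringKrullDim C = (Nat.card σ + 1 : ℕ)
  fin : Module.Finite A C
  inj : Function.Injective (algebraMap A C)
  loc : IsLocalHom (algebraMap A C)
  res : Function.Surjective ((residue C).comp (algebraMap A C))
  monic : F.Monic
  deg : 1 ≤ F.natDegree
  root : aeval θ F = 0
  ker : ∀ H : A[X], aeval θ H = 0 → F ∣ H
  den : ∀ c : C, ∃ H : A[X], aeval θ H = Δ • c
  gam : Polynomial.C Γ ∈ Ideal.span {F, derivative F}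
  ne1 : Δ ≠ 0
  ne2 : Γ ≠ 0

/-- An almost isomorphism modulo `p` over which `F` splits. -/
structure Cov (p : ℕ) (θ : C) (F : A[X]) {U B : Type u} [CommRing U] [CommRing B] (α : A →+* U)
    (j : U →+* B) (κ : U) (τ : Fin F.natDegree → C →+* B) : Prop where
  flat : α.Flat
  pB : (p : B) ∈ nonZeroDivisors B
  r1 : ∀ b, ∃ u, j κ * b - j u ∈ Ideal.span {(p : B)}
  r2 : ∀ u, j u ∈ Ideal.span {(p : B)} → κ * u ∈ Ideal.span {(p : U)}
  tau : ∀ i a, τ i (algebraMap A C a) = j (α a)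
  split : F.map (j.comp α) = ∏ i, (X - Polynomial.C (τ i θ))

/-- A prism-like lift of `B`. -/
structure Pri (p : ℕ) {AA B : Type u} [CommRing AA] [CommRing B] (t : AA) (I : Ideal AA)
    (β : AA →+* B) : Prop where
  surj : Function.Surjective β
  ker : RingHom.ker β = Ideal.span {(p : AA) - t}
  cpl : IsAdicComplete I AA
  pA : (p : AA) ∈ nonZeroDivisors AA
  xi : (p : AA) - t ∈ nonZeroDivisors AA
  tA : ∀ z, t * z ∈ Ideal.span {(p : AA)} → z ∈ Ideal.span {(p : AA)}
  dist : ∀ (J : Ideal AA) (c : ℕ) (u : AA), J ^ c ≤ I → u * (p - t) - p ∈ J ^ 2 → IsUnit u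

/-- The almost Artin-Rees property. -/
def AAR {B : Type u} [CommRing B] (N : ℕ) (𝔞 : ℕ → Ideal C) (𝔪 : Ideal C) (c : ℕ) (τ : C →+* B)
    (κ : B) (M : (ℕ → ℤ) → Ideal B) : Prop :=
  ∀ (n n' : ℕ → ℤ) (j : ℕ), 𝔪 ^ j * EE N 𝔞 n ≤ EE N 𝔞 n' → ∀ x ∈ M n,
    x ∈ (𝔪 ^ (c * (sz N n + j + 1))).map τ → κ ^ (c * (sz N n + j + 1)) * x ∈ M n'

/-- The data produced by the perfectoid construction. -/
structure Obj (A C : Type u) [CommRing A] [CommRing C] (nF s : ℕ) where
  A0 : Type u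
  AA : Type u
  U : Type u
  B : Type u
  [i0 : CommRing A0]
  [i1 : CommRing AA]
  [i2 : CommRing U]
  [i3 : CommRing B]
  α0 : A →+* A0
  ψ : A0 →+* AA
  β0 : A0 →+* U
  β : AA →+* B
  j : U →+* B
  t0 : A0
  κ0 : A0
  τ : Fin nF → C →+* B
  μ : RLen A0
  M : Fin nF → (ℕ → ℤ) → Ideal B
  η : Fin nF → Fin s → B

attribute [instance] Obj.i0 Obj.i1 Obj.i2 Obj.i3

namespace Obj

variable [IsLocalRing A] {nF s : ℕ} (O : Obj A C nF s)

/-- The ideal of definition. -/
def I0 : Ideal O.A0 := (maximalIdeal A).map O.α0 ⊔ Ideal.span {O.t0}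

/-- The structure map to `B`. -/
abbrev toB : O.A0 →+* O.B := O.j.comp O.β0

end Obj

/-- The properties of the perfectoid data. -/
structure Obj.Ok [IsLocalRing A] (p : ℕ) (θ : C) (F : A[X]) (N : ℕ) (𝔞 : ℕ → Ideal C)
    (n0 c2 : ℕ) {s : ℕ} (ε : ℝ≥0∞) (O : Obj A C F.natDegree s) : Prop where
  comm : ∀ a, O.β (O.ψ a) = O.j (O.β0 a)
  pri : Pri p (O.ψ O.t0) (O.I0.map O.ψ) O.β
  cov : Cov p θ F (O.β0.comp O.α0) O.j (O.β0 O.κ0) O.τ
  t0U : O.β0 O.t0 = p
  n1 : ∀ u, ∃ a, u - O.β0 a ∈ O.I0.map O.β0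
  n2 : ∀ a, O.β0 a ∈ O.I0.map O.β0 → a ∈ O.I0
  one : O.μ.q O.I0 = 1
  small : O.μ.q (O.I0 ⊔ Ideal.span {O.κ0}) ≤ ε
  filt : ∀ i, Filt N (fun r => (𝔞 r).map (O.τ i)) p (O.toB O.κ0) n0 (O.M i)
  mulη : ∀ i j n, Ge 0 n → ∀ x ∈ O.M i n, O.η i j * x ∈ O.M i (n + cst 1)
  kos : ∀ i (m : ℕ), 1 ≤ m → KEx (O.toB O.κ0) (fun j => O.η i j ^ m)
    fun j => O.M i (cst (((s - j) * m : ℕ) : ℤ))
  ar : ∀ i, AAR N 𝔞 ((maximalIdeal A).map (algebraMap A C)) c2 (O.τ i) (O.toB O.κ0) (O.M i)

end objects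

end

end Vale.Agent.P177
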