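import Vale.Agent.P177.TT

/-! Total complexes: the canonical filtration of the coefficients. -/

namespace Vale.Agent.P177

open Vale.Agent.P202
open scoped ENNReal

universe u

variable {B : Type u} [CommRing B] {E : Type u} [AddCommGroup E] [Module B E]

namespace GC

variable {K : GC B} {δ : E →ₗ[B] E} {G G' : ℤ → Submodule B E} {L' : ℕ}

/-- The truncation with the value `W` in degree `j`. -/
def e1t (G' G : ℤ → Submodule B E) (j : ℤ) (W : Submodule B E) (n : ℤ) : Submodule B E :=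
  if j < n then G n else if n = j then W else G' n

theorem e1t_gt {j n : ℤ} (W : Submodule B E) (h : j < n) : e1t G' G j W n = G n := if_pos h

theorem e1t_eq (j : ℤ) (W : Submodule B E) : e1t G' G j W j = W := by simp [e1t]

theorem e1t_lt {j n : ℤ} (W : Submodule B E) (h : n < j) : e1t G' G j W n = G' n := by
  unfold e1t
  rw [if_neg (by omega), if_neg (by omega)]

theorem e1t_isCx (h' : IsCx δ G') (h : IsCx δ G) {j : ℤ} {W : Submodule B E}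
    (h1 : Bc δ G' G j ≤ W) (h2 : W ≤ Zc δ G' G j) : IsCx δ (e1t G' G j W) := by
  intro n
  rcases lt_trichotomy n j with c | rfl | c
  · rw [e1t_lt W c, e1t_lt W (by omega)]
    exact h' n
  · rw [e1t_eq, e1t_lt W (by omega)]
    exact Submodule.map_le_iff_le_comap.2 (h2.trans inf_le_right)
  · rw [e1t_gt W c]
    by_cases e : n = j + 1
    · subst e
      rw [add_sub_cancel_right, e1t_eq]
      exact le_sup_right.trans h1
    · rw [e1t_gt W (by omega)]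
      exact h n

theorem e1t_mono {j : ℤ} {W W' : Submodule B E} (h : W ≤ W') :
    e1t G' G j W ≤ e1t G' G j W' := by
  intro n
  unfold e1t
  split_ifs
  exacts [le_rfl, h, le_rfl]

theorem e1t_succ (j : ℤ) :
    e1t G' G (j + 1) (Zc δ G' G (j + 1)) ≤ e1t G' G j (Bc δ G' G j) := by
  intro n
  rcases lt_trichotomy n j with c | rfl | c
  · rw [e1t_lt _ c, e1t_lt _ (by omega)]
  · rw [e1t_eq, e1t_lt _ (by omega)]
    exact le_sup_left
  · rw [e1t_gt _ c]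
    by_cases e : n = j + 1
    · subst e
      rw [e1t_eq]
      exact inf_le_left
    · rw [e1t_gt _ (by omega)]

theorem e1t_exa (j n : ℤ) :
    Zc δ (e1t G' G (j + 1) (Zc δ G' G (j + 1))) (e1t G' G j (Bc δ G' G j)) n ≤
      Bc δ (e1t G' G (j + 1) (Zc δ G' G (j + 1))) (e1t G' G j (Bc δ G' G j)) n := by
  rcases lt_trichotomy n j with c | rfl | c
  · refine inf_le_left.trans (le_trans ?_ le_sup_left)
    rw [e1t_lt _ c, e1t_lt _ (by omega)]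
  · refine inf_le_left.trans ?_
    rw [e1t_eq, Bc, Bc, e1t_lt _ (by omega), e1t_gt _ (by omega)]
  · refine le_trans ?_ le_sup_left
    by_cases e : n = j + 1
    · subst e
      rw [e1t_eq, Zc, Zc, e1t_gt _ c, e1t_lt _ (by omega)]
    · refine inf_le_left.trans ?_
      rw [e1t_gt _ c, e1t_gt _ (by omega)]

theorem e1t_zero (h : IsCx δ G) (hle : G' ≤ G) (hs : ∀ j, j < 0 → G j ≤ G' j) :
    e1t G' G 0 (Zc δ G' G 0) = G := by
  funext n
  rcases lt_trichotomy n 0 with c | rfl | c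
  · rw [e1t_lt _ c]
    exact le_antisymm (hle n) (hs n c)
  · rw [e1t_eq]
    exact le_antisymm inf_le_left (le_inf le_rfl
      (Submodule.map_le_iff_le_comap.1 ((h 0).trans (hs _ (by omega)))))
  · exact e1t_gt _ c

theorem e1t_top (h' : IsCx δ G') (hle : G' ≤ G) {j : ℤ} (hs : ∀ n, j ≤ n → G n ≤ G' n) :
    e1t G' G j (Zc δ G' G j) = G' := by
  funext n
  rcases lt_trichotomy n j with c | rfl | c
  · exact e1t_lt _ c
  · rw [e1t_eq]
    exact le_antisymm (inf_le_left.trans (hs n le_rfl))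
      (le_inf (hle n) (Submodule.map_le_iff_le_comap.1 (h' n)))
  · rw [e1t_gt _ c]
    exact le_antisymm (hs n c.le) (hle n)

theorem e1_single (μ : RLen B) (hδ : δ ∘ₗ δ = 0) (h' : IsCx δ G') (h : IsCx δ G) (hle : G' ≤ G)
    (j n : ℤ) : hr μ (K.dt δ) (K.T (e1t G' G j (Bc δ G' G j))) (K.T (e1t G' G j (Zc δ G' G j))) n =
      hG μ K (Bc δ G' G j) (Zc δ G' G j) (n - j) := by
  have b := Bc_le_Zc' (sq_of_comp hδ G' G) h' h hle j
  rw [T_single μ K (e1t_isCx h' h le_rfl b) (e1t_isCx h' h b le_rfl) (e1t_mono b) j, e1t_eq, e1t_eq]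
  intro i hi
  rcases lt_or_gt_of_ne hi with c | c
  · rw [e1t_lt _ c, e1t_lt _ c]
  · rw [e1t_gt _ c, e1t_gt _ c]

theorem e1_step (μ : RLen B) (hK : K.Sq0) (hδ : δ ∘ₗ δ = 0) (h' : IsCx δ G') (h : IsCx δ G)
    (hle : G' ≤ G) (j n : ℤ) :
    hr μ (K.dt δ) (K.T (e1t G' G (j + 1) (Zc δ G' G (j + 1)))) (K.T (e1t G' G j (Zc δ G' G j))) n =
      hG μ K (Bc δ G' G j) (Zc δ G' G j) (n - j) := by
  have b := Bc_le_Zc' (sq_of_comp hδ G' G) h' h hle
  have c1 := e1t_isCx h' h (b (j + 1)) le_rfl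
  have c2 := e1t_isCx h' h le_rfl (b j)
  have c3 := e1t_isCx h' h (b j) le_rfl
  have tri : Tri (K.dt δ) (K.T (e1t G' G (j + 1) (Zc δ G' G (j + 1))))
      (K.T (e1t G' G j (Bc δ G' G j))) (K.T (e1t G' G j (Zc δ G' G j))) :=
    ⟨sq_of_comp (hK.dt_comp hδ) _ _, K.T_isCx c1, K.T_isCx c2, K.T_isCx c3,
      K.T_mono (e1t_succ j), K.T_mono (e1t_mono (b j))⟩
  have z := T_hr_zero μ hK hδ c1 c2 (e1t_succ j) fun m => rr_eq_zero_of_le μ (e1t_exa j m)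
  have a1 := tri.le_add μ n
  have a2 := tri.quot_le μ n
  rw [z, zero_add] at a1
  rw [z, add_zero] at a2
  rw [le_antisymm a1 a2, e1_single μ hδ h' h hle]

/-- The canonical filtration. -/
def e1F (δ : E →ₗ[B] E) (G' G : ℤ → Submodule B E) (L' i : ℕ) : ℤ → Submodule B E :=
  e1t G' G (L' + 1 - i) (Zc δ G' G (L' + 1 - i))

theorem e1F_facts (μ : RLen B) (hK : K.Sq0) (hδ : δ ∘ₗ δ = 0) (h' : IsCx δ G')
    (h : IsCx δ G) (hle : G' ≤ G) (hs : ∀ j, j < 0 ∨ (L' : ℤ) < j → G j ≤ G' j) :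
    e1F δ G' G L' 0 = G' ∧ e1F δ G' G L' (L' + 1) = G ∧ (∀ i, IsCx δ (e1F δ G' G L' i)) ∧
      (∀ i, e1F δ G' G L' i ≤ e1F δ G' G L' (i + 1)) ∧ ∀ i < L' + 1, ∀ n,
        hr μ (K.dt δ) (K.T (e1F δ G' G L' i)) (K.T (e1F δ G' G L' (i + 1))) n =
          hG μ K (Bc δ G' G (L' + 1 - 1 - i : ℕ)) (Zc δ G' G (L' + 1 - 1 - i : ℕ))
            (n - (L' + 1 - 1 - i : ℕ)) := by
  have b := Bc_le_Zc' (sq_of_comp hδ G' G) h' h hle
  have e1 : ∀ i : ℕ, (L' : ℤ) + 1 - i = L' - i + 1 := fun i => by ring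
  have e2 : ∀ i : ℕ, (L' : ℤ) + 1 - (i + 1 : ℕ) = L' - i := fun i => by push_cast; ring
  refine ⟨e1t_top h' hle fun n hn => hs n (Or.inr (by omega)), ?_,
    fun i => e1t_isCx h' h (b _) le_rfl, fun i => ?_, fun i hi n => ?_⟩
  · unfold e1F
    rw [show (L' : ℤ) + 1 - (L' + 1 : ℕ) = 0 by omega]
    exact e1t_zero h hle fun j hj => hs j (Or.inl hj)
  · unfold e1F
    rw [e1, e2]
    exact (e1t_succ _).trans (e1t_mono (b _))
  · unfold e1F
    rw [e1, e2, show ((L' + 1 - 1 - i : ℕ) : ℤ) = L' - i by omega]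
    exact e1_step μ hK hδ h' h hle _ n

theorem E1_le (μ : RLen B) (hK : K.Sq0) (hδ : δ ∘ₗ δ = 0) (h' : IsCx δ G')
    (h : IsCx δ G) (hle : G' ≤ G) (hs : ∀ j, j < 0 ∨ (L' : ℤ) < j → G j ≤ G' j) (n : ℤ) :
    hr μ (K.dt δ) (K.T G') (K.T G) n ≤
      ∑ j ∈ Finset.range (L' + 1), hG μ K (Bc δ G' G j) (Zc δ G' G j) (n - j) := by
  obtain ⟨f0, f1, f2, f3, f4⟩ := e1F_facts μ hK hδ h' h hle hs
  have key := hr_chain_le μ (fun i => K.T (e1F δ G' G L' i)) (L' + 1)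
    (sq_of_comp (hK.dt_comp hδ) _ _) (fun i _ => K.T_isCx (f2 i)) (fun i _ => K.T_mono (f3 i)) n
  simp only [f0, f1] at key
  refine key.trans (le_of_eq ?_)
  rw [← Finset.sum_range_reflect fun j : ℕ => hG μ K (Bc δ G' G j) (Zc δ G' G j) (n - j)]
  exact Finset.sum_congr rfl fun i hi => f4 i (Finset.mem_range.1 hi) n

theorem E1_chi (μ : RLen B) (hK : K.Sq0) (hδ : δ ∘ₗ δ = 0) (h' : IsCx δ G')
    (h : IsCx δ G) (hle : G' ≤ G) (hs : ∀ j, j < 0 ∨ (L' : ℤ) < j → G j ≤ G' j)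
    (hg : ∀ j : ℕ, j ≤ L' → GoodG μ K (Bc δ G' G j) (Zc δ G' G j)) :
    GoodR μ (K.dt δ) (K.T G') (K.T G) ∧ chiR μ (K.dt δ) (K.T G') (K.T G) =
      ∑ j ∈ Finset.range (L' + 1), (-1 : ℝ) ^ j * chiG μ K (Bc δ G' G j) (Zc δ G' G j) := by
  obtain ⟨f0, f1, f2, f3, f4⟩ := e1F_facts μ hK hδ h' h hle hs
  have s := fun i (hi : i < L' + 1) => good_chi_of_hr_shift μ (-((L' + 1 - 1 - i : ℕ) : ℤ))
    fun n => (f4 i hi n).trans (congrArg _ (sub_eq_add_neg _ _))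
  have key := good_chiR_chain μ (fun i => K.T (e1F δ G' G L' i)) (L' + 1)
    (sq_of_comp (hK.dt_comp hδ) _ _) (fun i _ => K.T_isCx (f2 i)) (fun i _ => K.T_mono (f3 i))
    fun i hi => (s i hi).1.2 (hg _ (by omega))
  simp only [f0, f1] at key
  refine ⟨key.1, key.2.trans ?_⟩
  rw [← Finset.sum_range_reflect fun j : ℕ => (-1 : ℝ) ^ j * chiG μ K (Bc δ G' G j) (Zc δ G' G j)]
  refine Finset.sum_congr rfl fun i hi => (s i (Finset.mem_range.1 hi)).2.trans ?_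
  rw [Int.negOnePow_neg, Int.cast_negOnePow_natCast]

theorem E1_single (μ : RLen B) (hK : K.Sq0) (hδ : δ ∘ₗ δ = 0) (h' : IsCx δ G')
    (h : IsCx δ G) (hle : G' ≤ G) (hs : ∀ j, j < 0 → G j ≤ G' j) {Lm : ℕ}
    (hex : ∀ j : ℤ, 1 ≤ j → j ≤ Lm → Zc δ G' G j ≤ Bc δ G' G j) {n : ℤ} (hn : n ≤ Lm) :
    hr μ (K.dt δ) (K.T G') (K.T G) n = hG μ K (Bc δ G' G 0) (Zc δ G' G 0) n := by
  have b := Bc_le_Zc' (sq_of_comp hδ G' G) h' h hle 0
  have c2 := e1t_isCx h' h le_rfl b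
  have l1 : G' ≤ e1t G' G 0 (Bc δ G' G 0) := by
    intro m
    rcases lt_trichotomy m 0 with c | rfl | c
    · rw [e1t_lt _ c]
    · rw [e1t_eq]
      exact le_sup_left
    · rw [e1t_gt _ c]
      exact hle m
  have e0 := e1t_zero h hle hs
  have l2 : e1t G' G 0 (Bc δ G' G 0) ≤ G := (e1t_mono b).trans e0.le
  have tri : Tri (K.dt δ) (K.T G') (K.T (e1t G' G 0 (Bc δ G' G 0))) (K.T G) :=
    ⟨sq_of_comp (hK.dt_comp hδ) _ _, K.T_isCx h', K.T_isCx c2, K.T_isCx h, K.T_mono l1,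
      K.T_mono l2⟩
  have z0 : ∀ k : ℤ, k ≤ Lm → hr μ δ G' (e1t G' G 0 (Bc δ G' G 0)) k = 0 := by
    intro k hk
    refine rr_eq_zero_of_le μ ?_
    rcases lt_trichotomy k 0 with c | rfl | c
    · refine inf_le_left.trans (le_trans ?_ le_sup_left)
      rw [e1t_lt _ c]
    · refine inf_le_left.trans ?_
      rw [e1t_eq, Bc, Bc, e1t_gt _ (by omega)]
    · change e1t G' G 0 (Bc δ G' G 0) k ⊓ _ ≤ _ ⊔ (e1t G' G 0 (Bc δ G' G 0) (k + 1)).map δ
      rw [e1t_gt _ c, e1t_gt _ (by omega)]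
      exact hex k c hk
  have z : ∀ m : ℤ, m ≤ Lm → hr μ (K.dt δ) (K.T G') (K.T (e1t G' G 0 (Bc δ G' G 0))) m = 0 := by
    intro m hm
    obtain ⟨L, hL⟩ := K.exists_top
    refine le_antisymm ((T_hr_le μ hK hδ hL h' c2 l1 m).trans (le_of_eq ?_)) zero_le
    exact Finset.sum_eq_zero fun i _ => by rw [z0 _ (by omega), mul_zero]
  have a1 := tri.le_add μ n
  have a2 := tri.quot_le μ n
  rw [z n hn, zero_add] at a1
  rw [z _ (by omega), add_zero] at a2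
  have e := e1_single (K := K) μ hδ h' h hle 0 n
  rw [e0, sub_zero] at e
  rw [le_antisymm a1 a2, e]

variable {K' : GC B} {N' N'' : Submodule B E}

theorem tens_E1_le (μ : RLen B) (hK : K.Sq0) (hK' : K'.Sq0) (hL : K'.Top L') (hN : N' ≤ N'')
    (n : ℤ) : hG μ (K.tens K') N' N'' n ≤
      ∑ j ∈ Finset.range (L' + 1), hG μ K (K'.Bd N' N'' j) (K'.Zy N' N'' j) (n - j) := by
  rw [hG_tens]
  exact E1_le μ hK (hK'.comp E) (K'.cw_isCx _) (K'.cw_isCx _) (K'.cw_mono hN)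
    (fun j hj => (hL.cf_eq_bot _ hj).le.trans bot_le) n

theorem tens_E1_chi (μ : RLen B) (hK : K.Sq0) (hK' : K'.Sq0) (hL : K'.Top L') (hN : N' ≤ N'')
    (hg : ∀ j : ℕ, j ≤ L' → GoodG μ K (K'.Bd N' N'' j) (K'.Zy N' N'' j)) :
    GoodG μ (K.tens K') N' N'' ∧ chiG μ (K.tens K') N' N'' =
      ∑ j ∈ Finset.range (L' + 1), (-1 : ℝ) ^ j * chiG μ K (K'.Bd N' N'' j) (K'.Zy N' N'' j) := by
  have c := good_chi_congr μ (hG_tens μ K K' N' N'')
  have key := E1_chi μ hK (hK'.comp E) (K'.cw_isCx _) (K'.cw_isCx _) (K'.cw_mono hN)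
    (fun j hj => (hL.cf_eq_bot _ hj).le.trans bot_le) hg
  exact ⟨c.1.2 key.1, c.2.trans key.2⟩

theorem tens_E1_single (μ : RLen B) (hK : K.Sq0) (hK' : K'.Sq0) (hN : N' ≤ N'') {Lm : ℕ}
    (hex : ∀ j : ℤ, 1 ≤ j → j ≤ Lm → K'.Zy N' N'' j ≤ K'.Bd N' N'' j) {n : ℤ} (hn : n ≤ Lm) :
    hG μ (K.tens K') N' N'' n = hG μ K (K'.Bd N' N'' 0) (K'.Zy N' N'' 0) n := by
  rw [hG_tens]
  exact E1_single μ hK (hK'.comp E) (K'.cw_isCx _) (K'.cw_isCx _) (K'.cw_mono hN)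
    (fun j hj => (cf_eq_bot_of_neg _ hj).le.trans bot_le) hex hn

end GC

end Vale.Agent.P177
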