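import Vale.Agent.P177.Cpl
import Vale.Agent.P202.MAnd

/-! Flatness of complete algebras. -/

namespace Vale.Agent.P177

open Vale.Agent.P202 Matrix

universe u

variable {A U : Type u} [CommRing A] [CommRing U]

/-- the extension of a set of vectors -/
def extFlc (f : A →+* U) {ι : Type} (N : Set (ι → A)) : Submodule U (ι → U) :=
  Submodule.span U ((fun v i => f (v i)) '' N)

theorem ext_le_flc {f : A →+* U} {ι : Type} {N : Set (ι → A)} {P : Submodule U (ι → U)}
    (h : ∀ v ∈ N, (fun i => f (v i)) ∈ P) : extFlc f N ≤ P := by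
  refine Submodule.span_le.2 ?_
  rintro _ ⟨v, hv, rfl⟩
  exact h v hv

theorem mem_ext_flc {f : A →+* U} {ι : Type} {N : Set (ι → A)} {v : ι → A} (h : v ∈ N) :
    (fun i => f (v i)) ∈ extFlc f N := Submodule.subset_span ⟨v, h, rfl⟩

theorem mem_ext_iff_flc {f : A →+* U} {ι : Type} {N : Set (ι → A)} {x : ι → U} :
    x ∈ extFlc f N ↔ ∃ (k : ℕ) (C : Matrix ι (Fin k) A) (y : Fin k → U),
      x = C.map f *ᵥ y ∧ ∀ j, (fun i => C i j) ∈ N := by
  have e : ∀ (k : ℕ) (C : Matrix ι (Fin k) A) (y : Fin k → U),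
      C.map f *ᵥ y = ∑ j, y j • fun i => f (C i j) := fun k C y => by
    funext i
    simp only [mulVec, dotProduct, map_apply, Finset.sum_apply, Pi.smul_apply, smul_eq_mul,
      mul_comm]
  constructor
  · intro h
    obtain ⟨k, y, g, rfl⟩ := Submodule.mem_span_set'.1 h
    choose v hv e1 using fun j => (g j).2
    exact ⟨k, Matrix.of fun i j => v j i, y, by simp only [e, ← e1, Matrix.of_apply], hv⟩
  · rintro ⟨k, C, y, rfl, h⟩
    rw [e]
    exact Submodule.sum_mem _ fun j _ => Submodule.smul_mem _ _ (mem_ext_flc (h j))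

theorem pi_mem_ext_flc {f : A →+* U} {ι : Type} [Fintype ι] {N : Set (ι → A)} {I : Ideal A}
    (h : ∀ v : ι → A, (∀ i, v i ∈ I) → v ∈ N) {w : ι → U} (hw : ∀ i, w i ∈ I.map f) :
    w ∈ extFlc f N := by
  classical
  rw [← Finset.univ_sum_single w]
  refine Submodule.sum_mem _ fun i _ => ?_
  have h1 : I.map f ≤ (extFlc f N).comap (LinearMap.single U (fun _ => U) i) := by
    refine Ideal.map_le_iff_le_comap.2 fun a ha => ?_
    have h2 := mem_ext_flc (f := f) (h (Pi.single i a) fun j => by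
      rw [Pi.single_apply]
      split_ifs
      exacts [ha, I.zero_mem])
    refine (congrArg (· ∈ extFlc f N) (funext fun j => ?_)).mp h2
    simp only [LinearMap.coe_single, Pi.single_apply, apply_ite f, map_zero]
  exact h1 (hw i)

theorem map_mulVec_flc (f : A →+* U) {ρ ι : Type} [Fintype ι] (ψ : Matrix ρ ι A) (v : ι → A) :
    (ψ.map f *ᵥ fun i => f (v i)) = fun r => f ((ψ *ᵥ v) r) :=
  funext fun r => (RingHom.map_mulVec f ψ v r).symm

theorem mulVec_mem_flc {ρ ι : Type} [Fintype ι] (ψ : Matrix ρ ι A) {I : Ideal A} {v : ι → A}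
    (h : ∀ i, v i ∈ I) (r : ρ) : (ψ *ᵥ v) r ∈ I :=
  I.sum_mem fun i _ => I.mul_mem_left _ (h i)

theorem mem_map_flc {f : A →+* U} {I : Ideal A} {x : U} (h : x ∈ I.map f) :
    ∃ (n : ℕ) (a : Fin n → A) (u : Fin n → U), (∀ i, a i ∈ I) ∧ ∑ i, f (a i) * u i = x := by
  obtain ⟨n, u, g, rfl⟩ := Submodule.mem_span_set'.1 h
  choose a ha e using fun j => (g j).2
  exact ⟨n, a, u, ha, Finset.sum_congr rfl fun i _ => by rw [e, mul_comm, smul_eq_mul]⟩

/-- the equational criterion modulo an ideal -/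
def CritFlc (f : A →+* U) (I : Ideal A) : Prop :=
  ∀ (ι : Type) [Fintype ι] (a : ι → A) (x : ι → U), ∑ i, f (a i) * x i ∈ I.map f →
    x ∈ extFlc f {v | ∑ i, a i * v i ∈ I}

theorem flat_iff_crit_flc {A1 U1 : Type u} [CommRing A1] [CommRing U1] {f : A →+* U}
    {a : A →+* A1} {b : U →+* U1} {f1 : A1 →+* U1} (ha : Function.Surjective a)
    (hb : Function.Surjective b) (hc : ∀ x, b (f x) = f1 (a x))
    (hk : RingHom.ker b = (RingHom.ker a).map f) : f1.Flat ↔ CritFlc f (RingHom.ker a) := by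
  constructor
  · intro h ι _ c x hx
    algebraize [f1]
    rw [← hk, RingHom.mem_ker, map_sum] at hx
    simp only [map_mul, hc] at hx
    obtain ⟨k, C, y, h1, h2⟩ := Module.Flat.isTrivialRelation_of_sum_smul_eq_zero (R := A1)
      (M := U1) (f := fun i => a (c i)) (x := fun i => b (x i)) hx
    choose C' hC using fun i j => ha (C i j)
    choose y' hy using fun j => hb (y j)
    rw [← sub_add_cancel x ((Matrix.of C').map f *ᵥ y')]
    refine Submodule.add_mem _ (pi_mem_ext_flc (I := RingHom.ker a) (fun v hv =>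
      Ideal.sum_mem _ fun i _ => Ideal.mul_mem_left _ _ (hv i)) fun i => ?_)
      (mem_ext_iff_flc.2 ⟨k, _, _, rfl, fun j => ?_⟩)
    · rw [← hk, RingHom.mem_ker, Pi.sub_apply, map_sub, sub_eq_zero]
      refine (h1 i).trans ?_
      simp only [mulVec, dotProduct, map_sum, map_mul, map_apply, of_apply, hc, hC, hy]
      rfl
    · simpa only [Set.mem_ofPred_eq, RingHom.mem_ker, map_sum, map_mul, of_apply, hC] using h2 j
  · intro h
    rw [flat_iff_MAnd]
    intro l c x hx
    choose c' hc' using fun i => ha (c i)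
    choose x' hx' using fun i => hb (x i)
    obtain ⟨k, C, y, h1, h2⟩ := mem_ext_iff_flc.1 (h _ c' x' (by
      simpa only [← hk, RingHom.mem_ker, map_sum, map_mul, hc, hc', hx'] using hx))
    refine ⟨k, fun i j => a (C i j), fun j => b (y j), fun i => ?_, fun j => ?_⟩
    · rw [← hx', h1]
      simp only [mulVec, dotProduct, map_sum, map_mul, map_apply, hc]
    · simpa only [Set.mem_ofPred_eq, RingHom.mem_ker, map_sum, map_mul, hc'] using h2 j

theorem flatM_iff_flc {f : A →+* U} {I : Ideal A} : FlatM f I ↔ CritFlc f I := by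
  have h := flat_iff_crit_flc (f := f) (a := Ideal.Quotient.mk I)
    (b := Ideal.Quotient.mk (I.map f)) (f1 := Ideal.quotientMap (I.map f) f Ideal.le_comap_map)
    Ideal.Quotient.mk_surjective Ideal.Quotient.mk_surjective (fun _ => rfl)
    (by rw [Ideal.mk_ker, Ideal.mk_ker])
  rwa [Ideal.mk_ker] at h

theorem flat_iff_flc {f : A →+* U} : f.Flat ↔ ∀ (ι : Type) [Fintype ι] (a : ι → A) (x : ι → U),
    ∑ i, f (a i) * x i = 0 → x ∈ extFlc f {v | ∑ i, a i * v i = 0} := by
  have e : ∀ (R : Type u) [CommRing R], RingHom.ker (RingHom.id R) = ⊥ := fun R _ => rfl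
  have h := flat_iff_crit_flc (f := f) (a := RingHom.id A) (b := RingHom.id U) (f1 := f)
    Function.surjective_id Function.surjective_id (fun _ => rfl) (by rw [e, e, Ideal.map_bot])
  simpa only [e, CritFlc, Ideal.map_bot, Ideal.mem_bot] using h

/-- several equations -/
theorem FlatM.rows_flc {f : A →+* U} {I : Ideal A} (h : FlatM f I) {ρ ι : Type} [Finite ρ]
    [Fintype ι] (ψ : Matrix ρ ι A) (x : ι → U) (hx : ∀ r, (ψ.map f *ᵥ x) r ∈ I.map f) :
    x ∈ extFlc f {v | ∀ r, (ψ *ᵥ v) r ∈ I} := by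
  classical
  have := Fintype.ofFinite ρ
  have key : ∀ s : Finset ρ, x ∈ extFlc f {v | ∀ r ∈ s, (ψ *ᵥ v) r ∈ I} := by
    intro s
    induction s using Finset.induction_on with
    | empty =>
      exact pi_mem_ext_flc (I := ⊤) (fun v _ => by simp) fun i => by simp [Ideal.map_top]
    | insert r s _ ih =>
      obtain ⟨k, C, y, rfl, h2⟩ := mem_ext_iff_flc.1 ih
      have h3 := flatM_iff_flc.1 h _ ((ψ * C) r) y (by
        have := hx r
        rwa [mulVec_mulVec, ← Matrix.map_mul] at this)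
      refine ext_le_flc (P := (extFlc f _).comap (C.map f).mulVecLin) (fun v hv => ?_) h3
      rw [Submodule.mem_comap, mulVecLin_apply, map_mulVec_flc]
      refine mem_ext_flc fun r' hr => ?_
      rw [mulVec_mulVec]
      rcases Finset.mem_insert.1 hr with rfl | hr
      · exact hv
      · exact I.sum_mem (t := Finset.univ) fun j _ => I.mul_mem_right (v j) (h2 j r' hr)
  simpa only [Finset.mem_univ, true_imp_iff] using key Finset.univ

theorem FlatM.of_flat {f : A →+* U} (h : f.Flat) (I : Ideal A) : FlatM f I := by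
  refine flatM_iff_flc.2 fun ι _ a x hx => ?_
  obtain ⟨n, m, u, hm, e⟩ := mem_map_flc hx
  have h1 := flat_iff_flc.1 h _ (Sum.elim a fun s => -m s) (Sum.elim x u) (by
    simp [Fintype.sum_sum_type, e])
  refine ext_le_flc (P := (extFlc f _).comap (LinearMap.funLeft U U Sum.inl)) (fun v hv => ?_) h1
  refine mem_ext_flc (v := fun i => v (Sum.inl i)) ?_
  simp only [Set.mem_ofPred_eq, Fintype.sum_sum_type, Sum.elim_inl, Sum.elim_inr] at hv ⊢
  rw [eq_neg_of_add_eq_zero_left hv]
  exact I.neg_mem (I.sum_mem fun s _ => I.mul_mem_right _ (I.neg_mem (hm s)))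

/-- Transfer along an isomorphism modulo `I`. -/
theorem FlatM.comp {f : A →+* U} {I : Ideal A} (h : FlatM f I) {U' : Type u} [CommRing U']
    {g : U →+* U'} (hg : MIso g (I.map f)) : FlatM (g.comp f) I := by
  refine flatM_iff_flc.2 fun ι _ a x hx => ?_
  choose y hy using fun i => hg.n1 (x i)
  have h1 := flatM_iff_flc.1 h _ a y (hg.n2 _ (by
    rw [← Ideal.map_map] at hx
    have := Ideal.sub_mem _ hx (Ideal.sum_mem (t := Finset.univ) _ fun i _ =>
      Ideal.mul_mem_left _ (g (f (a i))) (hy i))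
    simpa only [mul_sub, Finset.sum_sub_distrib, RingHom.comp_apply, sub_sub_cancel, map_sum,
      map_mul] using this))
  obtain ⟨k, C, z, rfl, h2⟩ := mem_ext_iff_flc.1 h1
  rw [← sub_add_cancel x fun i => g ((C.map f *ᵥ z) i)]
  refine Submodule.add_mem _ (pi_mem_ext_flc (I := I) (fun v hv =>
    Ideal.sum_mem _ fun i _ => Ideal.mul_mem_left _ _ (hv i)) fun i => ?_)
    (mem_ext_iff_flc.2 ⟨k, C, fun j => g (z j), ?_, h2⟩)
  · rw [← Ideal.map_map]
    exact hy i
  · rw [← map_mulVec_flc, Matrix.map_map]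
    rfl

theorem flatM_of_surj {A1 U1 : Type u} [CommRing A1] [CommRing U1] (f : A →+* U) (a : A →+* A1)
    (b : U →+* U1) (f1 : A1 →+* U1) (ha : Function.Surjective a) (hb : Function.Surjective b)
    (hc : ∀ x, b (f x) = f1 (a x)) (hk : RingHom.ker b = (RingHom.ker a).map f) (h : f1.Flat) :
    FlatM f (RingHom.ker a) :=
  flatM_iff_flc.2 ((flat_iff_crit_flc ha hb hc hk).1 h)

/-- The local criterion along a regular element. -/
theorem FlatM.pow {f : A →+* U} {π : A} (h1 : π ∈ nonZeroDivisors A)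
    (h2 : f π ∈ nonZeroDivisors U) (h : FlatM f (Ideal.span {π})) (n : ℕ) :
    FlatM f (Ideal.span {π} ^ n) := by
  have _ := h1
  have e : ∀ n : ℕ, (Ideal.span {π} ^ n).map f = Ideal.span {f π ^ n} := fun n => by
    rw [Ideal.span_singleton_pow, Ideal.map_span, Set.image_singleton, map_pow]
  induction n with
  | zero =>
    refine flatM_iff_flc.2 fun ι _ a x _ => ?_
    exact pi_mem_ext_flc (I := ⊤) (fun v _ => by simp) fun i => by simp [Ideal.map_top]
  | succ n ih =>
    refine flatM_iff_flc.2 fun ι _ a x hx => ?_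
    obtain ⟨k, C, y, rfl, h3⟩ := mem_ext_iff_flc.1 (flatM_iff_flc.1 h _ a x
      (Ideal.map_mono (Ideal.pow_le_self n.succ_ne_zero) hx))
    choose b hb using fun j => Ideal.mem_span_singleton'.1 (h3 j)
    have e1 : ∀ (R : Type u) [CommRing R] (g : A →+* R) (v : Fin k → R),
        ∑ i, g (a i) * (C.map g *ᵥ v) i = g π * ∑ j, g (b j) * v j := fun R _ g v => by
      simp only [mulVec, dotProduct, map_apply, Finset.mul_sum, ← mul_assoc, ← map_mul,
        mul_comm π, hb, map_sum, Finset.sum_mul]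
      exact Finset.sum_comm
    have h4 := flatM_iff_flc.1 ih _ b y (by
      rw [e, e1, Ideal.mem_span_singleton, pow_succ'] at hx
      obtain ⟨w, hw⟩ := hx
      rw [e, Ideal.mem_span_singleton]
      exact ⟨w, (mul_cancel_left_mem_nonZeroDivisors h2).1 (hw.trans (mul_assoc _ _ _))⟩)
    refine ext_le_flc (P := (extFlc f _).comap (C.map f).mulVecLin) (fun v hv => ?_) h4
    rw [Submodule.mem_comap, mulVecLin_apply, map_mulVec_flc]
    refine mem_ext_flc ?_
    rw [Set.mem_ofPred_eq, pow_succ']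
    exact (e1 A (RingHom.id A) v).symm ▸ Ideal.mul_mem_mul (Ideal.mem_span_singleton_self π) hv

variable [IsNoetherianRing A]

theorem exists_syz_flc {ρ ι : Type} [Fintype ι] (ψ : Matrix ρ ι A) :
    ∃ (k : ℕ) (φ : Matrix ι (Fin k) A), ψ * φ = 0 ∧ ∀ v, ψ *ᵥ v = 0 → ∃ w, φ *ᵥ w = v := by
  obtain ⟨k, s, hs⟩ := Submodule.fg_iff_exists_fin_generating_family.1
    (IsNoetherian.noetherian (LinearMap.ker ψ.mulVecLin))
  refine ⟨k, Matrix.of fun i j => s j i, Matrix.ext fun r j => ?_, fun v hv => ?_⟩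
  · have h1 : s j ∈ LinearMap.ker ψ.mulVecLin := hs ▸ Submodule.subset_span ⟨j, rfl⟩
    exact congrFun h1 r
  · have h1 : v ∈ Submodule.span A (Set.range s) := hs ▸ hv
    obtain ⟨w, rfl⟩ := (Submodule.mem_span_range_iff_exists_fun A).1 h1
    refine ⟨w, funext fun i => ?_⟩
    simp only [mulVec, dotProduct, of_apply, Finset.sum_apply, Pi.smul_apply, smul_eq_mul,
      mul_comm]

theorem exists_ar_flc {ρ ι : Type} [Fintype ρ] [Fintype ι] (ψ : Matrix ρ ι A) (m : Ideal A) :
    ∃ c, ∀ n v, (∀ r, (ψ *ᵥ v) r ∈ m ^ (n + c)) → ∃ d, (∀ i, d i ∈ m ^ n) ∧ ψ *ᵥ d = ψ *ᵥ v := by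
  obtain ⟨c, hc⟩ := m.exists_pow_inf_eq_pow_smul (LinearMap.range ψ.mulVecLin)
  refine ⟨c, fun n v hv => ?_⟩
  have h1 : ψ *ᵥ v ∈ m ^ (n + c) • ⊤ ⊓ LinearMap.range ψ.mulVecLin :=
    ⟨mem_smul_top_pi.2 hv, v, rfl⟩
  rw [hc _ (Nat.le_add_left _ _), Nat.add_sub_cancel] at h1
  have h2 := Submodule.smul_mono le_rfl inf_le_right h1
  rw [LinearMap.range_eq_map, ← Submodule.map_smul''] at h2
  obtain ⟨d, h3, h4⟩ := h2
  exact ⟨d, mem_smul_top_pi.1 h3, h4⟩

theorem exists_ex_flc {f : A →+* U} {m : Ideal A} (h : ∀ n : ℕ, FlatM f (m ^ n)) {ρ ι : Type}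
    [Fintype ρ] [Fintype ι] (ψ : Matrix ρ ι A) :
    ∃ (k : ℕ) (φ : Matrix ι (Fin k) A) (c : ℕ), ψ * φ = 0 ∧ ∀ n (x : ι → U),
      (∀ r, (ψ.map f *ᵥ x) r ∈ m.map f ^ (n + c)) →
        ∃ y, ∀ i, (x - φ.map f *ᵥ y) i ∈ m.map f ^ n := by
  obtain ⟨k, φ, h1, h2⟩ := exists_syz_flc ψ
  obtain ⟨c, hc⟩ := exists_ar_flc ψ m
  refine ⟨k, φ, c, h1, fun n x hx => ?_⟩
  have h3 := ext_le_flc (P := Submodule.pi Set.univ (fun _ => m.map f ^ n) ⊔
    LinearMap.range (φ.map f).mulVecLin) (fun v hv => by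
      obtain ⟨d, h4, h5⟩ := hc n v hv
      obtain ⟨w, hw⟩ := h2 (v - d) (by rw [mulVec_sub, h5, sub_self])
      refine Submodule.mem_sup.2 ⟨fun i => f (d i), fun i _ => ?_, _, ⟨fun j => f (w j), rfl⟩, ?_⟩
      · rw [← Ideal.map_pow]
        exact Ideal.mem_map_of_mem f (h4 i)
      · rw [mulVecLin_apply, map_mulVec_flc, hw]
        funext i
        simp) ((h (n + c)).rows_flc ψ x (by rwa [Ideal.map_pow]))
  obtain ⟨d, h4, _, ⟨y, rfl⟩, rfl⟩ := Submodule.mem_sup.1 h3
  exact ⟨y, fun i => by simpa using h4 i trivial⟩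

theorem closed_flc {f : A →+* U} {m : Ideal A} (hc : IsAdicComplete (m.map f) U)
    (h : ∀ n : ℕ, FlatM f (m ^ n)) {ι κ : Type} [Fintype ι] [Fintype κ] (φ : Matrix ι κ A)
    {x : ι → U} (hx : ∀ n : ℕ, ∃ y, ∀ i, (x - φ.map f *ᵥ y) i ∈ m.map f ^ n) :
    ∃ y, φ.map f *ᵥ y = x := by
  obtain ⟨k, φ', c, h1, h2⟩ := exists_ex_flc h φ
  choose y hy using fun n => hx (n + c)
  choose z hz using fun n => h2 n (y (n + 1) - y n) fun r => by
    have := Ideal.sub_mem _ (hy n r) (Ideal.pow_le_pow_right (by omega) (hy (n + 1) r))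
    rw [mulVec_sub]
    simpa using this
  choose s hs using fun j => exists_sum_of_complete hc _ fun n => hz n j
  refine ⟨y 0 + s, (sub_eq_zero.1 (funext fun i => eq_zero_of_complete hc fun n => ?_)).symm⟩
  have e : φ.map f *ᵥ ∑ t ∈ Finset.range n, (y (t + 1) - y t - φ'.map f *ᵥ z t) =
      φ.map f *ᵥ (y n - y 0) := by
    rw [← Finset.sum_range_sub, mulVec_sum, mulVec_sum]
    refine Finset.sum_congr rfl fun t _ => ?_
    rw [mulVec_sub _ _ (φ'.map f *ᵥ z t), mulVec_mulVec, ← Matrix.map_mul, h1,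
      Matrix.map_zero _ (map_zero f), zero_mulVec, sub_zero]
  have h3 := Ideal.sub_mem _ (Ideal.pow_le_pow_right (Nat.le_add_right n c) (hy n i))
    (mulVec_mem_flc (φ.map f) (v := s - ∑ t ∈ Finset.range n,
      (y (t + 1) - y t - φ'.map f *ᵥ z t)) (fun j => by
        rw [Pi.sub_apply, Finset.sum_apply]
        exact hs j n) i)
  rw [mulVec_sub, e, mulVec_sub] at h3
  rw [mulVec_add]
  refine (congrArg (· ∈ _) ?_).mp h3
  simp only [Pi.sub_apply, Pi.add_apply]
  ring

theorem flat_of_flatM {f : A →+* U} {m : Ideal A} (hc : IsAdicComplete (m.map f) U)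
    (h : ∀ n : ℕ, FlatM f (m ^ n)) : f.Flat := by
  refine flat_iff_flc.2 fun ι _ a x hx => ?_
  obtain ⟨k, φ, c, h1, h2⟩ := exists_ex_flc h (Matrix.of fun _ : Unit => a)
  obtain ⟨y, rfl⟩ := closed_flc hc h φ fun n => h2 n x fun r =>
    (congrArg (· ∈ _) hx).mpr (Ideal.zero_mem _)
  exact mem_ext_iff_flc.2 ⟨k, φ, y, rfl, fun j => congrFun (congrFun h1 ()) j⟩

theorem flat_of_reg {f : A →+* U} {π : A} (h1 : π ∈ nonZeroDivisors A)
    (h2 : f π ∈ nonZeroDivisors U) (hc : IsAdicComplete (Ideal.span {f π}) U)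
    (h : FlatM f (Ideal.span {π})) : f.Flat :=
  flat_of_flatM (by rwa [Ideal.map_span, Set.image_singleton]) (h.pow h1 h2)

/-- Extended ideals are closed. -/
theorem mem_map_of_closed {f : A →+* U} (hf : f.Flat) {m : Ideal A}
    (hc : IsAdicComplete (m.map f) U) (I : Ideal A) {x : U}
    (hx : ∀ n : ℕ, x ∈ I.map f ⊔ m.map f ^ n) : x ∈ I.map f := by
  obtain ⟨k, s, rfl⟩ := Submodule.fg_iff_exists_fin_generating_family.1
    (IsNoetherian.noetherian I)
  have e : Ideal.map f (Submodule.span A (Set.range s)) =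
      Submodule.span U (Set.range fun j => f (s j)) := by
    rw [Ideal.submodule_span_eq, Ideal.map_span, ← Set.range_comp]
    rfl
  have e1 : ∀ y : Fin k → U, ((Matrix.of fun _ : Unit => s).map f *ᵥ y) () = ∑ j, y j • f (s j) :=
    fun y => by simp only [mulVec, dotProduct, map_apply, of_apply, smul_eq_mul, mul_comm]
  rw [e] at hx ⊢
  obtain ⟨y, hy⟩ := closed_flc hc (fun n => FlatM.of_flat hf _) (Matrix.of fun _ : Unit => s)
    (x := fun _ => x) fun n => by
      obtain ⟨_, h1, w, h2, rfl⟩ := Submodule.mem_sup.1 (hx n)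
      obtain ⟨y, rfl⟩ := (Submodule.mem_span_range_iff_exists_fun U).1 h1
      refine ⟨y, fun i => ?_⟩
      rwa [Pi.sub_apply, e1, add_sub_cancel_left]
  exact (Submodule.mem_span_range_iff_exists_fun U).2 ⟨y, (e1 y).symm.trans (congrFun hy ())⟩

theorem flat_pi {B : ℕ → Type u} [∀ k, CommRing (B k)] (f : ∀ k, A →+* B k)
    (h : ∀ k, (f k).Flat) : (RingHom.pi f).Flat := by
  refine flat_iff_flc.2 fun ι _ a x hx => ?_
  obtain ⟨k, φ, h1, h2⟩ := exists_syz_flc (Matrix.of fun _ : Unit => a)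
  choose y hy using fun t => ext_le_flc (P := LinearMap.range (φ.map (f t)).mulVecLin)
    (fun v hv => by
      obtain ⟨w, rfl⟩ := h2 v (funext fun _ => hv)
      exact ⟨_, map_mulVec_flc (f t) φ w⟩)
    (flat_iff_flc.1 (h t) _ a (fun i => x i t) (by simpa using congrFun hx t))
  refine mem_ext_iff_flc.2 ⟨k, φ, fun j t => y t j, funext fun i => funext fun t => ?_,
    fun j => congrFun (congrFun h1 ()) j⟩
  refine (congrFun (hy t) i).symm.trans ?_
  simp [mulVec, dotProduct]

omit [IsNoetherianRing A] in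
theorem ker_trunc_flc (σ : Type) [Finite σ] (n : ℕ) :
    RingHom.ker (MvPowerSeries.truncTotalAlgHom σ A n).toRingHom =
      Ideal.span (Set.range (MvPowerSeries.X : σ → PS σ A)) ^ n := by
  have e : ∀ {R : Type u} [CommRing R] (g : MvPolynomial σ A →+* R),
      (MvPolynomial.idealOfVars σ A).map g = Ideal.span (Set.range fun i => g (.X i)) := by
    intro R _ g
    rw [Ideal.map_span, ← Set.range_comp]
    rfl
  apply le_antisymm
  · intro p hp
    have h1 := Ideal.mem_map_of_mem MvPolynomial.coeToMvPowerSeries.ringHom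
      (Ideal.Quotient.eq_zero_iff_mem.1 hp)
    rw [Ideal.map_pow, e] at h1
    simp only [MvPolynomial.coeToMvPowerSeries.ringHom_apply, MvPolynomial.coe_X] at h1
    simpa using Ideal.add_mem _ (ps_sub_trunc_mem n p) h1
  · rw [RingHom.ker, ← Ideal.map_le_iff_le_comap, Ideal.map_pow, ps_map_span, le_bot_iff]
    have h1 : ∀ i, (MvPowerSeries.truncTotalAlgHom σ A n).toRingHom (MvPowerSeries.X i) =
        Ideal.Quotient.mk _ (MvPolynomial.X i) := fun i => by
      rw [← MvPolynomial.coe_X]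
      exact (MvPowerSeries.truncTotalAlgHom σ A n).commutes (MvPolynomial.X i)
    simp only [h1]
    rw [← e, ← Ideal.map_pow, Ideal.map_quotient_self]

omit [IsNoetherianRing A] in
theorem flat_poly_flc (σ : Type) {f : A →+* U} (hf : f.Flat) :
    (MvPolynomial.map (σ := σ) f).Flat := by
  algebraize [f]
  let _ : Algebra (MvPolynomial σ A) (MvPolynomial σ U) := MvPolynomial.algebraMvPolynomial
  have h : Module.Flat (MvPolynomial σ A) (MvPolynomial σ U) :=
    Module.Flat.isBaseChange A (MvPolynomial σ A) U (MvPolynomial σ U)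
      (Algebra.IsPushout.out (R := A) (S := MvPolynomial σ A) (R' := U)
        (S' := MvPolynomial σ U))
  exact RingHom.flat_algebraMap_iff.2 h

theorem flat_ps_map {σ : Type} [Finite σ] {f : A →+* U} (hf : f.Flat) :
    (MvPowerSeries.map (σ := σ) f : PS σ A →+* PS σ U).Flat := by
  have e : (Ideal.span (Set.range (MvPowerSeries.X : σ → PS σ A))).map (MvPowerSeries.map f) =
      Ideal.span (Set.range (MvPowerSeries.X : σ → PS σ U)) := by
    simp only [ps_map_span, MvPowerSeries.map_X]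
  refine flat_of_flatM (m := Ideal.span (Set.range MvPowerSeries.X)) (by
    rw [e]
    infer_instance) fun n => ?_
  have e1 : (MvPolynomial.idealOfVars σ A ^ n).map (MvPolynomial.map f) =
      MvPolynomial.idealOfVars σ U ^ n := by
    rw [Ideal.map_pow, Ideal.map_span, ← Set.range_comp]
    simp only [Function.comp_def, MvPolynomial.map_X]
  have key : ∀ (J : Ideal (MvPolynomial σ U))
      (h : (MvPolynomial.idealOfVars σ A ^ n).map (MvPolynomial.map f) = J),
      (Ideal.quotientMap J (MvPolynomial.map f) (Ideal.map_le_iff_le_comap.1 h.le)).Flat := by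
    rintro _ rfl
    exact FlatM.of_flat (flat_poly_flc σ hf) _
  have hs : ∀ (R : Type u) [CommRing R],
      Function.Surjective (MvPowerSeries.truncTotalAlgHom σ R n).toRingHom := fun R _ z => by
    obtain ⟨z, rfl⟩ := Ideal.Quotient.mk_surjective z
    exact ⟨_, (MvPowerSeries.truncTotalAlgHom σ R n).commutes z⟩
  rw [← ker_trunc_flc]
  refine flatM_of_surj _ _ (MvPowerSeries.truncTotalAlgHom σ U n).toRingHom _ (hs A) (hs U)
    (fun p => ?_) (by rw [ker_trunc_flc, ker_trunc_flc, Ideal.map_pow, e]) (key _ e1)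
  refine congrArg (Ideal.Quotient.mk _) (MvPolynomial.ext _ _ fun x => ?_)
  rw [MvPolynomial.coeff_map, MvPowerSeries.coeff_truncTotal_eq_ite,
    MvPowerSeries.coeff_truncTotal_eq_ite, MvPowerSeries.coeff_map, apply_ite f, map_zero]

omit [IsNoetherianRing A] in
/-- Extension of ideals along a flat map commutes with intersections. -/
theorem map_inf_of_flat {f : A →+* U} (hf : f.Flat) (I J : Ideal A) :
    (I ⊓ J).map f = I.map f ⊓ J.map f := by
  refine le_antisymm (Ideal.map_inf_le f) fun x hx => ?_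
  obtain ⟨n, a, u, ha, e⟩ := mem_map_flc hx.1
  obtain ⟨n', b, w, hb, e'⟩ := mem_map_flc hx.2
  have h1 := flat_iff_flc.1 hf _ (Sum.elim a fun s => -b s) (Sum.elim u w) (by
    simp [Fintype.sum_sum_type, e, e'])
  have h2 := ext_le_flc (P := Submodule.comap (Fintype.linearCombination U
    (fun i => f (a i)) ∘ₗ LinearMap.funLeft U U Sum.inl) ((I ⊓ J).map f)) (fun v hv => by
      simp only [Set.mem_ofPred_eq, Fintype.sum_sum_type, Sum.elim_inl, Sum.elim_inr] at hv
      have h3 := Ideal.mem_map_of_mem f (show ∑ i, a i * v (Sum.inl i) ∈ I ⊓ J from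
        ⟨I.sum_mem fun i _ => I.mul_mem_right _ (ha i), by
          rw [eq_neg_of_add_eq_zero_left hv]
          exact J.neg_mem (J.sum_mem fun s _ => J.mul_mem_right _ (J.neg_mem (hb s)))⟩)
      simpa [Fintype.linearCombination_apply, mul_comm] using h3) h1
  rw [← e]
  simpa [Fintype.linearCombination_apply, mul_comm] using h2

omit [IsNoetherianRing A] in
theorem flat_of_dvr [IsDomain A] [IsDiscreteValuationRing A] {π : A}
    (h : IsLocalRing.maximalIdeal A = Ideal.span {π}) {f : A →+* U}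
    (h2 : f π ∈ nonZeroDivisors U) : f.Flat := by
  let _ := f.toAlgebra
  refine Module.Flat.flat_iff_torsion_eq_bot_of_isBezout.2 (eq_bot_iff.2 ?_)
  rintro x ⟨⟨r, hr⟩, hx⟩
  obtain ⟨n, v, rfl⟩ := IsDiscreteValuationRing.eq_unit_mul_pow_irreducible
    (nonZeroDivisors.ne_zero hr) ((IsDiscreteValuationRing.irreducible_iff_uniformizer π).2 h)
  have h3 : f (v * π ^ n) ∈ nonZeroDivisors U := by
    rw [map_mul, map_pow]
    exact mul_mem (v.isUnit.map f).mem_nonZeroDivisors (pow_mem h2 n)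
  exact mem_nonZeroDivisors_iff_left.1 h3 x hx

end Vale.Agent.P177
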