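import Vale.Agent.P177.Cone
import Vale.Agent.P177.EFn

/-! Growth of Koszul homology and positivity of multiplicities. -/

namespace Vale.Agent.P177

open Vale.Agent.P202 IsLocalRing
open scoped ENNReal

universe u

variable {R : Type u} [CommRing R] [IsLocalRing R] [IsNoetherianRing R] {N : Type u}
  [AddCommGroup N] [Module R N] [Module.Finite R N]

theorem kos_good (z : List R) {t : ℕ}
    (ht : maximalIdeal R ^ t ≤ Ideal.span {y | y ∈ z} ⊔ Module.annihilator R N) :
    GoodG (RLen.ofLen R) ((GC.one R).kos z) (⊥ : Submodule R N) ⊤ := by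
  refine good_of_kill _ (t := t) (ht.trans (sup_le_sup (GC.span_le_nh_kos _ _) fun x hx => ?_))
  rw [Submodule.mem_colon]
  intro y _
  exact (Submodule.mem_bot R).2 (Module.mem_annihilator.1 hx y)

open scoped Pointwise in
omit [IsLocalRing R] [IsNoetherianRing R] [Module.Finite R N] in
theorem cone_reg_grow (μ : RLen R) {K : GC R} (hK : K.Sq0) {y : R} (hy : IsSMulRegular N y)
    (n : ℤ) : hG μ (K.cone y) (⊥ : Submodule R N) ⊤ n =
      hG μ K (⊥ : Submodule R (QuotSMulTop y N)) ⊤ n := by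
  have e : (⊥ : Submodule R N) ⊔ (⊤ : Submodule R N).map (LinearMap.lsmul R N y) =
      (y • ⊤ : Submodule R N) := by
    rw [bot_sup_eq]
    rfl
  rw [GC.hG_cone_reg μ hK bot_le (fun x _ h => (Submodule.mem_bot R).2
    (hy.right_eq_zero_of_smul ((Submodule.mem_bot R).1 h))) n, e, hG_quot]

theorem step_grow {z : List R} (hz : ∀ y ∈ z, y ∈ maximalIdeal R) {t : ℕ} {Q : Ideal R}
    (hQ : Q.IsPrime) (ht : maximalIdeal R ^ t ≤ Ideal.span {y | y ∈ z} ⊔ Q) :
    maximalIdeal R ^ t ≤ Q ∨ ∃ y z', z.Perm (y :: z') ∧ IsSMulRegular (R ⧸ Q) y ∧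
      (∀ v ∈ z', v ∈ maximalIdeal R) ∧
      maximalIdeal R ^ t ≤ Ideal.span {v | v ∈ z'} ⊔
        Module.annihilator R (QuotSMulTop y (R ⧸ Q)) ∧
      Module.supportDim R (QuotSMulTop y (R ⧸ Q)) + 1 = ringKrullDim (R ⧸ Q) := by
  by_cases h : ∀ y ∈ z, y ∈ Q
  · exact Or.inl (ht.trans (sup_le (Ideal.span_le.2 fun y hy => h y hy) le_rfl))
  · right
    push Not at h
    obtain ⟨y, hy, hyQ⟩ := h
    obtain ⟨s, s', rfl⟩ := List.append_of_mem hy
    have hp : (s ++ y :: s').Perm (y :: (s ++ s')) := List.perm_middle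
    have hr : IsSMulRegular (R ⧸ Q) y :=
      (isSMulRegular_quotient_iff_mem_of_smul_mem Q y).2 fun x hx =>
        (hQ.mem_or_mem hx).resolve_left hyQ
    refine ⟨y, s ++ s', hp, hr, fun v hv => hz v (hp.mem_iff.2 (List.mem_cons_of_mem _ hv)),
      ht.trans (sup_le (Ideal.span_le.2 fun v hv => ?_) ?_), ?_⟩
    · rcases List.mem_cons.1 (hp.mem_iff.1 hv) with rfl | hv'
      · exact Submodule.mem_sup_right (QuotSMulTop.mem_annihilator _ _)
      · exact Submodule.mem_sup_left (Ideal.subset_span hv')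
    · refine le_trans ?_ le_sup_right
      refine le_trans (Ideal.annihilator_quotient (I := Q)).ge ?_
      exact LinearMap.annihilator_le_of_surjective (Submodule.mkQ _) (Submodule.mkQ_surjective _)
    · rw [Module.supportDim_quotSMulTop_succ_eq_supportDim hr (hz y hy),
        Module.supportDim_quotient_eq_ringKrullDim]

theorem fin_grow {t : ℕ} {Q : Ideal R} (ht : maximalIdeal R ^ t ≤ Q) :
    rr (RLen.ofLen R) (⊥ : Submodule R (R ⧸ Q)) ⊤ ≠ ⊤ := by
  refine rr_ofLen_ne_top (t := t) fun x hx v _ => (Submodule.mem_bot R).2 ?_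
  exact Module.mem_annihilator.1 ((Ideal.annihilator_quotient (I := Q)).ge (ht hx)) v

theorem growth_grow (n : ℕ) : ∀ (z : List R), z.length = n → (∀ y ∈ z, y ∈ maximalIdeal R) →
    ∀ (N : Type u) [AddCommGroup N] [Module R N] [Module.Finite R N] (t : ℕ),
      maximalIdeal R ^ t ≤ Ideal.span {y | y ∈ z} ⊔ Module.annihilator R N →
    ∃ C : ℕ, ∀ (m : ℕ) (i : ℤ), (1 ≤ i ∨ Module.supportDim R N < n) →
      (m : ℝ≥0∞) * hG (RLen.ofLen R) ((GC.one R).kos (z.map (· ^ m))) (⊥ : Submodule R N) ⊤ i ≤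
        ((C * m ^ n : ℕ) : ℝ≥0∞) := by
  induction n using Nat.strong_induction_on with
  | _ n ih =>
  intro z hn hz N _ _ _ t ht
  refine dev_ind (R := R) (N := N) (fun M _ _ => ∃ C : ℕ, ∀ (m : ℕ) (i : ℤ),
    (1 ≤ i ∨ Module.supportDim R N < n) →
      (m : ℝ≥0∞) * hG (RLen.ofLen R) ((GC.one R).kos (z.map (· ^ m))) (⊥ : Submodule R M) ⊤ i ≤
        ((C * m ^ n : ℕ) : ℝ≥0∞)) ?_ ?_ le_rfl ?_
  · intro M _ _ _
    refine ⟨0, fun m i _ => ?_⟩
    rw [Subsingleton.elim (⊥ : Submodule R M) ⊤, hG_self]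
    simp
  · rintro N1 M N2 _ _ _ _ _ _ f g hf hg hfg ⟨C1, h1⟩ ⟨C2, h2⟩
    refine ⟨C1 + C2, fun m i hi => ?_⟩
    have := hG_ses_le (RLen.ofLen R) (GC.sq0_kos (z.map (· ^ m))) f g hf hg hfg i
    refine (mul_le_mul_right this _).trans ?_
    rw [mul_add, add_mul, Nat.cast_add]
    exact add_le_add (h1 m i hi) (h2 m i hi)
  · intro Q hQ hle
    have hd : ringKrullDim (R ⧸ Q) ≤ Module.supportDim R N := dim_quot_le_supportDim hle
    rcases step_grow hz hQ (ht.trans (sup_le_sup_left hle _)) with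
      h | ⟨y, z', hp, hr, hz', ht', hd'⟩
    · obtain ⟨c, hc⟩ := ENNReal.exists_nat_gt (fin_grow h)
      refine ⟨2 ^ n * c, fun m i hi => ?_⟩
      have hl : (z.map (· ^ m)).length = n := by rw [List.length_map, hn]
      by_cases hi' : i < 0 ∨ (n : ℤ) < i
      · rw [← hl] at hi'
        have := (GC.top_kos (z.map (· ^ m))).hr_eq_zero (RLen.ofLen R)
          (fun _ => (⊥ : Submodule R (R ⧸ Q))) (fun _ => ⊤) hi'
        rw [hG, this, mul_zero]
        exact zero_le
      · have hn1 : n ≠ 0 := by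
          rintro rfl
          have : Nontrivial (R ⧸ Q) := Ideal.Quotient.nontrivial_iff.2 hQ.ne_top
          rcases hi with hi | hi
          · omega
          · exact absurd (hd.trans_lt hi) (not_lt.2 (by
              simpa using ringKrullDim_nonneg_of_nontrivial (R := R ⧸ Q)))
        obtain ⟨k, rfl⟩ : ∃ k : ℕ, i = k := ⟨i.toNat, by omega⟩
        have h1 := GC.hG_le_rk (RLen.ofLen R) ((GC.one R).kos (z.map (· ^ m)))
          (⊥ : Submodule R (R ⧸ Q)) ⊤ k
        have h2 := GC.rk_kos_le (z.map (· ^ m)) k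
        rw [hl] at h2
        have h3 : hG (RLen.ofLen R) ((GC.one R).kos (z.map (· ^ m)))
            (⊥ : Submodule R (R ⧸ Q)) ⊤ k ≤ ((2 ^ n * c : ℕ) : ℝ≥0∞) := by
          rw [Nat.cast_mul]
          exact h1.trans (mul_le_mul' (Nat.cast_le.2 h2) hc.le)
        refine (mul_le_mul_right h3 _).trans ?_
        rw [← Nat.cast_mul, Nat.cast_le, mul_comm]
        exact Nat.mul_le_mul_left _ (Nat.le_self_pow hn1 m)
    · have hl : n = z'.length + 1 := by rw [← hn, hp.length_eq, List.length_cons]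
      obtain ⟨C, hC⟩ := ih z'.length (by omega) z' rfl hz' _ t ht'
      refine ⟨C, fun m i hi => ?_⟩
      have h1 := GC.hG_kos_pow_le (RLen.ofLen R) (GC.sq0_kos (z'.map (· ^ m)))
        (bot_le : (⊥ : Submodule R (R ⧸ Q)) ≤ ⊤) [y] m i
      have h2 := cone_reg_grow (RLen.ofLen R) (GC.sq0_kos (z'.map (· ^ m))) hr i
      have h3 := (GC.kos_perm (GC.one R) (hp.map (· ^ m))).hG_eq (RLen.ofLen R)
        (⊥ : Submodule R (R ⧸ Q)) ⊤ i
      have h4 : hG (RLen.ofLen R) ((GC.one R).kos (z.map (· ^ m))) (⊥ : Submodule R (R ⧸ Q)) ⊤ i ≤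
          m * hG (RLen.ofLen R) ((GC.one R).kos (z'.map (· ^ m)))
            (⊥ : Submodule R (QuotSMulTop y (R ⧸ Q))) ⊤ i := by
        rw [h3, ← h2]
        rw [List.length_singleton, pow_one] at h1
        exact h1
      have h5 := hC m i (hi.imp_right fun hi => by
        have h6 := hd.trans_lt hi
        rw [← hd', hl, Nat.cast_succ] at h6
        exact lt_of_not_ge fun h7 => absurd h6 (not_lt.2 (add_le_add_left h7 1)))
      refine (mul_le_mul_right h4 _).trans ((mul_le_mul_right h5 _).trans (le_of_eq ?_))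
      rw [hl]
      push_cast
      ring

theorem kos_growth (z : List R) (hz : ∀ y ∈ z, y ∈ maximalIdeal R) {t : ℕ}
    (ht : maximalIdeal R ^ t ≤ Ideal.span {y | y ∈ z} ⊔ Module.annihilator R N) :
    ∃ C : ℕ, ∀ (m : ℕ) (i : ℤ), (1 ≤ i ∨ Module.supportDim R N < z.length) →
      (m : ℝ≥0∞) * hG (RLen.ofLen R) ((GC.one R).kos (z.map (· ^ m))) (⊥ : Submodule R N) ⊤ i ≤
        ((C * m ^ z.length : ℕ) : ℝ≥0∞) := by
  exact growth_grow z.length z rfl hz N t ht

theorem kos_chi_zero (z : List R) (hz : ∀ y ∈ z, y ∈ maximalIdeal R) {t : ℕ}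
    (ht : maximalIdeal R ^ t ≤ Ideal.span {y | y ∈ z} ⊔ Module.annihilator R N)
    (hd : Module.supportDim R N < z.length) :
    chiG (RLen.ofLen R) ((GC.one R).kos z) (⊥ : Submodule R N) ⊤ = 0 := by
  obtain ⟨C, hC⟩ := kos_growth z hz ht
  have hg := kos_good z ht
  have key : ∀ m : ℕ, 1 ≤ m → (m : ℝ) *
      |chiG (RLen.ofLen R) ((GC.one R).kos z) (⊥ : Submodule R N) ⊤| ≤ (z.length + 1) * C := by
    intro m hm
    have hm0 : (0 : ℝ) < (m : ℝ) ^ z.length := by positivity
    have h1 := (GC.chi_kos_pow (RLen.ofLen R) (GC.sq0_disc _) bot_le z m hg).2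
    have h2 := (GC.top_kos (z.map (· ^ m))).chi_eq_sum (RLen.ofLen R)
      (fun _ => (⊥ : Submodule R N)) (fun _ => ⊤)
    rw [List.length_map] at h2
    have h3 : ∀ i ∈ Finset.range (z.length + 1), (m : ℝ) * |(-1 : ℝ) ^ i *
        (hG (RLen.ofLen R) ((GC.one R).kos (z.map (· ^ m))) (⊥ : Submodule R N) ⊤ i).toReal| ≤
          C * (m : ℝ) ^ z.length := by
      intro i _
      have h4 := ENNReal.toReal_mono (ENNReal.natCast_ne_top _) (hC m i (Or.inr hd))
      rw [ENNReal.toReal_mul, ENNReal.toReal_natCast, ENNReal.toReal_natCast] at h4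
      rw [abs_mul, abs_pow, abs_neg, abs_one, one_pow, one_mul, abs_of_nonneg ENNReal.toReal_nonneg]
      exact_mod_cast h4
    have h5 := Finset.sum_le_sum h3
    rw [← Finset.mul_sum, Finset.sum_const, Finset.card_range, nsmul_eq_mul] at h5
    have h6 := (mul_le_mul_of_nonneg_left (Finset.abs_sum_le_sum_abs _ _)
      (Nat.cast_nonneg m)).trans h5
    rw [← h2, ← chiG, h1, abs_mul, abs_of_pos hm0] at h6
    refine le_of_mul_le_mul_right ?_ hm0
    push_cast at h6
    linarith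
  by_contra hne
  have hpos := abs_pos.2 hne
  obtain ⟨m, hm⟩ := exists_nat_gt (((z.length + 1) * C : ℝ) /
    |chiG (RLen.ofLen R) ((GC.one R).kos z) (⊥ : Submodule R N) ⊤|)
  have h7 := key (m + 1) (by omega)
  rw [div_lt_iff₀ hpos] at hm
  push_cast at h7
  linarith

theorem pos_grow (n : ℕ) : ∀ (z : List R), z.length = n → (∀ y ∈ z, y ∈ maximalIdeal R) →
    ∀ (N : Type u) [AddCommGroup N] [Module R N] [Module.Finite R N] (t : ℕ),
      maximalIdeal R ^ t ≤ Ideal.span {y | y ∈ z} ⊔ Module.annihilator R N →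
      Module.supportDim R N = n →
      0 < chiG (RLen.ofLen R) ((GC.one R).kos z) (⊥ : Submodule R N) ⊤ := by
  induction n using Nat.strong_induction_on with
  | _ n ih =>
  intro z hn hz N _ _ _ t ht hd
  have : Nontrivial N := (Module.supportDim_ne_bot_iff_nontrivial R N).1 (by
    rw [hd]
    exact WithBot.natCast_ne_bot n)
  obtain ⟨Q0, hQ0, h0, hd0⟩ := exists_prime_supportDim (R := R) (N := N)
  have hq : ∀ Q : Ideal R, Module.annihilator R N ≤ Q →
      maximalIdeal R ^ t ≤ Ideal.span {y | y ∈ z} ⊔ Module.annihilator R (R ⧸ Q) := fun Q hle =>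
    ht.trans (sup_le_sup_left (hle.trans (Ideal.annihilator_quotient (I := Q)).ge) _)
  have key : ∀ Q : Ideal R, Q.IsPrime → Module.annihilator R N ≤ Q → ringKrullDim (R ⧸ Q) = n →
      0 < chiG (RLen.ofLen R) ((GC.one R).kos z) (⊥ : Submodule R (R ⧸ Q)) ⊤ := by
    intro Q hQ hle hdQ
    rcases step_grow hz hQ (ht.trans (sup_le_sup_left hle _)) with
      h | ⟨y, z', hp, hr, hz', ht', hd'⟩
    · have h1 : Q = maximalIdeal R :=
        le_antisymm (le_maximalIdeal hQ.ne_top) (Ideal.IsPrime.le_of_pow_le h)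
      have h2 : ringKrullDim (R ⧸ Q) = 0 := by
        rw [h1]
        exact ringKrullDim_eq_zero_of_isField
          ((Ideal.Quotient.maximal_ideal_iff_isField_quotient _).1 inferInstance)
      have h3 : n = 0 := by
        rw [h2] at hdQ
        exact_mod_cast hdQ.symm
      obtain rfl : z = [] := List.length_eq_zero_iff.1 (hn.trans h3)
      have : Nontrivial (R ⧸ Q) := Ideal.Quotient.nontrivial_iff.2 hQ.ne_top
      change 0 < chiG (RLen.ofLen R) (GC.one R) (⊥ : Submodule R (R ⧸ Q)) ⊤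
      have h4 := hG_one (RLen.ofLen R) (bot_le : (⊥ : Submodule R (R ⧸ Q)) ≤ ⊤)
      rw [chiG, chiR_eq_single _ 0 fun k hk => (h4 k).trans (if_neg hk), ← hG, h4, if_pos rfl]
      simp only [Int.negOnePow_zero, Units.val_one, Int.cast_one, one_mul]
      refine ENNReal.toReal_pos ?_ (fin_grow h)
      rw [rr_bot, (RLen.ofLen R).equiv Submodule.topEquiv]
      exact mt ENat.toENNReal_eq_zero.1 (Module.length_pos (R := R) (M := R ⧸ Q)).ne'
    · have hl : n = z'.length + 1 := by rw [← hn, hp.length_eq, List.length_cons]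
      have h1 := ih z'.length (by omega) z' rfl hz' _ t ht' (by
        rw [hdQ, hl, Nat.cast_succ] at hd'
        exact ENat.WithBot.add_one_cancel.1 hd')
      refine h1.trans_eq (good_chi_congr _ fun i => ?_).2
      exact (((GC.kos_perm (GC.one R) hp).hG_eq (RLen.ofLen R) (⊥ : Submodule R (R ⧸ Q)) ⊤ i).trans
        (cone_reg_grow (RLen.ofLen R) (GC.sq0_kos z') hr i)).symm
  refine (EFn.dev_pos (EFn.ofG (RLen.ofLen R) _ (GC.sq0_kos z)) (N := N) le_rfl
    (fun Q hQ hle => ⟨kos_good z (hq Q hle), ?_⟩) hQ0 h0 fun Q hQ hle hQQ => key Q hQ hle ?_).2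
  · rcases ((dim_quot_le_supportDim hle).trans hd.le).lt_or_eq with h | h
    · refine (kos_chi_zero z hz (hq Q hle) ?_).ge
      rwa [Module.supportDim_quotient_eq_ringKrullDim, hn]
    · exact (key Q hQ hle h).le
  · exact le_antisymm ((dim_quot_le_supportDim hle).trans hd.le)
      ((hd0.trans hd).ge.trans (dim_quot_anti hQQ))

theorem kos_chi_pos (z : List R) (hz : ∀ y ∈ z, y ∈ maximalIdeal R) {t : ℕ}
    (ht : maximalIdeal R ^ t ≤ Ideal.span {y | y ∈ z} ⊔ Module.annihilator R N)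
    (hd : Module.supportDim R N = z.length) :
    0 < chiG (RLen.ofLen R) ((GC.one R).kos z) (⊥ : Submodule R N) ⊤ := by
  exact pos_grow z.length z rfl hz N t ht hd

/-- Systems of parameters of prescribed length. -/
theorem exists_sop_list {Q : Ideal R} {b : ℕ} (hb : ringKrullDim (R ⧸ Q) ≤ b) :
    ∃ (z : List R) (t : ℕ), z.length = b ∧ (∀ y ∈ z, y ∈ maximalIdeal R) ∧
      maximalIdeal R ^ t ≤ Ideal.span {y | y ∈ z} ⊔ Q := by
  classical
  by_cases hQ : Q = ⊤
  · refine ⟨List.replicate b 0, 0, List.length_replicate, fun y hy => ?_, by simp [hQ]⟩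
    rw [List.eq_of_mem_replicate hy]
    exact zero_mem _
  obtain ⟨d, hd⟩ := exists_dim_quot hQ
  have hdb : d ≤ b := by
    rw [hd] at hb
    exact_mod_cast hb
  have : Nontrivial (R ⧸ Q) := Ideal.Quotient.nontrivial_iff.2 hQ
  have : IsLocalRing (R ⧸ Q) := .of_surjective' _ Ideal.Quotient.mk_surjective
  obtain ⟨s, hs, hc⟩ :=
    Ideal.exists_finset_card_eq_height_of_isNoetherianRing (maximalIdeal (R ⧸ Q))
  have h1 : ((maximalIdeal (R ⧸ Q)).height : WithBot ℕ∞) = d := by
    rw [IsLocalRing.maximalIdeal_height_eq_ringKrullDim, hd]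
  have h2 : s.card = d := by
    rw [← hc] at h1
    exact_mod_cast h1
  have hrad : maximalIdeal (R ⧸ Q) ≤ (Ideal.span (s : Set (R ⧸ Q))).radical := by
    rw [← Ideal.sInf_minimalPrimes]
    refine le_sInf fun p hp => ?_
    have hp1 : p.IsPrime := hp.1.1
    exact hs.2 hp.1 (IsLocalRing.le_maximalIdeal hp1.ne_top)
  obtain ⟨t, ht⟩ := Ideal.exists_pow_le_of_le_radical_of_fg hrad (IsNoetherian.noetherian _)
  choose σ hσ using Ideal.Quotient.mk_surjective (I := Q)
  have hm : (maximalIdeal (R ⧸ Q)).comap (Ideal.Quotient.mk Q) = maximalIdeal R :=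
    eq_maximalIdeal (Ideal.comap_isMaximal_of_surjective _ Ideal.Quotient.mk_surjective)
  refine ⟨s.toList.map σ ++ List.replicate (b - d) 0, t, by simp [h2]; omega, fun y hy => ?_,
    fun x hx => ?_⟩
  · rcases List.mem_append.1 hy with hy | hy
    · obtain ⟨a, ha, rfl⟩ := List.mem_map.1 hy
      rw [← hm, Ideal.mem_comap, hσ]
      exact hs.1.2 (Ideal.subset_span (Finset.mem_toList.1 ha))
    · rw [List.eq_of_mem_replicate hy]
      exact zero_mem _
  · have h3 : Ideal.Quotient.mk Q x ∈ Ideal.span (s : Set (R ⧸ Q)) := by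
      refine ht ?_
      rw [← hm] at hx
      exact Ideal.le_comap_pow _ t hx
    have h4 : Ideal.span (s : Set (R ⧸ Q)) ≤ (Ideal.span
        {y | y ∈ s.toList.map σ ++ List.replicate (b - d) 0}).map (Ideal.Quotient.mk Q) := by
      refine Ideal.span_le.2 fun a ha => ?_
      rw [← hσ a]
      exact Ideal.mem_map_of_mem _ (Ideal.subset_span
        (List.mem_append_left _ (List.mem_map_of_mem (Finset.mem_toList.2 ha))))
    have h5 := Ideal.mem_comap.2 (h4 h3)
    rwa [Ideal.comap_map_of_surjective _ Ideal.Quotient.mk_surjective, ← RingHom.ker_eq_comap_bot,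
      Ideal.mk_ker] at h5

end Vale.Agent.P177
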