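import Vale.Agent.P177.Struct
import Vale.Agent.P177.PSRes
import Vale.Agent.P177.FLC
import Vale.Agent.P177.Grow
import Vale.Agent.P177.Serre
import Vale.Agent.P177.Hyp

/-! Positivity for power series rings over a field. -/

namespace Vale.Agent.P177

open Vale.Agent.P202 IsLocalRing

universe u

theorem surj_eqch {A C : Type u} [CommRing A] [CommRing C] (G : GC A) (g : A →+* C)
    (hg : Function.Surjective g) {I : Ideal A} (hI : RingHom.ker g = I) (n : ℤ) :
    hG (RLen.ofLen A) G (⊥ : Submodule A (A ⧸ I)) ⊤ n =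
      hG (RLen.ofLen C) (G.map g) (⊥ : Ideal C) ⊤ n := by
  subst hI
  rw [← res_ofLen g hg, ← hG_surj _ G g hg, ← hG_quot]
  rfl

theorem dim_eqch {A T C : Type u} [CommRing A] [IsLocalRing A] [IsNoetherianRing A] [CommRing T]
    [IsLocalRing T] [IsNoetherianRing T] [CommRing C] (f : A →+* T) (hf : f.Flat) (e : T →+* C)
    (he : Function.Surjective e) (hk : RingHom.ker e = (maximalIdeal A).map f)
    (hm : (maximalIdeal A).map f ≤ maximalIdeal T) {Q : Ideal A} (hQ : Q ≠ ⊤) :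
    ringKrullDim (T ⧸ Q.map f) = ringKrullDim (A ⧸ Q) + ringKrullDim C := by
  have hQm : Q.map f ≤ (maximalIdeal A).map f := Ideal.map_mono (le_maximalIdeal hQ)
  have i1 : IsLocalRing (A ⧸ Q) := isLocalRing_quot_reg1 (le_maximalIdeal hQ)
  have i2 : IsLocalRing (T ⧸ Q.map f) := isLocalRing_quot_reg1 (hQm.trans hm)
  let g : A ⧸ Q →+* T ⧸ Q.map f := Ideal.quotientMap (Q.map f) f Ideal.le_comap_map
  let := g.toAlgebra
  have : Module.Flat (A ⧸ Q) (T ⧸ Q.map f) := FlatM.of_flat hf Q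
  have e1 : mS (A ⧸ Q) (T ⧸ Q.map f) =
      ((maximalIdeal A).map f).map (Ideal.Quotient.mk (Q.map f)) := by
    rw [mS, ← map_maximalIdeal_of_surjective (Ideal.Quotient.mk Q) Ideal.Quotient.mk_surjective,
      Ideal.map_map, Ideal.map_map]
    rfl
  have : IsLocalHom (algebraMap (A ⧸ Q) (T ⧸ Q.map f)) := by
    refine ((local_hom_TFAE _).out 0 2).2 (e1.le.trans ?_)
    rw [← map_maximalIdeal_of_surjective (Ideal.Quotient.mk (Q.map f))
      Ideal.Quotient.mk_surjective]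
    exact Ideal.map_mono hm
  rw [dim_eq_add (R := A ⧸ Q), e1, ringKrullDim_eq_of_ringEquiv
    (DoubleQuot.quotQuotEquivQuotOfLE hQm), ← hk,
    ringKrullDim_eq_of_ringEquiv (RingHom.quotientKerEquivOfSurjective he)]

theorem ker_cc_eqch {σ : Type} [Finite σ] (C : Type u) [CommRing C] :
    RingHom.ker (MvPowerSeries.constantCoeff : PS σ C →+* C) =
      Ideal.span (Set.range (MvPowerSeries.X : σ → PS σ C)) := by
  refine le_antisymm (fun x hx => ?_) (Ideal.span_le.2 ?_)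
  · have h1 := ps_sub_C_mem x
    rwa [RingHom.mem_ker.1 hx, map_zero, sub_zero] at h1
  · rintro _ ⟨j, rfl⟩
    exact MvPowerSeries.constantCoeff_X j

theorem pos_eqch {K : Type u} [Field K] {d : ℕ} {C : Type u} [CommRing C] [IsLocalRing C]
    [IsNoetherianRing C] [IsAdicComplete (maximalIdeal C) C] (π : PS (Fin d) K →+* C)
    (hπ : Function.Surjective π) {Q : Ideal (PS (Fin d) K)} (hQ : Q ≠ ⊤) {t : ℕ}
    (ht : maximalIdeal (PS (Fin d) K) ^ t ≤ RingHom.ker π ⊔ Q)
    (hd : ringKrullDim C + ringKrullDim (PS (Fin d) K ⧸ Q) = d) {G : GC (PS (Fin d) K)}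
    {aug : (G.ι → PS (Fin d) K) →ₗ[PS (Fin d) K] PS (Fin d) K ⧸ Q} (hG' : G.IsRes aug) :
    GoodG (RLen.ofLen C) (G.map π) (⊥ : Ideal C) ⊤ ∧
      0 < chiG (RLen.ofLen C) (G.map π) (⊥ : Ideal C) ⊤ := by
  have hmax := map_maximalIdeal_of_surjective π hπ
  have hx : ∀ j, π (MvPowerSeries.X j) ∈ maximalIdeal C := fun j =>
    hmax ▸ Ideal.mem_map_of_mem π (ps_mem_maximalIdeal.2 (MvPowerSeries.constantCoeff_X j))
  obtain ⟨ev, e1, e2, e3, e4⟩ := exists_ev0 (fun j => π (MvPowerSeries.X j))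
    (isAdicComplete_of_le _ fun h => (maximalIdeal.isMaximal C).ne_top
      (top_le_iff.1 (h ▸ Ideal.span_le.2 (Set.range_subset_iff.2 hx))))
  have hev : Function.Surjective ev := fun a => ⟨_, e1 a⟩
  obtain ⟨φ, hφ⟩ : ∃ φ : PS (Fin d) K →+* PS (Fin d) C,
      φ = MvPowerSeries.map (π.comp MvPowerSeries.C) := ⟨_, rfl⟩
  have hfl : φ.Flat := hφ ▸ flat_ps_map (by
    let := (π.comp MvPowerSeries.C).toAlgebra
    exact inferInstanceAs (Module.Flat K C))
  have hX : ∀ j, φ (MvPowerSeries.X j) = MvPowerSeries.X j := fun j => by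
    rw [hφ, MvPowerSeries.map_X]
  have hc : ev.comp φ = π := psHom_ext (maximalIdeal C) _ _
    (fun a => by rw [RingHom.comp_apply, hφ, MvPowerSeries.map_C, e1, RingHom.comp_apply])
    (fun j => by rw [RingHom.comp_apply, hX, e2])
    (fun j => by rw [RingHom.comp_apply, hX, e2]; exact hx j)
  have hm : (maximalIdeal (PS (Fin d) K)).map φ =
      Ideal.span (Set.range (MvPowerSeries.X : Fin d → PS (Fin d) C)) := by
    rw [ps_maximalIdeal, ps_map_span, funext hX]
  have hdim := dim_eqch φ hfl MvPowerSeries.constantCoeff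
    (fun a => ⟨_, MvPowerSeries.constantCoeff_C a⟩) ((ker_cc_eqch C).trans hm.symm)
    (by rw [hm, psl_maximalIdeal]; exact le_sup_right) hQ
  generalize (fun j => (MvPowerSeries.X j - MvPowerSeries.C (π (MvPowerSeries.X j)) :
    PS (Fin d) C)) = y at e3 e4
  have hy : Ideal.span {v | v ∈ List.ofFn y} = RingHom.ker ev := by
    rw [e4]
    congr 1
    ext v
    exact List.mem_ofFn' y v
  have hT := map_maximalIdeal_of_surjective ev hev
  have ht' : maximalIdeal (PS (Fin d) C) ^ t ≤ Ideal.span {v | v ∈ List.ofFn y} ⊔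
      Module.annihilator (PS (Fin d) C) (PS (Fin d) C ⧸ Q.map φ) := by
    rw [hy, Ideal.annihilator_quotient, sup_comm, RingHom.ker_eq_comap_bot,
      ← Ideal.comap_map_of_surjective ev hev, ← Ideal.map_le_iff_le_comap, Ideal.map_pow, hT,
      Ideal.map_map, hc, ← hmax, ← Ideal.map_pow]
    refine (Ideal.map_mono ht).trans ?_
    rw [Ideal.map_sup, (Ideal.map_eq_bot_iff_le_ker π).2 le_rfl, bot_sup_eq]
  have hz : ∀ v ∈ List.ofFn y, v ∈ maximalIdeal (PS (Fin d) C) := fun v hv =>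
    le_maximalIdeal (RingHom.ker_ne_top ev) (hy ▸ Ideal.subset_span hv)
  have h1 := kos_good (N := PS (Fin d) C ⧸ Q.map φ) (List.ofFn y) ht'
  have h2 := kos_chi_pos (N := PS (Fin d) C ⧸ Q.map φ) (List.ofFn y) hz ht' (by
    rw [Module.supportDim_quotient_eq_ringKrullDim, hdim, add_comm, hd, List.length_ofFn])
  obtain ⟨a1, ha1⟩ := GC.isRes_kos e3
  let := φ.toAlgebra
  have : Module.Flat (PS (Fin d) K) (PS (Fin d) C) := hfl
  obtain ⟨a2, ha2⟩ := hG'.bc_quot (PS (Fin d) C)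
  have h3 := good_chi_congr _ fun n => (hG_swap' (RLen.ofLen _) ha1 ha2 n).trans
    (surj_eqch _ ev hev e4 n)
  rw [← hc]
  exact ⟨h3.1.1 h1, h2.trans_eq h3.2⟩

theorem pos_ps (K : Type u) [Field K] (d : ℕ) : Pos (PS (Fin d) K) d := by
  intro P Q hP hQ ⟨t, ht⟩ hd
  have : IsLocalRing (PS (Fin d) K ⧸ P) :=
    IsLocalRing.of_surjective' (Ideal.Quotient.mk P) Ideal.Quotient.mk_surjective
  have := ps_isAdicComplete (σ := Fin d) K
  have := complete_of_surjective (Ideal.Quotient.mk P) Ideal.Quotient.mk_surjective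
  obtain ⟨G, aug, hG⟩ := (regL_ps K d).hasRes (PS (Fin d) K ⧸ Q)
  obtain ⟨h1, h2⟩ := pos_eqch (Ideal.Quotient.mk P) Ideal.Quotient.mk_surjective hQ.ne_top
    (by rwa [Ideal.mk_ker]) hd hG
  have h3 := good_chi_congr _ fun n => surj_eqch G (Ideal.Quotient.mk P)
    Ideal.Quotient.mk_surjective Ideal.mk_ker n
  exact ⟨_, h2, Chi.intro hG (h3.1.2 h1) h3.2⟩

end Vale.Agent.P177
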