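import Vale.Agent.P177.Ring

/-! Complexes with an action of a cyclic group. -/

namespace Vale.Agent.P177

open Vale.Agent.P202
open scoped ENNReal

universe u

variable {B : Type u} [CommRing B] {E E' : Type u} [AddCommGroup E] [Module B E]
  [AddCommGroup E'] [Module B E'] {μ : RLen B} {l : ℕ} {d r : E →ₗ[B] E} {d' r' : E' →ₗ[B] E'}
  {F F' F'' F1 F2 F3 : ℤ → Submodule B E} {G' G'' : ℤ → Submodule B E'}

theorem mem_iv {n : ℤ} {x : E} : x ∈ iv r F n ↔ x ∈ F n ∧ r x = x := by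
  simp [iv, LinearMap.mem_eqLocus]

theorem iv_mono (h : F' ≤ F'') : iv r F' ≤ iv r F'' := by
  intro n x hx
  exact mem_iv.2 ⟨h n (mem_iv.1 hx).1, (mem_iv.1 hx).2⟩

theorem Act.iv_isCx (h : Act l d r) (hF : IsCx d F) : IsCx d (iv r F) := by
  rintro n _ ⟨x, hx, rfl⟩
  obtain ⟨h1, h2⟩ := mem_iv.1 hx
  exact mem_iv.2 ⟨hF n ⟨x, h1, rfl⟩, by rw [h.comm, h2]⟩

theorem Act.tri (h : Act l d r) (ht : Tri d F1 F2 F3) : Tri d (iv r F1) (iv r F2) (iv r F3) := by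
  refine ⟨fun n x hx => ?_, h.iv_isCx ht.h1, h.iv_isCx ht.h2, h.iv_isCx ht.h3, iv_mono ht.h12,
    iv_mono ht.h23⟩
  obtain ⟨h1, h2⟩ := mem_iv.1 hx
  exact mem_iv.2 ⟨ht.sq n x h1, by rw [h.comm, h.comm, h2]⟩

/-- The average of the powers of `r`. -/
noncomputable def avEqv (hu : IsUnit (l : B)) (r : E →ₗ[B] E) : E →ₗ[B] E :=
  ((hu.unit⁻¹ : Bˣ) : B) • ∑ i ∈ Finset.range l, r ^ i

theorem av_apply_eqv (hu : IsUnit (l : B)) (x : E) :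
    avEqv hu r x = ((hu.unit⁻¹ : Bˣ) : B) • ∑ i ∈ Finset.range l, (r ^ i) x := by
  simp only [avEqv, LinearMap.smul_apply, LinearMap.sum_apply]

theorem Act.av_inv_eqv (h : Act l d r) (x : E) : r (avEqv h.unit r x) = avEqv h.unit r x := by
  rw [av_apply_eqv, map_smul, map_sum]
  congr 1
  have h1 := Finset.sum_range_succ (fun i => (r ^ i) x) l
  have h2 := Finset.sum_range_succ' (fun i => (r ^ i) x) l
  rw [h1, h.ord, pow_zero] at h2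
  rw [add_right_cancel h2]
  exact Finset.sum_congr rfl fun i _ => by rw [pow_succ']; rfl

theorem av_fix_eqv (hu : IsUnit (l : B)) (x : E) (hx : r x = x) : avEqv hu r x = x := by
  have h1 : ∀ i : ℕ, (r ^ i) x = x := fun i => by
    induction i with
    | zero => rfl
    | succ i ih => rw [pow_succ, Module.End.mul_apply, hx, ih]
  rw [av_apply_eqv]
  simp only [h1, Finset.sum_const, Finset.card_range]
  rw [← Nat.cast_smul_eq_nsmul B, smul_smul, IsUnit.val_inv_mul, one_smul]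

theorem av_comm_eqv (hu : IsUnit (l : B)) (φ : E →ₗ[B] E') (hφ : ∀ x, φ (r x) = r' (φ x))
    (x : E) : φ (avEqv hu r x) = avEqv hu r' (φ x) := by
  have h1 : ∀ i : ℕ, φ ((r ^ i) x) = (r' ^ i) (φ x) := fun i => by
    induction i with
    | zero => rfl
    | succ i ih => rw [pow_succ', pow_succ', Module.End.mul_apply, Module.End.mul_apply, hφ, ih]
  simp only [av_apply_eqv, map_smul, map_sum, h1]

theorem av_mem_eqv (hu : IsUnit (l : B)) {N : Submodule B E} (hN : N.map r ≤ N) {x : E}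
    (hx : x ∈ N) : avEqv hu r x ∈ N := by
  have h1 : ∀ i : ℕ, (r ^ i) x ∈ N := fun i => by
    induction i with
    | zero => exact hx
    | succ i ih => rw [pow_succ', Module.End.mul_apply]; exact hN ⟨_, ih, rfl⟩
  rw [av_apply_eqv]
  exact N.smul_mem _ (N.sum_mem fun i _ => h1 i)

theorem av_map_eqv (hu : IsUnit (l : B)) {N : Submodule B E} (hN : N.map r ≤ N) :
    N.map (avEqv hu r) ≤ N := by
  rintro _ ⟨x, hx, rfl⟩
  exact av_mem_eqv hu hN hx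

theorem Act.av_iv_eqv (h : Act l d r) (s : Stab r F) {n : ℤ} {x : E} (hx : x ∈ F n) :
    avEqv h.unit r x ∈ iv r F n :=
  mem_iv.2 ⟨av_mem_eqv h.unit (s n) hx, h.av_inv_eqv x⟩

theorem mem_Bc_eqv (k : E →ₗ[B] E) (k1 : ∀ n, (F' n).map k ≤ F' (n + 1))
    (k2 : ∀ n, (F'' n).map k ≤ F'' (n + 1)) {n : ℤ} {x : E} (hx : x ∈ Zc d F' F'' n) :
    d (k x) + k (d x) ∈ Bc d F' F'' n := by
  have h1 := k1 (n - 1) ⟨d x, hx.2, rfl⟩
  rw [sub_add_cancel] at h1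
  rw [add_comm]
  exact Submodule.add_mem_sup h1 ⟨_, k2 n ⟨x, hx.1, rfl⟩, rfl⟩

theorem Act.mem_Bc_iv_eqv (h : Act l d r) (s1 : Stab r F') (s2 : Stab r F'') (k : E →ₗ[B] E)
    (k1 : ∀ n, (F' n).map k ≤ F' (n + 1)) (k2 : ∀ n, (F'' n).map k ≤ F'' (n + 1)) {n : ℤ}
    {x y : E} (hx : x ∈ Zc d (iv r F') (iv r F'') n) (hy : r y = y)
    (e : y = d (k x) + k (d x)) : y ∈ Bc d (iv r F') (iv r F'') n := by
  have h1 := k1 (n - 1) ⟨d x, (mem_iv.1 hx.2).1, rfl⟩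
  rw [sub_add_cancel] at h1
  rw [← av_fix_eqv h.unit y hy, e, map_add, add_comm,
    ← av_comm_eqv h.unit d (fun x => (h.comm x).symm)]
  exact Submodule.add_mem_sup (h.av_iv_eqv s1 h1)
    ⟨_, h.av_iv_eqv s2 (k2 n ⟨x, (mem_iv.1 hx.1).1, rfl⟩), rfl⟩

/-- The averaging operator. -/
theorem Act.exists_av (h : Act l d r) : ∃ a : E →ₗ[B] E, (∀ x, r (a x) = a x) ∧
    (∀ x, r x = x → a x = x) ∧ (∀ x, a (d x) = d (a x)) ∧
    (∀ N : Submodule B E, N.map r ≤ N → N.map a ≤ N) ∧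
    ∃ c : B, ∀ x, a x = c • ∑ i ∈ Finset.range l, (r ^ i) x := by
  exact ⟨avEqv h.unit r, h.av_inv_eqv, av_fix_eqv h.unit, fun x =>
    (av_comm_eqv h.unit d (fun x => (h.comm x).symm) x).symm, fun N hN => av_map_eqv h.unit hN, _,
    av_apply_eqv h.unit⟩

theorem Act.psi_add (h : Act l d r) (ht : Tri d F1 F2 F3) (g12 : GoodP μ d r F1 F2)
    (g23 : GoodP μ d r F2 F3) :
    GoodP μ d r F1 F3 ∧ psi μ l d r F1 F3 = psi μ l d r F1 F2 + psi μ l d r F2 F3 := by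
  refine ⟨⟨ht.good μ g12.1 g23.1, (h.tri ht).good μ g12.2 g23.2⟩, ?_⟩
  unfold psi
  rw [ht.chi_add μ g12.1 g23.1, (h.tri ht).chi_add μ g12.2 g23.2]
  ring

theorem Act.psi_left (h : Act l d r) (ht : Tri d F1 F2 F3) (g13 : GoodP μ d r F1 F3)
    (g23 : GoodP μ d r F2 F3) :
    GoodP μ d r F1 F2 ∧ psi μ l d r F1 F2 = psi μ l d r F1 F3 - psi μ l d r F2 F3 := by
  have g : GoodP μ d r F1 F2 := ⟨ht.good_left μ g13.1 g23.1, (h.tri ht).good_left μ g13.2 g23.2⟩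
  exact ⟨g, by rw [(h.psi_add ht g g23).2]; ring⟩

theorem Act.psi_right (h : Act l d r) (ht : Tri d F1 F2 F3) (g13 : GoodP μ d r F1 F3)
    (g12 : GoodP μ d r F1 F2) :
    GoodP μ d r F2 F3 ∧ psi μ l d r F2 F3 = psi μ l d r F1 F3 - psi μ l d r F1 F2 := by
  have g : GoodP μ d r F2 F3 :=
    ⟨ht.good_right μ g12.1 g13.1, (h.tri ht).good_right μ g12.2 g13.2⟩
  exact ⟨g, by rw [(h.psi_add ht g12 g).2]; ring⟩

theorem Act.psi_chain (h : Act l d r) (hd : d ∘ₗ d = 0) (F : ℕ → ℤ → Submodule B E) (m : ℕ)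
    (hF : ∀ i ≤ m, IsCx d (F i)) (hle : ∀ i < m, F i ≤ F (i + 1))
    (hg : ∀ i < m, GoodP μ d r (F i) (F (i + 1))) : GoodP μ d r (F 0) (F m) ∧
      psi μ l d r (F 0) (F m) = ∑ i ∈ Finset.range m, psi μ l d r (F i) (F (i + 1)) := by
  have h1 := good_chiR_chain μ F m (sq_of_comp hd _ _) hF hle fun i hi => (hg i hi).1
  have h2 := good_chiR_chain μ (fun i => iv r (F i)) m (sq_of_comp hd _ _)
    (fun i hi => h.iv_isCx (hF i hi)) (fun i hi => iv_mono (hle i hi)) fun i hi => (hg i hi).2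
  refine ⟨⟨h1.1, h2.1⟩, ?_⟩
  unfold psi
  rw [h1.2, h2.2, Finset.sum_sub_distrib, Finset.mul_sum]

theorem psi_null {κ : B} (hκ : Null μ κ) (c : ℕ) (h : ∀ n, ∀ x ∈ F'' n, κ ^ c • x ∈ F' n) :
    GoodP μ d r F' F'' ∧ psi μ l d r F' F'' = 0 := by
  have h1 := good_chi_of_zero μ (hκ.hr_eq_zero d c h)
  have h2 := good_chi_of_zero μ (hκ.hr_eq_zero d (F' := iv r F') (F'' := iv r F'') c
    fun n x hx => mem_iv.2 ⟨h n x (mem_iv.1 hx).1, by rw [map_smul, (mem_iv.1 hx).2]⟩)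
  refine ⟨⟨h1.1, h2.1⟩, ?_⟩
  unfold psi
  rw [h1.2, h2.2]
  simp

/-- Commensurable subcomplexes. -/
theorem Act.psi_comm (h : Act l d r) (hd : d ∘ₗ d = 0) {κ : B} (hκ : Null μ κ) (c : ℕ)
    (h0 : IsCx d F) (h1 : IsCx d F1) (h2 : IsCx d F2) (s1 : Stab r F1) (s2 : Stab r F2)
    (l1 : F ≤ F1) (l2 : F ≤ F2) (k1 : ∀ n, ∀ x ∈ F1 n, κ ^ c • x ∈ F2 n)
    (k2 : ∀ n, ∀ x ∈ F2 n, κ ^ c • x ∈ F1 n) (g : GoodP μ d r F F1) :
    GoodP μ d r F F2 ∧ psi μ l d r F F2 = psi μ l d r F F1 := by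
  have hi : IsCx d (F1 ⊓ F2) := by
    rintro n _ ⟨x, hx, rfl⟩
    exact ⟨h1 n ⟨x, hx.1, rfl⟩, h2 n ⟨x, hx.2, rfl⟩⟩
  have t1 : Tri d F (F1 ⊓ F2) F1 := ⟨sq_of_comp hd _ _, h0, hi, h1, le_inf l1 l2, inf_le_left⟩
  have t2 : Tri d F (F1 ⊓ F2) F2 := ⟨sq_of_comp hd _ _, h0, hi, h2, le_inf l1 l2, inf_le_right⟩
  have n1 := psi_null (l := l) (d := d) (r := r) (F' := F1 ⊓ F2) (F'' := F1) hκ c
    fun n x hx => ⟨Submodule.smul_mem _ _ hx, k1 n x hx⟩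
  have n2 := psi_null (l := l) (d := d) (r := r) (F' := F1 ⊓ F2) (F'' := F2) hκ c
    fun n x hx => ⟨k2 n x hx, Submodule.smul_mem _ _ hx⟩
  have a := h.psi_left t1 g n1.1
  have b := h.psi_add t2 a.1 n2.1
  exact ⟨b.1, by rw [b.2, a.2, n1.2, n2.2]; ring⟩

/-- A null-homotopy also kills the homology of the invariants. -/
theorem Act.smul_mem (h : Act l d r) (s1 : Stab r F') (s2 : Stab r F'') {z : B} (k : E →ₗ[B] E)
    (hk : ∀ x, d (k x) + k (d x) = z • x) (k1 : ∀ n, (F' n).map k ≤ F' (n + 1))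
    (k2 : ∀ n, (F'' n).map k ≤ F'' (n + 1)) (n : ℤ) :
    (∀ x ∈ Zc d F' F'' n, z • x ∈ Bc d F' F'' n) ∧
      ∀ x ∈ Zc d (iv r F') (iv r F'') n, z • x ∈ Bc d (iv r F') (iv r F'') n := by
  refine ⟨fun x hx => hk x ▸ mem_Bc_eqv k k1 k2 hx, fun x hx => ?_⟩
  exact h.mem_Bc_iv_eqv s1 s2 k k1 k2 hx (by rw [map_smul, (mem_iv.1 hx.1).2]) (hk x).symm

theorem Act.psi_exact (h : Act l d r) (s1 : Stab r F') (s2 : Stab r F'') (k : E →ₗ[B] E)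
    (hk : ∀ x, d (k x) + k (d x) = x) (k1 : ∀ n, (F' n).map k ≤ F' (n + 1))
    (k2 : ∀ n, (F'' n).map k ≤ F'' (n + 1)) : GoodP μ d r F' F'' ∧ psi μ l d r F' F'' = 0 := by
  have h0 := h.smul_mem s1 s2 (z := 1) k (fun x => by rw [hk, one_smul]) k1 k2
  simp only [one_smul] at h0
  have h1 := good_chi_of_zero μ (hr_eq_zero_of_exa μ fun n => (h0 n).1)
  have h2 := good_chi_of_zero μ (hr_eq_zero_of_exa μ fun n => (h0 n).2)
  refine ⟨⟨h1.1, h2.1⟩, ?_⟩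
  unfold psi
  rw [h1.2, h2.2]
  simp

/-- Equivariant transfer. -/
theorem Act.hr_transfer (h : Act l d r) (h' : Act l d' r') (φ : E →ₗ[B] E')
    (hφ : ∀ x, φ (r x) = r' (φ x)) (σ : ℤ) (c : Bˣ) (s2 : Stab r F'') (s3 : Stab r' G')
    (hF'' : IsCx d F'') (hG' : IsCx d' G')
    (hcomm : ∀ n, ∀ x ∈ F'' n, φ (d x) - (c : B) • d' (φ x) ∈ G' (n - 1 + σ))
    (hsurj : ∀ n, (F'' n).map φ ⊔ G' (n + σ) = G'' (n + σ))
    (hinj : ∀ n, F'' n ⊓ (G' (n + σ)).comap φ = F' n) (n : ℤ) :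
    hr μ d (iv r F') (iv r F'') n = hr μ d' (iv r' G') (iv r' G'') (n + σ) := by
  refine P202.hr_transfer μ φ σ c (h.iv_isCx hF'') (h'.iv_isCx hG') (fun n x hx => ?_)
    (fun n => ?_) (fun n => ?_) n
  · obtain ⟨h1, h2⟩ := mem_iv.1 hx
    refine mem_iv.2 ⟨hcomm n x h1, ?_⟩
    rw [map_sub, map_smul, h'.comm, ← hφ, ← hφ, h.comm, h2]
  · apply le_antisymm
    · refine sup_le ?_ fun y hy => ?_
      · rintro _ ⟨x, hx, rfl⟩
        obtain ⟨h1, h2⟩ := mem_iv.1 hx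
        exact mem_iv.2 ⟨hsurj n ▸ Submodule.mem_sup_left ⟨x, h1, rfl⟩, by rw [← hφ, h2]⟩
      · exact mem_iv.2 ⟨hsurj n ▸ Submodule.mem_sup_right (mem_iv.1 hy).1, (mem_iv.1 hy).2⟩
    · intro y hy
      obtain ⟨h1, h2⟩ := mem_iv.1 hy
      rw [← hsurj] at h1
      obtain ⟨_, ⟨x, hx, rfl⟩, g, hg, rfl⟩ := Submodule.mem_sup.1 h1
      rw [← av_fix_eqv h.unit _ h2, map_add, ← av_comm_eqv h.unit φ hφ]
      exact Submodule.add_mem_sup ⟨_, h.av_iv_eqv s2 hx, rfl⟩ (h'.av_iv_eqv s3 hg)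
  · ext x
    rw [Submodule.mem_inf, Submodule.mem_comap, mem_iv, mem_iv, mem_iv, ← hinj n,
      Submodule.mem_inf, Submodule.mem_comap]
    exact ⟨fun a => ⟨⟨a.1.1, a.2.1⟩, a.1.2⟩, fun a => ⟨⟨a.1.1, a.2⟩, a.1.2, by rw [← hφ, a.2]⟩⟩

theorem Act.psi_transfer (h : Act l d r) (h' : Act l d' r') (φ : E →ₗ[B] E')
    (hφ : ∀ x, φ (r x) = r' (φ x)) (σ : ℤ) (c : Bˣ) (s2 : Stab r F'') (s3 : Stab r' G')
    (hF'' : IsCx d F'') (hG' : IsCx d' G')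
    (hcomm : ∀ n, ∀ x ∈ F'' n, φ (d x) - (c : B) • d' (φ x) ∈ G' (n - 1 + σ))
    (hsurj : ∀ n, (F'' n).map φ ⊔ G' (n + σ) = G'' (n + σ))
    (hinj : ∀ n, F'' n ⊓ (G' (n + σ)).comap φ = F' n) :
    (GoodP μ d r F' F'' ↔ GoodP μ d' r' G' G'') ∧
      psi μ l d r F' F'' = (((σ.negOnePow : ℤˣ) : ℤ) : ℝ) * psi μ l d' r' G' G'' := by
  have h1 := good_chi_of_hr_shift μ σ (P202.hr_transfer μ φ σ c hF'' hG' hcomm hsurj hinj)
  have h2 := good_chi_of_hr_shift μ σ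
    (h.hr_transfer (μ := μ) h' φ hφ σ c s2 s3 hF'' hG' hcomm hsurj hinj)
  refine ⟨and_congr h1.1 h2.1, ?_⟩
  unfold psi
  rw [h1.2, h2.2]
  ring

/-- Equivariant maps that are homotopy equivalences. -/
theorem Act.psi_htpy (h : Act l d r) (h' : Act l d' r') (φ : E →ₗ[B] E') (ψ : E' →ₗ[B] E)
    (e1 : ∀ x, φ (r x) = r' (φ x)) (e2 : ∀ x, ψ (r' x) = r (ψ x))
    (hφ : ∀ x, φ (d x) = d' (φ x)) (hψ : ∀ x, ψ (d' x) = d (ψ x))
    (s1 : Stab r F') (s2 : Stab r F'') (s3 : Stab r' G') (s4 : Stab r' G'')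
    (h1 : ∀ n, (F' n).map φ ≤ G' n) (h2 : ∀ n, (F'' n).map φ ≤ G'' n)
    (h3 : ∀ n, (G' n).map ψ ≤ F' n) (h4 : ∀ n, (G'' n).map ψ ≤ F'' n)
    (k : E →ₗ[B] E) (hk : ∀ x, ψ (φ x) - x = d (k x) + k (d x))
    (k1 : ∀ n, (F' n).map k ≤ F' (n + 1)) (k2 : ∀ n, (F'' n).map k ≤ F'' (n + 1))
    (k' : E' →ₗ[B] E') (hk' : ∀ x, φ (ψ x) - x = d' (k' x) + k' (d' x))
    (k3 : ∀ n, (G' n).map k' ≤ G' (n + 1)) (k4 : ∀ n, (G'' n).map k' ≤ G'' (n + 1)) (n : ℤ) :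
    hr μ d F' F'' n = hr μ d' G' G'' n ∧
      hr μ d (iv r F') (iv r F'') n = hr μ d' (iv r' G') (iv r' G'') n := by
  have m : ∀ {E E' : Type u} [AddCommGroup E] [Module B E] [AddCommGroup E'] [Module B E']
      {r : E →ₗ[B] E} {r' : E' →ₗ[B] E'} (φ : E →ₗ[B] E') (_ : ∀ x, φ (r x) = r' (φ x))
      {F : ℤ → Submodule B E} {G : ℤ → Submodule B E'} (_ : ∀ n, (F n).map φ ≤ G n) (n : ℤ),
      (iv r F n).map φ ≤ iv r' G n := by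
    rintro E E' _ _ _ _ r r' φ e F G hF n _ ⟨x, hx, rfl⟩
    exact mem_iv.2 ⟨hF n ⟨x, (mem_iv.1 hx).1, rfl⟩, by rw [← e, (mem_iv.1 hx).2]⟩
  refine ⟨hr_of_htpy μ φ ψ hφ hψ h1 h2 h3 h4 n (fun x hx => hk x ▸ mem_Bc_eqv k k1 k2 hx)
    (fun x hx => hk' x ▸ mem_Bc_eqv k' k3 k4 hx),
    hr_of_htpy μ φ ψ hφ hψ (m φ e1 h1) (m φ e1 h2) (m ψ e2 h3) (m ψ e2 h4) n
      (fun x hx => ?_) fun x hx => ?_⟩
  · refine h.mem_Bc_iv_eqv s1 s2 k k1 k2 hx ?_ (hk x)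
    rw [map_sub, ← e2, ← e1, (mem_iv.1 hx.1).2]
  · refine h'.mem_Bc_iv_eqv s3 s4 k' k3 k4 hx ?_ (hk' x)
    rw [map_sub, ← e1, ← e2, (mem_iv.1 hx.1).2]

end Vale.Agent.P177
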