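import Vale.Agent.P177.Ring

/-! Extension of a length function from a quotient ring. -/

namespace Vale.Agent.P177

open Vale.Agent.P202
open scoped ENNReal

universe u

section ExtL

variable {A : Type u} [CommRing A] (I : Ideal A) (μ : RLen (A ⧸ I))

/-- The size of `M / I M`. -/
noncomputable def extlNu (M : Type u) [AddCommGroup M] [Module A M] : ℝ≥0∞ :=
  μ.len (M ⧸ (I • ⊤ : Submodule A M))

variable {N M P : Type u} [AddCommGroup N] [Module A N] [AddCommGroup M] [Module A M]
  [AddCommGroup P] [Module A P]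

theorem extl_red_surj (g : M →ₗ[A] P) (hg : Function.Surjective g) :
    Function.Surjective (g.reduceModIdeal I) := by
  intro y
  obtain ⟨y, rfl⟩ := Submodule.Quotient.mk_surjective _ y
  obtain ⟨x, rfl⟩ := hg y
  exact ⟨Submodule.Quotient.mk x, rfl⟩

theorem extl_red_exact (f : N →ₗ[A] M) (g : M →ₗ[A] P) (hg : Function.Surjective g)
    (h : Function.Exact f g) : Function.Exact (f.reduceModIdeal I) (g.reduceModIdeal I) := by
  intro y
  obtain ⟨y, rfl⟩ := Submodule.Quotient.mk_surjective _ y
  rw [LinearMap.reduceModIdeal_apply, Submodule.Quotient.mk_eq_zero]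
  constructor
  · intro hy
    rw [← LinearMap.range_eq_top.2 hg, ← Submodule.map_top g, ← Submodule.map_smul''] at hy
    obtain ⟨z, hz, hzy⟩ := hy
    obtain ⟨n, hn⟩ := (h (y - z)).1 (by rw [map_sub, hzy, sub_self])
    refine ⟨Submodule.Quotient.mk n, ?_⟩
    rw [LinearMap.reduceModIdeal_apply, hn, Submodule.Quotient.eq]
    simpa using hz
  · rintro ⟨x, hx⟩
    obtain ⟨x, rfl⟩ := Submodule.Quotient.mk_surjective _ x
    rw [LinearMap.reduceModIdeal_apply, Submodule.Quotient.eq] at hx
    have h1 : g (f x - y) ∈ (I • ⊤ : Submodule A P) := by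
      have := Submodule.mem_map_of_mem (f := g) hx
      rw [Submodule.map_smul''] at this
      exact Submodule.smul_mono le_rfl le_top this
    rw [map_sub, h.apply_apply_eq_zero, zero_sub] at h1
    exact (Submodule.neg_mem_iff _).1 h1

theorem extlNu_surj (g : M →ₗ[A] P) (hg : Function.Surjective g) :
    extlNu I μ P ≤ extlNu I μ M :=
  μ.le_of_surjective (g.reduceModIdeal I) (extl_red_surj I g hg)

theorem extlNu_le (f : N →ₗ[A] M) (g : M →ₗ[A] P) (hg : Function.Surjective g)
    (h : Function.Exact f g) : extlNu I μ M ≤ extlNu I μ N + extlNu I μ P := by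
  have h1 := μ.add_of_exact (LinearMap.range (f.reduceModIdeal I)).subtype (g.reduceModIdeal I)
    (Submodule.subtype_injective _) (extl_red_surj I g hg) (by
      rw [LinearMap.exact_iff, Submodule.range_subtype]
      exact (extl_red_exact I f g hg h).linearMap_ker_eq)
  unfold extlNu
  rw [h1]
  exact add_le_add (μ.le_of_surjective _ (f.reduceModIdeal I).surjective_rangeRestrict) le_rfl

theorem extlNu_add (f : N →ₗ[A] M) (g : M →ₗ[A] P) (hf : Function.Injective f)
    (hg : Function.Surjective g) (h : Function.Exact f g) (hM : (I • ⊤ : Submodule A M) = ⊥) :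
    extlNu I μ M = extlNu I μ N + extlNu I μ P := by
  refine μ.add_of_exact (f.reduceModIdeal I) (g.reduceModIdeal I) ?_ (extl_red_surj I g hg)
    (extl_red_exact I f g hg h)
  rw [injective_iff_map_eq_zero]
  intro x hx
  obtain ⟨x, rfl⟩ := Submodule.Quotient.mk_surjective _ x
  rw [LinearMap.reduceModIdeal_apply, Submodule.Quotient.mk_eq_zero, hM, Submodule.mem_bot] at hx
  rw [hf (hx.trans (map_zero f).symm)]
  rfl

/-- The supremum over chains with `n` steps. -/
noncomputable def extlL : ℕ → ∀ (M : Type u) [AddCommGroup M] [Module A M], ℝ≥0∞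
  | 0, _, _, _ => 0
  | n + 1, M, _, _ => ⨆ N : Submodule A M, extlL n N + extlNu I μ (M ⧸ N)

theorem extlL_zero (M : Type u) [AddCommGroup M] [Module A M] : extlL I μ 0 M = 0 := rfl

theorem extlL_succ (n : ℕ) (M : Type u) [AddCommGroup M] [Module A M] :
    extlL I μ (n + 1) M = ⨆ N : Submodule A M, extlL I μ n N + extlNu I μ (M ⧸ N) := rfl

theorem extl_le_succ (n : ℕ) (M' : Submodule A M) :
    extlL I μ n M' + extlNu I μ (M ⧸ M') ≤ extlL I μ (n + 1) M := by
  rw [extlL_succ]
  exact le_iSup (fun N : Submodule A M => extlL I μ n N + extlNu I μ (M ⧸ N)) M'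

theorem extl_comap_surj (g : M →ₗ[A] P) (hg : Function.Surjective g) (P' : Submodule A P) :
    Function.Surjective (g.restrict (p := P'.comap g) (q := P') fun _ hx => hx) := by
  rintro ⟨y, hy⟩
  obtain ⟨x, rfl⟩ := hg y
  exact ⟨⟨x, hy⟩, rfl⟩

theorem extl_mapQ_surj (g : M →ₗ[A] P) (hg : Function.Surjective g) (M' : Submodule A M)
    (P' : Submodule A P) (h : M' ≤ P'.comap g) : Function.Surjective (M'.mapQ P' g h) := by
  intro y
  obtain ⟨y, rfl⟩ := Submodule.Quotient.mk_surjective _ y
  obtain ⟨x, rfl⟩ := hg y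
  exact ⟨Submodule.Quotient.mk x, rfl⟩

theorem extlL_surj (n : ℕ) : ∀ {M P : Type u} [AddCommGroup M] [Module A M] [AddCommGroup P]
    [Module A P] (g : M →ₗ[A] P), Function.Surjective g → extlL I μ n P ≤ extlL I μ n M := by
  induction n with
  | zero => intros; exact le_rfl
  | succ n ih =>
    intro M P _ _ _ _ g hg
    rw [extlL_succ I μ n P]
    refine iSup_le fun P' => le_trans ?_ (extl_le_succ I μ n (P'.comap g))
    exact add_le_add (ih _ (extl_comap_surj g hg P'))
      (extlNu_surj I μ _ (extl_mapQ_surj g hg _ P' le_rfl))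

theorem extlL_inj (n : ℕ) (f : N →ₗ[A] M) (hf : Function.Injective f) :
    extlL I μ n N ≤ extlL I μ (n + 1) M :=
  le_trans (le_trans (extlL_surj I μ n (LinearEquiv.ofInjective f hf).symm.toLinearMap
    (LinearEquiv.ofInjective f hf).symm.surjective) le_self_add)
    (extl_le_succ I μ n (LinearMap.range f))

theorem extlL_sub (n : ℕ) : ∀ {N M P : Type u} [AddCommGroup N] [Module A N] [AddCommGroup M]
    [Module A M] [AddCommGroup P] [Module A P] (f : N →ₗ[A] M) (g : M →ₗ[A] P),
    Function.Surjective g → Function.Exact f g →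
      extlL I μ n M ≤ extlL I μ n N + extlL I μ n P := by
  induction n with
  | zero => intros; exact zero_le
  | succ n ih =>
    intro N M P _ _ _ _ _ _ f g hg h
    rw [extlL_succ I μ n M]
    refine iSup_le fun M' => le_trans ?_
      (add_le_add (extl_le_succ I μ n (M'.comap f)) (extl_le_succ I μ n (M'.map g)))
    rw [add_add_add_comm]
    refine add_le_add ?_ ?_
    · refine ih (f.restrict (p := M'.comap f) (q := M') fun _ hx => hx)
        (g.restrict (p := M') (q := M'.map g) fun _ hx => Submodule.mem_map_of_mem hx) ?_ ?_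
      · rintro ⟨_, x, hx, rfl⟩
        exact ⟨⟨x, hx⟩, rfl⟩
      · rintro ⟨x, hx⟩
        constructor
        · intro h0
          obtain ⟨y, rfl⟩ := (h x).1 (congrArg Subtype.val h0)
          exact ⟨⟨y, hx⟩, rfl⟩
        · rintro ⟨⟨y, hy⟩, h1⟩
          apply Subtype.ext
          exact (h x).2 ⟨y, congrArg Subtype.val h1⟩
    · refine extlNu_le I μ ((M'.comap f).mapQ M' f le_rfl)
        (M'.mapQ (M'.map g) g (Submodule.le_comap_map g M')) (extl_mapQ_surj g hg _ _ _) ?_
      intro x
      obtain ⟨x, rfl⟩ := Submodule.Quotient.mk_surjective _ x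
      rw [Submodule.mapQ_apply, Submodule.Quotient.mk_eq_zero]
      constructor
      · rintro ⟨z, hz, hzx⟩
        obtain ⟨y, hy⟩ := (h (x - z)).1 (by rw [map_sub, hzx, sub_self])
        refine ⟨Submodule.Quotient.mk y, ?_⟩
        rw [Submodule.mapQ_apply, hy, Submodule.Quotient.eq]
        simpa using hz
      · rintro ⟨y, hy⟩
        obtain ⟨y, rfl⟩ := Submodule.Quotient.mk_surjective _ y
        rw [Submodule.mapQ_apply, Submodule.Quotient.eq] at hy
        refine ⟨-(f y - x), neg_mem hy, ?_⟩
        rw [map_neg, map_sub, h.apply_apply_eq_zero, zero_sub, neg_neg]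

theorem extlL_super (m n : ℕ) : ∀ {N M P : Type u} [AddCommGroup N] [Module A N]
    [AddCommGroup M] [Module A M] [AddCommGroup P] [Module A P] (f : N →ₗ[A] M) (g : M →ₗ[A] P),
    Function.Injective f → Function.Surjective g → Function.Exact f g →
      extlL I μ m N + extlL I μ n P ≤ extlL I μ (m + n + 1) M := by
  induction n with
  | zero =>
    intro N M P _ _ _ _ _ _ f g hf _ _
    rw [extlL_zero, add_zero]
    exact extlL_inj I μ m f hf
  | succ n ih =>
    intro N M P _ _ _ _ _ _ f g hf hg h
    rw [extlL_succ I μ n P, ENNReal.add_iSup]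
    refine iSup_le fun P' => le_trans ?_ (extl_le_succ I μ (m + n + 1) (P'.comap g))
    rw [← add_assoc]
    refine add_le_add ?_ (extlNu_surj I μ _ (extl_mapQ_surj g hg _ P' le_rfl))
    have hm : ∀ x, f x ∈ P'.comap g := fun x => by
      rw [Submodule.mem_comap, h.apply_apply_eq_zero]
      exact P'.zero_mem
    refine ih (f.codRestrict _ hm) _ (fun x y hxy => hf (congrArg Subtype.val hxy))
      (extl_comap_surj g hg P') ?_
    rintro ⟨x, hx⟩
    constructor
    · intro h0
      obtain ⟨y, rfl⟩ := (h x).1 (congrArg Subtype.val h0)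
      exact ⟨y, rfl⟩
    · rintro ⟨y, h1⟩
      apply Subtype.ext
      exact (h x).2 ⟨y, congrArg Subtype.val h1⟩

theorem extlL_le_nu (n : ℕ) : ∀ {M : Type u} [AddCommGroup M] [Module A M],
    (I • ⊤ : Submodule A M) = ⊥ → extlL I μ n M ≤ extlNu I μ M := by
  induction n with
  | zero => intros; exact zero_le
  | succ n ih =>
    intro M _ _ hM
    rw [extlL_succ]
    refine iSup_le fun M' => ?_
    rw [extlNu_add I μ M'.subtype M'.mkQ (Submodule.subtype_injective _)
      (Submodule.mkQ_surjective _) (LinearMap.exact_subtype_mkQ _) hM]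
    refine add_le_add (ih ?_) le_rfl
    rw [eq_bot_iff, Submodule.smul_le]
    intro r hr x _
    have : r • (x : M) ∈ (I • ⊤ : Submodule A M) := Submodule.smul_mem_smul hr trivial
    rw [hM] at this
    exact Subtype.ext this

/-- The extended length function. -/
noncomputable def extlLen : RLen A where
  len M _ _ := ⨆ n, extlL I μ n M
  add_of_exact := fun f g hf hg h => by
    refine le_antisymm (iSup_le fun n => (extlL_sub I μ n f g hg h).trans
      (add_le_add (le_iSup (fun n => extlL I μ n _) n) (le_iSup (fun n => extlL I μ n _) n))) ?_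
    exact ENNReal.iSup_add_iSup_le fun m n => (extlL_super I μ m n f g hf hg h).trans
      (le_iSup (fun n => extlL I μ n _) (m + n + 1))
  zero := fun M _ _ _ => by
    refine le_antisymm (iSup_le fun n => (extlL_le_nu I μ n (Subsingleton.elim _ _)).trans ?_)
      zero_le
    exact (μ.zero _).le

theorem extlLen_eq_nu (hM : (I • ⊤ : Submodule A M) = ⊥) :
    (extlLen I μ).len M = extlNu I μ M := by
  refine le_antisymm (iSup_le fun n => extlL_le_nu I μ n hM) ?_
  refine le_trans ?_ (le_iSup (fun n => extlL I μ n M) 1)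
  refine le_trans ?_ (extl_le_succ I μ 0 (⊥ : Submodule A M))
  rw [extlL_zero, zero_add]
  exact extlNu_surj I μ (Submodule.quotEquivOfEqBot ⊥ rfl).toLinearMap
    (Submodule.quotEquivOfEqBot (⊥ : Submodule A M) rfl).surjective

end ExtL

theorem exists_ext {A : Type u} [CommRing A] (I : Ideal A) (μ : RLen (A ⧸ I)) :
    ∃ μ0 : RLen A, μ0.res (Ideal.Quotient.mk I) = μ := by
  refine ⟨extlLen I μ, RLen_ext fun M _ _ => ?_⟩
  letI : Module A M := Module.compHom M (Ideal.Quotient.mk I)
  haveI : IsScalarTower A (A ⧸ I) M := IsScalarTower.of_algebraMap_smul fun _ _ => rfl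
  have hM : (I • ⊤ : Submodule A M) = ⊥ := by
    rw [eq_bot_iff, Submodule.smul_le]
    intro r hr x _
    change Ideal.Quotient.mk I r • x = 0
    rw [Ideal.Quotient.eq_zero_iff_mem.2 hr, zero_smul]
  change (extlLen I μ).len M = _
  rw [extlLen_eq_nu I μ hM]
  exact μ.equiv ((Submodule.quotEquivOfEqBot _ hM).extendScalarsOfSurjective
    (S := A ⧸ I) Ideal.Quotient.mk_surjective)

end Vale.Agent.P177
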