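import Vale.Agent.P177.Van

/-! Descent of positivity along unramified extensions. -/

namespace Vale.Agent.P177

open Vale.Agent.P202 IsLocalRing

universe u

variable {R R' : Type u} [CommRing R] [IsLocalRing R] [IsNoetherianRing R] [CommRing R']
  [IsLocalRing R'] [IsNoetherianRing R'] {d : ℕ}

theorem bc_ofLen [Algebra R R'] [Module.Flat R R'] (h : Unr R R') :
    ((RLen.ofLen R').bc : RLen R) = RLen.ofLen R := by
  have := h.isLocalHom
  refine RLen_ext fun M _ _ => congrArg ENat.toENNReal ?_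
  rw [IsLocalRing.length_baseChange, h.length_fibre, mul_one]

theorem dim_quot_map [Algebra R R'] (h : Unr R R') {I : Ideal R} (hI : I ≠ ⊤) :
    ringKrullDim (R' ⧸ I.map (algebraMap R R')) = ringKrullDim (R ⧸ I) := by
  have := h.flat
  have h1 : I ≤ maximalIdeal R := le_maximalIdeal hI
  have := isLocalRing_quot_reg1 h1
  have := isLocalRing_quot_reg1 ((Ideal.map_mono h1).trans h.map_eq.le)
  refine Unr.dim_eq ⟨Module.Flat.of_linearEquiv
    (Algebra.TensorProduct.quotIdealMapEquivQuotTensor R' I).toLinearEquiv, ?_⟩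
  rw [← map_maximalIdeal_of_surjective _ (Ideal.Quotient.mk_surjective (I := I)),
    ← map_maximalIdeal_of_surjective _
      (Ideal.Quotient.mk_surjective (I := I.map (algebraMap R R'))), ← h.map_eq, Ideal.map_map,
    Ideal.map_map]
  rfl

theorem Chi.of_unr [Algebra R R'] (h : Unr R R') {I J : Ideal R} {x : ℝ}
    (hx : Chi R' (R' ⧸ I.map (algebraMap R R')) (R' ⧸ J.map (algebraMap R R')) x) :
    Chi R (R ⧸ I) (R ⧸ J) x := by
  have := h.flat
  intro K aug hK
  obtain ⟨aug', hK'⟩ := hK.bc_quot R'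
  obtain ⟨h1, h2⟩ := hx _ aug' hK'
  have e : ∀ n, hG (RLen.ofLen R') (K.map (algebraMap R R'))
      (⊥ : Submodule R' (R' ⧸ I.map (algebraMap R R'))) ⊤ n =
      hG (RLen.ofLen R) K (⊥ : Submodule R (R ⧸ I)) ⊤ n := fun n => by
    rw [← hG_quot, ← hG_tensor_quot, hG_bc, bc_ofLen h]
  obtain ⟨h3, h4⟩ := good_chi_congr (RLen.ofLen R') e
  exact ⟨h3.1 h1, h4.symm.trans h2⟩

theorem PosM.of_unr [Algebra R R'] (h : Unr R R') (hp : PosM R' d) : Pos R d := by
  rintro P Q hP hQ ⟨t, ht⟩ hd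
  obtain ⟨x, h1, h2⟩ := hp (R' ⧸ P.map (algebraMap R R')) (R' ⧸ Q.map (algebraMap R R')) ⟨t, by
      rw [Ideal.annihilator_quotient, Ideal.annihilator_quotient, ← Ideal.map_sup, ← h.map_eq,
        ← Ideal.map_pow]
      exact Ideal.map_mono ht⟩ (by
    rw [Module.supportDim_quotient_eq_ringKrullDim, Module.supportDim_quotient_eq_ringKrullDim,
      dim_quot_map h hP.ne_top, dim_quot_map h hQ.ne_top, hd])
  exact ⟨x, h1, h2.of_unr h⟩

theorem unr_of_equiv (e : R ≃+* R') : @Unr R R' _ _ _ _ e.toRingHom.toAlgebra := by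
  let := e.toRingHom.toAlgebra
  exact ⟨RingHom.Flat.of_bijective (f := e.toRingHom) e.bijective,
    map_maximalIdeal_of_surjective e.toRingHom e.surjective⟩

end Vale.Agent.P177
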