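import Vale.Agent.P177.MainCase
import Vale.Agent.P177.Deform
import Vale.Agent.P177.EqCh
import Vale.Agent.P177.Unr
import Vale.Agent.P202.MGon

/-! Positivity for all regular local rings. -/

namespace Vale.Agent.P177

open Vale.Agent.P202 IsLocalRing

universe u

theorem pos_eqChar {R : Type u} [CommRing R] [IsLocalRing R] [IsNoetherianRing R]
    [IsAdicComplete (maximalIdeal R) R] {d : ℕ} (h : RegL R d) (he : EqChar R) : Pos R d := by
  obtain ⟨K, _, ⟨e⟩⟩ := exists_equiv_ps h he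
  let _ := e.symm.toRingHom.toAlgebra
  exact PosM.of_unr (unr_of_equiv e.symm) ((pos_ps K d).posM (regL_ps K d))

theorem dim_map_fin {S R : Type u} [CommRing S] [CommRing R] (f : S →+* R)
    (hf : Function.Surjective f) {I : Ideal S} (hI : RingHom.ker f ≤ I) :
    ringKrullDim (R ⧸ I.map f) = ringKrullDim (S ⧸ I) := by
  have h1 : RingHom.ker ((Ideal.Quotient.mk (I.map f)).comp f) = I := by
    rw [← RingHom.comap_ker, Ideal.mk_ker, Ideal.comap_map_of_surjective _ hf,
      ← RingHom.ker_eq_comap_bot, sup_eq_left.2 hI]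
  exact (ringKrullDim_eq_of_ringEquiv ((Ideal.quotEquivOfEq h1.symm).trans
    (RingHom.quotientKerEquivOfSurjective (Ideal.Quotient.mk_surjective.comp hf)))).symm

theorem pos_both {p : ℕ} [Fact p.Prime] {l : Type u} [Field l] [CharP l p] [PerfectRing l p]
    {R : Type u} [CommRing R] [IsLocalRing R] [IsNoetherianRing R] {d : ℕ}
    {π : PS (Fin d) (WittVector p l) →+* R} {g : PS (Fin d) (WittVector p l)}
    (hπ : Pres p π g) (P Q : Ideal R) [P.IsPrime] [Q.IsPrime] (hP : (p : R) ∈ P)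
    (hQ : (p : R) ∈ Q) {t : ℕ} (ht : maximalIdeal R ^ t ≤ P ⊔ Q)
    (hd : ringKrullDim (R ⧸ P) + ringKrullDim (R ⧸ Q) = d) :
    ∃ x, 0 < x ∧ Chi R (R ⧸ P) (R ⧸ Q) x := by
  have hW := isCohen_witt p l
  have : IsDomain (PS (Fin d) (WittVector p l)) := NoZeroDivisors.to_isDomain _
  let π1 : PS (Fin d) (WittVector p l) →+* PS (Fin d) l :=
    MvPowerSeries.map WittVector.constantCoeff
  have hs1 : Function.Surjective π1 := fun z => by
    choose c hc using WittVector.constantCoeff_surjective p (R := l)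
    exact ⟨fun m => c (z m), funext fun m => hc (z m)⟩
  have hk1 : RingHom.ker π1 = Ideal.span {(p : PS (Fin d) (WittVector p l))} := by
    have h1 := ker_ps_map (σ := Fin d) (WittVector.constantCoeff : WittVector p l →+* l)
      WittVector.ker_constantCoeff
    rwa [map_natCast] at h1
  have h0 : ∀ I : Ideal R, RingHom.ker π ≤ I.comap π := fun I => Ideal.comap_mono bot_le
  have h1 : ∀ I : Ideal R, (p : R) ∈ I → (p : PS (Fin d) (WittVector p l)) ∈ I.comap π :=
    fun I hI => by rwa [Ideal.mem_comap, map_natCast]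
  have h2 : ∀ I : Ideal R, (p : R) ∈ I → RingHom.ker π1 ≤ I.comap π := fun I hI =>
    hk1 ▸ (Ideal.span_singleton_le_iff_mem _).2 (h1 I hI)
  have h3 : ∀ I : Ideal R, (I.comap π).map π = I := fun I =>
    Ideal.map_comap_of_surjective π hπ.surj I
  have h4 : ∀ I : Ideal R, (p : R) ∈ I →
      ringKrullDim (PS (Fin d) l ⧸ (I.comap π).map π1) = ringKrullDim (R ⧸ I) := fun I hI => by
    rw [dim_map_fin π1 hs1 (h2 I hI), ← dim_map_fin π hπ.surj (h0 I), h3]
  have h5 : maximalIdeal (PS (Fin d) (WittVector p l)) ^ t ≤ P.comap π ⊔ Q.comap π := by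
    intro z hz
    have h6 := Ideal.mem_map_of_mem π hz
    rw [Ideal.map_pow, map_maximalIdeal_of_surjective π hπ.surj] at h6
    have h7 := ht h6
    rw [← h3 P, ← h3 Q, ← Ideal.map_sup, ← Ideal.mem_comap,
      Ideal.comap_map_of_surjective _ hπ.surj, ← RingHom.ker_eq_comap_bot] at h7
    exact (sup_le le_rfl ((h0 P).trans le_sup_left)) h7
  obtain ⟨x, hx, hc⟩ := pos_ps l d ((P.comap π).map π1) ((Q.comap π).map π1)
    (Ideal.map_isPrime_of_surjective hs1 (h2 P hP)) (Ideal.map_isPrime_of_surjective hs1 (h2 Q hQ))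
    ⟨t, by
      rw [← map_maximalIdeal_of_surjective π1 hs1, ← Ideal.map_pow, ← Ideal.map_sup]
      exact Ideal.map_mono h5⟩ (by rw [h4 P hP, h4 Q hQ, hd])
  have hp0 : (p : PS (Fin d) (WittVector p l)) ≠ 0 := fun h6 =>
    WittVector.p_nonzero p l (by simpa using congrArg MvPowerSeries.constantCoeff h6)
  have hf0 : ∀ I : Ideal R, (p : PS (Fin d) (WittVector p l)) - g ∈ I.comap π := fun I =>
    h0 I (hπ.ker ▸ Ideal.mem_span_singleton_self _)
  have h6 := deform (hπ.ne_zero hW.max) hp0 π π1 hπ.surj hs1 hπ.ker hk1 (regL_ps l d).hasRes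
    (P := P.comap π) (Q := Q.comap π) ⟨hf0 P, hf0 Q⟩ ⟨h1 P hP, h1 Q hQ⟩ h5 hc
  exact ⟨x, hx, h6.equiv (Submodule.quotEquivOfEq _ _ (h3 P)) (Submodule.quotEquivOfEq _ _ (h3 Q))⟩

theorem pos_pres {p : ℕ} [Fact p.Prime] {l : Type u} [Field l] [CharP l p] [PerfectRing l p]
    [Infinite l] {R : Type u} [CommRing R] [IsLocalRing R] [IsNoetherianRing R] {d : ℕ}
    (hR : RegL R d) {π : PS (Fin d) (WittVector p l) →+* R} {g : PS (Fin d) (WittVector p l)}
    (hπ : Pres p π g) : Pos R d := by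
  rintro P Q hP hQ ⟨t, ht⟩ hd
  by_cases h1 : (p : R) ∈ P
  · by_cases h2 : (p : R) ∈ Q
    · exact pos_both hπ P Q h1 h2 ht hd
    · obtain ⟨x, hx, hc⟩ := pos_main_case hR hπ Q P h2 (t := t) (by rwa [sup_comm])
        (by rwa [add_comm])
      exact ⟨x, hx, hc.symm hR.hasRes⟩
  · exact pos_main_case hR hπ P Q h1 ht hd

theorem RegL.posM {R : Type u} [CommRing R] [IsLocalRing R] [IsNoetherianRing R] {d : ℕ}
    (h : RegL R d) : PosM R d := by
  obtain ⟨R1, _, _, _, _, hU, _⟩ := exists_unr_complete R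
  have h1 := h.unr hU
  refine (PosM.of_unr hU (Pos.posM h1 ?_)).posM h
  rcases eqChar_or_mem' R1 with he | ⟨p, hp, hpR⟩
  · exact pos_eqChar h1 he
  have : Fact p.Prime := ⟨hp⟩
  obtain ⟨l, _, _, _, _, R2, _, _, _, _, ω, hU2, _, hω⟩ := exists_gonfl p R1 hpR
  have h2 := h1.unr hU2
  obtain ⟨π, g, hπ, -⟩ := exists_pres_mixed h2 (isCohen_witt p l).max ω hω
  exact PosM.of_unr hU2 ((pos_pres h2 hπ).posM h2)

end Vale.Agent.P177
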