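import Vale.Agent.P177.TP
import Vale.Agent.P177.Eqv

/-! The invariants of the tensor power. -/

namespace Vale.Agent.P177

open Vale.Agent.P202
open scoped ENNReal

universe u

variable {B : Type u} [CommRing B] {E : Type u} [AddCommGroup E] [Module B E] {l : ℕ} [NeZero l]

namespace GC

variable {K L : GC B}

omit [NeZero l] in
theorem hr_map_inj_sp (μ : RLen B) {E' : Type u} [AddCommGroup E'] [Module B E'] {d : E →ₗ[B] E}
    {d' : E' →ₗ[B] E'} (φ : E →ₗ[B] E') (hφ : Function.Injective φ)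
    (hc : ∀ x, φ (d x) = d' (φ x)) (F' F'' : ℤ → Submodule B E) (n : ℤ) :
    hr μ d F' F'' n = hr μ d' (fun n => (F' n).map φ) (fun n => (F'' n).map φ) n := by
  have e0 : φ ∘ₗ d = d' ∘ₗ φ := LinearMap.ext hc
  have e1 : Bc d' (fun n => (F' n).map φ) (fun n => (F'' n).map φ) n = (Bc d F' F'' n).map φ := by
    unfold Bc
    rw [Submodule.map_sup, ← Submodule.map_comp, ← Submodule.map_comp, e0]
  have e2 : Zc d' (fun n => (F' n).map φ) (fun n => (F'' n).map φ) n = (Zc d F' F'' n).map φ := by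
    ext y
    constructor
    · rintro ⟨⟨x, hx, rfl⟩, z, hz, e⟩
      exact ⟨x, ⟨hx, (hφ (e.trans (hc x).symm) ▸ hz : d x ∈ F' (n - 1))⟩, rfl⟩
    · rintro ⟨x, hx, rfl⟩
      exact ⟨⟨x, hx.1, rfl⟩, d x, hx.2, hc x⟩
  unfold hr
  rw [e1, e2, ← rr_map, Submodule.comap_map_eq_of_injective hφ]

noncomputable local instance finSp (K : GC B) : Fintype (Quotient (orb l K.ι)) := (K.sp l).fin

noncomputable local instance decSp (K : GC B) : DecidableEq (Quotient (orb l K.ι)) :=
  (K.sp l).dec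

/-- The inclusion of the invariants. -/
def upSp (K : GC B) (l : ℕ) [NeZero l] (E : Type u) [AddCommGroup E] [Module B E] :
    ((K.sp l).ι → E) →ₗ[B] ((K.tp l).ι → E) :=
  LinearMap.funLeft B E (Quotient.mk (orb l K.ι))

theorem upSp_apply (K : GC B) (x : (K.sp l).ι → E) (α : ZMod l → K.ι) :
    K.upSp l E x α = x (Quotient.mk (orb l K.ι) α) := rfl

theorem upSp_inj (K : GC B) : Function.Injective (K.upSp l E) :=
  LinearMap.funLeft_injective_of_surjective B E _ Quotient.mk_surjective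

omit [NeZero l] in
theorem mk_rot_sp {ι : Type} (c : ZMod l) (α : ZMod l → ι) :
    Quotient.mk (orb l ι) (rot l ι c α) = Quotient.mk (orb l ι) α :=
  (Quotient.sound (s := orb l ι) ⟨c, rfl⟩).symm

omit [NeZero l] in
theorem exists_out_sp {ι : Type} (α : ZMod l → ι) :
    ∃ c, (Quotient.mk (orb l ι) α).out = rot l ι c α :=
  Quotient.exact (Quotient.out_eq (Quotient.mk (orb l ι) α)).symm

theorem upSp_rot (K : GC B) (x : (K.sp l).ι → E) :
    rotL l B K.ι E (K.upSp l E x) = K.upSp l E x := by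
  funext α
  rw [rotL_apply, upSp_apply, upSp_apply, mk_rot_sp]

theorem sp_deg_mk (K : GC B) (α : ZMod l → K.ι) :
    (K.sp l).deg (Quotient.mk (orb l K.ι) α) = (K.tp l).deg α := by
  obtain ⟨c, hc⟩ := exists_out_sp α
  change (K.tp l).deg (Quotient.mk (orb l K.ι) α).out = _
  rw [hc, tp_deg_rot]

/-- The matrix induced on the invariants. -/
noncomputable def desc (K : GC B) (M : Matrix (ZMod l → K.ι) (ZMod l → K.ι) B) :
    Matrix (K.sp l).ι (K.sp l).ι B :=
  Matrix.of fun O O' =>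
    ∑ β ∈ Finset.univ.filter fun β => Quotient.mk (orb l K.ι) β = O', M O.out β

theorem upSp_desc (K : GC B) {M : Matrix (ZMod l → K.ι) (ZMod l → K.ι) B}
    (hM : ∀ α β, M (rot l K.ι 1 α) (rot l K.ι 1 β) = M α β) (x : (K.sp l).ι → E) :
    K.upSp l E (mact E (K.desc M) x) = mact E M (K.upSp l E x) := by
  funext α
  have h1 : ∀ α, mact E M (K.upSp l E x) (rot l K.ι 1 α) = mact E M (K.upSp l E x) α := fun α => by
    have := congrFun (mact_rotL_tp M hM (K.upSp l E x)) α
    rw [upSp_rot] at this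
    exact this.symm
  obtain ⟨c, hc⟩ := exists_out_sp α
  rw [← rot_inv h1 c α, ← hc, upSp_apply, mact_apply, mact_apply,
    ← Finset.sum_fiberwise Finset.univ (fun β => (Quotient.mk (orb l K.ι) β : (K.sp l).ι))]
  refine Finset.sum_congr rfl fun O _ => ?_
  rw [desc, Matrix.of_apply, Finset.sum_smul]
  refine Finset.sum_congr rfl fun β hβ => ?_
  rw [upSp_apply, (Finset.mem_filter.1 hβ).2]

theorem sp_mat_eq (K : GC B) : (K.sp l).mat = K.desc (K.tp l).mat := by
  ext O O'
  exact Finset.sum_congr (Finset.ext fun β => by simp only [Finset.mem_filter]) fun _ _ => rfl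

theorem upSp_d (K : GC B) (x : (K.sp l).ι → E) :
    K.upSp l E ((K.sp l).d E x) = (K.tp l).d E (K.upSp l E x) := by
  have := K.upSp_desc (K.tp_mat_rot 1) x
  rw [← sp_mat_eq] at this
  exact this

theorem hg_desc {k : ℤ} {M : Matrix (ZMod l → K.ι) (ZMod l → K.ι) B}
    (hM : Hg (K.tp l) (K.tp l) k M) : Hg (K.sp l) (K.sp l) k (K.desc M) := by
  intro O O' h
  obtain ⟨β, hβ, hi⟩ := Finset.exists_ne_zero_of_sum_ne_zero h
  rw [← (Finset.mem_filter.1 hβ).2, sp_deg_mk]
  exact hM _ _ hi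

theorem iv_eq_sp (K : GC B) (N : Submodule B E) (n : ℤ) :
    iv (rotL l B K.ι E) ((K.tp l).cw N) n = ((K.sp l).cw N n).map (K.upSp l E) := by
  ext y
  rw [mem_iv]
  constructor
  · rintro ⟨h1, h2⟩
    obtain ⟨h3, h4⟩ := mem_cf.1 h1
    refine ⟨fun O => y O.out, mem_cf.2 ⟨fun O hO => h3 _ hO, fun O hO => h4 _ hO⟩, ?_⟩
    funext α
    obtain ⟨c, hc⟩ := exists_out_sp α
    rw [upSp_apply, hc]
    exact rot_inv (fun α => congrFun h2 α) c α
  · rintro ⟨x, hx, rfl⟩
    obtain ⟨h3, h4⟩ := mem_cf.1 hx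
    exact ⟨mem_cf.2 ⟨fun α hα => h3 _ (by rw [sp_deg_mk]; exact hα),
      fun α hα => h4 _ (by rw [sp_deg_mk]; exact hα)⟩, upSp_rot K x⟩

theorem hG_sp (μ : RLen B) (K : GC B) (N' N'' : Submodule B E) (n : ℤ) :
    hG μ (K.sp l) N' N'' n = hr μ ((K.tp l).d E) (iv (rotL l B K.ι E) ((K.tp l).cw N'))
      (iv (rotL l B K.ι E) ((K.tp l).cw N'')) n := by
  have e : ∀ N : Submodule B E, iv (rotL l B K.ι E) ((K.tp l).cw N) =
      fun n => ((K.sp l).cw N n).map (K.upSp l E) := fun N => funext (iv_eq_sp K N)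
  rw [e, e]
  exact hr_map_inj_sp μ _ (upSp_inj K) (upSp_d K) _ _ n

theorem psiG_eq (μ : RLen B) (K : GC B) (N' N'' : Submodule B E) :
    (GoodPG l μ K N' N'' ↔
      GoodP μ ((K.tp l).d E) (rotL l B K.ι E) ((K.tp l).cw N') ((K.tp l).cw N'')) ∧
    psiG l μ K N' N'' =
      psi μ l ((K.tp l).d E) (rotL l B K.ι E) ((K.tp l).cw N') ((K.tp l).cw N'') := by
  have h := good_chi_congr μ (hG_sp (l := l) μ K N' N'')
  refine ⟨and_congr Iff.rfl h.1, ?_⟩
  unfold psiG psi
  rw [← h.2]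

theorem Sq0.sp (hl : Odd l) (h : K.Sq0) : (K.sp l).Sq0 := by
  refine mact_ext fun x => upSp_inj (l := l) K ?_
  rw [mact_mul, mact_zero, map_zero]
  exact (upSp_d K _).trans ((congrArg _ (upSp_d K x)).trans ((h.tp hl).dd _))

theorem nh_le_sp (hl : Odd l) (hu : IsUnit (l : B)) (K : GC B) : K.nh ≤ (K.sp l).nh := by
  rintro z ⟨h, h2, h3⟩
  set H : Matrix (ZMod l → K.ι) (ZMod l → K.ι) B :=
    ((hu.unit⁻¹ : Bˣ) : B) • ∑ i, prodM l (slot l K i h) with hH
  have r : ∀ α β, H (rot l K.ι 1 α) (rot l K.ι 1 β) = H α β := fun α β => by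
    rw [hH, Matrix.smul_apply, Matrix.smul_apply, sum_slot_rot]
  have e : (K.tp l).mat * H + H * (K.tp l).mat = z • (1 : Matrix _ _ B) := by
    rw [hH, Matrix.mul_smul, Matrix.smul_mul, ← smul_add, Matrix.mul_sum, Matrix.sum_mul,
      ← Finset.sum_add_distrib, Finset.sum_congr rfl fun i _ => tp_slot_htpy hl i h2 h3,
      Finset.sum_const, Finset.card_univ, ZMod.card, ← Nat.cast_smul_eq_nsmul B, smul_smul,
      IsUnit.val_inv_mul, one_smul]
  refine ⟨K.desc H, hg_desc ((Hg.sum _ fun i _ => hg_slot h2 i).smul _),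
    mact_ext fun x => upSp_inj (l := l) K ?_⟩
  rw [mact_add, mact_mul, mact_mul, mact_smul, mact_one, map_add, map_smul, upSp_desc K r]
  have e1 := upSp_d K (mact B (K.desc H) x)
  have e2 := upSp_d K x
  rw [upSp_desc K r] at e1
  have e3 := congrArg (fun M => mact B M (K.upSp l B x)) e
  simp only [mact_add, mact_mul, mact_smul, mact_one] at e3
  rw [← e3]
  exact congrArg₂ (· + ·) e1 (congrArg _ e2)

theorem map_sp (K : GC B) {B' : Type u} [CommRing B'] (f : B →+* B') :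
    (K.sp l).map f = (K.map f).sp l := by
  unfold GC.map GC.sp
  congr 1
  ext O O'
  simp only [Matrix.map_apply, Matrix.of_apply]
  rw [_root_.map_sum]
  exact Finset.sum_congr (Finset.ext fun β => by simp only [Finset.mem_filter])
    fun β _ => tp_mat_map K f _ _

theorem Htpy.psiG_eq (hl : Odd l) (hu : IsUnit (l : B)) (h : Htpy K L) (μ : RLen B)
    (N' N'' : Submodule B E) : (GoodPG l μ K N' N'' ↔ GoodPG l μ L N' N'') ∧
      psiG l μ K N' N'' = psiG l μ L N' N'' := by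
  obtain ⟨f, g, h, h', hf, hg, hh, hh', cf, cg, e, e'⟩ := h
  obtain ⟨H, hH, eH⟩ := tp_pow_htpy hl (by simpa using hf.mul hg)
    (by rw [← Matrix.mul_assoc, cf, Matrix.mul_assoc, cg, Matrix.mul_assoc]) hh e
  obtain ⟨H', hH', eH'⟩ := tp_pow_htpy hl (by simpa using hg.mul hf)
    (by rw [← Matrix.mul_assoc, cg, Matrix.mul_assoc, cf, Matrix.mul_assoc]) hh' e'
  have pf : Hg (K.tp l) (L.tp l) 0 (prodM l fun _ => f) := by
    simpa using Hg.prodM (l := l) (k := fun _ => 0) (A := fun _ => f) fun _ => hf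
  have pg : Hg (L.tp l) (K.tp l) 0 (prodM l fun _ => g) := by
    simpa using Hg.prodM (l := l) (k := fun _ => 0) (A := fun _ => g) fun _ => hg
  have m : ∀ {K L : GC B} {k : ℤ} {f : Matrix K.ι L.ι B} (_ : Hg K L k f) (N : Submodule B E)
      (n : ℤ), (L.cw N n).map (mact E f) ≤ K.cw N (n + k) := by
    rintro K L k f hf N n _ ⟨x, hx, rfl⟩
    exact hf.mem_cw hx
  have m0 : ∀ {K L : GC B} {f : Matrix K.ι L.ι B} (_ : Hg K L 0 f) (N : Submodule B E)
      (n : ℤ), (L.cw N n).map (mact E f) ≤ K.cw N n := fun hf N n => by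
    simpa only [add_zero] using m hf N n
  have key := fun n => Act.psi_htpy (μ := μ) (K.tp_act (E := E) hu) (L.tp_act hu)
    (mact E (prodM l fun _ => g)) (mact E (prodM l fun _ => f)) (fun x => prodM_rotL g x)
    (fun x => prodM_rotL f x)
    (fun x => by rw [← mact_mul, ← tp_chain hg cg, mact_mul])
    (fun x => by rw [← mact_mul, ← tp_chain hf cf, mact_mul])
    (tp_stab (X := fun _ => N') fun _ => rfl) (tp_stab (X := fun _ => N'') fun _ => rfl)
    (tp_stab (X := fun _ => N') fun _ => rfl) (tp_stab (X := fun _ => N'') fun _ => rfl)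
    (m0 pg N') (m0 pg N'') (m0 pf N') (m0 pf N'') (mact E H)
    (fun x => by
      rw [← mact_mul, prodM_mul, ← mact_mul, ← mact_mul, ← mact_add, ← eH, mact_sub, mact_one])
    (m hH N') (m hH N'') (mact E H')
    (fun x => by
      rw [← mact_mul, prodM_mul, ← mact_mul, ← mact_mul, ← mact_add, ← eH', mact_sub, mact_one])
    (m hH' N') (m hH' N'') n
  have k1 := good_chi_congr μ fun n => (key n).1
  have k2 := good_chi_congr μ fun n => (key n).2
  rw [(GC.psiG_eq μ K N' N'').1, (GC.psiG_eq μ L N' N'').1, (GC.psiG_eq μ K N' N'').2,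
    (GC.psiG_eq μ L N' N'').2]
  refine ⟨and_congr k1.1 k2.1, ?_⟩
  unfold psi
  exact congrArg₂ (fun a b : ℝ => (l : ℝ) * a - b) k2.2 k1.2

theorem psiG_one (μ : RLen B) {N' N'' : Submodule B E} (hN : N' ≤ N'') (hf : rr μ N' N'' ≠ ⊤) :
    GoodPG l μ (one B) N' N'' ∧
      psiG l μ (one B) N' N'' = ((l : ℝ) - 1) * (rr μ N' N'').toReal := by
  have z : ∀ α β, ((one B).tp l).mat α β = 0 := fun α β => by
    by_contra h
    obtain ⟨i, hi, -⟩ := tp_mat_ne_zero h
    exact hi rfl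
  have key : ∀ K : GC B, Unique K.ι → (∀ a, K.deg a = 0) → (∀ a b, K.mat a b = 0) →
      GoodG μ K N' N'' ∧ chiG μ K N' N'' = (rr μ N' N'').toReal := by
    intro K u h1 h2
    have s : SIso K (one B) := ⟨Equiv.ofUnique _ _, fun _ => 1, fun a => (h1 a).symm, fun a b => by
      rw [h2, mul_zero]; rfl⟩
    have e : ∀ n, hG μ K N' N'' n = if n = 0 then rr μ N' N'' else 0 := fun n =>
      (s.hG_eq μ N' N'' n).trans (hG_one μ hN n)
    refine ⟨good_of_ne_top μ fun n => ?_, ?_⟩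
    · have := e n
      split_ifs at this
      · exact fun h => hf (this.symm.trans h)
      · exact fun h => ENNReal.zero_ne_top (this.symm.trans h)
    · have := chiR_eq_single μ 0 fun n hn => (e n).trans (if_neg hn)
      have e0 : hr μ (K.d E) (K.cw N') (K.cw N'') 0 = rr μ N' N'' := (e 0).trans (if_pos rfl)
      rw [chiG, this, e0]
      simp
  have k1 := key ((one B).tp l) (inferInstanceAs (Unique (ZMod l → Unit))) (fun a => by simp) z
  have k2 := key ((one B).sp l)
    { default := Quotient.mk _ fun _ => ()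
      uniq := fun O => Quotient.inductionOn O fun _ => rfl }
    (fun a => by simp) fun a b => Finset.sum_eq_zero fun β _ => z _ β
  refine ⟨⟨k1.1, k2.1⟩, ?_⟩
  unfold psiG
  rw [k1.2, k2.2]
  ring

end GC

end Vale.Agent.P177
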