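import Vale.Agent.P177.Flag1
import Vale.Agent.P177.SP

/-! The flag formula. -/

namespace Vale.Agent.P177

open Vale.Agent.P202
open scoped ENNReal

universe u

variable {B : Type u} [CommRing B] {l : ℕ} [NeZero l] {n : ℕ} {K : GC B} {π κ : B}
  {e : Fin n → ℕ} {b : Matrix K.ι (Fin n ⊕ Fin n) B} {b' : Matrix (Fin n ⊕ Fin n) K.ι B}
  {c n0 ρ : ℕ} {𝔞 : ℕ → Ideal B} {M : (ℕ → ℤ) → Ideal B}

section gr

variable {ι : Type} {ω : ι → ℕ} {μ : RLen B} {d r : (ι → B) →ₗ[B] (ι → B)}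
  {F : ℤ → Submodule B (ι → B)}

/-- The projection to the part of weight `w`. -/
def prjF (ω : ι → ℕ) (w : ℕ) : (ι → B) →ₗ[B] (ι → B) :=
  LinearMap.pi fun a => if ω a = w then LinearMap.proj a else 0

theorem prjF_apply (w : ℕ) (x : ι → B) (a : ι) : prjF ω w x a = if ω a = w then x a else 0 := by
  unfold prjF
  rw [LinearMap.pi_apply]
  split_ifs <;> rfl

theorem prjF_prjF (w : ℕ) (x : ι → B) : prjF ω w (prjF ω w x) = prjF ω w x := by
  funext a
  simp only [prjF_apply]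
  split_ifs <;> rfl

theorem prjF_mact [Fintype ι] {A : Matrix ι ι B} (h : ∀ a b, A a b ≠ 0 → ω a = ω b) (w : ℕ)
    (x : ι → B) : prjF ω w (mact B A x) = mact B A (prjF ω w x) := by
  funext a
  rw [prjF_apply, mact_apply, mact_apply]
  split_ifs with hw
  · refine Finset.sum_congr rfl fun b _ => ?_
    by_cases h0 : A a b = 0
    · rw [h0, zero_smul, zero_smul]
    · rw [prjF_apply, if_pos ((h a b h0).symm.trans hw)]
  · refine (Finset.sum_eq_zero fun b _ => ?_).symm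
    by_cases h0 : A a b = 0
    · rw [h0, zero_smul]
    · rw [prjF_apply, if_neg fun e => hw ((h a b h0).trans e), smul_zero]

/-- Vectors of weight less than `w`. -/
def lowF (B : Type u) [CommRing B] (ω : ι → ℕ) (w : ℕ) : Submodule B (ι → B) :=
  Submodule.pi {a | w ≤ ω a} fun _ => ⊥

theorem lowF_map {φ : (ι → B) →ₗ[B] (ι → B)} (h : ∀ w x, prjF ω w (φ x) = φ (prjF ω w x))
    {w : ℕ} {x : ι → B} (hx : x ∈ lowF B ω w) : φ x ∈ lowF B ω w := by
  intro a ha
  have h1 : prjF ω (ω a) x = 0 := funext fun b => by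
    rw [prjF_apply]
    split_ifs with e
    · exact hx b (show w ≤ ω b from e ▸ ha)
    · rfl
  have h2 := congrFun (h (ω a) x) a
  rw [h1, map_zero, prjF_apply, if_pos rfl] at h2
  exact h2

/-- The graded pieces of the weight filtration. -/
def grF (ω : ι → ℕ) (F : ℤ → Submodule B (ι → B)) (w : ℕ) (m : ℤ) : Submodule B (ι → B) :=
  (F m ⊓ lowF B ω (w + 1)).map (prjF ω w)

theorem mem_grF {w : ℕ} {m : ℤ} {x : ι → B} (hx : x ∈ F m) (h : prjF ω w x = x) :
    x ∈ grF ω F w m := by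
  refine ⟨x, ⟨hx, fun a ha => ?_⟩, h⟩
  have ha' : w + 1 ≤ ω a := ha
  rw [← h, prjF_apply, if_neg (by omega)]
  exact zero_mem _

theorem isCx_grF (pd : ∀ w x, prjF ω w (d x) = d (prjF ω w x)) (hF : IsCx d F) (w : ℕ) :
    IsCx d (grF ω F w) := by
  rintro m _ ⟨_, ⟨x, ⟨h1, h2⟩, rfl⟩, rfl⟩
  exact ⟨d x, ⟨hF m ⟨x, h1, rfl⟩, lowF_map pd h2⟩, pd w x⟩

theorem stab_grF (pr : ∀ w x, prjF ω w (r x) = r (prjF ω w x)) (hF : Stab r F) (w : ℕ) :
    Stab r (grF ω F w) := by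
  rintro m _ ⟨_, ⟨x, ⟨h1, h2⟩, rfl⟩, rfl⟩
  exact ⟨r x, ⟨hF m ⟨x, h1, rfl⟩, lowF_map pr h2⟩, pr w x⟩

omit [NeZero l] in
theorem psi_grF [Fintype ι] (h : Act l d r) (hd : d ∘ₗ d = 0)
    (pd : ∀ w x, prjF ω w (d x) = d (prjF ω w x)) (pr : ∀ w x, prjF ω w (r x) = r (prjF ω w x))
    (hF : IsCx d F) (sF : Stab r F) (g : ∀ w, GoodP μ d r ⊥ (grF ω F w)) :
    GoodP μ d r ⊥ F ∧ psi μ l d r ⊥ F =
      ∑ w ∈ Finset.range (Finset.univ.sup ω + 1), psi μ l d r ⊥ (grF ω F w) := by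
  have c : ∀ w, IsCx d fun m => F m ⊓ lowF B ω w := by
    rintro w m _ ⟨x, ⟨h1, h2⟩, rfl⟩
    exact ⟨hF m ⟨x, h1, rfl⟩, lowF_map pd h2⟩
  have s : ∀ w, Stab r fun m => F m ⊓ lowF B ω w := by
    rintro w m _ ⟨x, ⟨h1, h2⟩, rfl⟩
    exact ⟨sF m ⟨x, h1, rfl⟩, lowF_map pr h2⟩
  have t := fun w => h.psi_transfer (μ := μ) h (F' := fun m => F m ⊓ lowF B ω w)
    (F'' := fun m => F m ⊓ lowF B ω (w + 1)) (G' := ⊥) (G'' := grF ω F w) (prjF ω w) (pr w) 0 1
    (s _) (fun m => by simp) (c _) (fun m => by simp)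
    (fun m x _ => by rw [Units.val_one, one_smul, pd, sub_self]; exact zero_mem _)
    (fun m => by rw [add_zero, Pi.bot_apply, sup_bot_eq]; rfl)
    (fun m => by
      ext x
      constructor
      · rintro ⟨⟨h1, h2⟩, h3⟩
        refine ⟨h1, fun a ha => ?_⟩
        have ha' : w ≤ ω a := ha
        rcases ha'.eq_or_lt with e | e
        · have := congrFun (show prjF ω w x = 0 from h3) a
          rwa [prjF_apply, if_pos e.symm] at this
        · exact h2 a e
      · rintro ⟨h1, h2⟩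
        refine ⟨⟨h1, fun a ha => h2 a (Nat.le_of_succ_le ha)⟩, funext fun a => ?_⟩
        rw [prjF_apply]
        split_ifs with e
        · exact h2 a e.ge
        · rfl)
  have ch := h.psi_chain hd (fun w m => F m ⊓ lowF B ω w) (Finset.univ.sup ω + 1)
    (fun w _ => c w)
    (fun w _ m => inf_le_inf_left _ fun x hx a ha => hx a (Nat.le_of_succ_le ha))
    fun w _ => (t w).1.2 (g w)
  have e0 : (fun m => F m ⊓ lowF B ω 0) = ⊥ := by
    funext m
    rw [Pi.bot_apply, eq_bot_iff]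
    exact fun x hx => funext fun a => hx.2 a (Nat.zero_le _)
  have e1 : (fun m => F m ⊓ lowF B ω (Finset.univ.sup ω + 1)) = F := by
    funext m
    refine inf_eq_left.2 fun x _ a ha => ?_
    have ha' : Finset.univ.sup ω + 1 ≤ ω a := ha
    have := Finset.le_sup (f := ω) (Finset.mem_univ a)
    omega
  rw [e0, e1] at ch
  refine ⟨ch.1, ch.2.trans (Finset.sum_congr rfl fun w _ => ?_)⟩
  rw [(t w).2]
  simp

theorem good_retract_flag {E : Type u} [AddCommGroup E] [Module B E] {d p : E →ₗ[B] E}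
    {G G' : ℤ → Submodule B E} (pd : ∀ x, p (d x) = d (p x)) (h1 : ∀ m, G' m ≤ G m)
    (h2 : ∀ m, ∀ x ∈ G m, p x ∈ G' m) (h3 : ∀ m, ∀ x ∈ G' m, p x = x) (g : GoodR μ d ⊥ G) :
    GoodR μ d ⊥ G' := by
  have key : ∀ m, hr μ d ⊥ G' m ≤ hr μ d ⊥ G m := by
    intro m
    unfold hr
    refine le_trans ?_ (rr_mono μ le_rfl (inf_le_inf_right _ (h1 m)))
    rw [← rr_inf μ (Bc d ⊥ G m)]
    refine rr_anti_left μ ?_ _
    rintro z ⟨hz, hz', -⟩
    unfold Bc at hz ⊢
    rw [Pi.bot_apply, bot_sup_eq] at hz ⊢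
    obtain ⟨x, hx, rfl⟩ := hz
    exact ⟨p x, h2 _ x hx, (pd x).symm.trans (h3 m _ hz')⟩
  exact ⟨fun m => ne_top_of_le_ne_top (g.1 m) (key m),
    g.2.subset fun m hm h0 => hm (le_antisymm (h0 ▸ key m) zero_le)⟩

omit [NeZero l] in
theorem good_grF (_h : Act l d r) (pd : ∀ w x, prjF ω w (d x) = d (prjF ω w x))
    (pr : ∀ w x, prjF ω w (r x) = r (prjF ω w x)) (pF : ∀ w m, ∀ x ∈ F m, prjF ω w x ∈ F m)
    (g : GoodP μ d r ⊥ F) (w : ℕ) : GoodP μ d r ⊥ (grF ω F w) := by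
  have h1 : ∀ m, grF ω F w m ≤ F m := by
    rintro m _ ⟨x, hx, rfl⟩
    exact pF w m x hx.1
  have h2 : ∀ m, ∀ x ∈ F m, prjF ω w x ∈ grF ω F w m := fun m x hx =>
    mem_grF (pF w m x hx) (prjF_prjF w x)
  have h3 : ∀ m, ∀ x ∈ grF ω F w m, prjF ω w x = x := by
    rintro m _ ⟨x, -, rfl⟩
    exact prjF_prjF w x
  have e : iv r (⊥ : ℤ → Submodule B (ι → B)) = ⊥ := funext fun m => bot_inf_eq _
  refine ⟨good_retract_flag (pd w) h1 h2 h3 g.1, ?_⟩
  have g2 := g.2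
  rw [e] at g2 ⊢
  exact good_retract_flag (pd w) (iv_mono h1)
    (fun m x hx => mem_iv.2 ⟨h2 m x (mem_iv.1 hx).1, by rw [← pr, (mem_iv.1 hx).2]⟩)
    (fun m x hx => h3 m x (mem_iv.1 hx).1) g2

end gr

theorem std_ne_flag {j j' : Fin n ⊕ Fin n} (h : (GC.std B e).mat j j' ≠ 0) :
    ∃ k, j = Sum.inl k ∧ j' = Sum.inr k := by
  rcases j with j | j <;> rcases j' with j' | j'
  · exact absurd rfl h
  · have : j = j' := by_contra fun e => h (by simp [Matrix.one_apply_ne e])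
    exact ⟨j, rfl, this ▸ rfl⟩
  · exact absurd rfl h
  · exact absurd (by simp) h

theorem flag (hl : l.Prime) (ho : Odd l) (hu : IsUnit (l : B)) (hS : Setup K π e b b' c 𝔞)
    (hπ : π ∈ nonZeroDivisors B) (hM : Filt (2 * n) 𝔞 π κ n0 M) {μ : RLen B} (hκ : Null μ κ)
    (hfin : ∀ (k : Fin n) (m : ℕ → ℤ), Ge (n0 + 1) m →
      rr μ (M (m + dl (2 * k + 1))) (M (m + dl (2 * k))) ≠ ⊤) (hρ : n0 + l ≤ ρ) :
    GoodPG l μ K ⊥ (M (cst ρ)) ∧ psiG l μ K ⊥ (M (cst ρ)) = ((l : ℝ) - 1) * fl μ M e l ρ := by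
  have aK := K.tp_act (l := l) (E := B) hu
  have aS := (GC.std B e).tp_act (l := l) (E := B) hu
  have hd := (GC.Sq0.tp ho ((GC.sq0_disc (B := B) e).cone 1)).comp B
  have bot : ∀ {E : Type u} [AddCommGroup E] [Module B E] (d : E →ₗ[B] E),
      IsCx d ⊥ ∧ Stab d ⊥ := fun d => ⟨fun n => by simp, fun n => by simp⟩
  have reg : ∀ {ι : Type} (C : ℕ) (y : ι → B), π ^ C • y = 0 → y = 0 := fun C y h =>
    funext fun a => (mem_nonZeroDivisors_iff.1 (pow_mem hπ C)).1 _ (congrFun h a)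
  have e1 : ∀ x, mact B (prodM l fun _ => b) (mact B (prodM l fun _ => b') x) =
      π ^ (c * l) • x := fun x => by
    rw [← mact_mul, prodM_mul, hS.bb', prodM_smul (fun _ => π ^ c), prodM_one, mact_smul, mact_one,
      Finset.prod_const, Finset.card_univ, ZMod.card, ← pow_mul]
  have e2 : ∀ x, mact B (prodM l fun _ => b') (mact B (prodM l fun _ => b) x) =
      π ^ (c * l) • x := fun x => by
    rw [← mact_mul, prodM_mul, hS.b'b, prodM_smul (fun _ => π ^ c), prodM_one, mact_smul, mact_one,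
      Finset.prod_const, Finset.card_univ, ZMod.card, ← pow_mul]
  have pb : GC.Hg (K.tp l) ((GC.std B e).tp l) 0 (prodM l fun _ => b) := by
    simpa using GC.Hg.prodM (l := l) (K := K) (L := GC.std B e) (k := fun _ => 0)
      (A := fun _ => b) fun _ => hS.hb
  have pb' : GC.Hg ((GC.std B e).tp l) (K.tp l) 0 (prodM l fun _ => b') := by
    simpa using GC.Hg.prodM (l := l) (K := GC.std B e) (L := K) (k := fun _ => 0)
      (A := fun _ => b') fun _ => hS.hb'
  set C := c * l with hC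
  set N : ℤ → Submodule B ((ZMod l → Fin n ⊕ Fin n) → B) := fun m =>
    ((GC.std B e).tp l).cw ⊤ m ⊓ (Submodule.pi Set.univ fun _ =>
      Ideal.span {π ^ C} * M (cst ρ)).comap (mact B (prodM l fun _ => b)) with hN
  set X : ℤ → Submodule B ((ZMod l → Fin n ⊕ Fin n) → B) :=
    ((GC.std B e).tp l).cf fun α => Ideal.span {π ^ C} * M (ex ρ α) with hX
  have mN : ∀ m y, y ∈ N m ↔ y ∈ ((GC.std B e).tp l).cw ⊤ m ∧
      ∀ a, mact B (prodM l fun _ => b) y a ∈ Ideal.span {π ^ C} * M (cst ρ) := fun m y =>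
    and_congr Iff.rfl ⟨fun h a => h a trivial, fun h a _ => h a⟩
  have cN : IsCx (((GC.std B e).tp l).d B) N := by
    rintro m _ ⟨y, hy, rfl⟩
    obtain ⟨h1, h2⟩ := (mN m y).1 hy
    refine (mN _ _).2 ⟨GC.cw_isCx _ _ m ⟨y, h1, rfl⟩, fun a => ?_⟩
    rw [← mact_mul, ← GC.tp_chain hS.hb hS.ch, mact_mul, mact_apply]
    exact Ideal.sum_mem _ fun a' _ => Ideal.mul_mem_left _ _ (h2 a')
  have sN : Stab (rotL l B _ B) N := by
    rintro m _ ⟨y, hy, rfl⟩
    obtain ⟨h1, h2⟩ := (mN m y).1 hy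
    refine (mN _ _).2 ⟨GC.tp_stab (X := fun _ => ⊤) (fun _ => rfl) m ⟨y, h1, rfl⟩, fun a => ?_⟩
    rw [prodM_rotL]
    exact h2 _
  have mono : ∀ α β, ((GC.std B e).tp l).mat α β ≠ 0 → M (ex ρ β) ≤ M (ex ρ α) := by
    intro α β h
    obtain ⟨i, h1, h2⟩ := GC.tp_mat_ne_zero h
    obtain ⟨k, h3, h4⟩ := std_ne_flag h1
    have := ex_mono hS hM (ρ := ρ) (by omega) β i k h4
    rwa [blk_upd h2 h3] at this
  have c0 : IsCx (((GC.std B e).tp l).d B) (((GC.std B e).tp l).cf fun α => M (ex ρ α)) :=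
    GC.cf_isCx fun α β h v hv => Ideal.mul_mem_left _ _ (mono α β h hv)
  have cX : IsCx (((GC.std B e).tp l).d B) X := GC.cf_isCx fun α β h v hv =>
    Ideal.mul_mem_left _ _ (Ideal.mul_mono_right (mono α β h) hv)
  have s0 : Stab (rotL l B _ B) (((GC.std B e).tp l).cf fun α => M (ex ρ α)) :=
    GC.tp_stab (K := GC.std B e) fun α => congrArg M (ex_rot ρ 1 α)
  have sX : Stab (rotL l B _ B) X := GC.tp_stab (K := GC.std B e) fun α => by rw [ex_rot]
  have t1 := aK.psi_transfer (μ := μ) aS (F' := ⊥) (F'' := (K.tp l).cw (M (cst ρ))) (G' := ⊥)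
    (G'' := N) (mact B (prodM l fun _ => b')) (prodM_rotL b') 0 1
    (GC.tp_stab (X := fun _ => M (cst ρ)) fun _ => rfl) (bot _).2 (GC.cw_isCx _ _) (bot _).1
    (fun m x _ => by
      rw [Units.val_one, one_smul, ← mact_mul, ← GC.tp_chain hS.hb' hS.ch', mact_mul, sub_self]
      exact zero_mem _)
    (fun m => by
      rw [add_zero, Pi.bot_apply, sup_bot_eq]
      ext y
      rw [mN]
      constructor
      · rintro ⟨x, hx, rfl⟩
        refine ⟨by simpa only [add_zero] using pb'.mem_cw (GC.cw_mono _ le_top m hx), fun a => ?_⟩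
        rw [e1]
        exact Ideal.mul_mem_mul (Ideal.mem_span_singleton_self _) (GC.apply_mem_of_mem_cf hx a)
      · rintro ⟨h1, h2⟩
        choose x hx ex using fun a => Ideal.mem_span_singleton_mul.1 (h2 a)
        have ex' : π ^ C • x = mact B (prodM l fun _ => b) y := funext ex
        have h3 := pb.mem_cw h1
        rw [add_zero, ← ex'] at h3
        refine ⟨x, GC.mem_cf.2 ⟨fun a _ => hx a, fun a ha => ?_⟩, ?_⟩
        · exact (mem_nonZeroDivisors_iff.1 (pow_mem hπ C)).1 _ ((GC.mem_cf.1 h3).2 a ha)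
        · refine sub_eq_zero.1 (reg C _ ?_)
          rw [smul_sub, ← map_smul, ex', e2, sub_self])
    (fun m => by
      refine eq_bot_iff.2 ?_
      rintro x ⟨-, hx⟩
      have h0 : mact B (prodM l fun _ => b') x = 0 := hx
      exact reg C x (by rw [← e1, h0, map_zero]))
  have t2 := aS.psi_transfer (μ := μ) aS (F' := ⊥)
    (F'' := ((GC.std B e).tp l).cf fun α => M (ex ρ α)) (G' := ⊥) (G'' := X)
    (LinearMap.lsmul B _ (π ^ C)) (fun x => (map_smul _ _ x).symm) 0 1 s0 (bot _).2 c0 (bot _).1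
    (fun m x _ => by
      rw [Units.val_one, one_smul, LinearMap.lsmul_apply, LinearMap.lsmul_apply, map_smul, sub_self]
      exact zero_mem _)
    (fun m => by
      rw [add_zero, Pi.bot_apply, sup_bot_eq]
      ext y
      constructor
      · rintro ⟨x, hx, rfl⟩
        refine GC.mem_cf.2 ⟨fun a _ => Ideal.mul_mem_mul (Ideal.mem_span_singleton_self _)
          (GC.apply_mem_of_mem_cf hx a), fun a ha => ?_⟩
        exact mul_eq_zero_of_right _ ((GC.mem_cf.1 hx).2 a ha)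
      · intro hy
        choose x hx ex using fun a => Ideal.mem_span_singleton_mul.1 (GC.apply_mem_of_mem_cf hy a)
        refine ⟨x, GC.mem_cf.2 ⟨fun a _ => hx a, fun a ha => ?_⟩, funext ex⟩
        exact (mem_nonZeroDivisors_iff.1 (pow_mem hπ C)).1 _
          ((ex a).trans ((GC.mem_cf.1 hy).2 a ha)))
    (fun m => by
      refine eq_bot_iff.2 ?_
      rintro x ⟨-, hx⟩
      exact reg C x hx)
  have pd : ∀ w x, prjF wt w (((GC.std B e).tp l).d B x) =
      ((GC.std B e).tp l).d B (prjF wt w x) := fun w x => by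
    refine prjF_mact (fun α β h => ?_) w x
    obtain ⟨i, h1, h2⟩ := GC.tp_mat_ne_zero h
    obtain ⟨k, h3, h4⟩ := std_ne_flag h1
    refine Finset.sum_congr rfl fun j _ => ?_
    by_cases hj : j = i
    · rw [hj, h3, h4]; rfl
    · rw [h2 j hj]
  have pr : ∀ w (x : (ZMod l → Fin n ⊕ Fin n) → B), prjF wt w (rotL l B _ B x) =
      rotL l B _ B (prjF wt w x) := fun w x => by
    funext α
    rw [rotL_apply, prjF_apply, prjF_apply, rotL_apply, wt_rot]
  have pX : ∀ w m, ∀ x ∈ X m, prjF wt w x ∈ X m := fun w m x hx => by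
    refine GC.mem_cf.2 ⟨fun a _ => ?_, fun a ha => ?_⟩ <;> rw [prjF_apply] <;> split_ifs
    · exact GC.apply_mem_of_mem_cf hx a
    · exact zero_mem _
    · exact (GC.mem_cf.1 hx).2 a ha
    · rfl
  have dg := psi_diag hl ho hu hS hM μ hfin hρ
  rw [GC.cw_bot] at dg
  have gX := fun w => good_grF aS pd pr pX (t2.1.1 dg.1) w
  have k1 : ∀ w m, ∀ x ∈ grF wt X w m, κ ^ l • x ∈ grF wt N w m := by
    rintro w m _ ⟨x, ⟨hx, -⟩, rfl⟩
    rw [← Finset.univ_sum_single (prjF wt w x), Finset.smul_sum]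
    refine Submodule.sum_mem _ fun α _ => ?_
    rw [prjF_apply]
    split_ifs with hw
    swap
    · simp
    by_cases hα : (((GC.std B e).tp l).deg α : ℤ) = m
    swap
    · rw [(GC.mem_cf.1 hx).2 α hα]; simp
    obtain ⟨v, hv, ev⟩ := Ideal.mem_span_singleton_mul.1 (GC.apply_mem_of_mem_cf hx α)
    obtain ⟨y, y1, y2, y3, y4⟩ := flag_down hS hM hρ α hv
    refine ⟨π ^ C • y, ⟨(mN _ _).2 ⟨GC.mem_cf.2 ⟨fun _ _ => trivial, fun β hβ => ?_⟩,
      fun a => ?_⟩, fun β hβ => ?_⟩, ?_⟩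
    · refine mul_eq_zero_of_right _ (by_contra fun h0 => hβ ?_)
      rw [y3 β h0, hα]
    · rw [map_smul]
      exact Ideal.mul_mem_mul (Ideal.mem_span_singleton_self _) (y4 a)
    · have hβ' : w + 1 ≤ wt β := hβ
      exact mul_eq_zero_of_right _ (y2 β (by rintro rfl; omega) (by omega))
    · funext β
      rw [prjF_apply, Pi.smul_apply, Pi.smul_apply, smul_eq_mul, smul_eq_mul]
      by_cases hβ : β = α
      · subst hβ
        rw [if_pos hw, Pi.single_eq_same, y1, ← ev]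
        ring
      · rw [Pi.single_eq_of_ne hβ, mul_zero]
        split_ifs with h0
        · rw [y2 β hβ (by omega), mul_zero]
        · rfl
  have k2 : ∀ w m, ∀ x ∈ grF wt N w m, κ ^ l • x ∈ grF wt X w m := by
    rintro w m _ ⟨y, ⟨hy, hw⟩, rfl⟩
    obtain ⟨h1, h2⟩ := (mN m y).1 hy
    refine mem_grF (GC.mem_cf.2 ⟨fun α _ => ?_, fun α hα => ?_⟩) (by rw [map_smul, prjF_prjF])
    · rw [Pi.smul_apply, prjF_apply]
      split_ifs with h0
      · exact flag_up hS hM hρ C α h2 fun β hβ => hw β (show w + 1 ≤ wt β by omega)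
      · simp
    · rw [Pi.smul_apply, prjF_apply, (GC.mem_cf.1 h1).2 α hα]
      simp
  have cm := fun w => aS.psi_comm hd hκ l (bot _).1 (isCx_grF pd cX w) (isCx_grF pd cN w)
    (stab_grF pr sX w) (stab_grF pr sN w) bot_le bot_le (k1 w) (k2 w) (gX w)
  have sN' := psi_grF aS hd pd pr cN sN fun w => (cm w).1
  have sX' := psi_grF aS hd pd pr cX sX gX
  have q := GC.psiG_eq (l := l) μ K ⊥ (M (cst ρ))
  rw [GC.cw_bot] at q
  refine ⟨q.1.2 (t1.1.2 sN'.1), ?_⟩
  rw [q.2, t1.2, ← dg.2, t2.2, sN'.2, sX'.2]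
  simp only [(cm _).2]

end Vale.Agent.P177
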