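import Vale.Agent.P177.SetL
import Vale.Agent.P177.Blk

/-! The graded pieces of the flag filtration on the tensor power. -/

namespace Vale.Agent.P177

open Vale.Agent.P202
open scoped ENNReal

universe u

variable {B : Type u} [CommRing B] {l : ℕ} [NeZero l] {n : ℕ}

/-- The weight of a multi-index. -/
def wt (α : ZMod l → Fin n ⊕ Fin n) : ℕ := ∑ i, (((α i).elim id id : Fin n) : ℕ)

/-- The exponent of a multi-index. -/
def ex (ρ : ℕ) (α : ZMod l → Fin n ⊕ Fin n) : ℕ → ℤ := cst ρ + ∑ i, dl (pos (α i))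

variable {K : GC B} {π κ : B} {e : Fin n → ℕ} {b : Matrix K.ι (Fin n ⊕ Fin n) B}
  {b' : Matrix (Fin n ⊕ Fin n) K.ι B} {c n0 ρ : ℕ} {𝔞 : ℕ → Ideal B} {M : (ℕ → ℤ) → Ideal B}

theorem pos_lt_flag1 (j : Fin n ⊕ Fin n) : pos j + 1 ≤ 2 * n := by
  rcases j with k | k <;> have := k.2 <;> simp only [pos, Sum.elim_inl, Sum.elim_inr] <;> omega

theorem EE_sum_flag1 {N : ℕ} {τ : Type} (s : Finset τ) (r : τ → ℕ) (h : ∀ i, r i ≤ N) :
    Ge 0 (∑ i ∈ s, ev (r i)) ∧ EE N 𝔞 (∑ i ∈ s, ev (r i)) = ∏ i ∈ s, 𝔞 (r i) ∧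
      sz N (∑ i ∈ s, ev (r i)) = s.card := by
  classical
  induction s using Finset.induction_on with
  | empty => exact ⟨fun _ => le_rfl, by simp [EE], by simp [sz]⟩
  | insert a s ha ih =>
    rw [Finset.sum_insert ha, Finset.prod_insert ha, Finset.card_insert_of_notMem ha, add_comm]
    refine ⟨ge_add_setl ih.1 (ge_ev _), ?_, ?_⟩
    · rw [EE_add ih.1 (ge_ev _), ih.2.1, EE_ev (h a), mul_comm]
    · rw [sz_add_ev_setl ih.1 (h a), ih.2.2]

theorem prod_le_flag1 {τ : Type} [Fintype τ] {I : τ → Ideal B} {J : Ideal B}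
    (h : ∀ z : τ → B, (∀ i, z i ∈ I i) → ∏ i, z i ∈ J) : ∏ i, I i ≤ J := by
  classical
  have e : ∏ i, I i = ∏ i, Ideal.span (I i : Set B) := by simp only [Ideal.span_eq]
  rw [e, Ideal.prod_span, Ideal.span_le]
  intro x hx
  obtain ⟨g, hg, rfl⟩ := (Set.mem_finsetProd _ _ _).1 hx
  exact h g fun i => hg (Finset.mem_univ i)

theorem exists_idx_flag1 {α β : ZMod l → Fin n ⊕ Fin n} (h : β ≠ α) (hw : wt β ≤ wt α) :
    ∃ i, β i ≠ α i ∧ (β i).elim id id ≤ (α i).elim id id := by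
  by_contra hc
  push Not at hc
  obtain ⟨i, hi⟩ := Function.ne_iff.1 h
  refine absurd hw (not_le.2 (Finset.sum_lt_sum (fun j _ => ?_) ⟨i, Finset.mem_univ i, hc i hi⟩))
  by_cases e : β j = α j
  · rw [e]
  · exact (hc j e).le

theorem ge_sum_dl_flag1 {τ : Type} (s : Finset τ) (r : τ → ℕ) {k ρ : ℕ} (h : k + s.card ≤ ρ) :
    Ge k (cst ρ + ∑ i ∈ s, dl (r i)) := by
  intro t
  have := Finset.card_nsmul_le_sum s (fun i => dl (r i) t) (-1) fun i _ => (dl_bounds _ t).1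
  simp only [Pi.add_apply, Finset.sum_apply, cst]
  simp only [nsmul_eq_mul, mul_neg, mul_one] at this
  omega

theorem ge_ex_flag1 (hρ : n0 + l ≤ ρ) (α : ZMod l → Fin n ⊕ Fin n) : Ge n0 (ex ρ α) :=
  ge_sum_dl_flag1 _ _ (by rwa [Finset.card_univ, ZMod.card])

theorem ex_update_flag1 (ρ : ℕ) (α : ZMod l → Fin n ⊕ Fin n) (i : ZMod l) (j : Fin n ⊕ Fin n) :
    ex ρ (Function.update α i j) =
      cst ρ + ∑ t ∈ Finset.univ.erase i, dl (pos (α t)) + dl (pos j) := by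
  unfold ex
  rw [← Finset.sum_erase_add _ _ (Finset.mem_univ i), Function.update_self, add_assoc]
  congr 2
  exact Finset.sum_congr rfl fun t ht => by rw [Function.update_of_ne (Finset.mem_erase.1 ht).1]

theorem ge_erase_flag1 {k : ℕ} (hρ : k + l ≤ ρ) (α : ZMod l → Fin n ⊕ Fin n) (i : ZMod l) :
    Ge (k + 1) (cst ρ + ∑ t ∈ Finset.univ.erase i, dl (pos (α t))) := by
  refine ge_sum_dl_flag1 _ _ ?_
  have := NeZero.pos l
  rw [Finset.card_erase_of_mem (Finset.mem_univ i), Finset.card_univ, ZMod.card]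
  omega

theorem ex_rot (ρ : ℕ) (c : ZMod l) (α : ZMod l → Fin n ⊕ Fin n) :
    ex ρ (rot l _ c α) = ex ρ α :=
  congrArg (cst ρ + ·) (Equiv.sum_comp (Equiv.addRight c) fun i => dl (pos (α i)))

theorem wt_rot (c : ZMod l) (α : ZMod l → Fin n ⊕ Fin n) : wt (rot l _ c α) = wt α :=
  Equiv.sum_comp (Equiv.addRight c) fun i => (((α i).elim id id : Fin n) : ℕ)

theorem flag_up (hS : Setup K π e b b' c 𝔞) (hM : Filt (2 * n) 𝔞 π κ n0 M) (hρ : n0 + l ≤ ρ)
    (C : ℕ) {y : (ZMod l → Fin n ⊕ Fin n) → B} (α : ZMod l → Fin n ⊕ Fin n)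
    (h1 : ∀ a, mact B (prodM l fun _ => b) y a ∈ Ideal.span {π ^ C} * M (cst ρ))
    (h2 : ∀ β, wt α < wt β → y β = 0) : κ ^ l * y α ∈ Ideal.span {π ^ C} * M (ex ρ α) := by
  obtain ⟨g1, e1, s1⟩ := EE_sum_flag1 (N := 2 * n) (𝔞 := 𝔞) Finset.univ
    (fun i => pos (α i) + 1) fun i => pos_lt_flag1 (α i)
  obtain ⟨g0, e0, -⟩ := EE_sum_flag1 (N := 2 * n) (𝔞 := 𝔞) Finset.univ
    (fun i => pos (α i)) fun i => Nat.le_of_succ_le (pos_lt_flag1 (α i))
  have := hM.canc_EE (ge_ex_flag1 hρ α) g1 C (y := y α) ?_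
  · rwa [s1, Finset.card_univ, ZMod.card] at this
  rw [e1]
  refine prod_le_flag1 (J := Submodule.comap (LinearMap.mulRight B (y α))
    (Ideal.span {π ^ C} * M (ex ρ α + ∑ i, ev (pos (α i) + 1))))
    fun z hz => ?_
  choose lam l1 l2 l3 using fun i => hS.fa' (α i) (hz i)
  have e2 : ∑ a : ZMod l → K.ι, (∏ i, lam i (a i)) * mact B (prodM l fun _ => b) y a =
      (∏ i, z i) * y α := by
    simp only [mact_apply, smul_eq_mul, Finset.mul_sum, ← mul_assoc]
    rw [Finset.sum_comm]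
    simp only [← Finset.sum_mul, prodM, Matrix.of_apply, ← Finset.prod_mul_distrib]
    have e3 : ∀ β : ZMod l → Fin n ⊕ Fin n, ∑ a : ZMod l → K.ι, ∏ i, lam i (a i) * b (a i) (β i) =
        ∏ i, ∑ a, lam i a * b a (β i) := fun β => by
      rw [Finset.prod_univ_sum, Fintype.piFinset_univ]
    simp only [e3]
    rw [Finset.sum_eq_single α]
    · simp only [l3]
    · intro β _ hβ
      rcases lt_or_ge (wt α) (wt β) with hw | hw
      · rw [h2 β hw, mul_zero]
      · obtain ⟨i, hi, hi'⟩ := exists_idx_flag1 hβ hw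
        rw [Finset.prod_eq_zero (Finset.mem_univ i) (l2 i _ hi hi'), zero_mul]
    · intro h; exact absurd (Finset.mem_univ α) h
  change (∏ i, z i) * y α ∈ Ideal.span {π ^ C} * M (ex ρ α + ∑ i, ev (pos (α i) + 1))
  rw [← e2]
  refine Ideal.sum_mem _ fun a _ => ?_
  have e4 : ex ρ α + ∑ i, ev (pos (α i) + 1) = cst ρ + ∑ i, ev (pos (α i)) := by
    simp only [ex, dl, Finset.sum_sub_distrib]
    abel
  have h3 : (∏ i, lam i (a i)) ∈ EE (2 * n) 𝔞 (∑ i, ev (pos (α i))) := by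
    rw [e0]
    exact Ideal.prod_mem_prod fun i _ => l1 i _
  have h4 := Ideal.mul_mem_mul h3 (h1 a)
  rw [mul_left_comm] at h4
  rw [e4]
  exact Ideal.mul_mono_right (hM.EE_mul_le (fun _ => Int.natCast_nonneg ρ) g0) h4

theorem flag_down (hS : Setup K π e b b' c 𝔞) (hM : Filt (2 * n) 𝔞 π κ n0 M) (hρ : n0 + l ≤ ρ)
    (α : ZMod l → Fin n ⊕ Fin n) {v : B} (hv : v ∈ M (ex ρ α)) :
    ∃ y : (ZMod l → Fin n ⊕ Fin n) → B, y α = κ ^ l * v ∧
      (∀ β, β ≠ α → wt α ≤ wt β → y β = 0) ∧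
      (∀ β, y β ≠ 0 → ((GC.std B e).tp l).deg β = ((GC.std B e).tp l).deg α) ∧
      ∀ a, mact B (prodM l fun _ => b) y a ∈ M (cst ρ) := by
  obtain ⟨g1, e1, s1⟩ := EE_sum_flag1 (N := 2 * n) (𝔞 := 𝔞) Finset.univ
    (fun i => pos (α i) + 1) fun i => pos_lt_flag1 (α i)
  obtain ⟨g0, e0, s0⟩ := EE_sum_flag1 (N := 2 * n) (𝔞 := 𝔞) Finset.univ
    (fun i => pos (α i)) fun i => Nat.le_of_succ_le (pos_lt_flag1 (α i))
  set m : ℕ → ℤ := cst ρ - ∑ i, ev (pos (α i) + 1) with hm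
  have gm : Ge n0 m := fun t => by
    have := Finset.sum_le_card_nsmul Finset.univ (fun i => ev (pos (α i) + 1) t) 1 fun i _ => by
      unfold ev
      rw [Pi.single_apply]
      split_ifs <;> omega
    simp only [nsmul_eq_mul, mul_one, Finset.card_univ, ZMod.card] at this
    simp only [hm, Pi.sub_apply, Finset.sum_apply, cst]
    omega
  have e4 : ex ρ α = m + ∑ i, ev (pos (α i)) := by
    simp only [hm, ex, dl, Finset.sum_sub_distrib]
    abel
  have h0 := hM.gen_EE gm g0 (e4 ▸ hv)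
  rw [s0, Finset.card_univ, ZMod.card, e0] at h0
  let T : Ideal B :=
    { carrier := {t | ∃ y : (ZMod l → Fin n ⊕ Fin n) → B, y α = t ∧
        (∀ β, β ≠ α → wt α ≤ wt β → y β = 0) ∧
        (∀ β, y β ≠ 0 → ((GC.std B e).tp l).deg β = ((GC.std B e).tp l).deg α) ∧
        ∀ a, mact B (prodM l fun _ => b) y a ∈ M (cst ρ)}
      zero_mem' := ⟨0, rfl, fun _ _ _ => rfl, fun _ h => absurd rfl h, fun a => by simp⟩
      add_mem' := by
        rintro _ _ ⟨y, rfl, y2, y3, y4⟩ ⟨y', rfl, z2, z3, z4⟩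
        refine ⟨y + y', rfl, fun β h h' => by rw [Pi.add_apply, y2 β h h', z2 β h h', add_zero],
          fun β h => ?_, fun a => by rw [map_add]; exact add_mem (y4 a) (z4 a)⟩
        by_cases h0 : y β = 0
        · exact z3 β fun h1 => h (by rw [Pi.add_apply, h0, h1, add_zero])
        · exact y3 β h0
      smul_mem' := by
        rintro t _ ⟨y, rfl, y2, y3, y4⟩
        exact ⟨t • y, rfl, fun β h h' => by rw [Pi.smul_apply, y2 β h h', smul_zero],
          fun β h => y3 β fun h1 => h (by rw [Pi.smul_apply, h1, smul_zero]),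
          fun a => by rw [map_smul]; exact Submodule.smul_mem _ t (y4 a)⟩ }
  have hT : (∏ i, 𝔞 (pos (α i))) * M m ≤ T := by
    rw [Ideal.mul_le]
    intro z hz x hx
    refine prod_le_flag1 (J := Submodule.comap (LinearMap.mulRight B x) T) (fun z hz => ?_) hz
    choose w w1 w2 w3 w4 using fun i => hS.fb' (α i) (hz i)
    refine ⟨fun β => (∏ i, w i (β i)) * x, by simp only [w1]; rfl, fun β h h' => ?_,
      fun β h => ?_, fun a => ?_⟩
    · obtain ⟨i, hi, hi'⟩ := exists_idx_flag1 h.symm h'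
      dsimp only
      rw [Finset.prod_eq_zero (Finset.mem_univ i) (w2 i _ hi.symm hi'), zero_mul]
    · exact Finset.sum_congr rfl fun i _ => w3 i _ fun h0 =>
        h (mul_eq_zero_of_left (Finset.prod_eq_zero (Finset.mem_univ i) h0) _)
    · simp only [mact_apply, smul_eq_mul, ← mul_assoc, ← Finset.sum_mul, prodM, Matrix.of_apply,
        ← Finset.prod_mul_distrib]
      have e3 : ∑ β : ZMod l → Fin n ⊕ Fin n, ∏ i, b (a i) (β i) * w i (β i) =
          ∏ i, ∑ j, b (a i) j * w i j := by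
        rw [Finset.prod_univ_sum, Fintype.piFinset_univ]
      have h5 := hM.EE_mul_le (fun t => le_trans (Int.natCast_nonneg n0) (gm t)) g1
      rw [hm, sub_add_cancel, e1] at h5
      rw [e3]
      exact h5 (Ideal.mul_mem_mul (Ideal.prod_mem_prod fun i _ => w4 i _) hx)
  exact hT h0

theorem ex_mono (hS : Setup K π e b b' c 𝔞) (hM : Filt (2 * n) 𝔞 π κ n0 M) (hρ : l ≤ ρ)
    (α : ZMod l → Fin n ⊕ Fin n) (i : ZMod l) (k : Fin n) (h : α i = Sum.inr k) :
    M (ex ρ α) ≤ M (ex ρ (Function.update α i (Sum.inl k))) := by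
  conv_lhs => rw [← Function.update_eq_self i α, h]
  rw [ex_update_flag1, ex_update_flag1]
  refine hM.mono _ _ ?_
  have := hS.EE_u1 k (j := 1) (ge_erase_flag1 (k := 0) (by omega) α i (ρ := ρ))
  simp only [Nat.cast_one, one_smul] at this
  exact this

theorem ex_rr_ne_top (hS : Setup K π e b b' c 𝔞) (hM : Filt (2 * n) 𝔞 π κ n0 M) (μ : RLen B)
    (hfin : ∀ (k : Fin n) (m : ℕ → ℤ), Ge (n0 + 1) m →
      rr μ (M (m + dl (2 * k + 1))) (M (m + dl (2 * k))) ≠ ⊤) (hρ : n0 + l ≤ ρ)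
    (α : ZMod l → Fin n ⊕ Fin n) :
    rr μ (M (ex ρ α)) (M (ex ρ fun i : ZMod l => Sum.inl ((α i).elim id id))) ≠ ⊤ := by
  have key : ∀ s : Finset (ZMod l), rr μ (M (ex ρ α))
      (M (ex ρ fun i => if i ∈ s then Sum.inl ((α i).elim id id) else α i)) ≠ ⊤ := by
    intro s
    induction s using Finset.induction_on with
    | empty => simp [rr_eq_zero_of_le]
    | insert i s hi ih =>
      refine ne_top_of_le_ne_top (ENNReal.add_ne_top.2 ⟨ih, ?_⟩) (rr_triangle μ _ _ _)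
      set γ : ZMod l → Fin n ⊕ Fin n :=
        fun i => if i ∈ s then Sum.inl ((α i).elim id id) else α i with hγ
      have e1 : γ = Function.update γ i (α i) := by
        rw [eq_comm, Function.update_eq_self_iff, hγ]
        exact (if_neg hi).symm
      have e2 : (fun j => if j ∈ insert i s then Sum.inl ((α j).elim id id) else α j) =
          Function.update γ i (Sum.inl ((α i).elim id id)) := by
        funext j
        by_cases e : j = i
        · subst e; simp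
        · simp [hγ, e]
      rw [e2]
      conv_lhs => enter [2]; rw [e1]
      rw [ex_update_flag1, ex_update_flag1]
      rcases α i with k | k
      · simp [rr_eq_zero_of_le]
      · exact hfin k _ (ge_erase_flag1 hρ γ i)
  simpa using key Finset.univ

/-- The diagonal family. -/
theorem psi_diag (hl : l.Prime) (ho : Odd l) (hu : IsUnit (l : B)) (hS : Setup K π e b b' c 𝔞)
    (hM : Filt (2 * n) 𝔞 π κ n0 M) (μ : RLen B)
    (hfin : ∀ (k : Fin n) (m : ℕ → ℤ), Ge (n0 + 1) m →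
      rr μ (M (m + dl (2 * k + 1))) (M (m + dl (2 * k))) ≠ ⊤) (hρ : n0 + l ≤ ρ) :
    GoodP μ (((GC.std B e).tp l).d B) (rotL l B _ B) (((GC.std B e).tp l).cw ⊥)
      (((GC.std B e).tp l).cf fun α => M (ex ρ α)) ∧
    psi μ l (((GC.std B e).tp l).d B) (rotL l B _ B) (((GC.std B e).tp l).cw ⊥)
      (((GC.std B e).tp l).cf fun α => M (ex ρ α)) = ((l : ℝ) - 1) * fl μ M e l ρ := by
  have m1 : ∀ (α : ZMod l → Fin n ⊕ Fin n) i a, α i = Sum.inr a →
      M (ex ρ α) ≤ M (ex ρ (Function.update α i (Sum.inl a))) :=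
    fun α i a h => ex_mono hS hM (by omega) α i a h
  have hf := ex_rr_ne_top hS hM μ hfin hρ
  have hd := psi_disc hl ho hu μ e (X' := fun γ => M (ex ρ (Sum.inr ∘ γ)))
    (X := fun γ => M (ex ρ (Sum.inl ∘ γ)))
    (fun γ => blk_le_big (X := fun α => M (ex ρ α)) m1 (Sum.inr ∘ γ))
    (fun γ => congrArg M (ex_rot ρ 1 (Sum.inr ∘ γ))) (fun γ => congrArg M (ex_rot ρ 1 (Sum.inl ∘ γ)))
    fun γ => hf (Sum.inr ∘ γ)
  have ht := psi_trace hl ho hu μ (K := GC.disc B e) (GC.sq0_disc e) (fun α => M (ex ρ α)) ⊥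
    (fun α => congrArg M (ex_rot ρ 1 α)) (fun _ => bot_le) m1 (fun a b h => absurd rfl h) ⊥
    (fun z hz => ⟨0, GC.hg_zero _ _ _, by rw [(Submodule.mem_bot B).1 hz]; simp,
      fun a b h => absurd rfl h⟩)
    (fun A' A h1 h2 _ => ne_top_of_le_ne_top (by
      rw [rr_pi]
      exact ENNReal.sum_ne_top.2 fun α _ => hf α) (rr_mono μ h1 h2)) hd.1
  refine ⟨ht.1, ht.2.trans (hd.2.trans ?_)⟩
  have e1 : ∀ j : Fin n ⊕ Fin n, ex ρ (fun _ : ZMod l => j) = cst ρ + (l : ℤ) • dl (pos j) := by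
    intro j
    unfold ex
    rw [Finset.sum_const, Finset.card_univ, ZMod.card, natCast_zsmul]
  unfold fl
  congr 1
  refine Finset.sum_congr rfl fun k _ => ?_
  exact congrArg₂ (fun a b => (-1 : ℝ) ^ e k * (rr μ (M a) (M b)).toReal) (e1 (Sum.inr k))
    (e1 (Sum.inl k))

end Vale.Agent.P177
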