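import Vale.Agent.P177.TP
import Vale.Agent.P177.Eqv

/-! Free orbits do not contribute. -/

namespace Vale.Agent.P177

open Vale.Agent.P202
open scoped ENNReal

universe u

variable {B : Type u} [CommRing B] {E : Type u} [AddCommGroup E] [Module B E] {l : ℕ} [NeZero l]

theorem free_const_of_rot (hl : l.Prime) {ι : Type} {ρ : ZMod l → ι} {a b : ZMod l} (hab : a ≠ b)
    (h : rot l ι a ρ = rot l ι b ρ) (i j : ZMod l) : ρ i = ρ j := by
  have : Fact l.Prime := ⟨hl⟩
  have h1 : ∀ t, ρ (t + (a - b)) = ρ t := by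
    intro t
    have h2 := congrFun h (t - b)
    simp only [rot] at h2
    rw [show t + (a - b) = t - b + a by ring, h2, sub_add_cancel]
  have h2 : ∀ (m : ℕ) t, ρ (t + m * (a - b)) = ρ t := by
    intro m
    induction m with
    | zero => intro t; simp
    | succ m ih =>
      intro t
      rw [show t + ((m + 1 : ℕ) : ZMod l) * (a - b) = t + m * (a - b) + (a - b) by
        push_cast; ring, h1, ih]
  have h3 := h2 ((i - j) / (a - b)).val j
  rw [ZMod.natCast_zmod_val, div_mul_cancel₀ _ (sub_ne_zero.2 hab)] at h3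
  rw [← h3]
  congr 1
  ring

/-- An equivariant labelling of the non-constant multi-indices. -/
theorem exists_lab (hl : l.Prime) (ι : Type) : ∃ lab : (ZMod l → ι) → ZMod l,
    ∀ γ : ZMod l → ι, (¬ ∀ i j, γ i = γ j) → lab (rot l ι 1 γ) = lab γ + 1 := by
  have h0 : ∀ γ : ZMod l → ι, ∃ c, γ = rot l ι c (Quotient.mk (orb l ι) γ).out := by
    intro γ
    exact Quotient.exact (Quotient.out_eq (Quotient.mk (orb l ι) γ))
  choose lab hlab using h0
  refine ⟨lab, fun γ hγ => ?_⟩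
  by_contra hne
  have e1 : Quotient.mk (orb l ι) (rot l ι 1 γ) = Quotient.mk (orb l ι) γ :=
    (Quotient.sound (s := orb l ι) ⟨1, rfl⟩).symm
  have e2 := hlab (rot l ι 1 γ)
  rw [e1] at e2
  have e3 : rot l ι 1 γ = rot l ι (lab γ + 1) (Quotient.mk (orb l ι) γ).out := by
    rw [add_comm, ← rot_rot, ← hlab γ]
  have e4 := free_const_of_rot hl hne (e2.symm.trans e3)
  apply hγ
  intro i j
  rw [hlab γ]
  exact e4 _ _

theorem free_hr_pi (μ : RLen B) (τ : Type) [Fintype τ] (d : E →ₗ[B] E)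
    (G' G'' : ℤ → Submodule B E) (n : ℤ) :
    hr μ (d.compLeft τ) (fun n => Submodule.pi Set.univ fun _ : τ => G' n)
      (fun n => Submodule.pi Set.univ fun _ : τ => G'' n) n =
      (Fintype.card τ : ℝ≥0∞) * hr μ d G' G'' n := by
  have e1 : Zc (d.compLeft τ) (fun n => Submodule.pi Set.univ fun _ : τ => G' n)
      (fun n => Submodule.pi Set.univ fun _ : τ => G'' n) n =
      Submodule.pi Set.univ fun _ : τ => Zc d G' G'' n := by
    ext x
    simp only [Zc, Submodule.mem_inf, Submodule.mem_comap, Submodule.mem_pi, Set.mem_univ,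
      forall_const]
    exact ⟨fun h t => ⟨h.1 t, h.2 t⟩, fun h => ⟨fun t => (h t).1, fun t => (h t).2⟩⟩
  have e2 : Bc (d.compLeft τ) (fun n => Submodule.pi Set.univ fun _ : τ => G' n)
      (fun n => Submodule.pi Set.univ fun _ : τ => G'' n) n =
      Submodule.pi Set.univ fun _ : τ => Bc d G' G'' n := by
    apply le_antisymm
    · refine sup_le (fun x hx t _ => Submodule.mem_sup_left (hx t trivial)) ?_
      rintro _ ⟨x, hx, rfl⟩ t -
      exact Submodule.mem_sup_right ⟨x t, hx t trivial, rfl⟩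
    · intro x hx
      have h1 : ∀ t, ∃ a ∈ G' n, ∃ b ∈ G'' (n + 1), a + d b = x t := by
        intro t
        obtain ⟨a, ha, _, ⟨b, hb, rfl⟩, e⟩ := Submodule.mem_sup.1 (hx t trivial)
        exact ⟨a, ha, b, hb, e⟩
      choose a ha b hb e using h1
      refine Submodule.mem_sup.2 ⟨a, fun t _ => ha t, _, ⟨b, fun t _ => hb t, rfl⟩, ?_⟩
      funext t
      exact e t
  unfold hr
  rw [e1, e2, rr_pi]
  simp

theorem free_d_rot (K : GC B) (c : ZMod l) (x : (ZMod l → K.ι) → E) (α : ZMod l → K.ι) :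
    (K.tp l).d E x (rot l K.ι c α) = ∑ β, (K.tp l).mat α β • x (rot l K.ι c β) := by
  let e : (ZMod l → K.ι) ≃ (ZMod l → K.ι) :=
    { toFun := rot l K.ι c
      invFun := rot l K.ι (-c)
      left_inv := fun β => by rw [rot_rot, neg_add_cancel, rot_zero]
      right_inv := fun β => by rw [rot_rot, add_neg_cancel, rot_zero] }
  rw [GC.d, mact_apply, ← e.sum_comp]
  refine Finset.sum_congr rfl fun β _ => ?_
  change (K.tp l).mat (rot l K.ι c α) (rot l K.ι c β) • x (rot l K.ι c β) = _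
  rw [GC.tp_mat_rot]

theorem free_comm (K : GC B) (x : (ZMod l → K.ι) → E) :
    rotL l B K.ι E ((K.tp l).d E x) = (K.tp l).d E (rotL l B K.ι E x) := by
  funext α
  rw [rotL_apply, free_d_rot, GC.d, mact_apply]
  rfl

theorem free_lab_rot {ι : Type} {S : (ZMod l → ι) → Prop} {lab : (ZMod l → ι) → ZMod l}
    (h2 : ∀ α, S α → S (rot l ι 1 α) ∧ lab (rot l ι 1 α) = lab α + 1) (c : ZMod l)
    {α : ZMod l → ι} (h : S α) : S (rot l ι c α) ∧ lab (rot l ι c α) = lab α + c := by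
  have key : ∀ m : ℕ, S (rot l ι m α) ∧ lab (rot l ι m α) = lab α + m := by
    intro m
    induction m with
    | zero => simpa [rot_zero] using h
    | succ m ih =>
      have h3 := h2 _ ih.1
      rw [rot_rot, ih.2] at h3
      push_cast
      rw [add_comm (m : ZMod l) 1, ← add_assoc, add_right_comm]
      exact h3
  simpa using key c.val

open Classical in
/-- The induced invariant vectors. -/
noncomputable def freeMap (B : Type u) [CommRing B] (E : Type u) [AddCommGroup E] [Module B E]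
    {ι : Type} (S : (ZMod l → ι) → Prop) (lab : (ZMod l → ι) → ZMod l) :
    ((ZMod l → ι) → E) →ₗ[B] (ZMod l → (ZMod l → ι) → E) where
  toFun x c α := if S α then x (rot l ι (c - lab α) α) else 0
  map_add' x y := by
    funext c α
    by_cases h : S α <;> simp [h]
  map_smul' a x := by
    funext c α
    by_cases h : S α <;> simp [h]

omit [NeZero l] in
theorem freeMap_pos {ι : Type} {S : (ZMod l → ι) → Prop} {lab : (ZMod l → ι) → ZMod l}
    (x : (ZMod l → ι) → E) (c : ZMod l) {α : ZMod l → ι} (h : S α) :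
    freeMap B E S lab x c α = x (rot l ι (c - lab α) α) := if_pos h

omit [NeZero l] in
theorem freeMap_neg {ι : Type} {S : (ZMod l → ι) → Prop} {lab : (ZMod l → ι) → ZMod l}
    (x : (ZMod l → ι) → E) (c : ZMod l) {α : ZMod l → ι} (h : ¬ S α) :
    freeMap B E S lab x c α = 0 := if_neg h

theorem freeMap_inv {ι : Type} {S : (ZMod l → ι) → Prop} {lab : (ZMod l → ι) → ZMod l}
    (h2 : ∀ α, S α → S (rot l ι 1 α) ∧ lab (rot l ι 1 α) = lab α + 1)
    (x : (ZMod l → ι) → E) (c : ZMod l) :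
    rotL l B ι E (freeMap B E S lab x c) = freeMap B E S lab x c := by
  funext α
  rw [rotL_apply]
  by_cases h : S α
  · rw [freeMap_pos x c h, freeMap_pos x c (h2 α h).1, (h2 α h).2, rot_rot]
    congr 2
    ring
  · have h3 : ¬ S (rot l ι 1 α) := fun h4 => h (by
      have h5 := (free_lab_rot h2 (-1) h4).1
      rwa [rot_rot, neg_add_cancel, rot_zero] at h5)
    rw [freeMap_neg x c h, freeMap_neg x c h3]

theorem freeMap_mem (K : GC B) {X : (ZMod l → K.ι) → Submodule B E}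
    (i2 : ∀ α, X (rot l K.ι 1 α) = X α) (S : (ZMod l → K.ι) → Prop)
    (lab : (ZMod l → K.ι) → ZMod l) {n : ℤ} {x : (ZMod l → K.ι) → E} (hx : x ∈ (K.tp l).cf X n)
    (c : ZMod l) : freeMap B E S lab x c ∈ (K.tp l).cf X n := by
  have h0 := GC.mem_cf.1 hx
  refine GC.mem_cf.2 ⟨fun α _ => ?_, fun α hα => ?_⟩
  · by_cases h : S α
    · rw [freeMap_pos x c h, ← rot_inv i2 (c - lab α) α]
      exact GC.apply_mem_of_mem_cf hx _
    · rw [freeMap_neg x c h]
      exact zero_mem _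
  · by_cases h : S α
    · rw [freeMap_pos x c h]
      exact h0.2 _ (by rwa [GC.tp_deg_rot])
    · exact freeMap_neg x c h

theorem free_mem_cf {K : GC B} {X' X : K.ι → Submodule B E} {S : K.ι → Prop}
    (h1 : ∀ α, ¬ S α → X α ≤ X' α) {n : ℤ} {x : K.ι → E} (hx : x ∈ K.cf X n)
    (h : ∀ α, S α → x α ∈ X' α) : x ∈ K.cf X' n := by
  refine GC.mem_cf.2 ⟨fun α _ => ?_, (GC.mem_cf.1 hx).2⟩
  by_cases hS : S α
  · exact h α hS
  · exact h1 α hS (GC.apply_mem_of_mem_cf hx α)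

theorem free_inv_apply {ι : Type} {y : (ZMod l → ι) → E} (h : rotL l B ι E y = y) (c : ZMod l)
    (α : ZMod l → ι) : y (rot l ι c α) = y α :=
  rot_inv (X := y) (fun β => congrFun h β) c α

theorem hr_free (μ : RLen B) (K : GC B) {X' X : (ZMod l → K.ι) → Submodule B E}
    (hle : ∀ α, X' α ≤ X α) (i1 : ∀ α, X' (rot l K.ι 1 α) = X' α)
    (i2 : ∀ α, X (rot l K.ι 1 α) = X α)
    (c1 : ∀ α β, (K.tp l).mat α β ≠ 0 → ∀ v ∈ X' β, (K.tp l).mat α β • v ∈ X' α)
    (c2 : ∀ α β, (K.tp l).mat α β ≠ 0 → ∀ v ∈ X β, (K.tp l).mat α β • v ∈ X α)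
    (S : (ZMod l → K.ι) → Prop) (lab : (ZMod l → K.ι) → ZMod l) (h1 : ∀ α, ¬ S α → X α ≤ X' α)
    (h2 : ∀ α, S α → S (rot l K.ι 1 α) ∧ lab (rot l K.ι 1 α) = lab α + 1)
    (h3 : ∀ α β, S α → S β → (K.tp l).mat α β ≠ 0 → lab α = lab β) (n : ℤ) :
    hr μ ((K.tp l).d E) ((K.tp l).cf X') ((K.tp l).cf X) n =
      l * hr μ ((K.tp l).d E) (iv (rotL l B K.ι E) ((K.tp l).cf X'))
        (iv (rotL l B K.ι E) ((K.tp l).cf X)) n := by
  classical
  have x1 : IsCx ((K.tp l).d E) ((K.tp l).cf X') := GC.cf_isCx (K := K.tp l) c1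
  have x2 : IsCx ((K.tp l).d E) ((K.tp l).cf X) := GC.cf_isCx (K := K.tp l) c2
  have key := hr_transfer μ (d := (K.tp l).d E) (F' := (K.tp l).cf X') (F'' := (K.tp l).cf X)
    (d' := ((K.tp l).d E).compLeft (ZMod l))
    (G' := fun n => Submodule.pi Set.univ fun _ : ZMod l =>
      iv (rotL l B K.ι E) ((K.tp l).cf X') n)
    (G'' := fun n => Submodule.pi Set.univ fun _ : ZMod l =>
      iv (rotL l B K.ι E) ((K.tp l).cf X) n) (freeMap B E S lab) 0 1 x2 ?_ ?_ ?_ ?_ n
  · rw [key, add_zero, free_hr_pi, ZMod.card]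
  · rintro m _ ⟨y, hy, rfl⟩ c -
    have h4 := mem_iv.1 (hy c trivial)
    refine mem_iv.2 ⟨x1 m ⟨y c, h4.1, rfl⟩, ?_⟩
    change rotL l B K.ι E ((K.tp l).d E (y c)) = (K.tp l).d E (y c)
    rw [free_comm, h4.2]
  · intro m x hx c _
    rw [add_zero, Units.val_one, one_smul]
    change freeMap B E S lab ((K.tp l).d E x) c - (K.tp l).d E (freeMap B E S lab x c) ∈ _
    refine mem_iv.2 ⟨?_, ?_⟩
    · refine free_mem_cf (K := K.tp l) h1 (sub_mem (freeMap_mem K i2 S lab (x2 m ⟨x, hx, rfl⟩) c)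
        (x2 m ⟨_, freeMap_mem K i2 S lab hx c, rfl⟩)) fun α hα => ?_
      rw [Pi.sub_apply, freeMap_pos _ c hα, free_d_rot, GC.d, mact_apply, ← Finset.sum_sub_distrib]
      refine sum_mem fun β _ => ?_
      by_cases h0 : (K.tp l).mat α β = 0
      · rw [h0, zero_smul, zero_smul, sub_zero]
        exact zero_mem _
      · by_cases hβ : S β
        · rw [freeMap_pos _ c hβ, h3 α β hα hβ h0, sub_self]
          exact zero_mem _
        · rw [freeMap_neg _ c hβ, smul_zero, sub_zero]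
          refine c1 α β h0 _ (h1 β hβ ?_)
          rw [← rot_inv i2 (c - lab α) β]
          exact GC.apply_mem_of_mem_cf (K := K.tp l) hx _
    · rw [map_sub, free_comm, freeMap_inv h2, freeMap_inv h2]
  · intro m
    rw [add_zero]
    apply le_antisymm
    · refine sup_le ?_ fun y hy c _ => iv_mono (GC.cf_mono (K := K.tp l) hle) m (hy c trivial)
      rintro _ ⟨x, hx, rfl⟩ c -
      exact mem_iv.2 ⟨freeMap_mem K i2 S lab hx c, freeMap_inv h2 x c⟩
    · intro y hy
      have h4 := fun c => mem_iv.1 (hy c trivial)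
      have hx : (fun α => y (lab α) α) ∈ (K.tp l).cf X m :=
        GC.mem_cf.2 ⟨fun α _ => GC.apply_mem_of_mem_cf (K := K.tp l) (h4 _).1 α,
          fun α hα => (GC.mem_cf.1 (h4 _).1).2 α hα⟩
      refine Submodule.mem_sup.2 ⟨_, ⟨_, hx, rfl⟩, y - freeMap B E S lab fun α => y (lab α) α,
        fun c _ => mem_iv.2 ⟨?_, ?_⟩, add_sub_cancel _ _⟩
      · refine free_mem_cf (K := K.tp l) h1 (sub_mem (h4 c).1 (freeMap_mem K i2 S lab hx c))
          fun α hα => ?_
        rw [Pi.sub_apply, Pi.sub_apply, freeMap_pos _ c hα, (free_lab_rot h2 _ hα).2,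
          add_sub_cancel, free_inv_apply (h4 c).2, sub_self]
        exact zero_mem _
      · rw [Pi.sub_apply, map_sub, (h4 c).2, freeMap_inv h2]
  · intro m
    rw [add_zero]
    apply le_antisymm
    · rintro x ⟨hx, hx1⟩
      refine free_mem_cf (K := K.tp l) h1 hx fun α hα => ?_
      have h4 := GC.apply_mem_of_mem_cf (K := K.tp l) (mem_iv.1 (hx1 (lab α) trivial)).1 α
      rwa [freeMap_pos _ _ hα, sub_self, rot_zero] at h4
    · intro x hx
      exact ⟨GC.cf_mono (K := K.tp l) hle m hx, fun c _ =>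
        mem_iv.2 ⟨freeMap_mem K i1 S lab hx c, freeMap_inv h2 x c⟩⟩

theorem psi_free (μ : RLen B) (K : GC B) {X' X : (ZMod l → K.ι) → Submodule B E}
    (hle : ∀ α, X' α ≤ X α) (i1 : ∀ α, X' (rot l K.ι 1 α) = X' α)
    (i2 : ∀ α, X (rot l K.ι 1 α) = X α)
    (c1 : ∀ α β, (K.tp l).mat α β ≠ 0 → ∀ v ∈ X' β, (K.tp l).mat α β • v ∈ X' α)
    (c2 : ∀ α β, (K.tp l).mat α β ≠ 0 → ∀ v ∈ X β, (K.tp l).mat α β • v ∈ X α)
    (S : (ZMod l → K.ι) → Prop) (lab : (ZMod l → K.ι) → ZMod l) (h1 : ∀ α, ¬ S α → X α ≤ X' α)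
    (h2 : ∀ α, S α → S (rot l K.ι 1 α) ∧ lab (rot l K.ι 1 α) = lab α + 1)
    (h3 : ∀ α β, S α → S β → (K.tp l).mat α β ≠ 0 → lab α = lab β)
    (hg : GoodR μ ((K.tp l).d E) ((K.tp l).cf X') ((K.tp l).cf X)) :
    GoodP μ ((K.tp l).d E) (rotL l B K.ι E) ((K.tp l).cf X') ((K.tp l).cf X) ∧
      psi μ l ((K.tp l).d E) (rotL l B K.ι E) ((K.tp l).cf X') ((K.tp l).cf X) = 0 := by
  have key := hr_free μ K hle i1 i2 c1 c2 S lab h1 h2 h3
  have hl : (l : ℝ≥0∞) ≠ 0 := Nat.cast_ne_zero.2 (NeZero.ne l)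
  have g2 : GoodR μ ((K.tp l).d E) (iv (rotL l B K.ι E) ((K.tp l).cf X'))
      (iv (rotL l B K.ι E) ((K.tp l).cf X)) := by
    refine ⟨fun n h => hg.1 n ?_, hg.2.subset fun n hn h => hn ?_⟩
    · rw [key, h, ENNReal.mul_top hl]
    · rw [key] at h
      exact (mul_eq_zero.1 h).resolve_left hl
  refine ⟨⟨hg, g2⟩, ?_⟩
  rw [psi, (good_chi_of_hr_mul μ l key g2).2, sub_self]

theorem free_hr_zero (μ : RLen B) {d : E →ₗ[B] E} (hd : d = 0) (F' F'' : ℤ → Submodule B E)
    (n : ℤ) : hr μ d F' F'' n = rr μ (F' n) (F'' n) := by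
  subst hd
  simp [hr, Zc, Bc]

theorem free_chi_zero (μ : RLen B) {K : GC B} (hd : K.d E = 0) {X' X : K.ι → Submodule B E}
    (hf : ∀ a, rr μ (X' a) (X a) ≠ ⊤) : GoodR μ (K.d E) (K.cf X') (K.cf X) ∧
      chiR μ (K.d E) (K.cf X') (K.cf X) =
        ∑ a, (-1 : ℝ) ^ K.deg a * (rr μ (X' a) (X a)).toReal := by
  refine ⟨GC.good_of_ne_top μ fun n => ?_, ?_⟩
  · rw [free_hr_zero μ hd, GC.rr_cf]
    exact ENNReal.sum_ne_top.2 fun a _ => hf a
  · obtain ⟨L, hL⟩ := K.exists_top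
    rw [hL.chi_eq_sum, ← Finset.sum_fiberwise_of_maps_to (s := Finset.univ)
      (t := Finset.range (L + 1)) (g := K.deg)
      (fun a _ => Finset.mem_range.2 (Nat.lt_succ_of_le (hL a)))]
    refine Finset.sum_congr rfl fun i _ => ?_
    rw [free_hr_zero μ hd, GC.rr_cf, ENNReal.toReal_sum fun a _ => hf a, Finset.mul_sum]
    refine Finset.sum_congr (by ext a; simp) fun a ha => ?_
    rw [(Finset.mem_filter.1 ha).2]

/-- Complexes with zero differential. -/
theorem psi_disc (hl : l.Prime) (ho : Odd l) (hu : IsUnit (l : B)) (μ : RLen B) {n : ℕ}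
    (e : Fin n → ℕ) {X' X : (ZMod l → Fin n) → Submodule B E} (hle : ∀ α, X' α ≤ X α)
    (i1 : ∀ α, X' (rot l _ 1 α) = X' α) (i2 : ∀ α, X (rot l _ 1 α) = X α)
    (hf : ∀ α, rr μ (X' α) (X α) ≠ ⊤) :
    GoodP μ (((GC.disc B e).tp l).d E) (rotL l B (Fin n) E) (((GC.disc B e).tp l).cf X')
      (((GC.disc B e).tp l).cf X) ∧
    psi μ l (((GC.disc B e).tp l).d E) (rotL l B (Fin n) E) (((GC.disc B e).tp l).cf X')
      (((GC.disc B e).tp l).cf X) =
      ((l : ℝ) - 1) * ∑ k, (-1 : ℝ) ^ e k * (rr μ (X' fun _ => k) (X fun _ => k)).toReal := by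
  classical
  have hm : ∀ α β, ((GC.disc B e).tp l).mat α β = 0 := by
    intro α β
    by_contra h
    obtain ⟨i, hi, -⟩ := GC.tp_mat_ne_zero (K := GC.disc B e) h
    exact hi rfl
  have hd : ((GC.disc B e).tp l).d E = 0 := by
    refine LinearMap.ext fun x => ?_
    funext α
    rw [GC.d, mact_apply]
    exact Finset.sum_eq_zero fun β _ => by rw [hm, zero_smul]
  have hc : ∀ α : ZMod l → Fin n, (∀ i j, rot l _ 1 α i = rot l _ 1 α j) ↔ ∀ i j, α i = α j := by
    intro α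
    refine ⟨fun h i j => ?_, fun h i j => h _ _⟩
    simpa [rot] using h (i - 1) (j - 1)
  let Y : (ZMod l → Fin n) → Submodule B E := fun α => if ∀ i j, α i = α j then X' α else X α
  have y1 : ∀ α, (∀ i j, α i = α j) → Y α = X' α := fun α h => if_pos h
  have y2 : ∀ α, (¬ ∀ i j, α i = α j) → Y α = X α := fun α h => if_neg h
  have l1 : ∀ α, X' α ≤ Y α := by
    intro α
    by_cases h : ∀ i j, α i = α j
    · exact (y1 α h).ge
    · exact (hle α).trans (y2 α h).ge
  have l2 : ∀ α, Y α ≤ X α := by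
    intro α
    by_cases h : ∀ i j, α i = α j
    · exact (y1 α h).le.trans (hle α)
    · exact (y2 α h).le
  have i3 : ∀ α, Y (rot l _ 1 α) = Y α := by
    intro α
    by_cases h : ∀ i j, α i = α j
    · rw [y1 α h, y1 _ ((hc α).2 h), i1]
    · rw [y2 α h, y2 _ (fun h0 => h ((hc α).1 h0)), i2]
  obtain ⟨lab, hlab⟩ := exists_lab hl (Fin n)
  have f1 : ∀ α, rr μ (X' α) (Y α) ≠ ⊤ := fun α =>
    ne_top_of_le_ne_top (hf α) (rr_mono μ le_rfl (l2 α))
  have f2 : ∀ α, rr μ (Y α) (X α) ≠ ⊤ := fun α =>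
    ne_top_of_le_ne_top (hf α) (rr_mono μ (l1 α) le_rfl)
  have s1 := psi_free μ (GC.disc B e) l1 i1 i3 (fun α β h => absurd (hm α β) h)
    (fun α β h => absurd (hm α β) h) (fun α => ¬ ∀ i j, α i = α j) lab
    (fun α h => (y1 α (not_not.1 h)).le)
    (fun α h => ⟨fun h0 => h ((hc α).1 h0), hlab α h⟩) (fun α β _ _ h => absurd (hm α β) h)
    (free_chi_zero μ (K := (GC.disc B e).tp l) hd f1).1
  have s2 := free_chi_zero μ (K := (GC.disc B e).tp l) hd f2
  have s3 : ∀ m, hr μ (((GC.disc B e).tp l).d E)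
      (iv (rotL l B (Fin n) E) (((GC.disc B e).tp l).cf Y))
      (iv (rotL l B (Fin n) E) (((GC.disc B e).tp l).cf X)) m =
      hr μ (((GC.disc B e).tp l).d E) (((GC.disc B e).tp l).cf Y)
        (((GC.disc B e).tp l).cf X) m := by
    intro m
    rw [free_hr_zero μ hd, free_hr_zero μ hd]
    have e1 : iv (rotL l B (Fin n) E) (((GC.disc B e).tp l).cf Y) m =
        ((GC.disc B e).tp l).cf Y m ⊓ iv (rotL l B (Fin n) E) (((GC.disc B e).tp l).cf X) m := by
      ext x
      simp only [mem_iv, Submodule.mem_inf]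
      exact ⟨fun h => ⟨h.1, GC.cf_mono (K := (GC.disc B e).tp l) l2 m h.1, h.2⟩,
        fun h => ⟨h.1, h.2.2⟩⟩
    have e2 : ((GC.disc B e).tp l).cf X m =
        ((GC.disc B e).tp l).cf Y m ⊔ iv (rotL l B (Fin n) E) (((GC.disc B e).tp l).cf X) m := by
      refine le_antisymm (fun x hx => ?_)
        (sup_le (GC.cf_mono (K := (GC.disc B e).tp l) l2 m) fun x hx => (mem_iv.1 hx).1)
      have hz : (fun α => if ∀ i j, α i = α j then x α else 0) ∈ ((GC.disc B e).tp l).cf X m := by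
        refine GC.mem_cf.2 ⟨fun α _ => ?_, fun α hα => ?_⟩
        · by_cases h : ∀ i j, α i = α j
          · simp only [if_pos h]
            exact GC.apply_mem_of_mem_cf (K := (GC.disc B e).tp l) hx α
          · simp only [if_neg h]
            exact zero_mem _
        · simp only [(GC.mem_cf.1 hx).2 α hα, ite_self]
      refine Submodule.mem_sup.2 ⟨x - fun α => if ∀ i j, α i = α j then x α else 0, ?_, _,
        mem_iv.2 ⟨hz, ?_⟩, sub_add_cancel _ _⟩
      · refine free_mem_cf (K := (GC.disc B e).tp l) (S := fun α => ∀ i j, α i = α j)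
          (fun α h => (y2 α h).ge) (sub_mem hx hz) fun α h => ?_
        simp only [Pi.sub_apply, if_pos h, sub_self]
        exact zero_mem _
      · funext α
        rw [rotL_apply]
        by_cases h : ∀ i j, α i = α j
        · rw [show rot l _ 1 α = α from funext fun i => h _ _]
        · simp only [if_neg h, if_neg fun h0 => h ((hc α).1 h0)]
    rw [e1, rr_inf, ← rr_sup, ← e2]
  have s4 := good_chi_congr μ s3
  have cx : ∀ Z : (ZMod l → Fin n) → Submodule B E,
      IsCx (((GC.disc B e).tp l).d E) (((GC.disc B e).tp l).cf Z) := fun Z =>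
    GC.cf_isCx (K := (GC.disc B e).tp l) fun α β h => absurd (hm α β) h
  have tri : Tri (((GC.disc B e).tp l).d E) (((GC.disc B e).tp l).cf X')
      (((GC.disc B e).tp l).cf Y) (((GC.disc B e).tp l).cf X) :=
    ⟨sq_of_comp (by rw [hd]; rfl) _ _, cx _, cx _, cx _, GC.cf_mono (K := (GC.disc B e).tp l) l1,
      GC.cf_mono (K := (GC.disc B e).tp l) l2⟩
  have s5 := (GC.tp_act (E := E) (GC.disc B e) hu).psi_add tri s1.1 ⟨s2.1, s4.1.2 s2.1⟩
  refine ⟨s5.1, ?_⟩
  rw [s5.2, s1.2, zero_add, psi, s4.2, s2.2, ← sub_one_mul]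
  congr 1
  symm
  refine Fintype.sum_of_injective (fun (k : Fin n) (_ : ZMod l) => k)
    (fun k k' h => congrFun h 0) _ _ (fun α hα => ?_) fun k => ?_
  · have h : ¬ ∀ i j, α i = α j := fun h => hα ⟨α 0, funext fun i => h _ _⟩
    rw [y2 α h, rr_eq_zero_of_le μ le_rfl]
    simp
  · rw [y1 _ fun _ _ => rfl]
    congr 1
    change _ = (-1 : ℝ) ^ (∑ _i : ZMod l, e k)
    rw [Finset.sum_const, Finset.card_univ, ZMod.card, smul_eq_mul, pow_mul, ho.neg_one_pow]

end Vale.Agent.P177
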