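import Vale.Agent.P177.SetL

/-! The Hilbert basis theorem for multi-Rees algebras. -/

namespace Vale.Agent.P177

universe u

section aux

open MvPolynomial

variable {C : Type u} [CommRing C] {N s : ℕ}

/-- The presentation of the multi-Rees algebra. -/
noncomputable def phiHB (N : ℕ) (a : ℕ → Fin s → C) :
    MvPolynomial (Fin (N + 1) × Fin s) C →ₐ[C] MvPolynomial ℕ C :=
  aeval fun v => monomial (Finsupp.single (v.1 : ℕ) 1) (a v.1 v.2)

theorem coeff_phi_X_hb (a : ℕ → Fin s → C) {F : (ℕ →₀ ℕ) → Ideal C}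
    (hF : ∀ r ≤ N, ∀ i m, ∀ x ∈ F m, a r i * x ∈ F (m + Finsupp.single r 1))
    (v : Fin (N + 1) × Fin s) {f : MvPolynomial (Fin (N + 1) × Fin s) C}
    (hf : ∀ m, coeff m (phiHB N a f) ∈ F m) (m : ℕ →₀ ℕ) :
    coeff m (phiHB N a (X v * f)) ∈ F m := by
  classical
  rw [map_mul, phiHB, aeval_X, coeff_monomial_mul']
  split_ifs with h
  · have h1 := hF v.1 (Nat.lt_succ_iff.1 v.1.2) v.2 _ _ (hf (m - Finsupp.single (v.1 : ℕ) 1))
    rwa [tsub_add_cancel_of_le h] at h1
  · exact Ideal.zero_mem _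

/-- Polynomials whose images have coefficients in a given family. -/
def idlHB (a : ℕ → Fin s → C) (F : (ℕ →₀ ℕ) → Ideal C)
    (hF : ∀ r ≤ N, ∀ i m, ∀ x ∈ F m, a r i * x ∈ F (m + Finsupp.single r 1)) :
    Ideal (MvPolynomial (Fin (N + 1) × Fin s) C) where
  carrier := {f | ∀ m, coeff m (phiHB N a f) ∈ F m}
  zero_mem' := fun m => by simp
  add_mem' := fun hf hg m => by
    rw [map_add, coeff_add]
    exact Ideal.add_mem _ (hf m) (hg m)
  smul_mem' := fun g f hf => by
    rw [smul_eq_mul]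
    induction g using MvPolynomial.induction_on generalizing f with
    | C c =>
      intro m
      rw [C_mul', map_smul, coeff_smul, smul_eq_mul]
      exact Ideal.mul_mem_left _ _ (hf m)
    | add p q hp hq =>
      intro m
      rw [add_mul, map_add, coeff_add]
      exact Ideal.add_mem _ (hp _ hf m) (hq _ hf m)
    | mul_X p v hp =>
      rw [mul_assoc]
      exact hp _ (coeff_phi_X_hb a hF v hf)

/-- Coefficients of monomials in the image. -/
def monHB (N : ℕ) (a : ℕ → Fin s → C) (m : ℕ →₀ ℕ) : Ideal C where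
  carrier := {x | ∃ f, phiHB N a f = monomial m x}
  zero_mem' := ⟨0, by simp⟩
  add_mem' := by
    rintro x y ⟨f, hf⟩ ⟨g, hg⟩
    exact ⟨f + g, by rw [map_add, hf, hg, map_add]⟩
  smul_mem' := by
    rintro c x ⟨f, hf⟩
    exact ⟨c • f, by rw [map_smul, hf, smul_monomial]⟩

theorem monHB_mul (a : ℕ → Fin s → C) (m m' : ℕ →₀ ℕ) :
    monHB N a m * monHB N a m' ≤ monHB N a (m + m') := by
  rw [Ideal.mul_le]
  rintro x ⟨f, hf⟩ y ⟨g, hg⟩
  exact ⟨f * g, by rw [map_mul, hf, hg, monomial_mul]⟩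

theorem monHB_zero (a : ℕ → Fin s → C) : ⊤ ≤ monHB N a 0 := fun x _ =>
  ⟨MvPolynomial.C x, by rw [algHom_C]; rfl⟩

theorem monHB_pow (a : ℕ → Fin s → C) {r : ℕ} (hr : r ≤ N) (k : ℕ) :
    Ideal.span (Set.range (a r)) ^ k ≤ monHB N a (Finsupp.single r k) := by
  induction k with
  | zero =>
    rw [Finsupp.single_zero]
    exact le_top.trans (monHB_zero a)
  | succ k ih =>
    rw [pow_succ, Finsupp.single_add]
    refine (Ideal.mul_mono ih ?_).trans (monHB_mul a _ _)
    rw [Ideal.span_le]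
    rintro _ ⟨i, rfl⟩
    exact ⟨X (⟨r, Nat.lt_succ_iff.2 hr⟩, i), by rw [phiHB, aeval_X]⟩

theorem monHB_prod (a : ℕ → Fin s → C) (k : ℕ → ℕ) (t : Finset ℕ) (ht : ∀ r ∈ t, r ≤ N) :
    ∏ r ∈ t, Ideal.span (Set.range (a r)) ^ k r ≤
      monHB N a (∑ r ∈ t, Finsupp.single r (k r)) := by
  classical
  induction t using Finset.induction_on with
  | empty =>
    rw [Finset.sum_empty]
    exact le_top.trans (monHB_zero a)
  | insert r t hr ih =>
    rw [Finset.prod_insert hr, Finset.sum_insert hr]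
    exact (Ideal.mul_mono (monHB_pow a (ht r (Finset.mem_insert_self _ _)) _)
      (ih fun r' hr' => ht r' (Finset.mem_insert_of_mem hr'))).trans (monHB_mul a _ _)

/-- The integer exponent of a monomial. -/
def tzHB (m : ℕ →₀ ℕ) : ℕ → ℤ := fun r => m r

theorem tzHB_add (m : ℕ →₀ ℕ) (r : ℕ) : tzHB (m + Finsupp.single r 1) = tzHB m + ev r := by
  funext k
  by_cases h : r = k
  · subst h
    simp [tzHB, ev]
  · simp [tzHB, ev, Finsupp.single_apply, h, Pi.single_apply, Ne.symm h]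

theorem tzHB_ge (m : ℕ →₀ ℕ) : Ge 0 (tzHB m) := fun r => by simp [tzHB]

end aux

variable {C : Type u} [CommRing C] [IsNoetherianRing C] {N : ℕ} {𝔞 : ℕ → Ideal C}

theorem hilbert_multi (L : (ℕ → ℤ) → Ideal C)
    (h0 : ∀ n n', (∀ r ≤ N, n r = n' r) → L n = L n') (h1 : ∀ n, Ge 0 n → L n ≤ EE N 𝔞 n)
    (h2 : ∀ r ≤ N, ∀ n, Ge 0 n → 𝔞 r * L n ≤ L (n + ev r)) :
    ∃ n1 : ℕ, ∀ r ≤ N, ∀ n, Ge 0 n → (n1 : ℤ) ≤ n r → L (n + ev r) ≤ 𝔞 r * L n := by
  classical
  obtain ⟨s, hs, -⟩ := exists_genBy N 𝔞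
  have hs' : ∀ r, ∃ a : Fin s → C, r ≤ N → Ideal.span (Set.range a) = 𝔞 r := fun r => by
    by_cases hr : r ≤ N
    · obtain ⟨a, ha⟩ := hs r hr
      exact ⟨a, fun _ => ha⟩
    · exact ⟨0, fun h => absurd h hr⟩
  choose a ha using hs'
  have ham : ∀ r ≤ N, ∀ i, a r i ∈ 𝔞 r := fun r hr i => ha r hr ▸ Ideal.subset_span ⟨i, rfl⟩
  have hF : ∀ r ≤ N, ∀ i m, ∀ x ∈ L (tzHB m), a r i * x ∈ L (tzHB (m + Finsupp.single r 1)) := by
    intro r hr i m x hx
    rw [tzHB_add]
    exact h2 r hr _ (tzHB_ge m) (Ideal.mul_mem_mul (ham r hr i) hx)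
  obtain ⟨G, hG⟩ := IsNoetherian.noetherian (idlHB a (fun m => L (tzHB m)) hF)
  refine ⟨G.sup fun f => (phiHB N a f).totalDegree, fun r hr n hn hD x hx => ?_⟩
  set D := G.sup fun f => (phiHB N a f).totalDegree with hDdef
  let F' : (ℕ →₀ ℕ) → Ideal C := fun m =>
    if D < m r then 𝔞 r * L (tzHB (m - Finsupp.single r 1)) else L (tzHB m)
  have hle : ∀ m, F' m ≤ L (tzHB m) := by
    intro m
    simp only [F']
    split_ifs with h
    · have h3 : Finsupp.single r 1 ≤ m := Finsupp.single_le_iff.2 (by omega)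
      have h4 := h2 r hr _ (tzHB_ge (m - Finsupp.single r 1))
      rwa [← tzHB_add, tsub_add_cancel_of_le h3] at h4
    · exact le_rfl
  have hF' : ∀ r' ≤ N, ∀ i m, ∀ x ∈ F' m, a r' i * x ∈ F' (m + Finsupp.single r' 1) := by
    intro r' hr' i m y hy
    have hyL := hle m hy
    simp only [F'] at hy ⊢
    split_ifs with h
    · by_cases hrr : r' = r
      · subst hrr
        rw [add_tsub_cancel_right]
        exact Ideal.mul_mem_mul (ham r' hr' i) hyL
      · have h3 : (m + Finsupp.single r' 1 : ℕ →₀ ℕ) r = m r := by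
          simp [Finsupp.single_apply, hrr]
        rw [h3] at h
        rw [if_pos h] at hy
        have h4 : Finsupp.single r 1 ≤ m := Finsupp.single_le_iff.2 (by omega)
        rw [← tsub_add_eq_add_tsub h4, tzHB_add]
        have h5 := Ideal.mul_mem_mul (ham r' hr' i) hy
        rw [mul_left_comm] at h5
        exact Ideal.mul_mono_right (h2 r' hr' _ (tzHB_ge _)) h5
    · exact hF r' hr' i m y hyL
  have hsub : idlHB a (fun m => L (tzHB m)) hF ≤ idlHB a F' hF' := by
    rw [← hG, Submodule.span_le]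
    intro f hf m
    simp only [F']
    split_ifs with h
    · have h3 : (phiHB N a f).totalDegree ≤ D :=
        Finset.le_sup (f := fun f => (phiHB N a f).totalDegree) hf
      have h4 : MvPolynomial.coeff m (phiHB N a f) = 0 := by
        by_contra hne
        have h5 := MvPolynomial.monomial_le_degreeOf r (MvPolynomial.mem_support_iff.2 hne)
        have h6 := MvPolynomial.degreeOf_le_totalDegree (phiHB N a f) r
        omega
      rw [h4]
      exact Ideal.zero_mem _
    · have h3 : f ∈ idlHB a (fun m => L (tzHB m)) hF := hG ▸ Submodule.subset_span hf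
      exact h3 m
  let m0 : ℕ →₀ ℕ := ∑ k ∈ Finset.range (N + 1), Finsupp.single k (n k).toNat
  have hm0 : ∀ k ≤ N, m0 k = (n k).toNat := by
    intro k hk
    simp only [m0, Finsupp.finset_sum_apply, Finsupp.single_apply]
    rw [Finset.sum_ite_eq' (Finset.range (N + 1)) k, if_pos (Finset.mem_range.2 (by omega))]
  have hm0' : ∀ k ≤ N, n k = tzHB m0 k := by
    intro k hk
    have := hn k
    simp only [tzHB, hm0 k hk]
    omega
  have hL0 : L n = L (tzHB m0) := h0 _ _ hm0'
  have hL1 : L (n + ev r) = L (tzHB (m0 + Finsupp.single r 1)) := by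
    rw [tzHB_add]
    exact h0 _ _ fun k hk => by simp only [Pi.add_apply, hm0' k hk]
  have hxE := h1 _ (tzHB_ge _) (hL1 ▸ hx)
  have hxm : x ∈ monHB N a (m0 + Finsupp.single r 1) := by
    have h3 := monHB_prod (N := N) a (fun k => (m0 + Finsupp.single r 1 : ℕ →₀ ℕ) k)
      (Finset.range (N + 1)) fun k hk => Nat.lt_succ_iff.1 (Finset.mem_range.1 hk)
    have h4 : ∑ k ∈ Finset.range (N + 1), Finsupp.single k ((m0 + Finsupp.single r 1 : ℕ →₀ ℕ) k)
        = m0 + Finsupp.single r 1 := by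
      ext k
      simp only [Finsupp.finset_sum_apply, Finsupp.single_apply]
      rw [Finset.sum_ite_eq' (Finset.range (N + 1)) k]
      split_ifs with hk
      · rfl
      · have hk' : ¬ k < N + 1 := fun h => hk (Finset.mem_range.2 h)
        have h5 : m0 k = 0 := by
          simp only [m0, Finsupp.finset_sum_apply, Finsupp.single_apply]
          rw [Finset.sum_ite_eq' (Finset.range (N + 1)) k, if_neg hk]
        have h6 : r ≠ k := by omega
        simp [h5, Finsupp.single_apply, h6]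
    rw [h4] at h3
    refine h3 ?_
    have h5 : EE N 𝔞 (tzHB (m0 + Finsupp.single r 1)) = ∏ k ∈ Finset.range (N + 1),
        Ideal.span (Set.range (a k)) ^ (m0 + Finsupp.single r 1 : ℕ →₀ ℕ) k := by
      refine Finset.prod_congr rfl fun k hk => ?_
      rw [ha k (Nat.lt_succ_iff.1 (Finset.mem_range.1 hk)), tzHB, Int.toNat_natCast]
    exact h5 ▸ hxE
  obtain ⟨f, hf⟩ := hxm
  have hfI : f ∈ idlHB a (fun m => L (tzHB m)) hF := by
    intro m
    rw [hf, MvPolynomial.coeff_monomial]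
    split_ifs with h
    · rw [← h]
      exact hL1.le hx
    · exact Ideal.zero_mem _
  have h7 := hsub hfI (m0 + Finsupp.single r 1)
  rw [hf, MvPolynomial.coeff_monomial, if_pos rfl] at h7
  have h8 : D < (m0 + Finsupp.single r 1 : ℕ →₀ ℕ) r := by
    have := hm0 r hr
    simp only [Finsupp.add_apply, Finsupp.single_eq_same]
    omega
  simp only [F'] at h7
  rw [if_pos h8, add_tsub_cancel_right] at h7
  rwa [hL0]

end Vale.Agent.P177
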