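import Vale.Agent.P177.Cpl

/-! Approximate splittings of separable polynomials lift. -/

namespace Vale.Agent.P177

open Vale.Agent.P202 Polynomial

universe u

variable {B : Type u} [CommRing B]

theorem isUnit_one_add_hens {π : B} (hc : IsAdicComplete (Ideal.span {π}) B) (b : B) :
    IsUnit (1 + π * b) := by
  have h := IsAdicComplete.le_jacobson_bot (Ideal.span {π}) (Ideal.mem_span_singleton_self π)
  rw [add_comm]
  exact Ideal.mem_jacobson_bot.1 h b

theorem dvd_pow_hens {π : B} (hc : IsAdicComplete (Ideal.span {π}) B) {x y z : B} {m : ℕ}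
    (h : x ∣ π ^ m) (e : y = x + π ^ (m + 1) * z) : y ∣ π ^ m := by
  obtain ⟨δ, hδ⟩ := h
  refine (isUnit_one_add_hens hc (z * δ)).dvd_mul_right.1 ⟨δ, ?_⟩
  rw [e, add_mul, ← hδ]
  ring

theorem newton_step_hens {π : B} (hc : IsAdicComplete (Ideal.span {π}) B) (F : B[X]) (m a : ℕ)
    (ζ : B) : ∃ y, π ^ (2 * m + 1 + a) ∣ F.eval ζ → (derivative F).eval ζ ∣ π ^ m →
      π ^ (2 * m + 1 + (a + 1)) ∣ F.eval (ζ + π ^ (m + 1 + a) * y) ∧
        (derivative F).eval (ζ + π ^ (m + 1 + a) * y) ∣ π ^ m := by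
  by_cases h : π ^ (2 * m + 1 + a) ∣ F.eval ζ ∧ (derivative F).eval ζ ∣ π ^ m
  swap
  · exact ⟨0, fun h0 h1 => absurd ⟨h0, h1⟩ h⟩
  obtain ⟨⟨c, h0⟩, δ, h1⟩ := h
  refine ⟨-(c * δ), fun _ h2 => ⟨?_, ?_⟩⟩
  · obtain ⟨k, hk⟩ := F.binomExpansion ζ (π ^ (m + 1 + a) * -(c * δ))
    refine ⟨k * π ^ a * (c * δ) ^ 2, ?_⟩
    rw [hk, h0]
    linear_combination (π ^ (m + 1 + a) * c) * h1
  · obtain ⟨k, hk⟩ := sub_dvd_eval_sub (ζ + π ^ (m + 1 + a) * -(c * δ)) ζ (derivative F)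
    refine dvd_pow_hens hc h2 (z := π ^ a * -(c * δ) * k) ?_
    linear_combination hk

/-- Newton iteration. -/
theorem exists_root_newton {π : B} (hπ : π ∈ nonZeroDivisors B)
    (hc : IsAdicComplete (Ideal.span {π}) B) (F : B[X]) {ζ : B} {m γ : ℕ} (hγ : 2 * m + 1 ≤ γ)
    (h0 : F.eval ζ ∈ Ideal.span {π ^ γ}) (h1 : (derivative F).eval ζ ∣ π ^ m) :
    ∃ r, F.eval r = 0 ∧ r - ζ ∈ Ideal.span {π ^ (γ - m)} := by
  have _ := hπ
  obtain ⟨a, rfl⟩ := Nat.exists_eq_add_of_le hγ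
  choose y hy using newton_step_hens hc F m
  let z : ℕ → B := fun n => Nat.rec ζ (fun n w => w + π ^ (m + 1 + (a + n)) * y (a + n) w) n
  have hz : ∀ n, π ^ (2 * m + 1 + (a + n)) ∣ F.eval (z n) ∧
      (derivative F).eval (z n) ∣ π ^ m := fun n => by
    induction n with
    | zero => exact ⟨Ideal.mem_span_singleton.1 h0, h1⟩
    | succ n ih => exact hy _ _ ih.1 ih.2
  have hs : ∀ n, z n = ζ + π ^ (m + 1 + a) *
      ∑ i ∈ Finset.range n, π ^ i * y (a + i) (z i) := fun n => by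
    induction n with
    | zero => simp [z]
    | succ n ih =>
      rw [Finset.sum_range_succ, mul_add, ← add_assoc, ← ih]
      change z n + π ^ (m + 1 + (a + n)) * y (a + n) (z n) = _
      ring
  obtain ⟨s, h⟩ := exists_sum_of_complete hc (fun i => π ^ i * y (a + i) (z i)) fun n => by
    rw [Ideal.span_singleton_pow]
    exact Ideal.mem_span_singleton.2 (dvd_mul_right _ _)
  refine ⟨ζ + π ^ (m + 1 + a) * s, eq_zero_of_complete hc fun n => ?_, ?_⟩
  · have h2 := h n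
    rw [Ideal.span_singleton_pow, Ideal.mem_span_singleton] at h2 ⊢
    have h3 : π ^ n ∣ ζ + π ^ (m + 1 + a) * s - z n := by
      rw [hs n, add_sub_add_left_eq_sub, ← mul_sub]
      exact h2.mul_left _
    have h4 := (h3.trans (sub_dvd_eval_sub _ _ F)).add
      ((pow_dvd_pow π (by omega : n ≤ 2 * m + 1 + (a + n))).trans (hz n).1)
    rwa [sub_add_cancel] at h4
  · rw [add_sub_cancel_left, show 2 * m + 1 + a - m = m + 1 + a by omega]
    exact Ideal.mem_span_singleton.2 (dvd_mul_right _ _)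

theorem prod_dvd_hens {ι : Type} [DecidableEq ι] (F : B[X]) (r : ι → B) (s : Finset ι)
    (h0 : ∀ i, F.eval (r i) = 0) (h1 : ∀ i j, i ≠ j → r i - r j ∈ nonZeroDivisors B) :
    ∏ i ∈ s, (X - C (r i)) ∣ F := by
  induction s using Finset.induction_on with
  | empty => simp
  | insert a s ha ih =>
    obtain ⟨Q, hQ⟩ := ih
    have h2 := h0 a
    rw [hQ, eval_mul, eval_prod] at h2
    have h3 : ∏ j ∈ s, eval (r a) (X - C (r j)) ∈ nonZeroDivisors B :=
      prod_mem fun j hj => by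
        rw [eval_sub, eval_X, eval_C]
        exact h1 a j fun e => ha (e ▸ hj)
    rw [Finset.prod_insert ha, hQ, mul_comm]
    exact mul_dvd_mul_left _ (dvd_iff_isRoot.2 ((mul_left_mem_nonZeroDivisors_eq_zero_iff h3).1 h2))

theorem exists_split {π : B} (hπ : π ∈ nonZeroDivisors B)
    (hc : IsAdicComplete (Ideal.span {π}) B) {F : B[X]} (hF : F.Monic) {N : ℕ}
    (hN : F.natDegree = N) (ζ : Fin N → B) {m γ : ℕ} (hγ : 2 * m + 1 ≤ γ)
    (hs : ∀ n, (F - ∏ i, (X - C (ζ i))).coeff n ∈ Ideal.span {π ^ γ}) {Γ : B}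
    (hΓ : C Γ ∈ Ideal.span {F, derivative F}) (hd : Γ ∣ π ^ m) :
    ∃ r : Fin N → B, F = ∏ i, (X - C (r i)) := by
  obtain ⟨a, rfl⟩ := Nat.exists_eq_add_of_le hγ
  obtain ⟨H, hH⟩ := (C_dvd_iff_dvd_coeff _ _).2 fun n => Ideal.mem_span_singleton.1 (hs n)
  obtain ⟨u, v, huv⟩ := Ideal.mem_span_pair.1 hΓ
  set G := ∏ i, (X - C (ζ i)) with hG
  have hF' : F = G + C (π ^ (2 * m + 1 + a)) * H := by rw [← hH]; ring
  have h0 : ∀ i, F.eval (ζ i) = π ^ (2 * m + 1 + a) * H.eval (ζ i) := fun i => by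
    rw [hF', eval_add, eval_mul, eval_C, hG, eval_prod,
      Finset.prod_eq_zero (Finset.mem_univ i) (by simp), zero_add]
  have h1 : ∀ i, (derivative F).eval (ζ i) ∣ π ^ m := fun i => by
    have e := congrArg (eval (ζ i)) huv
    rw [eval_add, eval_mul, eval_mul, eval_C, h0] at e
    refine (dvd_mul_left _ (v.eval (ζ i))).trans
      (dvd_pow_hens hc hd (z := -(u.eval (ζ i) * π ^ (m + a) * H.eval (ζ i))) ?_)
    linear_combination e
  choose r hr hr' using fun i => exists_root_newton hπ hc F hγ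
    (Ideal.mem_span_singleton.2 ⟨_, h0 i⟩) (h1 i)
  have h2 : ∀ i j, i ≠ j → r i - r j ∈ nonZeroDivisors B := fun i j hij => by
    obtain ⟨Q, hQ⟩ : (X - C (ζ i)) * (X - C (ζ j)) ∣ G := by
      rw [← Finset.prod_pair (f := fun i => X - C (ζ i)) hij]
      exact Finset.prod_dvd_prod_of_subset _ _ _ (Finset.subset_univ _)
    have h3 : ζ i - ζ j ∣ π ^ m := by
      refine (dvd_mul_right _ (Q.eval (ζ i))).trans
        (dvd_pow_hens hc (h1 i) (z := -(π ^ (m + a) * (derivative H).eval (ζ i))) ?_)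
      rw [hF', hQ]
      simp only [derivative_add, derivative_mul, derivative_sub, derivative_X, derivative_C,
        eval_add, eval_mul, eval_sub, eval_X, eval_C, eval_one, eval_zero]
      ring
    obtain ⟨x, hx⟩ := Ideal.mem_span_singleton.1 (hr' i)
    obtain ⟨y, hy⟩ := Ideal.mem_span_singleton.1 (hr' j)
    rw [show 2 * m + 1 + a - m = m + 1 + a by omega] at hx hy
    obtain ⟨e, he⟩ := dvd_pow_hens hc h3 (y := r i - r j) (z := π ^ a * (x - y))
      (by linear_combination hx - hy)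
    exact (mul_mem_nonZeroDivisors.1 (he ▸ pow_mem hπ m)).1
  refine ⟨r, ?_⟩
  rcases subsingleton_or_nontrivial B with hB | hB
  · exact Subsingleton.elim _ _
  refine eq_of_monic_of_dvd_of_natDegree_le (monic_prod_X_sub_C _ _) hF
    (prod_dvd_hens F r _ hr h2) ?_
  rw [natDegree_finsetProd_X_sub_C_eq_card, hN, Finset.card_univ, Fintype.card_fin]

end Vale.Agent.P177
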