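import Vale.Agent.P177.Defs
import Vale.Agent.P202.MUnt

/-! More definitions. See notes P177. -/

namespace Vale.Agent.P177

open IsLocalRing Vale.Agent.P202
open scoped ENNReal

universe u

noncomputable section

/-- Flatness modulo an ideal. -/
def FlatM {A U : Type u} [CommRing A] [CommRing U] (f : A →+* U) (I : Ideal A) : Prop :=
  (Ideal.quotientMap (I.map f) f Ideal.le_comap_map).Flat

/-- A presentation of a regular local ring as a hypersurface. -/
structure Pres (p : ℕ) {W R : Type u} [CommRing W] [CommRing R] {d : ℕ} (π : PS (Fin d) W →+* R)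
    (g : PS (Fin d) W) : Prop where
  surj : Function.Surjective π
  ker : RingHom.ker π = Ideal.span {(p : PS (Fin d) W) - g}
  hg : g ∈ Ideal.span (insert (p : PS (Fin d) W) (Set.range MvPowerSeries.X)) ^ 2 ∨
    ∃ j, g = MvPowerSeries.X j

/-- The data `T` that make `B` a quotient of a flat `R`-algebra by a regular sequence. -/
structure Lft (p d : ℕ) {R AA B T : Type u} [CommRing R] [IsLocalRing R] [CommRing AA]
    [CommRing B] [CommRing T] [Algebra R T] (I : Ideal AA) (β : AA →+* B) (φ : R →+* B)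
    (c : AA →+* T) (ev : T →+* B) (y : List T) : Prop where
  flat : Module.Flat R T
  surj : Function.Surjective ev
  len : y.length = d
  res : ∃ aug : (((GC.one T).kos y).ι → T) →ₗ[T] T ⧸ RingHom.ker ev, ((GC.one T).kos y).IsRes aug
  ker : RingHom.ker ev = Ideal.span {v | v ∈ y}
  evR : ∀ r, ev (algebraMap R T r) = φ r
  evc : ∀ a, ev (c a) = β a
  fib1 : ∀ z, ∃ a, z - c a ∈ mS R T
  fib2 : ∀ a, c a ∈ mS R T ↔ a ∈ Ideal.span {(p : AA)}
  rad : ∀ x ∈ y, ∃ n : ℕ, x ^ n ∈ mS R T ⊔ I.map c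

section perfectoid

variable (p : ℕ) [Fact p.Prime] {P : Type u} [CommRing P] [CharP P p] [PerfectRing P p]

/-- Almost divisibility by `t` implies divisibility. -/
def Sat (t : P) : Prop :=
  ∀ x : P, (∀ j, rt p P j t * x ∈ Ideal.span {t}) → x ∈ Ideal.span {t}

/-- The `p ^ k`-th root of `p`. -/
def vp (t : P) (k : ℕ) : Unt p t := shp p t (rt p P k t)

/-- The ideal generated by the sharps of the roots of a family. -/
def SI (t : P) {ι : Type} (w : ι → P) (e : ℕ) : Ideal (Unt p t) :=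
  Ideal.span (Set.range fun i => shp p t (rt p P e (w i)))

/-- The real filtration in characteristic `p`. -/
abbrev FlP {ι : Type} (w : ι → P) (ρ : ℝ) : Ideal P := Fl p (fun e j => rt p P e (w j)) ρ

/-- The real filtration of the untilt. -/
abbrev FlU (t : P) {ι : Type} (w : ι → P) (ρ : ℝ) : Ideal (Unt p t) :=
  Fl p (fun e j => shp p t (rt p P e (w j))) ρ

/-- The map `f` is an isomorphism modulo `t ^ a` up to `κ`. -/
structure AIso {P P' : Type u} [CommRing P] [CommRing P'] (f : P →+* P') (t κ : P) : Prop where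
  r1 : ∀ x, ∃ u, f κ * x - f u ∈ Ideal.span {f t}
  r2 : ∀ u, f u ∈ Ideal.span {f t} → κ * u ∈ Ideal.span {t}

/-- The map `f` is an isomorphism modulo `J`. -/
structure MIso {P P' : Type u} [CommRing P] [CommRing P'] (f : P →+* P') (J : Ideal P) : Prop where
  n1 : ∀ y, ∃ x, y - f x ∈ J.map f
  n2 : ∀ x, f x ∈ J.map f → x ∈ J

end perfectoid

/-- The tower `P → P1 → P2 → P3` of perfect rings over `l[[t, X]]`. -/
structure Tw (p : ℕ) [Fact p.Prime] {l : Type u} [Field l] {σ : Type} {P P1 P2 P3 : Type u}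
    [CommRing P] [CharP P p] [PerfectRing P p] [CommRing P1] [CommRing P2] [CharP P2 p]
    [PerfectRing P2 p] [CommRing P3] (ι : PS (Option σ) l →+* P) (g : P) (k : ℕ)
    (f1 : P →+* P1) (f2 : P1 →+* P2) (f3 : P2 →+* P3) : Prop where
  flat : (f1.comp ι).Flat
  iso : MIso f1 (Ideal.span (Set.range fun o => ι (MvPowerSeries.X o)))
  reg2 : f2 (f1 (ι (MvPowerSeries.X none))) ∈ nonZeroDivisors P2
  sat : Sat p (f2 (f1 (ι (MvPowerSeries.X none))))
  div : f2 (f1 g) ∣ f2 (f1 (ι (MvPowerSeries.X none))) ^ (2 * p ^ k)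
  reg3 : f3 (f2 (f1 (ι (MvPowerSeries.X none)))) ∈ nonZeroDivisors P3
  cpl : IsAdicComplete (Ideal.span (Set.range fun o => f3 (f2 (f1 (ι (MvPowerSeries.X o)))))) P3
  aiso : AIso (f3.comp f2) (f1 (ι (MvPowerSeries.X none)))
    (f1 (rt p P k (g * ι (MvPowerSeries.X none))) ^ 2)

end

end Vale.Agent.P177
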