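import Vale.Agent.P177.KR
import Vale.Agent.P177.PDefs
import Vale.Agent.P202.MFl

/-! Koszul strands of the real filtration of a perfect ring. -/

namespace Vale.Agent.P177

open Vale.Agent.P202

universe u

variable {p : ℕ} [Fact p.Prime] {P : Type u} [CommRing P] [CharP P p] [PerfectRing P p] {s : ℕ}

theorem kd_map_kfl {R S : Type u} [CommRing R] [CommRing S] (f : R →+* S) (y : Fin s → R)
    (ξ : Finset (Fin s) → R) (A : Finset (Fin s)) :
    f (kd y R ξ A) = kd (fun i => f (y i)) S (fun B => f (ξ B)) A := by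
  simp only [kd_apply, map_sum, smul_eq_mul, map_mul, map_intCast]

theorem exists_fin_kfl {R : Type u} [CommRing R] {w : Fin s → R} {r : ℕ} {x : R}
    (hx : x ∈ Ideal.span (Set.range w) ^ r) : ∃ T : Set R, T.Finite ∧ ∀ R0 : Subring R, T ⊆ R0 →
      ∀ w0 : Fin s → R0, (∀ i, (w0 i : R) = w i) →
        ∃ x0 ∈ Ideal.span (Set.range w0) ^ r, (x0 : R) = x := by
  obtain ⟨S, c, e, hS⟩ := decomp_mfl hx
  refine ⟨c '' S, S.finite_toSet.image c, fun R0 hT w0 hw => ?_⟩
  refine ⟨∑ d ∈ S.attach, (⟨c d, hT ⟨d, d.2, rfl⟩⟩ : R0) * ∏ i ∈ d.1.support, w0 i ^ d.1 i,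
    Submodule.sum_mem _ fun d _ => Ideal.mul_mem_left _ _ ?_, ?_⟩
  · rw [← hS d d.2]
    exact prod_mem_mfl w0 _ _
  · rw [e, ← Finset.sum_attach S]
    push_cast
    simp only [hw]

theorem kex_FlP (u : Fin s → P) {m : ℕ} (hm : 1 ≤ m) {D : ℝ} (hD : (s : ℝ) * m < D) :
    KEx 1 (fun i => u i ^ m) fun j => FlP p u (D - j * m) := by
  intro n ξ hξ h0
  have hp : (0 : ℝ) < p := ppos_mfl p
  choose e0 he0 using fun A => mem_Fl (hv_mfl u) (apply_mem_of_mem_kos hξ A)
  set e := Finset.univ.sup e0 with he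
  set r := ⌈(D - n * m) * (p : ℝ) ^ e⌉₊ with hr
  have hr1 : (D - n * m) * (p : ℝ) ^ e ≤ r := Nat.le_ceil _
  have h1 : ∀ A, ξ A ∈ Ideal.span (Set.range fun j => rt p P e (u j)) ^ r := fun A => by
    obtain ⟨r', h2, h3⟩ := he0 A e (Finset.le_sup (f := e0) (Finset.mem_univ A))
    exact Ideal.pow_le_pow_right (Nat.ceil_le.2 h2) h3
  choose T hT hT' using fun A => exists_fin_kfl (h1 A)
  let R0 : Subring P := Subring.closure ((Set.range fun j => rt p P e (u j)) ∪ ⋃ A, T A)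
  have : IsNoetherianRing R0 :=
    is_noetherian_subring_closure _ ((Set.finite_range _).union (Set.finite_iUnion hT))
  let w0 : Fin s → R0 := fun j => ⟨rt p P e (u j), Subring.subset_closure (Or.inl ⟨j, rfl⟩)⟩
  choose ξ0 hξ0 eξ using fun A => hT' A R0
    (fun x hx => Subring.subset_closure (Or.inr (Set.mem_iUnion.2 ⟨A, hx⟩))) w0 fun _ => rfl
  obtain ⟨k, hk⟩ := kex_rees w0
  let g : R0 →+* P := (rt p P k).toRingHom.comp R0.subtype
  have hg : Function.Injective g := (rt p P k).injective.comp Subtype.val_injective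
  have gw : ∀ j, g (w0 j) = rt p P (e + k) (u j) := fun j => rt_rt_mfl k e (u j)
  have gξ : ∀ A, g (ξ0 A ^ p ^ k) = ξ A := fun A => by
    rw [← eξ A]
    exact rt_pow_mfl k _
  have gN : ∀ j, g (w0 j ^ (p ^ (e + k) * m)) = u j ^ m := fun j => by
    rw [map_pow, gw, pow_mul, ← map_pow, rt_pow_mfl]
  have hpp : 0 < p := (Fact.out : p.Prime).pos
  have hs : s * (m * p ^ e) + 1 ≤ r + n * (m * p ^ e) := by
    have h2 : ((s * (m * p ^ e) : ℕ) : ℝ) < ((r + n * (m * p ^ e) : ℕ) : ℝ) := by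
      push_cast
      have h3 := mul_lt_mul_of_pos_right hD (pow_pos hp e)
      nlinarith
    exact_mod_cast h2
  have hkp : k ≤ p ^ k := (Nat.lt_pow_self (Fact.out : p.Prime).one_lt).le
  obtain ⟨η, hη, e1⟩ := hk (p ^ (e + k) * m) (r * p ^ k + n * (p ^ (e + k) * m))
    (Nat.mul_pos (pow_pos hpp _) hm) (by
      have h2 := Nat.mul_le_mul_right (p ^ k) hs
      rw [pow_add]
      nlinarith) n (fun A => ξ0 A ^ p ^ k) (mem_kos.2 ⟨fun A _ => by
      simp only [Nat.add_sub_cancel]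
      rw [pow_mul]
      exact Ideal.pow_mem_pow (hξ0 A) _, fun A hA => hg (by
      rw [gξ, map_zero, (mem_kos.1 hξ).2 A hA])⟩) (funext fun A => hg (by
      rw [kd_map_kfl]
      simp only [gN, gξ]
      rw [show (fun B => ξ B) = ξ from rfl, h0, Pi.zero_apply, Pi.zero_apply, map_zero]))
  refine ⟨fun A => g (η A), mem_kos.2 ⟨fun A hA => ?_, fun A hA => ?_⟩, funext fun A => ?_⟩
  · have h2 := Ideal.mem_map_of_mem g ((mem_kos.1 hη).1 A hA)
    rw [Ideal.map_pow, Ideal.map_span, ← Set.range_comp] at h2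
    simp only [Function.comp_def, gw] at h2
    refine pow_le_Fl (fun e j => rt p P e (u j)) ?_ h2
    have h3 : ((r * p ^ k + n * (p ^ (e + k) * m) : ℕ) : ℝ) - ((n + 1) * (p ^ (e + k) * m) : ℕ) ≤
        ((r * p ^ k + n * (p ^ (e + k) * m) - (n + 1) * (p ^ (e + k) * m) : ℕ) : ℝ) := by
      rw [sub_le_iff_le_add]
      exact_mod_cast le_tsub_add
    refine le_trans ?_ h3
    have h4 := mul_le_mul_of_nonneg_right hr1 (pow_pos hp k).le
    push_cast
    rw [pow_add]
    nlinarith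
  · rw [(mem_kos.1 hη).2 A hA, map_zero]
  · have h2 := kd_map_kfl g (fun j => w0 j ^ (p ^ (e + k) * m)) η A
    simp only [gN] at h2
    rw [← h2, e1, one_smul, one_smul, gξ]

end Vale.Agent.P177
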