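import Vale.Agent.P177.Grow
import Vale.Agent.P177.E1

/-! Koszul homology over a flat algebra with an almost regular sequence on the closed fibre. -/

namespace Vale.Agent.P177

open Vale.Agent.P202 IsLocalRing TensorProduct
open scoped ENNReal

universe u

variable {R T : Type u} [CommRing R] [IsLocalRing R] [IsNoetherianRing R] [CommRing T]
  [Algebra R T] [Module.Flat R T] {μ : RLen T} {w : List T}

theorem ses_kp1 {B : Type u} [CommRing B] (μ : RLen B) {K : GC B} (hK : K.Sq0) {N M P : Type u}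
    [AddCommGroup N] [Module B N] [AddCommGroup M] [Module B M] [AddCommGroup P] [Module B P]
    (f : N →ₗ[B] M) (g : M →ₗ[B] P) (hf : Function.Injective f) (hg : Function.Surjective g)
    (h : Function.Exact f g) (n : ℤ) (h1 : hG μ K (⊥ : Submodule B P) ⊤ (n + 1) = 0)
    (h2 : hG μ K (⊥ : Submodule B N) ⊤ (n - 1) = 0) : hG μ K (⊥ : Submodule B M) ⊤ n =
      hG μ K (⊥ : Submodule B N) ⊤ n + hG μ K (⊥ : Submodule B P) ⊤ n := by
  obtain ⟨δ, a, b, c⟩ := (hK.tri (bot_le : ⊥ ≤ LinearMap.range f) le_top).les μ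
  have e1 : ∀ k, hG μ K (⊥ : Submodule B N) ⊤ k = hG μ K ⊥ (LinearMap.range f) k := fun k =>
    hG_transfer μ K f (by simp) (by simp [LinearMap.ker_eq_bot.2 hf]) k
  have e2 : ∀ k, hG μ K (LinearMap.range f) ⊤ k = hG μ K (⊥ : Submodule B P) ⊤ k := fun k =>
    hG_transfer μ K g (by simp [LinearMap.range_eq_top.2 hg]) (by simp [h.linearMap_ker_eq]) k
  rw [← e2, hG, c, add_eq_zero] at h1
  rw [e1, hG, a, sub_add_cancel, add_eq_zero] at h2
  rw [e1, ← e2, hG, hG, hG, a, b, c, h1.2, h2.1, zero_add, add_zero]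

omit [IsNoetherianRing R] [Module.Flat R T] in
theorem base_kp1 (h0 : hG μ ((GC.one T).kos w) (mS R T) ⊤ 0 = 1)
    (h1 : ∀ i : ℤ, 1 ≤ i → hG μ ((GC.one T).kos w) (mS R T) ⊤ i = 0) (m : ℕ) (i : ℤ) :
    hG μ ((GC.one T).kos (w.map (· ^ m))) (mS R T) ⊤ i =
      if i = 0 then ((m ^ w.length : ℕ) : ℝ≥0∞) else 0 := by
  have h2 : ∀ i : ℤ, i ≠ 0 → hG μ ((GC.one T).kos w) (mS R T) ⊤ i = 0 := fun i hi => by
    rcases lt_or_gt_of_ne hi with h | h
    · exact (GC.top_kos w).hr_eq_zero μ _ _ (Or.inl h)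
    · exact h1 i h
  have h3 := GC.hG_kos_pow_le μ (GC.sq0_disc fun _ : Unit => 0) (le_top : mS R T ≤ ⊤) w m
  have h4 : ∀ i : ℤ, i ≠ 0 → hG μ ((GC.one T).kos (w.map (· ^ m))) (mS R T) ⊤ i = 0 :=
    fun i hi => le_antisymm ((h3 i).trans_eq (by rw [h2 i hi, mul_zero])) zero_le
  split_ifs with hi
  · subst hi
    have hg : GoodG μ ((GC.one T).kos w) (mS R T) ⊤ := GC.good_of_ne_top μ fun n => by
      by_cases hn : n = 0
      · subst hn
        exact h0.trans_ne ENNReal.one_ne_top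
      · exact (h2 n hn).trans_ne ENNReal.zero_ne_top
    obtain ⟨g1, g2⟩ := GC.chi_kos_pow μ (GC.sq0_disc fun _ : Unit => 0) (le_top : mS R T ≤ ⊤) w m hg
    rw [chiG, chiG, chiR_eq_single μ 0 h4, chiR_eq_single μ 0 h2, ← hG, ← hG, h0] at g2
    refine (ENNReal.toReal_eq_toReal_iff' (g1.1 0) (ENNReal.natCast_ne_top _)).1 ?_
    simpa using g2
  · exact h4 i hi

omit [IsNoetherianRing R] in
theorem kp_finLen (h0 : hG μ ((GC.one T).kos w) (mS R T) ⊤ 0 = 1)
    (h1 : ∀ i : ℤ, 1 ≤ i → hG μ ((GC.one T).kos w) (mS R T) ⊤ i = 0) (L : Type u) [AddCommGroup L]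
    [Module R L] (hL : Module.length R L ≠ ⊤) (m : ℕ) (i : ℤ) :
    hG μ ((GC.one T).kos (w.map (· ^ m))) (⊥ : Submodule T (T ⊗[R] L)) ⊤ i =
      if i = 0 then ((m ^ w.length : ℕ) : ℝ≥0∞) * ((Module.length R L : ℕ∞) : ℝ≥0∞) else 0 := by
  revert i
  refine finLen_ind (A := R) (fun L _ _ => ∀ i : ℤ,
    hG μ ((GC.one T).kos (w.map (· ^ m))) (⊥ : Submodule T (T ⊗[R] L)) ⊤ i =
      if i = 0 then ((m ^ w.length : ℕ) : ℝ≥0∞) * ((Module.length R L : ℕ∞) : ℝ≥0∞) else 0)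
    ?_ ?_ ?_ L hL
  · intro M _ _ _ i
    rw [Subsingleton.elim (⊥ : Submodule T (T ⊗[R] M)) ⊤, hG_self, Module.length_eq_zero]
    simp
  · intro i
    have : IsSimpleModule R (R ⧸ maximalIdeal R) :=
      isSimpleModule_iff_isCoatom.2 (maximalIdeal.isMaximal R).out
    rw [hG_tensor_quot, base_kp1 h0 h1, Module.length_eq_one]
    simp
  · intro N M Q _ _ _ _ _ _ f g hf hg h hN hQ i
    have hf' : Function.Injective (f.baseChange T) :=
      Module.Flat.lTensor_preserves_injective_linearMap (M := T) f hf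
    have hg' : Function.Surjective (g.baseChange T) := LinearMap.lTensor_surjective T hg
    have h' : Function.Exact (f.baseChange T) (g.baseChange T) := Module.Flat.lTensor_exact T h
    split_ifs with hi
    · subst hi
      rw [ses_kp1 μ (GC.sq0_kos _) _ _ hf' hg' h' 0 ((hQ _).trans (if_neg (by omega)))
        ((hN _).trans (if_neg (by omega))), hN, hQ, if_pos rfl, if_pos rfl,
        Module.length_eq_add_of_exact f g hf hg h, ENat.toENNReal_add, mul_add]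
    · refine le_antisymm ((hG_ses_le μ (GC.sq0_kos _) _ _ hf' hg' h' i).trans_eq ?_) zero_le
      rw [hN, hQ, if_neg hi, if_neg hi, add_zero]

theorem kp_append (h0 : hG μ ((GC.one T).kos w) (mS R T) ⊤ 0 = 1)
    (h1 : ∀ i : ℤ, 1 ≤ i → hG μ ((GC.one T).kos w) (mS R T) ⊤ i = 0) {K : GC R} (hK : K.Sq0)
    (Q : Ideal R) (hg : GoodG (RLen.ofLen R) K Q ⊤) (m : ℕ) :
    (∀ n : ℤ, hG μ ((K.map (algebraMap R T)).kos (w.map (· ^ m))) (Q.map (algebraMap R T)) ⊤ n ≤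
      ((m ^ w.length : ℕ) : ℝ≥0∞) * hG (RLen.ofLen R) K Q ⊤ n) ∧
    chiG μ ((K.map (algebraMap R T)).kos (w.map (· ^ m))) (Q.map (algebraMap R T)) ⊤ =
      (m : ℝ) ^ w.length * chiG (RLen.ofLen R) K Q ⊤ := by
  obtain ⟨L, hL⟩ := K.exists_top
  have hL' : (K.map (algebraMap R T)).Top L := hL
  have hK' := hK.map (algebraMap R T)
  have e0 : ∀ n, hG μ ((K.map (algebraMap R T)).kos (w.map (· ^ m))) (Q.map (algebraMap R T)) ⊤ n =
      hG μ (((GC.one T).kos (w.map (· ^ m))).tens (K.map (algebraMap R T)))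
        (⊥ : Submodule T (T ⊗[R] (R ⧸ Q))) ⊤ n := fun n => by
    rw [hG_tensor_quot, (GC.kos_tens _ _).hG_eq]
  have e1 : ∀ j k : ℤ, hG μ ((GC.one T).kos (w.map (· ^ m)))
      ((K.map (algebraMap R T)).Bd (⊥ : Submodule T (T ⊗[R] (R ⧸ Q))) ⊤ j)
      ((K.map (algebraMap R T)).Zy (⊥ : Submodule T (T ⊗[R] (R ⧸ Q))) ⊤ j) k =
      if k = 0 then ((m ^ w.length : ℕ) : ℝ≥0∞) * hG (RLen.ofLen R) K Q ⊤ j else 0 := by
    intro j k
    obtain ⟨e⟩ := homology_bc (S := T) hK (E := R ⧸ Q) j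
    have e2 : hG (RLen.ofLen R) K Q ⊤ j = ((Module.length R
        (HM (K.Bd (⊥ : Submodule R (R ⧸ Q)) ⊤ j) (K.Zy (⊥ : Submodule R (R ⧸ Q)) ⊤ j)) : ℕ∞) :
          ℝ≥0∞) := hG_quot _ K Q j
    rw [hG_HM μ _ (hK'.Bd_le bot_le j), hG_equiv μ _ e, kp_finLen h0 h1, e2]
    exact ENat.toENNReal_ne_top.1 (e2 ▸ hg.1 j)
  refine ⟨fun n => ?_, ?_⟩
  · rw [e0]
    refine (GC.tens_E1_le μ (GC.sq0_kos _) hK' hL' bot_le n).trans ?_
    simp only [e1]
    have e3 : ∀ j ∈ Finset.range (L + 1), (if n - (j : ℤ) = 0 then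
        ((m ^ w.length : ℕ) : ℝ≥0∞) * hG (RLen.ofLen R) K Q ⊤ j else 0) ≤
        if j = n.toNat then ((m ^ w.length : ℕ) : ℝ≥0∞) * hG (RLen.ofLen R) K Q ⊤ n else 0 := by
      intro j _
      by_cases hj : n - (j : ℤ) = 0
      · rw [if_pos hj, if_pos (by omega), sub_eq_zero.1 hj]
      · rw [if_neg hj]
        exact zero_le
    refine (Finset.sum_le_sum e3).trans ?_
    rw [Finset.sum_ite_eq']
    split_ifs
    · exact le_rfl
    · exact zero_le
  · have e4 := (GC.tens_E1_chi μ (GC.sq0_kos (w.map (· ^ m))) hK' hL'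
      (bot_le : (⊥ : Submodule T (T ⊗[R] (R ⧸ Q))) ≤ ⊤) fun j _ =>
        GC.good_of_ne_top μ fun k => (e1 j k).trans_ne (by
          split_ifs
          · exact ENNReal.mul_ne_top (ENNReal.natCast_ne_top _) (hg.1 j)
          · exact ENNReal.zero_ne_top)).2
    refine ((good_chi_congr μ e0).2.trans e4).trans ?_
    rw [chiG, hL.chi_eq_sum, Finset.mul_sum]
    refine Finset.sum_congr rfl fun j _ => ?_
    rw [chiG, chiR_eq_single μ 0 fun k hk => (e1 j k).trans (if_neg hk), ← hG, e1, if_pos rfl,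
      ENNReal.toReal_mul, ENNReal.toReal_natCast]
    simp only [Int.negOnePow_zero, Units.val_one, Int.cast_one, one_mul, Nat.cast_pow]
    ring

/-- Comparison of two systems of parameters. -/
theorem hG_kos_le_of_nh {B : Type u} [CommRing B] (μ : RLen B) (y u : List B) (J : Ideal B)
    (hu : ∀ x ∈ u, x ∈ Ideal.span {v | v ∈ y} ⊔ J) (n : ℤ) :
    hG μ ((GC.one B).kos y) J ⊤ n ≤ ((2 ^ y.length : ℕ) : ℝ≥0∞) *
      ∑ i ∈ Finset.range (y.length + 1), hG μ ((GC.one B).kos u) J ⊤ (n + u.length - i) := by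
  have h1 := GC.hG_kos_low μ (GC.sq0_kos y) (le_top : J ≤ ⊤) u (fun x hx =>
    sup_le_sup (GC.span_le_nh_kos _ y) (fun v hv => Submodule.mem_colon.2 fun s _ =>
      J.mul_mem_right s hv) (hu x hx)) n
  rw [← GC.kos_append, (GC.kos_perm _ List.perm_append_comm).hG_eq, GC.kos_append,
    ← (GC.kos_tens ((GC.one B).kos u) y).hG_eq] at h1
  refine h1.trans ((GC.hG_tens_le μ (GC.sq0_kos y) (GC.sq0_kos u) (GC.top_kos y) le_top _).trans ?_)
  rw [Finset.mul_sum]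
  exact Finset.sum_le_sum fun i _ => mul_le_mul_left (Nat.cast_le.2 (GC.rk_kos_le y i)) _

theorem pow_mem_kp1 {B : Type u} [CommRing B] (y : List B) (J : Ideal B) (n : ℕ) :
    ∀ a ∈ Ideal.span {v | v ∈ y} ⊔ J,
      a ^ (y.length * n + 1) ∈ Ideal.span {v | v ∈ y.map (· ^ n)} ⊔ J := by
  induction y with
  | nil =>
    intro a ha
    simpa using ha
  | cons v y ih =>
    intro a ha
    have e : {x | x ∈ v :: y} = insert v {x | x ∈ y} := by
      ext x
      simp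
    rw [e, Ideal.span_insert, sup_assoc] at ha
    obtain ⟨b, hb, c, hc, rfl⟩ := Submodule.mem_sup.1 ha
    obtain ⟨r, rfl⟩ := Ideal.mem_span_singleton'.1 hb
    refine Ideal.add_pow_mem_of_pow_mem_of_le _ (m := n) (n := y.length * n + 1) ?_ ?_ ?_
    · rw [mul_pow]
      exact Ideal.mul_mem_left _ _ (Submodule.mem_sup_left (Ideal.subset_span (by simp)))
    · refine sup_le_sup_right (Ideal.span_mono fun x hx => ?_) J (ih c hc)
      exact List.mem_cons_of_mem _ hx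
    · rw [List.length_cons, add_mul]
      omega

theorem exists_pow_mem_pows {B : Type u} [CommRing B] (y u : List B) (J : Ideal B)
    (hu : ∀ x ∈ u, ∃ c : ℕ, x ^ c ∈ Ideal.span {v | v ∈ y} ⊔ J) : ∃ c : ℕ, 1 ≤ c ∧ ∀ n : ℕ,
      1 ≤ n → ∀ x ∈ u.map (· ^ (c * n)), x ∈ Ideal.span {v | v ∈ y.map (· ^ n)} ⊔ J := by
  obtain ⟨c, hc⟩ : ∃ c : ℕ, ∀ x ∈ u, x ^ c ∈ Ideal.span {v | v ∈ y} ⊔ J := by
    induction u with
    | nil => exact ⟨0, fun x hx => absurd hx List.not_mem_nil⟩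
    | cons v u ih =>
      obtain ⟨c, hc⟩ := ih fun x hx => hu x (List.mem_cons_of_mem _ hx)
      obtain ⟨c', hc'⟩ := hu v List.mem_cons_self
      refine ⟨c + c', fun x hx => ?_⟩
      rcases List.mem_cons.1 hx with rfl | hx
      · exact Ideal.pow_mem_of_pow_mem _ hc' (by omega)
      · exact Ideal.pow_mem_of_pow_mem _ (hc x hx) (by omega)
  refine ⟨(c + 1) * (y.length + 1), Nat.mul_pos (by omega) (by omega), fun n hn x hx => ?_⟩
  obtain ⟨v, hv, rfl⟩ := List.mem_map.1 hx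
  rw [mul_assoc, pow_mul]
  refine Ideal.pow_mem_of_pow_mem _ (pow_mem_kp1 y J n _
    (Ideal.pow_mem_of_pow_mem _ (hc v hv) (Nat.le_succ c))) ?_
  rw [add_mul]
  omega

end Vale.Agent.P177
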