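import Vale.Agent.P177.Defs

/-! Exactness of strands of Koszul complexes on Rees algebras. -/

namespace Vale.Agent.P177

open Vale.Agent.P202

universe u

variable {R : Type u} [CommRing R] {s : ℕ}

/-- The strand of degree `D` of the Koszul complex of `y ^ a` on the Rees algebra is exact. -/
def KW (y : Fin s → R) (a : Fin s → ℕ) (D : ℕ) : Prop :=
  ∀ ξ : Finset (Fin s) → R, (∀ A, ξ A ∈ Ideal.span (Set.range y) ^ (D - ∑ i ∈ A, a i)) →
    kd (fun i => y i ^ a i) R ξ = 0 → ∃ η : Finset (Fin s) → R,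
      (∀ A, η A ∈ Ideal.span (Set.range y) ^ (D - ∑ i ∈ A, a i)) ∧ kd (fun i => y i ^ a i) R η = ξ

/-- The filtration by the degree. -/
def krF (I : Ideal R) (s : ℕ) : I.Filtration (Finset (Fin s) → R) where
  N D := Submodule.pi Set.univ fun A => I ^ (D - A.card)
  mono D _ hξ A hA := Ideal.pow_le_pow_right (by omega) (hξ A hA)
  smul_le D := Submodule.smul_le.2 fun r hr ξ hξ A hA => by
    have h1 : r * ξ A ∈ I ^ (D - A.card + 1) := by
      rw [pow_succ']
      exact Ideal.mul_mem_mul hr (hξ A hA)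
    exact Ideal.pow_le_pow_right (by omega) h1

theorem mem_krF {I : Ideal R} {D : ℕ} {ξ : Finset (Fin s) → R} :
    ξ ∈ (krF I s).N D ↔ ∀ A, ξ A ∈ I ^ (D - A.card) :=
  ⟨fun h A => h A trivial, fun h A _ => h A⟩

theorem krF_stable (I : Ideal R) : (krF I s).Stable := by
  refine ⟨s, fun D hD => le_antisymm ((krF I s).smul_le D) fun ξ hξ => ?_⟩
  rw [← Finset.univ_sum_single ξ]
  refine Submodule.sum_mem _ fun A _ => ?_
  have hA : A.card ≤ s := by simpa using Finset.card_le_univ A
  have h1 : ξ A ∈ I • (I ^ (D - A.card) : Ideal R) := by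
    have h2 := mem_krF.1 hξ A
    rwa [show D + 1 - A.card = D - A.card + 1 by omega, pow_succ'] at h2
  refine Submodule.smul_induction_on (p := fun x => Pi.single A x ∈ I • (krF I s).N D) h1 ?_ ?_
  · intro r hr x hx
    rw [Pi.single_smul]
    refine Submodule.smul_mem_smul hr (mem_krF.2 fun B => ?_)
    by_cases hBA : B = A
    · subst hBA; simpa using hx
    · simp [hBA]
  · intro x y hx hy
    rw [Pi.single_add]
    exact Submodule.add_mem _ hx hy

theorem kd_add_kr (y y' : Fin s → R) (ξ : Finset (Fin s) → R) :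
    kd (y + y') R ξ = kd y R ξ + kd y' R ξ := by
  funext A
  simp only [Pi.add_apply, kd_apply, mul_add, add_smul, Finset.sum_add_distrib]

theorem kd_smul_kr (c : R) (y : Fin s → R) (ξ : Finset (Fin s) → R) :
    kd (c • y) R ξ = c • kd y R ξ := by
  funext A
  simp only [Pi.smul_apply, kd_apply, smul_eq_mul, Finset.mul_sum]
  exact Finset.sum_congr rfl fun i _ => by ring

theorem kd_kd_kr (y : Fin s → R) (ξ : Finset (Fin s) → R) : kd y R (kd y R ξ) = 0 :=
  LinearMap.congr_fun (kd_comp_kd y) ξ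

theorem kh_kh_kr (i : Fin s) (ξ : Finset (Fin s) → R) : kh R i R (kh R i R ξ) = 0 := by
  funext A
  rw [kh_apply, kh_apply, if_neg (Finset.notMem_erase i A), smul_zero, ite_self]
  rfl

theorem ke_apply_kr (i : Fin s) (ξ : Finset (Fin s) → R) (A : Finset (Fin s)) :
    kd (Pi.single i (1 : R)) R ξ A =
      if i ∈ A then 0 else ((ksgn A i : ℤ) : R) * ξ (insert i A) := by
  rw [kd_apply]
  split_ifs with hi
  · refine Finset.sum_eq_zero fun j hj => ?_
    have hji : j ≠ i := fun h => Finset.mem_compl.1 hj (h ▸ hi)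
    simp [hji]
  · rw [Finset.sum_eq_single_of_mem i (Finset.mem_compl.2 hi) fun j _ hji => by simp [hji]]
    simp

theorem ke_kh_apply_kr (i : Fin s) (ξ : Finset (Fin s) → R) (A : Finset (Fin s)) :
    kd (Pi.single i (1 : R)) R (kh R i R ξ) A = if i ∈ A then 0 else ξ A := by
  rw [ke_apply_kr]
  split_ifs with hi
  · rfl
  · rw [kh_apply, if_pos (Finset.mem_insert_self i A), ksgn_insert_self, Finset.erase_insert hi,
      smul_eq_mul, ← mul_assoc, ← Int.cast_mul, ksgn_mul_self, Int.cast_one, one_mul]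

theorem kh_ke_apply_kr (i : Fin s) (ξ : Finset (Fin s) → R) (A : Finset (Fin s)) :
    kh R i R (kd (Pi.single i (1 : R)) R ξ) A = if i ∈ A then ξ A else 0 := by
  have h := congrFun (kd_kh (Pi.single i (1 : R)) i ξ) A
  rw [Pi.add_apply, ke_kh_apply_kr, Pi.single_eq_same, one_smul] at h
  split_ifs at h ⊢
  · rwa [zero_add] at h
  · exact add_eq_left.1 h

theorem kd_split_kr (y : Fin s → R) (a : Fin s → ℕ) (i : Fin s) (c : ℕ)
    (ξ : Finset (Fin s) → R) : kd (fun j => y j ^ Function.update a i c j) R ξ =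
      kd (Function.update (fun j => y j ^ a j) i 0) R ξ +
        y i ^ c • kd (Pi.single i (1 : R)) R ξ := by
  rw [← kd_smul_kr, ← kd_add_kr]
  congr 2
  funext j
  by_cases h : j = i
  · subst h; simp
  · simp [h]

theorem sum_update_kr (a : Fin s → ℕ) (i : Fin s) (c : ℕ) (A : Finset (Fin s)) :
    ∑ j ∈ A, Function.update a i c j = ∑ j ∈ A.erase i, a j + if i ∈ A then c else 0 := by
  split_ifs with hi
  · rw [Finset.sum_update_of_mem hi, Finset.sdiff_singleton_eq_erase, add_comm]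
  · rw [Finset.sum_update_of_notMem hi, Finset.erase_eq_of_notMem hi, add_zero]

section alg

variable {V : Type u} [AddCommGroup V] [Module R V] {e h d : V →ₗ[R] V} {x t : R}

/-- The relations between the operators of a mapping cone. -/
structure KrRel (e h d : V →ₗ[R] V) : Prop where
  eh : ∀ w, e (h w) + h (e w) = w
  dh : ∀ w, d (h w) = -h (d w)
  ee : ∀ w, e (e w) = 0
  de : ∀ w, d (e w) = -e (d w)
  hh : ∀ w, h (h w) = 0

theorem KrRel.ehe (H : KrRel e h d) (w : V) : e (h (e w)) = e w := by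
  have := H.eh (e w)
  rwa [H.ee, map_zero, add_zero] at this

theorem KrRel.one (H : KrRel e h d) {ξ : V} (h0 : d ξ + (t * x) • e ξ = 0) :
    d (e (h ξ) + t • h (e ξ)) + x • e (e (h ξ) + t • h (e ξ)) = 0 := by
  have h1 : d ξ = -((t * x) • e ξ) := eq_neg_of_add_eq_zero_left h0
  simp only [map_add, map_smul, map_neg, H.de, H.dh, h1, H.ee, H.ehe, smul_zero, neg_zero,
    map_zero]
  module

theorem KrRel.two (H : KrRel e h d) {ξ η : V} (h0 : d ξ + (t * x) • e ξ = 0)
    (h2 : d η + x • e η = e (h ξ) + t • h (e ξ)) :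
    d (e η + h (e ξ)) + t • e (e η + h (e ξ)) = 0 := by
  have h1 : d ξ = -((t * x) • e ξ) := eq_neg_of_add_eq_zero_left h0
  have h3 : d η = e (h ξ) + t • h (e ξ) - x • e η := eq_sub_of_add_eq h2
  simp only [map_add, map_sub, map_smul, map_neg, H.de, H.dh, h1, h3, H.ee, H.ehe, smul_zero,
    neg_zero, map_zero]
  module

theorem KrRel.three (H : KrRel e h d) {ξ η ζ : V}
    (h2 : d η + x • e η = e (h ξ) + t • h (e ξ)) (h4 : d ζ + t • e ζ = e η + h (e ξ)) :
    d (e (h η) + x • e (h ζ) + h (e ζ)) + (t * x) • e (e (h η) + x • e (h ζ) + h (e ζ)) = ξ := by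
  have h3 : d η = e (h ξ) + t • h (e ξ) - x • e η := eq_sub_of_add_eq h2
  have h5 : d ζ = e η + h (e ξ) - t • e ζ := eq_sub_of_add_eq h4
  simp only [map_add, map_sub, map_smul, map_neg, H.de, H.dh, h3, h5, H.ee, H.ehe, H.hh,
    smul_zero, map_zero]
  conv_rhs => rw [← H.eh ξ]
  module

end alg

theorem krRel (y : Fin s → R) (i : Fin s) :
    KrRel (kd (Pi.single i (1 : R)) R) (kh R i R) (kd (Function.update y i 0) R) where
  eh w := by rw [kd_kh, Pi.single_eq_same, one_smul]
  dh w := eq_neg_of_add_eq_zero_left (by rw [kd_kh, Function.update_self, zero_smul])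
  ee w := kd_kd_kr _ w
  de w := by
    have h := kd_kd_kr (Function.update y i 0 + Pi.single i 1) w
    rw [kd_add_kr, kd_add_kr, map_add, map_add, kd_kd_kr, kd_kd_kr, zero_add, add_zero] at h
    exact eq_neg_of_add_eq_zero_left h
  hh w := kh_kh_kr i w

theorem kd_kP_kr (y : Fin s → R) (n : ℕ) (η : Finset (Fin s) → R) :
    kd y R (kP R s R ((n + 1 : ℕ) : ℤ) η) = kP R s R (n : ℤ) (kd y R η) := by
  funext A
  rw [kP_apply, kd_apply, kd_apply]
  split_ifs with hA
  · refine Finset.sum_congr rfl fun i hi => ?_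
    rw [kP_apply, if_pos]
    rw [Finset.card_insert_of_notMem (Finset.mem_compl.1 hi)]
    omega
  · refine Finset.sum_eq_zero fun i hi => ?_
    rw [kP_apply, if_neg, smul_zero]
    rw [Finset.card_insert_of_notMem (Finset.mem_compl.1 hi)]
    omega

theorem KW_base [IsNoetherianRing R] (y : Fin s → R) :
    ∃ D0 : ℕ, ∀ D, D0 ≤ D → KW y (fun _ => 1) D := by
  obtain ⟨n₀, hn⟩ := (krF_stable (s := s) (Ideal.span (Set.range y))).inter_right
    (F' := (Ideal.span (Set.range y)).trivialFiltration (LinearMap.ker (kd y R)))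
  refine ⟨n₀ + 1, fun D hD ξ hξ h0 => ?_⟩
  obtain ⟨D, rfl⟩ : ∃ D', D = D' + 1 := ⟨D - 1, by omega⟩
  simp only [Finset.sum_const, smul_eq_mul, mul_one, pow_one] at hξ h0 ⊢
  have h1 : ξ ∈ Ideal.span (Set.range y) •
      ((krF (Ideal.span (Set.range y)) s).N D ⊓ LinearMap.ker (kd y R)) := by
    have h2 := hn D (by omega)
    exact h2.ge ⟨mem_krF.2 hξ, h0⟩
  have h3 : Ideal.span (Set.range y) •
      ((krF (Ideal.span (Set.range y)) s).N D ⊓ LinearMap.ker (kd y R)) ≤
      ((krF (Ideal.span (Set.range y)) s).N (D + 1)).map (kd y R) := by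
    refine Submodule.smul_le.2 fun r hr z hz => ?_
    have key : Ideal.span (Set.range y) ≤ (((krF (Ideal.span (Set.range y)) s).N (D + 1)).map
        (kd y R)).comap (LinearMap.toSpanSingleton R _ z) := by
      rw [Ideal.span_le]
      rintro _ ⟨i, rfl⟩
      refine ⟨kh R i R z, mem_krF.2 fun A => ?_, ?_⟩
      · rw [kh_apply]
        split_ifs with hi
        · have h4 := Finset.card_erase_add_one hi
          exact Ideal.mul_mem_left _ _
            (Ideal.pow_le_pow_right (by omega) (mem_krF.1 hz.1 (A.erase i)))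
        · exact zero_mem _
      · have h4 := kd_kh y i z
        rwa [LinearMap.mem_ker.1 hz.2, map_zero, add_zero] at h4
    exact key hr
  obtain ⟨η, hη, e⟩ := h3 h1
  exact ⟨η, mem_krF.1 hη, e⟩

theorem KW_step (y : Fin s → R) (a : Fin s → ℕ) (i : Fin s) {D : ℕ} (hD : ∑ j, a j ≤ D)
    (h1 : KW y (Function.update a i 1) (D + 1)) (h2 : KW y a D) :
    KW y (Function.update a i (a i + 1)) (D + 1) := by
  intro ξ hξ h0
  have H := krRel (fun j => y j ^ a j) i
  have hy : y i ∈ Ideal.span (Set.range y) := Ideal.subset_span ⟨i, rfl⟩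
  have hmul : ∀ (c m m' : ℕ) (z : R), z ∈ Ideal.span (Set.range y) ^ m → m' ≤ c + m →
      y i ^ c * z ∈ Ideal.span (Set.range y) ^ m' := fun c m m' z hz hm =>
    Ideal.pow_le_pow_right hm (by rw [pow_add]; exact Ideal.mul_mem_mul (Ideal.pow_mem_pow hy c) hz)
  rw [← Function.update_eq_self i a] at h2
  unfold KW at h1 h2
  simp only [sum_update_kr, kd_split_kr, pow_one] at hξ h0 h1 h2 ⊢
  rw [pow_succ] at h0 ⊢
  obtain ⟨η, hη, e1⟩ := h1 _ (fun A => by
    have h3 := hξ A
    rw [Pi.add_apply, Pi.smul_apply, ke_kh_apply_kr, kh_ke_apply_kr]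
    split_ifs at h3 ⊢
    · rw [zero_add]
      exact hmul _ _ _ _ h3 (by omega)
    · rwa [smul_zero, add_zero (ξ A)]) (H.one h0)
  obtain ⟨ζ, hζ, e2⟩ := h2 _ (fun A => by
    have h3 := hξ A
    have h4 := hη (insert i A)
    rw [Pi.add_apply, ke_apply_kr, kh_ke_apply_kr]
    split_ifs at h3 ⊢ with hi
    · rw [zero_add]
      exact Ideal.pow_le_pow_right (by omega) h3
    · rw [if_pos (Finset.mem_insert_self i A), Finset.erase_insert hi] at h4
      rw [Finset.erase_eq_of_notMem hi]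
      exact add_mem (Ideal.mul_mem_left _ _ (Ideal.pow_le_pow_right (by omega) h4))
        (zero_mem _)) (H.two h0 e1)
  refine ⟨_, fun A => ?_, H.three e1 e2⟩
  have h3 := hη A
  have h4 := hζ A
  rw [Pi.add_apply, Pi.add_apply, Pi.smul_apply, ke_kh_apply_kr, ke_kh_apply_kr, kh_ke_apply_kr]
  split_ifs at h3 h4 ⊢
  · rw [smul_zero, add_zero, zero_add]
    exact Ideal.pow_le_pow_right (by omega) h4
  · refine add_mem (add_mem h3 ?_) (zero_mem _)
    have h5 := hmul 1 _ (D + 1 - (∑ j ∈ A.erase i, a j + 0)) _ h4 (by omega)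
    rwa [pow_one] at h5

theorem KW_all [IsNoetherianRing R] (y : Fin s → R) :
    ∃ D0 : ℕ, ∀ (a : Fin s → ℕ), (∀ i, 1 ≤ a i) → ∀ D, D0 + ∑ i, a i ≤ D → KW y a D := by
  obtain ⟨D0, h0⟩ := KW_base y
  refine ⟨D0, fun a => ?_⟩
  induction hn : ∑ i, a i using Nat.strong_induction_on generalizing a with
  | _ n ih =>
    intro ha D hD
    by_cases h1 : ∀ i, a i = 1
    · rw [show a = fun _ => 1 from funext h1]
      exact h0 D (by omega)
    · obtain ⟨i, hi⟩ := not_forall.1 h1
      obtain ⟨c, hc⟩ : ∃ c, a i = c + 1 + 1 := ⟨a i - 2, by have := ha i; omega⟩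
      have hs : ∀ b, ∑ j, Function.update a i b j = ∑ j ∈ Finset.univ.erase i, a j + b :=
        fun b => by rw [sum_update_kr, if_pos (Finset.mem_univ i)]
      have hs0 := hs (a i)
      rw [Function.update_eq_self, hn, hc] at hs0
      have hpos : ∀ b, 1 ≤ b → ∀ j, 1 ≤ Function.update a i b j := fun b hb j => by
        by_cases h : j = i
        · subst h; simpa using hb
        · simpa [h] using ha j
      obtain ⟨D, rfl⟩ : ∃ D', D = D' + 1 := ⟨D - 1, by omega⟩
      have h2 := KW_step y (Function.update a i (c + 1)) i (D := D) (by rw [hs]; omega)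
        (by
          rw [Function.update_idem]
          exact ih _ (by rw [hs]; omega) _ rfl (hpos 1 le_rfl) _ (by rw [hs]; omega))
        (ih _ (by rw [hs]; omega) _ rfl (hpos _ (by omega)) _ (by rw [hs]; omega))
      rwa [Function.update_idem, Function.update_self, ← hc, Function.update_eq_self] at h2

theorem kex_rees [IsNoetherianRing R] (y : Fin s → R) :
    ∃ D0 : ℕ, ∀ N D : ℕ, 1 ≤ N → D0 + s * N ≤ D →
      KEx 1 (fun i => y i ^ N) fun j => Ideal.span (Set.range y) ^ (D - j * N) := by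
  obtain ⟨D0, h0⟩ := KW_all y
  refine ⟨D0, fun N D hN hD n ξ hξ hc => ?_⟩
  obtain ⟨η, hη, e⟩ := h0 (fun _ => N) (fun _ => hN) D (by simpa using hD) ξ (fun A => by
    by_cases hA : A ⊆ Finset.univ ∧ (A.card : ℤ) = n
    · have h1 := (mem_kos.1 hξ).1 A hA
      have h2 : A.card = n := by exact_mod_cast hA.2
      simpa [h2] using h1
    · rw [(mem_kos.1 hξ).2 A hA]
      exact zero_mem _) hc
  refine ⟨kP R s R ((n + 1 : ℕ) : ℤ) η, mem_kos.2 ⟨fun A hA => ?_, fun A hA => ?_⟩, ?_⟩
  · have h2 : A.card = n + 1 := by exact_mod_cast hA.2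
    rw [kP_apply, if_pos hA.2]
    simpa [h2] using hη A
  · rw [kP_apply, if_neg fun h => hA ⟨Finset.subset_univ A, h⟩]
  · rw [kd_kP_kr, e, kP_fix hξ, one_smul]

theorem KEx.mul {κ : R} {y : Fin s → R} {G : ℕ → Ideal R} (h : KEx κ y G) {κ' : R}
    (hκ : κ ∣ κ') : KEx κ' y G := by
  obtain ⟨c, rfl⟩ := hκ
  intro n ξ hξ h0
  obtain ⟨η, hη, e⟩ := h n ξ hξ h0
  exact ⟨c • η, Submodule.smul_mem _ _ hη, by rw [map_smul, e, smul_smul, mul_comm]⟩

end Vale.Agent.P177
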