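import Vale.Agent.P177.Tau

/-! Valuative closures and the real filtration. -/

namespace Vale.Agent.P177

open Vale.Agent.P202

universe u

variable {p : ℕ} [Fact p.Prime] {P : Type u} [CommRing P] [CharP P p] [PerfectRing P p] {t : P}

/-- Sharp generators up to valuative closure. -/
theorem exists_sharp (ht : t ∈ nonZeroDivisors P) {I : Ideal (Unt p t)} {s c : ℕ} (hI : GenBy s I)
    (hc : (p : Unt p t) ^ c ∈ I) : ∃ u : Fin (s + 1) → P, t ^ c ∈ Set.range u ∧
      VM (p : Unt p t) (SI p t u 0) = VM (p : Unt p t) I ∧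
      SI p t u 0 ≤ I ⊔ VM (p : Unt p t) (Ideal.span {(p : Unt p t)} * I) := by
  obtain ⟨a, rfl⟩ := hI
  choose g0 hg0 using fun j => exists_shp t (a j)
  choose g _ hg using fun j => approx ht (a j) (g0 j) (hg0 j) (c + 1)
  have hS : SI p t (Fin.cons (t ^ c) g : Fin (s + 1) → P) 0 =
      Ideal.span (insert ((p : Unt p t) ^ c) (Set.range fun j => shp p t (g j))) := by
    unfold SI
    congr 1
    ext x
    simp only [rt_zero, Set.mem_range, Fin.exists_fin_succ, Fin.cons_zero, Fin.cons_succ, map_pow,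
      shp_self, Set.mem_insert_iff, eq_comm (a := x)]
  have ha : ∀ j, a j ∈ Ideal.span (Set.range a) := fun j => Ideal.subset_span ⟨j, rfl⟩
  have h1 : ∀ j, shp p t (g j) ∈ VM (p : Unt p t) (Ideal.span (Set.range a)) := by
    intro j Γ _ v hv _ c0 hc0
    have h2 := hg j Γ v hv
    have h3 : v (shp p t (g j)) ≤ max (v (a j)) (v (a j - shp p t (g j))) := by
      have := v.map_sub (a j) (a j - shp p t (g j))
      rwa [sub_sub_cancel] at this
    have h4 := hc0 _ hc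
    rcases le_max_iff.1 h3 with h | h
    · exact h.trans (hc0 _ (ha j))
    · rcases le_max_iff.1 (h.trans h2) with h5 | h5
      · rw [map_mul] at h5
        rcases eq_or_ne (v (shp p t (g j))) 0 with h6 | h6
        · rw [h6]; exact zero_le
        · have h7 : 1 ≤ v (p : Unt p t) := by
            rwa [le_mul_iff_one_le_left (zero_lt_iff.2 h6)] at h5
          rw [map_pow] at h4
          exact (hv _).trans ((one_le_pow₀ h7).trans h4)
      · exact h5.trans (hc0 _ (by rw [pow_succ]; exact Ideal.mul_mem_right _ _ hc))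
  refine ⟨Fin.cons (t ^ c) g, ⟨0, rfl⟩, le_antisymm (VM_le_of_le ?_) (VM_le_of_le ?_), ?_⟩
  · rw [hS, Ideal.span_le]
    rintro _ (rfl | ⟨j, rfl⟩)
    · exact le_VM _ _ hc
    · exact h1 j
  · rw [hS, Ideal.span_le]
    rintro _ ⟨j, rfl⟩
    have h2 : shp p t (g j) ∈
        Ideal.span (insert ((p : Unt p t) ^ c) (Set.range fun j => shp p t (g j))) :=
      Ideal.subset_span (Or.inr ⟨j, rfl⟩)
    have h3 := VM_mono (π := (p : Unt p t)) (J := Ideal.span (insert ((p : Unt p t) ^ c)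
      (Set.range fun j => shp p t (g j)))) (by
        rw [Ideal.span_le]
        rintro _ (rfl | rfl)
        · exact Ideal.mul_mem_left _ _ h2
        · rw [pow_succ]
          exact Ideal.mul_mem_right _ _ (Ideal.subset_span (Or.inl rfl))) (mem_VM_of_VLe (hg j))
    have h4 := add_mem h3 (le_VM _ _ h2)
    rwa [sub_add_cancel] at h4
  · rw [hS, Ideal.span_le]
    rintro _ (rfl | ⟨j, rfl⟩)
    · exact Ideal.mem_sup_left hc
    · have h3 := VM_le_of_le (π := (p : Unt p t))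
        (J := Ideal.span {(p : Unt p t)} * Ideal.span (Set.range a)) (by
          rw [Ideal.span_le]
          rintro _ (rfl | rfl)
          · exact VM_mul_le _ _
              (Ideal.mul_mem_mul (le_VM _ _ (Ideal.mem_span_singleton_self _)) (h1 j))
          · rw [pow_succ']
            exact le_VM _ _ (Ideal.mul_mem_mul (Ideal.mem_span_singleton_self _) hc))
        (mem_VM_of_VLe (hg j))
      have h4 := sub_mem (Ideal.mem_sup_left (T := VM (p : Unt p t)
        (Ideal.span {(p : Unt p t)} * Ideal.span (Set.range a))) (ha j)) (Ideal.mem_sup_right h3)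
      rwa [sub_sub_cancel] at h4

theorem mem_SI {ι : Type} (w : ι → P) (e : ℕ) (i : ι) : shp p t (rt p P e (w i)) ∈ SI p t w e :=
  Ideal.subset_span ⟨i, rfl⟩

theorem shp_mem_SI {ι : Type} (w : ι → P) (i : ι) : shp p t (w i) ∈ SI p t w 0 := by
  have h := mem_SI (p := p) (t := t) w 0 i
  rwa [rt_zero] at h

theorem SI_fg {ι : Type} [Finite ι] (w : ι → P) (e : ℕ) : (SI p t w e).FG := by
  exact Submodule.fg_span (Set.finite_range _)

theorem SI_pow_le_VM {ι : Type} [Finite ι] (w : ι → P) (e m : ℕ) :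
    SI p t w e ^ (m * p ^ e) ≤ VM (p : Unt p t) (SI p t w 0 ^ m) := by
  have hp : 0 < p ^ e := pow_pos (Fact.out : p.Prime).pos e
  rcases isEmpty_or_nonempty ι with hι | hι
  · have h1 : SI p t w e = SI p t w 0 := by
      unfold SI
      rw [Set.range_eq_empty, Set.range_eq_empty]
    rw [h1]
    exact (Ideal.pow_le_pow_right (Nat.le_mul_of_pos_right m hp)).trans (le_VM _ _)
  · intro x hx Γ _ v hv _ c hc
    obtain ⟨i, hi⟩ := Finite.exists_max fun i => v (shp p t (rt p P e (w i)))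
    have h1 := val_le_of_mem v hv (c := v (shp p t (rt p P e (w i))))
      (by rintro _ ⟨j, rfl⟩; exact hi j) hx
    rw [mul_comm, pow_mul, ← map_pow, shp_rt_pow_MApx, ← map_pow] at h1
    exact h1.trans (hc _ (Ideal.pow_mem_pow (shp_mem_SI w i) m))

theorem FlU_le_VM {ι : Type} [Finite ι] (w : ι → P) (m : ℕ) :
    FlU p t w m ≤ VM (p : Unt p t) (SI p t w 0 ^ m) := by
  refine Fl_le_mfl fun e r hr => le_trans (Ideal.pow_le_pow_right ?_) (SI_pow_le_VM w e m)
  exact_mod_cast hr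

theorem exists_vp_mem_FlU {ι : Type} {w : ι → P} (hw : ∃ c : ℕ, t ^ c ∈ Ideal.span (Set.range w))
    (k : ℕ) : ∃ δ : ℝ, 0 < δ ∧ vp p t k ∈ FlU p t w δ := by
  obtain ⟨σ, hσ, h1, -⟩ := exists_p_mem_Fl (p := p) hw
  exact ⟨_, div_pos hσ (pow_pos (ppos_mfl p) k), shp_mem_Fl hw ((rt_mem_Fl k).2 h1)⟩

theorem vp_mul_mem_FlU (ht : t ∈ nonZeroDivisors P) {ι : Type} [Finite ι] {w : ι → P}
    (hw : ∃ c : ℕ, t ^ c ∈ Ideal.span (Set.range w)) {m : ℕ} {x : Unt p t}
    (hx : x ∈ VM (p : Unt p t) (SI p t w 0 ^ m)) (k : ℕ) : vp p t k * x ∈ FlU p t w m := by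
  obtain ⟨j, c, hj⟩ := exists_vp_pow_dvd (p := p) t k 2
  obtain ⟨δ, hδ, h1⟩ := exists_vp_mem_FlU (p := p) hw j
  obtain ⟨n1, h2⟩ := VM.exists_pow_mem (Submodule.FG.pow (SI_fg w 0) m) (vp_pow t j) hx
  obtain ⟨E, hE⟩ := exists_nat_ge ((m : ℝ) * n1 / δ)
  have hp := ppos_mfl p
  have h3 : n1 + E ≤ p ^ (n1 + E) := (Nat.lt_pow_self (Fact.out : p.Prime).one_lt).le
  obtain ⟨n, hn⟩ : ∃ n, p ^ (n1 + E) = n + n1 := ⟨p ^ (n1 + E) - n1, by omega⟩
  have h4 := h2 n
  rw [← hn, ← pow_mul] at h4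
  have h5 := Fl_root ht hw (n1 + E)
    (pow_le_Fl (fun e j => shp p t (rt p P e (w j))) (e := 0) (ρ := ((m * n : ℕ) : ℝ))
      (by simp) h4)
  have h6 := Fl_mul_le (hv_shp_mfl t w) _ _ (Ideal.mul_mem_mul h1 h5)
  have h7 : (m : ℝ) ≤ δ + ((m * n : ℕ) : ℝ) / (p : ℝ) ^ (n1 + E) := by
    have h8 : (p : ℝ) ^ (n1 + E) = n + n1 := by exact_mod_cast hn
    have h9 : (E : ℝ) ≤ (p : ℝ) ^ (n1 + E) := by exact_mod_cast (Nat.le_add_left E n1).trans h3
    rw [div_le_iff₀ hδ] at hE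
    rw [← sub_le_iff_le_add', le_div_iff₀ (pow_pos hp _)]
    push_cast
    have h10 := mul_le_mul_of_nonneg_right h9 hδ.le
    have h11 : (m : ℝ) * (p : ℝ) ^ (n1 + E) = m * n + m * n1 := by rw [h8]; ring
    nlinarith
  have h8 := Ideal.mul_mem_left _ c (Fl_anti _ h7 h6)
  rwa [show c * (vp p t j * (vp p t j * x)) = vp p t k * x by rw [hj]; ring] at h8

/-- The family of ideals comes from a sharp family. -/
def ShF (p : ℕ) [Fact p.Prime] {P : Type u} [CommRing P] [CharP P p] [PerfectRing P p] (t : P)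
    (J : ℕ → Ideal (Unt p t)) : Prop :=
  ∃ (m : ℕ) (w : Fin m → P), (∃ c : ℕ, t ^ c ∈ Set.range w) ∧ ∀ e, SI p t w e = J e

theorem ShF.one : ShF p t 1 := by
  refine ⟨1, fun _ => 1, ⟨0, 0, (pow_zero t).symm⟩, fun e => ?_⟩
  rw [Pi.one_apply, Ideal.one_eq_top, Ideal.eq_top_iff_one]
  exact Ideal.subset_span ⟨0, by simp⟩

theorem ShF.mul {J J' : ℕ → Ideal (Unt p t)} (h : ShF p t J) (h' : ShF p t J') :
    ShF p t (J * J') := by
  obtain ⟨m, w, ⟨c, i, hi⟩, h⟩ := h
  obtain ⟨m', w', ⟨c', i', hi'⟩, h'⟩ := h'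
  refine ⟨m * m', fun x => w (finProdFinEquiv.symm x).1 * w' (finProdFinEquiv.symm x).2,
    ⟨c + c', finProdFinEquiv (i, i'), by
      simp only [Equiv.symm_apply_apply, hi, hi', pow_add]⟩, fun e => ?_⟩
  rw [Pi.mul_apply, ← h, ← h']
  unfold SI
  rw [Ideal.span_mul_span']
  congr 1
  ext x
  constructor
  · rintro ⟨y, rfl⟩
    exact ⟨_, ⟨(finProdFinEquiv.symm y).1, rfl⟩, _, ⟨(finProdFinEquiv.symm y).2, rfl⟩,
      by simp only [map_mul]⟩
  · rintro ⟨_, ⟨a, rfl⟩, _, ⟨b, rfl⟩, rfl⟩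
    exact ⟨finProdFinEquiv (a, b), by simp only [Equiv.symm_apply_apply, map_mul]⟩

theorem ShF.pow {J : ℕ → Ideal (Unt p t)} (h : ShF p t J) (k : ℕ) : ShF p t (J ^ k) := by
  induction k with
  | zero => rw [pow_zero]; exact ShF.one
  | succ k ih => rw [pow_succ]; exact ih.mul h

/-- Products of sharp families are sharp families. -/
theorem exists_SI_EE {s : ℕ} (u : ℕ → Fin s → P) (N : ℕ) (n : ℕ → ℤ)
    (hu : ∀ r ≤ N, ∃ c : ℕ, t ^ c ∈ Set.range (u r)) :
    ∃ (m : ℕ) (w : Fin m → P), (∃ c : ℕ, t ^ c ∈ Set.range w) ∧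
      ∀ e, SI p t w e = EE N (fun r => SI p t (u r) e) n := by
  have h : ShF p t (∏ r ∈ Finset.range (N + 1), (fun e => SI p t (u r) e) ^ (n r).toNat) :=
    Finset.prod_induction _ _ (fun _ _ => ShF.mul) ShF.one fun r hr =>
      ShF.pow ⟨s, u r, hu r (Nat.lt_succ_iff.1 (Finset.mem_range.1 hr)), fun _ => rfl⟩ _
  obtain ⟨m, w, h1, h2⟩ := h
  exact ⟨m, w, h1, fun e => by rw [h2, Finset.prod_apply]; rfl⟩

/-- Pigeonhole. -/
theorem SI_pow_le {s : ℕ} (u : Fin (s + 1) → P) (e : ℕ) {m : ℕ} (hm : s ≤ m) :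
    SI p t u e ^ ((m + 1) * p ^ e) ≤ SI p t u 0 * SI p t u e ^ (m * p ^ e) := by
  intro y hy
  have hp : 0 < p ^ e := pow_pos (Fact.out : p.Prime).pos e
  obtain ⟨S, c, rfl, hS⟩ := decomp_mfl hy
  refine Ideal.sum_mem _ fun d hd => Ideal.mul_mem_left _ _ ?_
  have h1 := hS d hd
  obtain ⟨i, hi, h2⟩ : ∃ i ∈ d.support, p ^ e ≤ d i := by
    by_contra h
    push Not at h
    have h3 := Finset.sum_le_card_nsmul d.support (fun i => d i) (p ^ e - 1)
      fun i hi => Nat.le_sub_one_of_lt (h i hi)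
    have h4 : d.support.card ≤ m + 1 := by
      have := Finset.card_le_univ d.support
      rw [Fintype.card_fin] at this
      omega
    rw [h1, smul_eq_mul] at h3
    have h5 := h3.trans (Nat.mul_le_mul_right _ h4)
    have h6 := Nat.le_of_mul_le_mul_left h5 (Nat.succ_pos m)
    omega
  obtain ⟨b, hb⟩ := Nat.exists_eq_add_of_le h2
  rw [← Finset.add_sum_erase _ _ hi, hb] at h1
  rw [← Finset.mul_prod_erase _ _ hi, hb, pow_add, mul_assoc, shp_rt_pow_MApx]
  refine Ideal.mul_mem_mul (shp_mem_SI u i) ?_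
  rw [show m * p ^ e = b + ∑ x ∈ d.support.erase i, d x by linarith, pow_add]
  exact Ideal.mul_mem_mul (Ideal.pow_mem_pow (mem_SI u e i) b) (prod_mem_mfl _ _ _)

end Vale.Agent.P177
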