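import Vale.Agent.P177.KFl
import Vale.Agent.P177.VM1

/-! Koszul strands of the real filtration of the untilt. -/

namespace Vale.Agent.P177

open Vale.Agent.P202

universe u

variable {p : ℕ} [Fact p.Prime] {P : Type u} [CommRing P] [CharP P p] [PerfectRing P p] {s : ℕ}
  {t : P}

/-- The element `b` of the untilt is close to the sharp of `x`. -/
def RelU (p : ℕ) [Fact p.Prime] {P : Type u} [CommRing P] [CharP P p] [PerfectRing P p] {s : ℕ}
    (t : P) (u : Fin s → P) (ρ : ℝ) (b : Unt p t) (x : P) : Prop :=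
  x ∈ FlP p u ρ ∧ b - shp p t x ∈ Ideal.span {(p : Unt p t)} * FlU p t u ρ

section rel

variable {u : Fin s → P} {ρ : ℝ} {b b' : Unt p t} {x x' : P}

theorem RelU.shp (hx : x ∈ FlP p u ρ) : RelU p t u ρ (shp p t x) x :=
  ⟨hx, by rw [sub_self]; exact zero_mem _⟩

theorem RelU.zero : RelU p t u ρ 0 0 := by
  have h := RelU.shp (p := p) (t := t) (u := u) (ρ := ρ) (zero_mem _)
  rwa [shp_zero] at h

theorem RelU.add (hu : ∃ c : ℕ, t ^ c ∈ Ideal.span (Set.range u)) (h : RelU p t u ρ b x)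
    (h' : RelU p t u ρ b' x') : RelU p t u ρ (b + b') (x + x') := by
  refine ⟨add_mem h.1 h'.1, ?_⟩
  have := add_mem (add_mem h.2 h'.2) (shp_add_mfl hu h.1 h'.1)
  rwa [show b - P202.shp p t x + (b' - P202.shp p t x') +
    (P202.shp p t x + P202.shp p t x' - P202.shp p t (x + x')) =
    b + b' - P202.shp p t (x + x') by ring] at this

theorem RelU.neg (hu : ∃ c : ℕ, t ^ c ∈ Ideal.span (Set.range u)) (h : RelU p t u ρ b x) :
    RelU p t u ρ (-b) (-x) := by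
  refine ⟨neg_mem h.1, ?_⟩
  have := neg_mem (add_mem h.2 (shp_add_mfl hu h.1 (neg_mem h.1)))
  rwa [add_neg_cancel, shp_zero, show -(b - P202.shp p t x +
    (P202.shp p t x + P202.shp p t (-x) - 0)) = -b - P202.shp p t (-x) by ring] at this

theorem RelU.sum (hu : ∃ c : ℕ, t ^ c ∈ Ideal.span (Set.range u)) {ι : Type} (S : Finset ι)
    {b : ι → Unt p t} {x : ι → P} (h : ∀ i ∈ S, RelU p t u ρ (b i) (x i)) :
    RelU p t u ρ (∑ i ∈ S, b i) (∑ i ∈ S, x i) := by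
  classical
  induction S using Finset.induction_on with
  | empty => exact RelU.zero
  | insert i S hi ih =>
    rw [Finset.sum_insert hi, Finset.sum_insert hi]
    exact (h i (Finset.mem_insert_self _ _)).add hu
      (ih fun j hj => h j (Finset.mem_insert_of_mem hj))

theorem RelU.mul (h : RelU p t u ρ b x) (i : Fin s) (m : ℕ) :
    RelU p t u (ρ + m) (P202.shp p t (u i) ^ m * b) (u i ^ m * x) := by
  have h1 : u i ^ m ∈ FlP p u m := pow_le_Fl _ (e := 0) (r := m) (by simp)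
    (Ideal.pow_mem_pow (Ideal.subset_span (Set.mem_range.2 ⟨i, rt_zero (u i)⟩)) m)
  have h2 : P202.shp p t (u i) ^ m ∈ FlU p t u m := zero_le_Fl_mfl t u m
    (Ideal.pow_mem_pow (Ideal.subset_span (Set.mem_range_self i)) m)
  constructor
  · rw [mul_comm]
    exact Fl_mul_le (hv_mfl u) _ _ (Ideal.mul_mem_mul h.1 h1)
  · have h3 := Ideal.mul_mem_mul h.2 h2
    rw [mul_assoc] at h3
    have e : P202.shp p t (u i) ^ m * b - P202.shp p t (u i ^ m * x) =
        (b - P202.shp p t x) * P202.shp p t (u i) ^ m := by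
      rw [map_mul (P202.shp p t), map_pow (P202.shp p t)]
      ring
    rw [e]
    exact Ideal.mul_mono_right (Fl_mul_le (hv_shp_mfl t u) _ _) h3

theorem RelU.kd (hu : ∃ c : ℕ, t ^ c ∈ Ideal.span (Set.range u)) (m : ℕ)
    {ξ : Finset (Fin s) → Unt p t} {x : Finset (Fin s) → P} (h : ∀ A, RelU p t u ρ (ξ A) (x A))
    (A : Finset (Fin s)) : RelU p t u (ρ + m)
      (kd (fun i => P202.shp p t (u i) ^ m) (Unt p t) ξ A) (kd (fun i => u i ^ m) P x A) := by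
  rw [kd_apply, kd_apply]
  refine RelU.sum hu _ fun i _ => ?_
  have h1 := (h (insert i A)).mul i m
  rcases neg_one_pow_eq_or ℤ (A.filter (· < i)).card with e | e
  · simpa only [ksgn, e, Int.cast_one, one_mul, smul_eq_mul] using h1
  · simpa only [ksgn, e, Int.cast_neg, Int.cast_one, neg_mul, one_mul, smul_eq_mul] using h1.neg hu

end rel

theorem mem_kos_kunt {R : Type u} [CommRing R] {N : Ideal R} {n : ℤ} {ξ : Finset (Fin s) → R}
    (h : ∀ A, ξ A ∈ N) (h0 : ∀ A : Finset (Fin s), (A.card : ℤ) ≠ n → ξ A = 0) :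
    ξ ∈ Kos Finset.univ N n :=
  mem_kos.2 ⟨fun A _ => h A, fun A hA => h0 A fun e => hA ⟨Finset.subset_univ A, e⟩⟩

theorem eq_zero_kunt {R : Type u} [CommRing R] {N : Ideal R} {n : ℤ} {ξ : Finset (Fin s) → R}
    (h : ξ ∈ Kos Finset.univ N n) {A : Finset (Fin s)} (hA : (A.card : ℤ) ≠ n) : ξ A = 0 :=
  (mem_kos.1 h).2 A fun e => hA e.2

theorem kd_mem_kunt {R : Type u} [CommRing R] (y : Fin s → R) {N : Ideal R} {n : ℤ}
    {ξ : Finset (Fin s) → R} (h : ξ ∈ Kos Finset.univ N n) {A : Finset (Fin s)}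
    (hA : (A.card : ℤ) ≠ n - 1) : kd y R ξ A = 0 :=
  eq_zero_kunt (kos_isCx y Finset.univ N n ⟨ξ, h, rfl⟩) hA

theorem smul_cancel_kunt {R : Type u} [CommRing R] {r : R} (hr : r ∈ nonZeroDivisors R)
    {ξ : Finset (Fin s) → R} (h : r • ξ = 0) : ξ = 0 :=
  funext fun A => (mem_nonZeroDivisors_iff.1 hr).1 _ (congrFun h A)

theorem RelU.div (ht : t ∈ nonZeroDivisors P) {u : Fin s → P}
    (hu : ∃ c : ℕ, t ^ c ∈ Ideal.span (Set.range u)) {ρ : ℝ} {x : P} (h : RelU p t u ρ 0 x) :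
    ∃ y ∈ FlP p u ρ, t * y = x := by
  have h1 := neg_mem h.2
  rw [neg_sub] at h1
  have h2 : P202.shp p t x - P202.shp p t 0 ∈ Ideal.span {(p : Unt p t)} := by
    rw [shp_zero]
    exact Ideal.mul_le_left h1
  obtain ⟨y, hy⟩ := Ideal.mem_span_singleton'.1 (mem_of_shp_sub_mem h2)
  rw [sub_zero, mul_comm] at hy
  rw [sub_zero, ← hy, map_mul (P202.shp p t), shp_self] at h1
  obtain ⟨z, hz, h3⟩ := Ideal.mem_span_singleton_mul.1 h1
  rw [(mul_cancel_left_mem_nonZeroDivisors (Unt.p_reg (p := p) ht)).1 h3] at hz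
  exact ⟨y, mem_Fl_of_shp ht hu hz, hy⟩

theorem RelU.diff {u : Fin s → P} (hu : ∃ c : ℕ, t ^ c ∈ Ideal.span (Set.range u)) {ρ : ℝ}
    {b b' : Unt p t} {x z : P} (h : RelU p t u ρ b x) (h' : RelU p t u ρ b' (x - t * z))
    (hz : z ∈ FlP p u ρ) : ∃ c ∈ FlU p t u ρ, (p : Unt p t) * c = b - b' := by
  have h4 := (h'.add hu (RelU.shp (Ideal.mul_mem_left _ t hz))).2
  rw [sub_add_cancel, map_mul (P202.shp p t), shp_self] at h4
  have h5 := add_mem (sub_mem h.2 h4)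
    (Ideal.mul_mem_mul (Ideal.mem_span_singleton_self _) (shp_mem_Fl hu hz))
  obtain ⟨c, hc, h6⟩ := Ideal.mem_span_singleton_mul.1 h5
  exact ⟨c, hc, by rw [h6]; ring⟩

theorem tilt_kunt (ht : t ∈ nonZeroDivisors P) {u : Fin s → P} {m : ℕ} (hm : 1 ≤ m) {D : ℝ}
    (hD : (s : ℝ) * m < D) (n : ℕ) {x y : Finset (Fin s) → P}
    (hx : x ∈ Kos Finset.univ (FlP p u (D - n * m)) (n : ℤ))
    (hy : ∀ A, y A ∈ FlP p u (D - n * m + m)) (ey : t • y = kd (fun i => u i ^ m) P x) :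
    ∃ z ∈ Kos Finset.univ (FlP p u (D - n * m)) (n : ℤ),
      ∃ w ∈ Kos Finset.univ (FlP p u (D - ((n + 1 : ℕ) : ℝ) * m)) ((n + 1 : ℕ) : ℤ),
        kd (fun i => u i ^ m) P w = x - t • z := by
  have hy0 : ∀ A : Finset (Fin s), (A.card : ℤ) ≠ n - 1 → y A = 0 := fun A hA =>
    (mem_nonZeroDivisors_iff.1 ht).1 _ ((congrFun ey A).trans (kd_mem_kunt _ hx hA))
  obtain ⟨z, hz, ez⟩ : ∃ z ∈ Kos Finset.univ (FlP p u (D - n * m)) (n : ℤ),
      kd (fun i => u i ^ m) P z = y := by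
    rcases n with _ | n
    · exact ⟨0, zero_mem _, by
        rw [map_zero]
        exact (funext fun A => hy0 A (by omega)).symm⟩
    · obtain ⟨z, hz, ez⟩ := kex_FlP (p := p) u hm hD n y
        (mem_kos_kunt (fun A => Fl_anti _ (le_of_eq (by push_cast; ring)) (hy A))
          fun A hA => hy0 A (by omega))
        (smul_cancel_kunt ht (by rw [← map_smul, ey, kd_kd_kr]))
      exact ⟨z, hz, by rw [ez, one_smul]⟩
  obtain ⟨w, hw, ew⟩ := kex_FlP (p := p) u hm hD n (x - t • z)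
    (sub_mem hx (Submodule.smul_mem _ _ hz)) (by rw [map_sub, map_smul, ez, ey, sub_self])
  exact ⟨z, hz, w, hw, by rw [ew, one_smul]⟩

theorem step_kunt (ht : t ∈ nonZeroDivisors P) {u : Fin s → P}
    (hu : ∃ c : ℕ, t ^ c ∈ Ideal.span (Set.range u)) {m : ℕ} (hm : 1 ≤ m) {D : ℝ}
    (hD : (s : ℝ) * m < D) (n : ℕ) {ξ : Finset (Fin s) → Unt p t}
    (hξ : ξ ∈ Kos Finset.univ (FlU p t u (D - n * m)) (n : ℤ))
    (h0 : kd (fun i => shp p t (u i) ^ m) (Unt p t) ξ = 0) :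
    ∃ η ∈ Kos Finset.univ (FlU p t u (D - ((n + 1 : ℕ) : ℝ) * m)) ((n + 1 : ℕ) : ℤ),
      ∃ ξ1 ∈ Kos Finset.univ (FlU p t u (D - n * m)) (n : ℤ),
        ξ = kd (fun i => shp p t (u i) ^ m) (Unt p t) η + (p : Unt p t) • ξ1 := by
  have hp := Unt.p_reg (p := p) ht
  have hx : ∀ A, ∃ x, RelU p t u (D - n * m) (ξ A) x ∧ (ξ A = 0 → x = 0) := fun A => by
    by_cases h : ξ A = 0
    · exact ⟨0, by rw [h]; exact RelU.zero, fun _ => rfl⟩
    · obtain ⟨x, h1, h2⟩ := exists_shp_Fl hu (apply_mem_of_mem_kos hξ A)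
      exact ⟨x, ⟨h1, h2⟩, fun h' => absurd h' h⟩
  choose x hx hx0 using hx
  have hxK : x ∈ Kos Finset.univ (FlP p u (D - n * m)) (n : ℤ) :=
    mem_kos_kunt (fun A => (hx A).1) fun A hA => hx0 A (eq_zero_kunt hξ hA)
  have hy : ∀ A, ∃ y ∈ FlP p u (D - n * m + m), t * y = kd (fun i => u i ^ m) P x A := fun A => by
    have h1 := RelU.kd hu m hx A
    rw [h0] at h1
    exact h1.div ht hu
  choose y hy ey using hy
  obtain ⟨z, hz, w, hw, ew⟩ := tilt_kunt ht hm hD n hxK hy (funext ey)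
  have hη : (fun A => shp p t (w A)) ∈
      Kos Finset.univ (FlU p t u (D - ((n + 1 : ℕ) : ℝ) * m)) ((n + 1 : ℕ) : ℤ) :=
    mem_kos_kunt (fun A => shp_mem_Fl hu (apply_mem_of_mem_kos hw A))
      fun A hA => by rw [eq_zero_kunt hw hA, shp_zero]
  have h1 : ∀ A, ∃ c ∈ FlU p t u (D - n * m), (p : Unt p t) * c =
      ξ A - kd (fun i => shp p t (u i) ^ m) (Unt p t) (fun A => shp p t (w A)) A := fun A => by
    have h2 := RelU.kd (t := t) hu m (fun A => RelU.shp (apply_mem_of_mem_kos hw A)) A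
    rw [ew, show D - ((n + 1 : ℕ) : ℝ) * m + m = D - n * m by push_cast; ring] at h2
    exact (hx A).diff hu h2 (apply_mem_of_mem_kos hz A)
  choose c hc ec using h1
  refine ⟨_, hη, c, mem_kos_kunt hc fun A hA => (mem_nonZeroDivisors_iff.1 hp).1 _ ?_,
    funext fun A => ?_⟩
  · rw [ec, eq_zero_kunt hξ hA, kd_mem_kunt _ hη (by omega), sub_zero]
  · exact (eq_add_of_sub_eq' (ec A).symm)

theorem kex_FlU (ht : t ∈ nonZeroDivisors P) {u : Fin s → P}
    (hu : ∃ c : ℕ, t ^ c ∈ Ideal.span (Set.range u)) {m : ℕ} (hm : 1 ≤ m) {D : ℝ}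
    (hD : (s : ℝ) * m < D) :
    KEx 1 (fun i => shp p t (u i) ^ m) fun j => FlU p t u (D - j * m) := by
  intro n ξ hξ h0
  have hp := Unt.p_reg (p := p) ht
  have iter : ∀ j : ℕ,
      ∃ η ∈ Kos Finset.univ (FlU p t u (D - ((n + 1 : ℕ) : ℝ) * m)) ((n + 1 : ℕ) : ℤ),
      ∃ ξ1 ∈ Kos Finset.univ (FlU p t u (D - n * m)) (n : ℤ),
        kd (fun i => shp p t (u i) ^ m) (Unt p t) ξ1 = 0 ∧
        ξ = kd (fun i => shp p t (u i) ^ m) (Unt p t) η + (p : Unt p t) ^ j • ξ1 := by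
    intro j
    induction j with
    | zero => exact ⟨0, zero_mem _, ξ, hξ, h0, by simp⟩
    | succ j ih =>
      obtain ⟨η, hη, ξ1, h1, h2, h3⟩ := ih
      obtain ⟨η', hη', ξ2, h4, h5⟩ := step_kunt ht hu hm hD n h1 h2
      refine ⟨η + (p : Unt p t) ^ j • η', add_mem hη (Submodule.smul_mem _ _ hη'), ξ2, h4,
        smul_cancel_kunt hp ?_, ?_⟩
      · rwa [h5, map_add, kd_kd_kr, zero_add, map_smul] at h2
      · rw [h3, h5, map_add, map_smul, smul_add, smul_smul, pow_succ, add_assoc]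
  obtain ⟨j, hj⟩ := p_pow_mem_mfl (p := p) hu ((m * (1 + s) + s : ℕ) : ℝ)
  have h1 := Fl_le_pow (hv_shp_mfl t u) (e := 0) (r := m * (1 + s) + s) (by simp) hj
  have h2 := pigeon_mfl _ (Q := m) (m := 1) hm (by simp) h1
  simp only [rt_zero, pow_one] at h2
  obtain ⟨η, hη, ξ1, h3, h4, h5⟩ := iter j
  have h6 := smul_mem_map_kd (fun i => shp p t (u i) ^ m) Finset.univ ⊥
    (FlU p t u (D - n * m)) n _ (by rwa [Finset.coe_univ, Set.image_univ])
    ⟨h3, Submodule.mem_comap.2 (by rw [h4]; exact zero_mem _)⟩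
  rw [Bc, kos_bot, Pi.bot_apply, bot_sup_eq] at h6
  obtain ⟨η', hη', h7⟩ := h6
  have hm' : (0 : ℝ) ≤ m := Nat.cast_nonneg m
  have h8 : FlU p t u (D - n * m) ≤ FlU p t u (D - ((n + 1 : ℕ) : ℝ) * m) :=
    Fl_anti _ (by push_cast; linarith)
  refine ⟨η + η', add_mem hη (kos_mono _ h8 _ hη'), ?_⟩
  rw [map_add, h7, one_smul]
  exact h5.symm

theorem kex_VM (ht : t ∈ nonZeroDivisors P) {u : Fin s → P}
    (hu : ∃ c : ℕ, t ^ c ∈ Ideal.span (Set.range u)) {m : ℕ} (hm : 1 ≤ m) (k : ℕ) :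
    KEx (vp p t k) (fun i => shp p t (u i) ^ m)
      fun j => VM (p : Unt p t) (SI p t u 0 ^ ((s - j) * m)) := by
  obtain ⟨j, hj⟩ := exists_vp_pow_dvd (p := p) t k 2
  obtain ⟨δ, hδ, h1⟩ := exists_vp_mem_FlU (p := p) hu j
  refine KEx.mul (fun n ξ hξ h0 => ?_) hj
  rcases lt_or_ge s n with hn | hn
  · rw [kos_eq_bot _ _ _ (Or.inr (by exact_mod_cast hn)), Submodule.mem_bot] at hξ
    exact ⟨0, zero_mem _, by rw [hξ, map_zero, smul_zero]⟩
  obtain ⟨η, hη, e⟩ := kex_FlU ht hu hm (D := s * m + δ) (by linarith) n (vp p t j ^ 2 • ξ)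
    (mem_kos_kunt (fun A => by
      have h2 := Fl_mul_le (hv_shp_mfl t u) _ _
        (Ideal.mul_mem_mul h1 (vp_mul_mem_FlU ht hu (apply_mem_of_mem_kos hξ A) j))
      rw [Pi.smul_apply, smul_eq_mul, sq, mul_assoc]
      refine Fl_anti _ (le_of_eq ?_) h2
      rw [Nat.cast_mul, Nat.cast_sub hn]
      ring) fun A hA => by rw [Pi.smul_apply, eq_zero_kunt hξ hA, smul_zero])
    (by rw [map_smul, h0, smul_zero])
  refine ⟨η, kos_mono _ ?_ _ hη, by rw [e, one_smul]⟩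
  rcases hn.eq_or_lt with rfl | hn
  · simp only [Nat.sub_eq_zero_of_le (Nat.le_succ n), zero_mul, pow_zero, Ideal.one_eq_top]
    exact le_top.trans (le_VM _ _)
  · refine (Fl_anti _ ?_).trans (FlU_le_VM u _)
    rw [Nat.cast_mul, Nat.cast_sub hn]
    linarith

/-- The Koszul data for the family of valuative closures. -/
theorem exists_eta (ht : t ∈ nonZeroDivisors P) {N c : ℕ} {𝔞 : ℕ → Ideal (Unt p t)}
    (hs : GenBy s (EE N 𝔞 (cst 1))) (hc : ∀ r ≤ N, (p : Unt p t) ^ c ∈ 𝔞 r) (k : ℕ) :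
    ∃ η : Fin (s + 1) → Unt p t,
      (∀ j n, Ge 0 n → ∀ x ∈ VM (p : Unt p t) (EE N 𝔞 n),
        η j * x ∈ VM (p : Unt p t) (EE N 𝔞 (n + cst 1))) ∧
      ∀ m : ℕ, 1 ≤ m → KEx (vp p t k) (fun j => η j ^ m)
        fun j => VM (p : Unt p t) (EE N 𝔞 (cst (((s + 1 - j) * m : ℕ) : ℤ))) := by
  obtain ⟨u, h1, h2, -⟩ := exists_sharp ht hs (pow_mem_EE hc (cst 1))
  refine ⟨fun j => shp p t (u j), fun j n hn x hx => ?_, fun m hm => ?_⟩
  · rw [EE_add (n' := cst 1) hn (fun _ => zero_le_one), mul_comm (EE N 𝔞 n)]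
    exact VM_mul_le _ _ (Ideal.mul_mem_mul (h2.le (le_VM _ _ (shp_mem_SI u j))) hx)
  · have h3 := kex_VM (p := p) ht ⟨_, Ideal.subset_span h1⟩ hm k
    have h4 : ∀ a : ℕ, cst (a : ℤ) = (a : ℤ) • cst 1 := fun a => funext fun r => by simp [cst]
    simp only [h4, EE_smul, ← VM_pow_congr h2]
    exact h3

end Vale.Agent.P177
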