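import Vale.Agent.P177.Ring

/-! The length function that ignores modules killed by a power of an element. -/

namespace Vale.Agent.P177

open Vale.Agent.P202
open scoped ENNReal

universe u

variable {B : Type u} [CommRing B]

section aux

variable (μ : RLen B) {N M P : Type u} [AddCommGroup N] [Module B N] [AddCommGroup M] [Module B M]
  [AddCommGroup P] [Module B P]

private theorem rr_ker_kap (z : B) (g : M →ₗ[B] P) (hg : Function.Surjective g) :
    rr μ (LinearMap.ker g) (LinearMap.range (LinearMap.lsmul B M z)) =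
      μ.len (LinearMap.range (LinearMap.lsmul B P z)) := by
  rw [rr_eq_len_map μ g _ _ rfl]
  have : (LinearMap.range (LinearMap.lsmul B M z)).map g =
      LinearMap.range (LinearMap.lsmul B P z) := by
    ext y
    constructor
    · rintro ⟨_, ⟨x, rfl⟩, rfl⟩
      exact ⟨g x, by simp⟩
    · rintro ⟨y, rfl⟩
      obtain ⟨x, rfl⟩ := hg y
      exact ⟨_, ⟨x, rfl⟩, by simp⟩
  rw [this]

private theorem rr_range_kap (z : B) (f : N →ₗ[B] M) (hf : Function.Injective f) :
    rr μ ⊥ ((LinearMap.range f).map (LinearMap.lsmul B M z)) =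
      μ.len (LinearMap.range (LinearMap.lsmul B N z)) := by
  have : (LinearMap.range f).map (LinearMap.lsmul B M z) =
      (LinearMap.range (LinearMap.lsmul B N z)).map f := by
    rw [← LinearMap.range_comp, ← LinearMap.range_comp]
    congr 1
    ext x
    simp
  rw [this, ← rr_map, Submodule.comap_bot, LinearMap.ker_eq_bot.2 hf, rr_bot]

end aux

/-- The infimum of the sizes of `κ ^ j M`. -/
noncomputable def kap (μ : RLen B) (κ : B) : RLen B where
  len M _ _ := ⨅ j : ℕ, μ.len (LinearMap.range (LinearMap.lsmul B M (κ ^ j)))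
  add_of_exact := by
    intro N M P _ _ _ _ _ _ f g hf hg h
    have hk := LinearMap.exact_iff.1 h
    refine le_antisymm (ENNReal.le_iInf_add_iInf fun i j => (iInf_le _ (i + j)).trans ?_)
      (le_iInf fun j => (add_le_add (iInf_le _ j) (iInf_le _ j)).trans ?_)
    · rw [← rr_bot, ← rr_range_kap μ _ f hf, ← rr_ker_kap μ _ g hg, hk]
      refine (rr_triangle μ _ _ _).trans (add_le_add le_rfl (le_trans (le_of_eq ?_)
        (rr_map_le μ (LinearMap.lsmul B M (κ ^ i)) _ _)))
      rw [← LinearMap.range_comp (LinearMap.lsmul B M (κ ^ j))]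
      congr 2
      ext x
      simp [smul_smul, ← pow_add, add_comm]
    · rw [← rr_range_kap μ _ f hf, ← rr_ker_kap μ _ g hg, hk, ← rr_bot, ← rr_inf μ (LinearMap.range f),
        rr_add μ (bot_le (a := LinearMap.range f ⊓ LinearMap.range (LinearMap.lsmul B M (κ ^ j))))
          inf_le_right]
      refine add_le_add (rr_mono μ le_rfl ?_) le_rfl
      rintro _ ⟨x, hx, rfl⟩
      exact ⟨Submodule.smul_mem _ _ hx, x, rfl⟩
  zero := by
    intro M _ _ _
    exact le_antisymm ((iInf_le _ 0).trans (μ.zero _).le) zero_le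

theorem null_kap (μ : RLen B) (κ : B) : Null (kap μ κ) κ := by
  intro M _ _ h
  refine le_antisymm ((iInf_le _ 1).trans (le_of_eq ?_)) zero_le
  rw [← rr_bot]
  refine rr_eq_zero_of_le μ ?_
  rintro _ ⟨x, rfl⟩
  simpa using h x

theorem kap_q (μ : RLen B) (κ : B) {I : Ideal B} (h1 : μ.q I ≠ ⊤)
    (h2 : μ.q (I ⊔ Ideal.span {κ}) = 0) : (kap μ κ).q I = μ.q I := by
  refine (iInf_congr fun j => ?_).trans iInf_const
  have h3 : rr μ (LinearMap.range (LinearMap.lsmul B (B ⧸ I) (κ ^ j))) ⊤ = 0 := by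
    have h4 := μ.q_pow_le I κ j
    rw [h2, mul_zero, RLen.q, ← rr_top] at h4
    have h5 := rr_map μ (Submodule.mkQ I) (LinearMap.range (LinearMap.lsmul B (B ⧸ I) (κ ^ j))) ⊤
    rw [Submodule.map_top, Submodule.range_mkQ] at h5
    refine le_antisymm (h5.symm.le.trans ((rr_anti_left μ (sup_le ?_ ?_) _).trans h4)) zero_le
    · intro x hx
      exact ⟨0, (map_zero _).trans ((Submodule.Quotient.mk_eq_zero _).2 hx).symm⟩
    · rw [Ideal.span_singleton_le_iff_mem]
      refine ⟨Submodule.mkQ I 1, ?_⟩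
      rw [LinearMap.lsmul_apply, ← map_smul, smul_eq_mul, mul_one]
  rw [RLen.q, μ.equiv (Submodule.topEquiv (R := B) (M := B ⧸ I)).symm, ← rr_bot, ← rr_bot,
    rr_add μ (bot_le (a := LinearMap.range (LinearMap.lsmul B (B ⧸ I) (κ ^ j)))) le_top, h3, add_zero]

end Vale.Agent.P177
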