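import Vale.Agent.P177.VM1

/-! The valuative closures form an almost filtration. -/

namespace Vale.Agent.P177

open Vale.Agent.P202

universe u

variable {p : ℕ} [Fact p.Prime] {P : Type u} [CommRing P] [CharP P p] [PerfectRing P p] {t : P}

theorem EE_add_ev_vm2 {B : Type u} [CommRing B] {N : ℕ} {𝔞 : ℕ → Ideal B} {n : ℕ → ℤ}
    (hn : Ge 0 n) {r : ℕ} (hr : r ≤ N) : EE N 𝔞 (n + ev r) = 𝔞 r * EE N 𝔞 n := by
  rw [EE_add hn (ge_ev r), EE_ev hr, mul_comm]

theorem ge_zero_vm2 {s : ℕ} {n : ℕ → ℤ} (hn : Ge s n) : Ge 0 n :=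
  fun r => le_trans (by simp) (hn r)

/-- A Briancon-Skoda theorem for sharp families. -/
theorem vm_gen_sharp (ht : t ∈ nonZeroDivisors P) {s N : ℕ} (u : ℕ → Fin (s + 1) → P)
    (hu : ∀ r ≤ N, ∃ c : ℕ, t ^ c ∈ Set.range (u r)) {r : ℕ} (hr : r ≤ N) {n : ℕ → ℤ}
    (hn : Ge s n) {x : Unt p t}
    (hx : x ∈ VM (p : Unt p t) (EE N (fun r => SI p t (u r) 0) (n + ev r))) (k : ℕ) :
    vp p t k * x ∈ SI p t (u r) 0 * VM (p : Unt p t) (EE N (fun r => SI p t (u r) 0) n) := by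
  obtain ⟨m, w, ⟨c, hc⟩, hw⟩ := exists_SI_EE (p := p) u N (n + ev r) hu
  obtain ⟨m', w', -, hw'⟩ := exists_SI_EE (p := p) u N n hu
  have h1 := vp_mul_mem_FlU ht ⟨c, Ideal.subset_span hc⟩ (m := 1)
    (by rw [pow_one, hw]; exact hx) k
  refine Fl_le_mfl (fun e r' hr' => ?_) h1
  have h2 : p ^ e ≤ r' := by
    rw [Nat.cast_one, one_mul] at hr'
    exact_mod_cast hr'
  refine (Ideal.pow_le_pow_right h2).trans ?_
  have h3 := SI_pow_le_VM (p := p) (t := t) w' e 1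
  rw [one_mul, pow_one, hw', hw'] at h3
  refine le_trans ?_ (Ideal.mul_mono_right h3)
  have h4 : s ≤ (n r).toNat := by have := hn r; omega
  have h5 : EE N (fun r => SI p t (u r) e) n = SI p t (u r) e ^ (n r).toNat *
      ∏ x ∈ (Finset.range (N + 1)).erase r, SI p t (u x) e ^ (n x).toNat :=
    (Finset.mul_prod_erase _ (fun x => SI p t (u x) e ^ (n x).toNat)
      (Finset.mem_range.2 (by omega))).symm
  change SI p t w e ^ p ^ e ≤ _
  rw [hw, EE_add_ev_vm2 (ge_zero_vm2 hn) hr, h5, ← mul_assoc, ← pow_succ', mul_pow, mul_pow,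
    ← pow_mul, ← pow_mul, ← mul_assoc]
  exact Ideal.mul_mono_left (SI_pow_le (u r) e h4)

theorem filt_VM (ht : t ∈ nonZeroDivisors P) {s N c : ℕ} {𝔞 : ℕ → Ideal (Unt p t)}
    (hs : ∀ r ≤ N, GenBy s (𝔞 r)) (hc : ∀ r ≤ N, (p : Unt p t) ^ c ∈ 𝔞 r) (k : ℕ) :
    Filt N 𝔞 (p : Unt p t) (vp p t k) s fun n => VM (p : Unt p t) (EE N 𝔞 n) := by
  have hmul : ∀ r ≤ N, ∀ n, Ge 0 n → ∀ I : Ideal (Unt p t), VM (p : Unt p t) (I * 𝔞 r) *
      VM (p : Unt p t) (EE N 𝔞 n) ≤ VM (p : Unt p t) (I * EE N 𝔞 (n + ev r)) := by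
    intro r hr n hn I
    rw [EE_add_ev_vm2 hn hr, ← mul_assoc]
    exact VM_mul_le _ _
  refine ⟨?_, fun n n' h => VM_mono h, fun r hr n hn => ?_, fun r hr n hn x hx => ?_,
    fun r hr n hn C y hy => ?_⟩
  · rw [EE_cst_zero, eq_top_iff]
    exact le_VM _ _
  · rw [EE_add_ev_vm2 hn hr]
    exact (Ideal.mul_mono_left (le_VM _ _)).trans (VM_mul_le _ _)
  · choose! u hu1 hu2 hu3 using fun r (hr : r ≤ N) => exists_sharp ht (hs r hr) (hc r hr)
    obtain ⟨j, d, hj⟩ := exists_vp_pow_dvd (p := p) t k (2 * c)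
    have hE := fun n => VM_EE_congr (N := N) hu2 n
    have step : ∀ z ∈ VM (p : Unt p t) (EE N 𝔞 (n + ev r)), vp p t j ^ 2 * z ∈
        𝔞 r * VM (p : Unt p t) (EE N 𝔞 n) ⊔
          Ideal.span {(p : Unt p t)} * VM (p : Unt p t) (EE N 𝔞 (n + ev r)) := by
      intro z hz
      have h1 := vm_gen_sharp ht u (fun r hr => ⟨c, hu1 r hr⟩) hr hn (by rw [hE]; exact hz) j
      rw [hE] at h1
      have h2 := Ideal.mul_mono_left (hu3 r hr) h1
      rw [Ideal.sup_mul] at h2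
      obtain ⟨a, ha, b, hb, hab⟩ := Submodule.mem_sup.1 h2
      have h3 := hmul r hr n (ge_zero_vm2 hn) _ hb
      have h4 := vp_mul_mem_mul ht (N := 1) (by rw [pow_one]; exact h3) j
      rw [pow_one] at h4
      rw [sq, mul_assoc, ← hab, mul_add]
      exact Submodule.add_mem_sup (Ideal.mul_mem_left _ _ ha) h4
    have iter : ∀ i : ℕ, vp p t j ^ (2 * i) * x ∈ 𝔞 r * VM (p : Unt p t) (EE N 𝔞 n) ⊔
        Ideal.span {(p : Unt p t) ^ i} * VM (p : Unt p t) (EE N 𝔞 (n + ev r)) := by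
      intro i
      induction i with
      | zero => exact Ideal.mem_sup_right (Ideal.mul_mem_mul (by simp) hx)
      | succ i ih =>
        obtain ⟨a, ha, b, hb, hab⟩ := Submodule.mem_sup.1 ih
        obtain ⟨z, hz, rfl⟩ := Ideal.mem_span_singleton_mul.1 hb
        obtain ⟨a', ha', b', hb', hab'⟩ := Submodule.mem_sup.1 (step z hz)
        obtain ⟨z', hz', rfl⟩ := Ideal.mem_span_singleton_mul.1 hb'
        have e : vp p t j ^ (2 * (i + 1)) * x =
            (vp p t j ^ 2 * a + (p : Unt p t) ^ i * a') + (p : Unt p t) ^ (i + 1) * z' := by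
          linear_combination (-vp p t j ^ 2) * hab - (p : Unt p t) ^ i * hab'
        rw [e]
        exact Submodule.add_mem_sup
          (add_mem (Ideal.mul_mem_left _ _ ha) (Ideal.mul_mem_left _ _ ha'))
          (Ideal.mul_mem_mul (Ideal.mem_span_singleton_self _) hz')
    have h5 : Ideal.span {(p : Unt p t) ^ c} * VM (p : Unt p t) (EE N 𝔞 (n + ev r)) ≤
        𝔞 r * VM (p : Unt p t) (EE N 𝔞 n) :=
      Ideal.mul_mono ((Ideal.span_singleton_le_iff_mem _).2 (hc r hr))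
        (VM_mono (EE_anti (le_add_setl n (ge_ev r))))
    rw [hj, mul_right_comm]
    exact Ideal.mul_mem_right _ _ ((sup_le le_rfl h5) (iter c))
  · obtain ⟨a, ha⟩ := hs r hr
    refine vp_mul_mem_mul ht (mem_VM_of_mul (I := 𝔞 r)
      (ha ▸ Submodule.fg_span (Set.finite_range a)) (hc r hr) fun h hh => ?_) k
    have h1 := ((Ideal.mul_mono_left (le_VM (p : Unt p t) _)).trans (VM_mul_le _ _)) (hy h hh)
    rwa [EE_add_ev_vm2 (ge_zero_vm2 hn) hr, mul_left_comm] at h1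

end Vale.Agent.P177
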