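import Vale.Agent.P177.LevB
import Vale.Agent.P177.VM2
import Vale.Agent.P177.KUnt
import Vale.Agent.P177.DD

/-! The perfectoid data exist up to a small error. -/

namespace Vale.Agent.P177

open Vale.Agent.P202 MvPowerSeries IsLocalRing
open scoped ENNReal

universe u

theorem Cov.aar_lev {A C U B : Type u} [CommRing A] [IsLocalRing A] [CommRing C] [IsLocalRing C]
    [IsNoetherianRing C] [Algebra A C] [CommRing U] [CommRing B] {p : ℕ} {θ : C}
    {F : Polynomial A} {α : A →+* U} {j : U →+* B} {κ : U} {τ : Fin F.natDegree → C →+* B}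
    (h : Cov p θ F α j κ τ) {σ : Type} {Xv : σ → A} {Δ Γ : A} (hD : Dat p Xv θ F Δ Γ)
    {N c0 c1 : ℕ} {𝔞 : ℕ → Ideal C} (hc : ∀ r ≤ N, (p : C) ^ c0 ∈ 𝔞 r)
    (hL : LAR N 𝔞 ((maximalIdeal A).map (algebraMap A C)) c1) {ϖ : B} {q m : ℕ} (hq : ϖ ^ q = p)
    (hκ : ϖ ^ 2 ∣ j κ) (hd : j (α (Δ * Γ)) ∣ (p : B) ^ m) (i : Fin F.natDegree) :
    AAR N 𝔞 ((maximalIdeal A).map (algebraMap A C)) (3 * (c0 + c1 + 1)) (τ i) (j κ)
      fun n => VM (p : B) (EE N (fun r => (𝔞 r).map (τ i)) n) := by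
  let _ := α.toAlgebra
  have hτp : τ i p = p := map_natCast _ _
  have hpm : (p : C) ∈ (maximalIdeal A).map (algebraMap A C) := by
    rw [← map_natCast (algebraMap A C)]
    exact Ideal.mem_map_of_mem _ (hD.max ▸ Ideal.subset_span (Set.mem_insert _ _))
  have h1 := aar_of_pow (τ i) hc (hq.trans hτp.symm) hκ (m := m * 3)
    (δ := j (α ((Δ * Γ) ^ 3))) (by
      rw [hτp, pow_mul, map_pow, map_pow]
      exact pow_dvd_pow_of_dvd hd 3)
    (Cov.ar_pow h hD.monic hD.root hD.den hD.gam hpm hc hL i)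
  rwa [hτp] at h1

section tower

variable {p : ℕ} [Fact p.Prime] {P P1 P3 : Type u} [CommRing P] [CommRing P1] [CommRing P3]

theorem comm_lev (f : P →+* P1) (h : P1 →+* P3) {t1 : P1} {t3 : P3} (ht : h t1 = t3)
    (a : WittVector p P) : Ideal.Quotient.mk _ (WittVector.map (h.comp f) a) =
      Unt.map p h ht (wmap p f t1 a) := by
  rw [← witt_map_map_mal]
  rfl

theorem wmap_teich_lev (f : P →+* P1) (t1 : P1) (x : P) :
    wmap p f t1 (WittVector.teichmuller p x) = shp p t1 (f x) := by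
  change Ideal.Quotient.mk _ (WittVector.map _ (WittVector.teichmuller p _)) = _
  rw [WittVector.map_teichmuller]
  rfl

theorem kappa_lev [CharP P p] [PerfectRing P p] [CharP P3 p] [PerfectRing P3 p] (f : P →+* P1)
    (h : P1 →+* P3) (t g : P) (k : ℕ) : vp p (h (f t)) k ^ 2 ∣ Unt.map p h (t := f t) rfl
      (wmap p f (f t) (WittVector.teichmuller p (rt p P k (g * t)) ^ 2)) := by
  rw [map_pow, map_pow, wmap_teich_lev, Unt.map_shp, map_mul, map_mul, map_mul, map_mul]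
  have h1 : h (f (rt p P k t)) = rt p P3 k (h (f t)) := map_rt (h.comp f) k t
  rw [h1]
  exact pow_dvd_pow_of_dvd (dvd_mul_left _ _) 2

end tower

variable {p : ℕ} [Fact p.Prime] {l : Type u} [Field l] [CharP l p] [PerfectRing l p] {σ : Type}
  [Finite σ] {C : Type u} [CommRing C] [IsLocalRing C] [IsNoetherianRing C]
  [Algebra (PS σ (WittVector p l)) C] {θ : C} {F : Polynomial (PS σ (WittVector p l))}
  {Δ Γ : PS σ (WittVector p l)}

theorem exists_obj_lev (hD : Dat p X θ F Δ Γ) {N c0 c1 s n0 : ℕ} {𝔞 : ℕ → Ideal C}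
    (hc : ∀ r ≤ N, (p : C) ^ c0 ∈ 𝔞 r) (hs : ∀ r ≤ N, GenBy s (𝔞 r))
    (hs' : GenBy s (EE N 𝔞 (cst 1)))
    (hL : LAR N 𝔞 ((maximalIdeal (PS σ (WittVector p l))).map (algebraMap _ C)) c1)
    (hn : s ≤ n0) {ε : ℝ≥0∞} {P P1 P3 : Type u} [CommRing P] [CommRing P1] [CommRing P3]
    [CharP P3 p] [PerfectRing P3 p] {ι : PS (Option σ) l →+* P}
    {α0 : PS σ (WittVector p l) →+* WittVector p P}
    (hX : ∀ j, α0 (X j) = WittVector.teichmuller p (ι (X (some j)))) (f : P →+* P1)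
    (h : P1 →+* P3) {t1 : P1} (ht1 : f (ι (X none)) = t1) {t3 : P3} (ht : h t1 = t3)
    (hreg : t3 ∈ nonZeroDivisors P3)
    (hcpl : IsAdicComplete (Ideal.span (Set.range fun o => h (f (ι (X o))))) P3)
    {κ0 : WittVector p P} {τ : Fin F.natDegree → C →+* Unt p t3}
    (hcov : Cov p θ F ((wmap p f t1).comp α0) (Unt.map p h ht) (wmap p f t1 κ0) τ) {m k : ℕ}
    (hdiv : Unt.map p h ht (wmap p f t1 (α0 (Δ * Γ))) ∣ (p : Unt p t3) ^ m)
    (hκ2 : vp p t3 k ^ 2 ∣ Unt.map p h ht (wmap p f t1 κ0))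
    (hiso : MIso (wmap p f t1) ((maximalIdeal (PS σ (WittVector p l))).map α0 ⊔
      Ideal.span {WittVector.teichmuller p (ι (X none))})) {μ : RLen (WittVector p P)}
    (hμ1 : μ.q ((maximalIdeal (PS σ (WittVector p l))).map α0 ⊔
      Ideal.span {WittVector.teichmuller p (ι (X none))}) = 1)
    (hμ2 : μ.q (((maximalIdeal (PS σ (WittVector p l))).map α0 ⊔
      Ideal.span {WittVector.teichmuller p (ι (X none))}) ⊔ Ideal.span {κ0}) ≤ ε) :
    ∃ O : Obj (PS σ (WittVector p l)) C F.natDegree (s + 1),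
      O.Ok p θ F N 𝔞 n0 (3 * (c0 + c1 + 1)) ε := by
  have hc1 : ∀ i, ∀ r ≤ N, (p : Unt p t3) ^ c0 ∈ (𝔞 r).map (τ i) :=
    fun i r hr => by simpa using Ideal.mem_map_of_mem (τ i) (hc r hr)
  have hη := fun i => exists_eta hreg (𝔞 := fun r => (𝔞 r).map (τ i))
    (by rw [EE_map]; exact hs'.map _) (hc1 i) k
  choose η hη1 hη2 using hη
  have hκ1 := (dvd_pow_self _ two_ne_zero).trans hκ2
  have ht3 : h (f (ι (X none))) = t3 := ht1 ▸ ht
  have h1 := pri_witt (p := p) hcpl hreg (ht3 ▸ Ideal.subset_span ⟨none, rfl⟩)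
  have h2 : Pri p (WittVector.map (h.comp f) (WittVector.teichmuller p (ι (X none))))
      (((maximalIdeal (PS σ (WittVector p l))).map α0 ⊔
        Ideal.span {WittVector.teichmuller p (ι (X none))}).map (WittVector.map (h.comp f)))
      (Ideal.Quotient.mk _ : WittVector p P3 →+* Unt p t3) := by
    rw [I0_eq hX (h.comp f), WittVector.map_teichmuller, RingHom.comp_apply, ht3]
    exact h1
  have h3 : wmap p f t1 (WittVector.teichmuller p (ι (X none))) = p := by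
    rw [wmap_teich_lev, ht1, shp_self]
  exact ⟨{ A0 := WittVector p P
           AA := WittVector p P3
           U := Unt p t1
           B := Unt p t3
           α0 := α0
           ψ := WittVector.map (h.comp f)
           β0 := wmap p f t1
           β := Ideal.Quotient.mk _
           j := Unt.map p h ht
           t0 := WittVector.teichmuller p (ι (X none))
           κ0 := κ0
           τ := τ
           μ := μ
           M := fun i n => VM (p : Unt p t3) (EE N (fun r => (𝔞 r).map (τ i)) n)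
           η := η }, comm_lev f h ht, h2, hcov, h3, hiso.n1, hiso.n2, hμ1, hμ2,
    fun i => (filt_VM hreg (fun r hr => (hs r hr).map _) (hc1 i) k).weaken hκ1 hn,
    hη1, fun i m hm => (hη2 i m hm).mul hκ1, hcov.aar_lev hD hc hL (vp_pow _ k) hκ2 hdiv⟩

theorem exists_level (hD : Dat p X θ F Δ Γ) {N c0 c1 s n0 : ℕ} {𝔞 : ℕ → Ideal C}
    (hc : ∀ r ≤ N, (p : C) ^ c0 ∈ 𝔞 r) (hs : ∀ r ≤ N, GenBy s (𝔞 r))
    (hs' : GenBy s (EE N 𝔞 (cst 1)))
    (hL : LAR N 𝔞 ((maximalIdeal (PS σ (WittVector p l))).map (algebraMap _ C)) c1)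
    (hn : s ≤ n0) {ε : ℝ≥0∞} (hε : 0 < ε) :
    ∃ O : Obj (PS σ (WittVector p l)) C F.natDegree (s + 1),
      O.Ok p θ F N 𝔞 n0 (3 * (c0 + c1 + 1)) ε := by
  have : IsDomain (PS σ (WittVector p l)) := NoZeroDivisors.to_isDomain _
  obtain ⟨e, Δ', he, hc'⟩ := exists_factor (mul_ne_zero hD.ne1 hD.ne2)
  obtain ⟨C0, hC0⟩ := exists_mu p hc'
  obtain ⟨k0, hk0⟩ := ENNReal.exists_nat_mul_gt hε.ne' (ENNReal.natCast_ne_top C0)
  obtain ⟨k, hk3, hkε⟩ : ∃ k : ℕ, 3 ≤ p ^ k ∧ (C0 : ℝ≥0∞) ≤ ((p ^ k : ℕ) : ℝ≥0∞) * ε := by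
    have hQ : k0 + 3 < p ^ (k0 + 3) := Nat.lt_pow_self (Fact.out : p.Prime).one_lt
    exact ⟨k0 + 3, by omega, hk0.le.trans (mul_le_mul_left (Nat.cast_le.2 (by omega)) ε)⟩
  obtain ⟨P, _, _, _, ι, α0, z, hP, hX, hα, hz⟩ := exists_cov0 hD.monic (2 * (2 * p ^ k + e) + 1)
  obtain ⟨μ, hμ1, hμ2⟩ := hC0 P ι α0 hP hX
  obtain ⟨g, hg1, hg2⟩ := approx hP.t_reg (Ideal.Quotient.mk _ (α0 Δ') : Unt p (ι (X none)))
    (ι (rename some (MvPowerSeries.map WittVector.constantCoeff Δ'))) (by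
      rw [← Unt.ker_red, RingHom.mem_ker, map_sub, Unt.red_shp, Unt.red_mk, hα, sub_self])
    (2 * (2 * p ^ k + e) + 1)
  obtain ⟨P1, _, _, _, P2, _, _, _, P3, _, _, _, f1, f2, f3, hT⟩ := exists_tw hP hc' hg1 hk3
  obtain ⟨τ, hcov, hdiv⟩ := exists_cov hT hD hα he le_rfl hz hg2
  exact exists_obj_lev hD hc hs hs' hL hn hX f1 (f3.comp f2) rfl rfl hT.reg3 hT.cpl hcov hdiv
    (kappa_lev f1 (f3.comp f2) _ g k) (miso_wmap hX hT.iso) hμ1
    ((ENNReal.mul_le_mul_iff_right (Nat.cast_ne_zero.2 (by omega))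
      (ENNReal.natCast_ne_top _)).1 ((hμ2 k g hg1).trans hkε))

end Vale.Agent.P177
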