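import Vale.Agent.P177.ValF
import Vale.Agent.P177.PDefs
import Vale.Agent.P202.MApx

/-! Homomorphisms attached to exact roots. -/

namespace Vale.Agent.P177

open Vale.Agent.P202 Polynomial

universe u

theorem exists_tau {A C B : Type u} [CommRing A] [CommRing C] [CommRing B] [Algebra A C]
    [Algebra.IsIntegral A C] {θ : C} {F : A[X]} {Δ : A} (h0 : aeval θ F = 0)
    (hker : ∀ H : A[X], aeval θ H = 0 → F ∣ H) (hden : ∀ c : C, ∃ H : A[X], aeval θ H = Δ • c)
    {π : B} (hπ : π ∈ nonZeroDivisors B)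
    (hsat : ∀ N : ℕ, VM π (Ideal.span {π ^ N}) ≤ Ideal.span {π ^ N}) (α : A →+* B) {m : ℕ}
    (hΔ : α Δ ∣ π ^ m) {r : B} (hr : F.eval₂ α r = 0) :
    ∃ τ : C →+* B, (∀ a, τ (algebraMap A C a) = α a) ∧ τ θ = r := by
  have _ := h0
  obtain ⟨δ, hδ⟩ := hΔ
  have hm : α Δ * δ ∈ nonZeroDivisors B := hδ ▸ pow_mem hπ m
  obtain ⟨h1, h2⟩ := mul_mem_nonZeroDivisors.1 hm
  have wd : ∀ H H' : A[X], aeval θ H = aeval θ H' → H.eval₂ α r = H'.eval₂ α r := fun H H' h => by
    obtain ⟨G, hG⟩ := hker (H - H') (by rw [map_sub, h, sub_self])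
    rw [← sub_eq_zero, ← eval₂_sub, hG, eval₂_mul, hr, zero_mul]
  have ex : ∀ c : C, ∃ y, ∀ H : A[X], aeval θ H = Δ • c → α Δ * y = H.eval₂ α r := fun c => by
    obtain ⟨H, hH⟩ := hden c
    obtain ⟨Q, hQ, hc⟩ := Algebra.IsIntegral.isIntegral (R := A) c
    have h3 := wd ((Q.scaleRoots Δ).comp H) 0 (by
      rw [aeval_comp, hH, map_zero, Algebra.smul_def]
      exact scaleRoots_aeval_eq_zero hc)
    rw [eval₂_zero, eval₂_comp, eval₂_eq_sum_range, natDegree_scaleRoots, Finset.sum_range_succ,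
      coeff_scaleRoots_natDegree, hQ.leadingCoeff, map_one, one_mul, add_comm] at h3
    simp only [coeff_scaleRoots, map_mul, map_pow] at h3
    suffices h : ∃ y, α Δ * y = H.eval₂ α r from
      h.imp fun y hy H' hH' => hy.trans (wd H H' (hH.trans hH'.symm))
    rcases Nat.eq_zero_or_pos Q.natDegree with hn | hn
    · rw [hn, pow_zero, Finset.sum_range_zero, add_zero] at h3
      have := subsingleton_of_zero_eq_one h3.symm
      exact ⟨0, Subsingleton.elim _ _⟩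
    have h4 : VLe (H.eval₂ α r) (α Δ) 0 :=
      vle_of_eq hn (fun j => α (Q.coeff j)) (by rw [h3]; exact zero_mem _)
    have h5 : δ * H.eval₂ α r ∈ VM π (Ideal.span {π ^ m}) := fun Γ _ v hv _ c hc => by
      have h6 := h4 Γ v hv
      rw [map_zero, max_eq_left zero_le] at h6
      refine le_trans ?_ (hc _ (Ideal.mem_span_singleton_self _))
      rw [hδ, map_mul, map_mul, mul_comm]
      exact mul_le_mul_left h6 _
    obtain ⟨y, hy⟩ := Ideal.mem_span_singleton'.1 (hsat m h5)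
    refine ⟨y, (mul_cancel_left_mem_nonZeroDivisors h2).1 ?_⟩
    rw [← hy, hδ]
    ring
  choose τ hτ using ex
  have key : ∀ c y (H : A[X]), aeval θ H = Δ • c → H.eval₂ α r = α Δ * y → τ c = y :=
    fun c y H h3 h4 => (mul_cancel_left_mem_nonZeroDivisors h1).1 ((hτ c H h3).trans h4)
  have halg : ∀ a, τ (algebraMap A C a) = α a := fun a => key _ _ (Polynomial.C (Δ * a))
    (by rw [aeval_C, map_mul, Algebra.smul_def]) (by rw [eval₂_C, map_mul])
  refine ⟨⟨⟨⟨τ, by simpa using halg 1⟩, fun c c' => ?_⟩, by simpa using halg 0, fun c c' => ?_⟩,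
    halg, key _ _ (Polynomial.C Δ * X) (by rw [map_mul, aeval_C, aeval_X, Algebra.smul_def])
      (by rw [eval₂_mul, eval₂_C, eval₂_X])⟩
  all_goals
    obtain ⟨H, hH⟩ := hden c
    obtain ⟨H', hH'⟩ := hden c'
  · obtain ⟨G, hG⟩ := hden (c * c')
    have h3 := wd (Polynomial.C Δ * G) (H * H') (by
      rw [map_mul, map_mul, aeval_C, hG, hH, hH', ← Algebra.smul_def, smul_mul_smul_comm, mul_smul])
    rw [eval₂_mul, eval₂_mul, eval₂_C, ← hτ c H hH, ← hτ c' H' hH'] at h3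
    exact key _ _ G hG ((mul_cancel_left_mem_nonZeroDivisors h1).1 (h3.trans (by ring)))
  · exact key _ _ (H + H') (by rw [map_add, hH, hH', smul_add])
      (by rw [eval₂_add, mul_add, hτ c H hH, hτ c' H' hH'])

variable {p : ℕ} [Fact p.Prime] {P : Type u} [CommRing P] [CharP P p] [PerfectRing P p] {t : P}

theorem vp_pow (t : P) (k : ℕ) : vp p t k ^ p ^ k = p := by
  rw [vp, ← map_pow, rt_pow, shp_self]

theorem vp_add_pow (t : P) (k j : ℕ) : vp p t (k + j) ^ p ^ j = vp p t k := by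
  rw [vp, vp, ← map_pow, rt_add_pow]

/-- A power of a deeper root divides a given root. -/
theorem exists_vp_pow_dvd (t : P) (k n : ℕ) : ∃ j, vp p t j ^ n ∣ vp p t k := by
  refine ⟨k + n, ?_⟩
  rw [← vp_add_pow t k n]
  exact pow_dvd_pow _ (Nat.lt_pow_self (Fact.out : p.Prime).one_lt).le

/-- Valuative divisibility implies almost divisibility. -/
theorem vp_mul_mem (ht : t ∈ nonZeroDivisors P) {N : ℕ} {b : Unt p t}
    (hb : b ∈ VM (p : Unt p t) (Ideal.span {(p : Unt p t) ^ N})) (k : ℕ) :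
    vp p t k * b ∈ Ideal.span {(p : Unt p t) ^ N} := by
  have h1 : VLe ((p : Unt p t) * b) (shp p t (t ^ (N + 1))) (shp p t (t ^ (N + 1))) := by
    intro Γ _ v hv
    rw [max_self, map_pow, shp_self, map_mul, pow_succ', map_mul]
    by_cases h0 : v p = 0
    · rw [h0, zero_mul, zero_mul]
    · exact mul_le_mul_right (hb Γ v hv h0 _ fun y hy => val_le_of_mem_singleton_MApx v hv hy) _
  have h2 := h1.mem ht ⟨N + 1, dvd_rfl⟩ (k + 3 * (N + 1))
  rw [Set.pair_eq_singleton, Ideal.span_singleton_pow, map_pow, map_pow, ← pow_mul, ← vp,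
    Ideal.mem_span_singleton] at h2
  have hp := (Fact.out : p.Prime).one_lt
  have h3 : 3 * (N + 1) < p ^ (3 * (N + 1)) := Nat.lt_pow_self hp
  have h4 : p ^ (3 * (N + 1)) ≤ p ^ (k + 3 * (N + 1)) := Nat.pow_le_pow_right hp.le (by omega)
  obtain ⟨q, hq⟩ : ∃ q, p ^ (k + 3 * (N + 1)) = q + 3 := ⟨p ^ (k + 3 * (N + 1)) - 3, by omega⟩
  have h5 : (p : Unt p t) ^ (N + 1) ∣ vp p t k * (p * b) := by
    refine dvd_trans ?_ (mul_dvd_mul (vp_add_pow t k (3 * (N + 1))).dvd h2)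
    rw [← vp_pow t (k + 3 * (N + 1)), ← pow_mul, ← pow_add, hq, Nat.add_sub_cancel]
    exact pow_dvd_pow _ (by nlinarith)
  obtain ⟨c, hc⟩ := h5
  refine Ideal.mem_span_singleton.2 ⟨c, (mul_cancel_left_mem_nonZeroDivisors (Unt.p_reg ht)).1 ?_⟩
  rw [mul_left_comm, hc]
  ring

theorem vp_mul_mem_mul (ht : t ∈ nonZeroDivisors P) {N : ℕ} {b : Unt p t} {J : Ideal (Unt p t)}
    (hb : b ∈ VM (p : Unt p t) (Ideal.span {(p : Unt p t) ^ N} * J)) (k : ℕ) :
    vp p t k * b ∈ Ideal.span {(p : Unt p t) ^ N} * VM (p : Unt p t) J := by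
  obtain ⟨c, hc⟩ := Ideal.mem_span_singleton.1 (vp_mul_mem ht (VM_mono Ideal.mul_le_left hb) k)
  rw [hc]
  exact Ideal.mul_mem_mul (Ideal.mem_span_singleton_self _)
    (mem_VM_of_pow_mul (hc ▸ Ideal.mul_mem_left _ _ hb))

theorem Sat.hsat (ht : t ∈ nonZeroDivisors P) (h : Sat p t) (N : ℕ) :
    VM (p : Unt p t) (Ideal.span {(p : Unt p t) ^ N}) ≤ Ideal.span {(p : Unt p t) ^ N} := by
  induction N with
  | zero => simp
  | succ N ih =>
    intro b hb
    rw [pow_succ, ← Ideal.span_singleton_mul_span_singleton] at hb ⊢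
    obtain ⟨c, rfl⟩ := Ideal.mem_span_singleton.1 (ih (VM_mono Ideal.mul_le_left hb))
    refine Ideal.mul_mem_mul (Ideal.mem_span_singleton_self _) ?_
    have h1 := mem_VM_of_pow_mul hb
    obtain ⟨x, hx⟩ := exists_shp t c
    rw [← Unt.ker_red, RingHom.mem_ker, map_sub, Unt.red_shp, sub_eq_zero] at hx
    rw [← Unt.ker_red, RingHom.mem_ker, hx, Ideal.Quotient.eq_zero_iff_mem]
    refine h x fun j => ?_
    have h2 := vp_mul_mem ht (N := 1) (by rwa [pow_one]) j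
    rwa [pow_one, ← Unt.ker_red, RingHom.mem_ker, map_mul, hx, vp, Unt.red_shp, ← map_mul,
      Ideal.Quotient.eq_zero_iff_mem] at h2

/-- A good approximation by a sharp element that divides a power of `p`. -/
theorem Sat.dvd_pow (ht : t ∈ nonZeroDivisors P) (h : Sat p t) {g : P} {Γ γ : ℕ} (hg : g ∣ t ^ Γ)
    (hγ : Γ + 1 ≤ γ) {b : Unt p t} (hb : VLe (b - shp p t g) (p * shp p t g) (p ^ γ)) :
    b ∣ (p : Unt p t) ^ Γ := by
  obtain ⟨T, hT⟩ := hg
  have h1 : (p : Unt p t) ^ Γ = shp p t g * shp p t T := by rw [← map_mul, ← hT, map_pow, shp_self]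
  have h2 : shp p t T * (b - shp p t g) ∈
      VM (p : Unt p t) (Ideal.span {(p : Unt p t) ^ (Γ + 1)}) := fun Γ' _ v hv _ c hc => by
    rw [map_mul]
    refine (mul_le_mul_right (hb Γ' v hv) _).trans ?_
    rw [mul_max, ← map_mul, ← map_mul]
    refine max_le (hc _ (Ideal.mem_span_singleton.2 ⟨1, ?_⟩))
      (hc _ (Ideal.mul_mem_left _ _ (Ideal.mem_span_singleton.2 (pow_dvd_pow _ hγ))))
    rw [pow_succ, h1]
    ring
  obtain ⟨y, hy⟩ := Ideal.mem_span_singleton.1 (h.hsat ht _ h2)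
  refine (Unt.jac t (-y)).dvd_mul_right.1 ⟨shp p t T, ?_⟩
  linear_combination h1 - hy

end Vale.Agent.P177
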