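import Vale.Agent.P177.Cpl

/-! Witt vectors of complete perfect rings. -/

namespace Vale.Agent.P177

open Vale.Agent.P202

universe u

variable {p : ℕ} [Fact p.Prime] {P : Type u} [CommRing P] [CharP P p] [PerfectRing P p]
  {σ : Type} [Finite σ]

omit [CharP P p] [PerfectRing P p] in
theorem cc_surj_wcpl : Function.Surjective
    (WittVector.constantCoeff : WittVector p P →+* P) := fun x =>
  ⟨WittVector.teichmuller p x, rfl⟩

omit [Finite σ] in
theorem mem_witt_span (v : σ → P) (a : WittVector p P) :
    a ∈ Ideal.span (insert (p : WittVector p P)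
      (Set.range fun o => WittVector.teichmuller p (v o))) ↔
      a.coeff 0 ∈ Ideal.span (Set.range v) := by
  have e : Ideal.span (Set.range v) =
      (Ideal.span (Set.range fun o => WittVector.teichmuller p (v o))).map
        (WittVector.constantCoeff : WittVector p P →+* P) := by
    rw [Ideal.map_span, ← Set.range_comp]
    rfl
  have h := Ideal.comap_map_of_surjective (WittVector.constantCoeff : WittVector p P →+* P)
    cc_surj_wcpl (Ideal.span (Set.range fun o => WittVector.teichmuller p (v o)))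
  rw [← RingHom.ker_eq_comap_bot, WittVector.ker_constantCoeff] at h
  rw [Ideal.span_insert, sup_comm, ← h, e, Ideal.mem_comap]
  rfl

omit [Finite σ] in
theorem mem_unt_span (t : P) (v : σ → P) (ht : t ∈ Ideal.span (Set.range v))
    (a : WittVector p P) : (Ideal.Quotient.mk _ a : Unt p t) ∈ Ideal.span (insert (p : Unt p t)
      (Set.range fun o => shp p t (v o))) ↔ a.coeff 0 ∈ Ideal.span (Set.range v) := by
  have e : (Set.range fun o => shp p t (v o)) = shp p t '' Set.range v := by
    rw [← Set.range_comp]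
    rfl
  rw [e, ← comap_red_span, Ideal.mem_comap, Unt.red_mk, Ideal.mem_quotient_iff_mem_sup,
    sup_eq_left.2]
  rwa [Ideal.span_le, Set.singleton_subset_iff]

/-- Witt vectors whose first `m` coefficients lie in `K`. -/
noncomputable def TWc (p : ℕ) [Fact p.Prime] {P : Type u} [CommRing P] (K : Ideal P) (m : ℕ) :
    Ideal (WittVector p P) :=
  RingHom.ker ((WittVector.truncate m).comp (WittVector.map (Ideal.Quotient.mk K)))

omit [CharP P p] [PerfectRing P p] in
theorem sub_mem_TWc (K : Ideal P) (m : ℕ) (a b : WittVector p P) :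
    a - b ∈ TWc p K m ↔ ∀ i < m, a.coeff i - b.coeff i ∈ K := by
  rw [TWc, RingHom.mem_ker, map_sub, sub_eq_zero, TruncatedWittVector.ext_iff]
  simp only [RingHom.comp_apply, WittVector.coeff_truncate, WittVector.map_coeff,
    Ideal.Quotient.eq]
  exact Fin.forall_iff

omit [CharP P p] [PerfectRing P p] in
theorem mem_TWc (K : Ideal P) (m : ℕ) (a : WittVector p P) :
    a ∈ TWc p K m ↔ ∀ i < m, a.coeff i ∈ K := by
  have := sub_mem_TWc K m a 0
  simpa only [sub_zero, WittVector.zero_coeff] using this

/-- The ideal generated by the `p ^ e`-th powers of the family. -/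
def FPc (p : ℕ) {P : Type u} [CommRing P] {σ : Type} (v : σ → P) (e : ℕ) : Ideal P :=
  Ideal.span (Set.range fun o => v o ^ p ^ e)

omit [Finite σ] in
theorem mem_FPc_of_pow (v : σ → P) (e : ℕ) {x : P} (h : x ^ p ∈ FPc p v (e + 1)) :
    x ∈ FPc p v e := by
  have h1 := Ideal.mem_map_of_mem (rt p P 1) h
  have h2 : rt p P 1 (x ^ p) = x := by rw [map_pow, rt_succ_pow 0, rt_zero]
  rw [h2, FPc, Ideal.map_span, ← Set.range_comp] at h1
  have e1 : (⇑(rt p P 1) ∘ fun o => v o ^ p ^ (e + 1)) = fun o => v o ^ p ^ e := by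
    funext o
    rw [Function.comp_apply, pow_succ', pow_mul, map_pow, map_pow, rt_succ_pow 0, rt_zero]
  rwa [e1] at h1

omit [CharP P p] [PerfectRing P p] [Finite σ] in
theorem FPc_le (v : σ → P) (e : ℕ) : FPc p v e ≤ Ideal.span (Set.range v) ^ e := by
  rw [FPc, Ideal.span_le]
  rintro _ ⟨o, rfl⟩
  exact Ideal.pow_le_pow_right (Nat.lt_pow_self (Fact.out : p.Prime).one_lt).le
    (Ideal.pow_mem_pow (Ideal.subset_span (Set.mem_range_self o)) _)

omit [Fact p.Prime] [CharP P p] [PerfectRing P p] in
theorem exists_pow_le_FPc (v : σ → P) (e : ℕ) :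
    ∃ d : ℕ, Ideal.span (Set.range v) ^ d ≤ FPc p v e := by
  refine Ideal.exists_pow_le_of_le_radical_of_fg ?_
    (Submodule.fg_span (Set.finite_range v))
  rw [Ideal.span_le]
  rintro _ ⟨o, rfl⟩
  exact ⟨p ^ e, Ideal.subset_span ⟨o, rfl⟩⟩

theorem TWc_le_pow (v : σ → P) (N : ℕ) : TWc p (FPc p v N) N ≤
    Ideal.span (insert (p : WittVector p P)
      (Set.range fun o => WittVector.teichmuller p (v o))) ^ N := by
  classical
  have := Fintype.ofFinite σ
  induction N with
  | zero => simp
  | succ N ih =>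
    intro a ha
    have h0 := (mem_TWc _ _ a).1 ha 0 (Nat.succ_pos N)
    obtain ⟨c, hc⟩ := Ideal.mem_span_range_iff_exists_fun.1 h0
    let s : WittVector p P := ∑ o, WittVector.teichmuller p (c o * v o ^ p ^ (N + 1))
    have hs1 : s ∈ TWc p (FPc p v (N + 1)) (N + 1) := by
      refine Ideal.sum_mem _ fun o _ => (mem_TWc _ _ _).2 fun i _ => ?_
      rcases Nat.eq_zero_or_pos i with rfl | hi
      · exact Ideal.mul_mem_left _ _ (Ideal.subset_span ⟨o, rfl⟩)
      · rw [WittVector.teichmuller_coeff_pos p _ i hi]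
        exact zero_mem _
    have hs2 : s ∈ Ideal.span (insert (p : WittVector p P)
        (Set.range fun o => WittVector.teichmuller p (v o))) ^ (N + 1) := by
      refine Ideal.sum_mem _ fun o _ => ?_
      rw [map_mul, map_pow]
      refine Ideal.mul_mem_left _ _ (Ideal.pow_le_pow_right
        (Nat.lt_pow_self (Fact.out : p.Prime).one_lt).le (Ideal.pow_mem_pow ?_ _))
      exact Ideal.subset_span (Set.mem_insert_of_mem _ ⟨o, rfl⟩)
    have h1 : a - s ∈ Ideal.span {(p : WittVector p P)} := by
      rw [← WittVector.ker_constantCoeff, RingHom.mem_ker, map_sub, sub_eq_zero, map_sum]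
      exact hc.symm
    obtain ⟨b, hb⟩ := Ideal.mem_span_singleton'.1 h1
    have h2 : b ∈ TWc p (FPc p v N) N := by
      refine (mem_TWc _ _ _).2 fun i hi => mem_FPc_of_pow v N ?_
      rw [← WittVector.mul_charP_coeff_succ, hb]
      exact (mem_TWc _ _ _).1 (sub_mem ha hs1) (i + 1) (Nat.succ_lt_succ hi)
    have h3 : a = b * p + s := by rw [hb, sub_add_cancel]
    rw [h3]
    refine add_mem ?_ hs2
    rw [pow_succ]
    exact Ideal.mul_mem_mul (ih h2) (Ideal.subset_span (Set.mem_insert _ _))

theorem exists_pow_le_TWc (v : σ → P) (n : ℕ) : ∃ c : ℕ,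
    Ideal.span (insert (p : WittVector p P)
      (Set.range fun o => WittVector.teichmuller p (v o))) ^ c ≤
      TWc p (Ideal.span (Set.range v) ^ n) n := by
  refine Ideal.exists_pow_le_of_le_radical_of_fg ?_
    (Submodule.fg_span ((Set.finite_range _).insert _))
  rw [Ideal.span_le]
  rintro _ (rfl | ⟨o, rfl⟩)
  · refine ⟨n, (mem_TWc _ _ _).2 fun i hi => ?_⟩
    rw [(WittVector.mem_span_p_pow_iff_le_coeff_eq_zero _ n).1 (Ideal.subset_span rfl) i hi]
    exact zero_mem _
  · refine ⟨n, (mem_TWc _ _ _).2 fun i _ => ?_⟩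
    rw [← map_pow]
    rcases Nat.eq_zero_or_pos i with rfl | hi
    · exact Ideal.pow_mem_pow (Ideal.subset_span (Set.mem_range_self o)) n
    · rw [WittVector.teichmuller_coeff_pos p _ i hi]
      exact zero_mem _

theorem smodEq_wcpl {A : Type u} [CommRing A] (I : Ideal A) (n : ℕ) (a b : A) :
    (a ≡ b [SMOD (I ^ n • ⊤ : Submodule A A)]) ↔ a - b ∈ I ^ n := by
  rw [SModEq.sub_mem, smul_eq_mul, Ideal.mul_top]

theorem witt_complete {v : σ → P} (h : IsAdicComplete (Ideal.span (Set.range v)) P) :
    IsAdicComplete (Ideal.span (insert (p : WittVector p P)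
      (Set.range fun o => WittVector.teichmuller p (v o)))) (WittVector p P) := by
  choose c hc using exists_pow_le_TWc (p := p) v
  refine { haus' := fun z hz => ?_, prec' := fun f hf => ?_ }
  · ext i
    rw [WittVector.zero_coeff]
    refine h.toIsHausdorff.haus _ fun n => ?_
    have h1 := (smodEq_wcpl _ _ _ _).1 (hz (c (n + i + 1)))
    rw [sub_zero] at h1
    rw [smodEq_wcpl, sub_zero]
    exact Ideal.pow_le_pow_right (by omega)
      ((mem_TWc _ _ _).1 (hc _ h1) i (by omega))
  · have key : ∀ {n M M' : ℕ}, c n ≤ M → c n ≤ M' → ∀ i < n,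
        (f M).coeff i - (f M').coeff i ∈ Ideal.span (Set.range v) ^ n := by
      intro n M M' h1 h2
      rw [← sub_mem_TWc]
      have e : f M - f M' = (f (c n) - f M') - (f (c n) - f M) := by ring
      rw [e]
      exact hc n (sub_mem ((smodEq_wcpl _ _ _ _).1 (hf h2)) ((smodEq_wcpl _ _ _ _).1 (hf h1)))
    have hL : ∀ i, ∃ L, ∀ n, (f (c (n + i + 1))).coeff i - L ∈ Ideal.span (Set.range v) ^ n := by
      intro i
      obtain ⟨L, hL⟩ := h.toIsPrecomplete.prec (f := fun n => (f (c (n + i + 1))).coeff i)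
        fun {m n} hmn => by
          rw [smodEq_wcpl]
          rcases le_total (c (m + i + 1)) (c (n + i + 1)) with h1 | h1
          · exact Ideal.pow_le_pow_right (by omega) (key le_rfl h1 i (by omega))
          · exact Ideal.pow_le_pow_right (by omega) (key h1 le_rfl i (by omega))
      exact ⟨L, fun n => (smodEq_wcpl _ _ _ _).1 (hL n)⟩
    choose L hL using hL
    refine ⟨WittVector.mk p L, fun N => ?_⟩
    obtain ⟨d, hd⟩ := exists_pow_le_FPc (p := p) v N
    let M := N + ∑ i ∈ Finset.range N, c (d + i + 1)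
    have h1 : f M - WittVector.mk p L ∈ TWc p (FPc p v N) N := by
      rw [sub_mem_TWc]
      intro i hi
      have h2 : c (d + i + 1) ≤ M :=
        (Finset.single_le_sum (f := fun i => c (d + i + 1)) (fun _ _ => Nat.zero_le _)
          (Finset.mem_range.2 hi)).trans (Nat.le_add_left _ _)
      have e : (f M).coeff i - (WittVector.mk p L).coeff i =
          ((f M).coeff i - (f (c (d + i + 1))).coeff i) + ((f (c (d + i + 1))).coeff i - L i) := by
        rw [WittVector.coeff_mk]
        ring
      rw [e]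
      exact hd (add_mem (Ideal.pow_le_pow_right (by omega) (key h2 le_rfl i (by omega))) (hL i d))
    have e : f N - WittVector.mk p L = (f N - f M) + (f M - WittVector.mk p L) := by ring
    rw [smodEq_wcpl, e]
    exact add_mem ((smodEq_wcpl _ _ _ _).1 (hf (Nat.le_add_right _ _))) (TWc_le_pow v N h1)

theorem pri_witt {v : σ → P} (h : IsAdicComplete (Ideal.span (Set.range v)) P) {t : P}
    (ht : t ∈ nonZeroDivisors P) (htv : t ∈ Ideal.span (Set.range v)) :
    Pri p (WittVector.teichmuller p t) (Ideal.span (insert (p : WittVector p P)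
      (Set.range fun o => WittVector.teichmuller p (v o))))
      (Ideal.Quotient.mk _ : WittVector p P →+* Unt p t) := by
  have hp : ∀ z : WittVector p P, p * z = 0 → z = 0 := fun z hz =>
    WittVector.eq_zero_of_p_mul_eq_zero z (by rw [mul_comm, hz])
  refine ⟨Ideal.Quotient.mk_surjective, Ideal.mk_ker, witt_complete h,
    mem_nonZeroDivisors_iff_left.2 hp, ?_, fun z hz => ?_, fun J c u hJ hu => ?_⟩
  · have := (lemmaL_unt (π := (p : WittVector p P)) (I := ⊥)
      (x := (p : WittVector p P) - WittVector.teichmuller p t)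
      (fun z hz => by
        rw [Ideal.mem_bot] at hz ⊢
        exact hp z hz)
      (cplU_bot _ inferInstance) (fun z hz => by
        rw [bot_sup_eq, ← WittVector.ker_constantCoeff, RingHom.mem_ker] at hz ⊢
        rw [map_mul, map_sub, map_natCast, CharP.cast_eq_zero, zero_sub, neg_mul,
          neg_eq_zero] at hz
        exact (mem_nonZeroDivisors_iff.1 ht).1 _ hz)).1
    exact mem_nonZeroDivisors_iff_left.2 this
  · rw [← WittVector.ker_constantCoeff, RingHom.mem_ker] at hz ⊢
    rw [map_mul] at hz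
    exact (mem_nonZeroDivisors_iff.1 ht).1 _ hz
  · by_contra hu0
    obtain ⟨𝔫, h𝔫, hun⟩ := exists_max_ideal_of_mem_nonunits hu0
    have hI : Ideal.span (insert (p : WittVector p P)
        (Set.range fun o => WittVector.teichmuller p (v o))) ≤ 𝔫 := by
      have := witt_complete (p := p) h
      exact (IsAdicComplete.le_jacobson_bot _).trans (sInf_le ⟨bot_le, h𝔫⟩)
    have hk : RingHom.ker (WittVector.constantCoeff : WittVector p P →+* P) ≤ 𝔫 := by
      rw [WittVector.ker_constantCoeff, Ideal.span_le, Set.singleton_subset_iff]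
      exact hI (Ideal.subset_span (Set.mem_insert _ _))
    have := h𝔫.isPrime
    have hJn : J ≤ 𝔫 := Ideal.IsPrime.le_of_pow_le (hJ.trans hI)
    let Q : Ideal P := 𝔫.map (WittVector.constantCoeff : WittVector p P →+* P)
    have hQ : Q.IsPrime := Ideal.map_isPrime_of_surjective cc_surj_wcpl hk
    have : CharP (P ⧸ Q) p := by
      refine (CharP.charP_iff_prime_eq_zero Fact.out).2 ?_
      rw [← map_natCast (Ideal.Quotient.mk Q) p, CharP.cast_eq_zero, map_zero]
    have : PerfectRing (P ⧸ Q) p := by
      refine PerfectRing.ofSurjective _ p fun y => ?_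
      obtain ⟨x, rfl⟩ := Ideal.Quotient.mk_surjective y
      refine ⟨Ideal.Quotient.mk Q (rt p P 1 x), ?_⟩
      rw [frobenius_def, ← map_pow, rt_succ_pow 0, rt_zero]
    let φ : WittVector p P →+* WittVector p (P ⧸ Q) := WittVector.map (Ideal.Quotient.mk Q)
    have hφ : ∀ a ∈ 𝔫, φ a ∈ Ideal.span {(p : WittVector p (P ⧸ Q))} := by
      intro a ha
      rw [WittVector.mem_span_p_iff_coeff_zero_eq_zero, WittVector.map_coeff,
        Ideal.Quotient.eq_zero_iff_mem]
      exact Ideal.mem_map_of_mem _ ha
    have hφJ : J.map φ ≤ Ideal.span {(p : WittVector p (P ⧸ Q))} :=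
      Ideal.map_le_iff_le_comap.2 fun a ha => hφ a (hJn ha)
    have htQ : t ∈ Q := by
      have h1 : WittVector.teichmuller p t ∈ 𝔫 := hI ((mem_witt_span v _).2 htv)
      exact Ideal.mem_map_of_mem (WittVector.constantCoeff : WittVector p P →+* P) h1
    have h1 := Ideal.mem_map_of_mem φ hu
    rw [Ideal.map_pow] at h1
    have h2 := Ideal.pow_right_mono hφJ 2 h1
    rw [Ideal.span_singleton_pow, map_sub, map_mul, map_sub, map_natCast,
      WittVector.map_teichmuller, Ideal.Quotient.eq_zero_iff_mem.2 htQ,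
      WittVector.teichmuller_zero, sub_zero] at h2
    obtain ⟨w, hw⟩ := Ideal.mem_span_singleton'.1 h2
    have h3 : φ u - 1 - w * p = 0 := by
      apply WittVector.eq_zero_of_p_mul_eq_zero
      linear_combination -hw
    have h4 : (1 : WittVector p (P ⧸ Q)) ∈ Ideal.span {(p : WittVector p (P ⧸ Q))} := by
      have e : (1 : WittVector p (P ⧸ Q)) = φ u - w * p := by linear_combination -h3
      rw [e]
      exact sub_mem (hφ u hun) (Ideal.mul_mem_left _ _ (Ideal.subset_span rfl))
    rw [← WittVector.ker_constantCoeff, RingHom.mem_ker, map_one] at h4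
    exact one_ne_zero h4

end Vale.Agent.P177
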