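import Vale.Agent.P177.Tower
import Vale.Agent.P177.WCpl
import Vale.Agent.P177.Hens
import Vale.Agent.P177.Tau

/-! The cover attached to a tower. -/

namespace Vale.Agent.P177

open Vale.Agent.P202 MvPowerSeries IsLocalRing

universe u

variable {p : ℕ} [Fact p.Prime] {l : Type u} [Field l] [CharP l p] [PerfectRing l p] {σ : Type}
  [Finite σ] {P P1 P2 P3 : Type u} [CommRing P] [CharP P p] [PerfectRing P p] [CommRing P1]
  [CharP P1 p] [PerfectRing P1 p] [CommRing P2] [CharP P2 p] [PerfectRing P2 p] [CommRing P3]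
  [CharP P3 p] [PerfectRing P3 p] {ι : PS (Option σ) l →+* P} {g : P} {k : ℕ} {f1 : P →+* P1}
  {f2 : P1 →+* P2} {f3 : P2 →+* P3} {α0 : PS σ (WittVector p l) →+* WittVector p P}

/-- The map from the Witt vectors to the untilt of an algebra. -/
noncomputable def wmap (p : ℕ) [Fact p.Prime] {P P' : Type u} [CommRing P] [CommRing P']
    (f : P →+* P') (t : P') : WittVector p P →+* Unt p t :=
  (Ideal.Quotient.mk _).comp (WittVector.map f)

omit [Finite σ] in
theorem levA_map_surj {Λ Λ' : Type u} [CommRing Λ] [CommRing Λ'] {f : Λ →+* Λ'}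
    (hf : Function.Surjective f) : Function.Surjective (MvPowerSeries.map (σ := σ) f) := by
  intro x
  choose c hc using fun d : σ →₀ ℕ => hf (coeff d x)
  obtain ⟨c', hc'⟩ : ∃ c' : PS σ Λ, ∀ d, coeff d c' = c d := ⟨c, fun _ => rfl⟩
  refine ⟨c', ?_⟩
  ext d
  rw [coeff_map, hc', hc]

theorem levA_flat_red {Q : Type u} [CommRing Q] {g1 : PS (Option σ) l →+* Q} (hf : g1.Flat) :
    ((Ideal.Quotient.mk (Ideal.span {g1 (X none)})).comp (g1.comp
      (rename some : PS σ l →ₐ[l] PS (Option σ) l).toRingHom)).Flat := by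
  let a : PS (Option σ) l →+* PS σ l :=
    (killCompl (R := l) (Function.Embedding.some : σ ↪ Option σ)).toRingHom
  have h1 : ∀ c : PS σ l, a (rename some c) = c := fun c =>
    killCompl_rename_app (e := Function.Embedding.some) c
  have h2 : RingHom.ker a = Ideal.span {X none} := by
    ext z
    exact ker_killCompl_mps z
  refine (flat_iff_crit_flc (f := g1) (a := a) (b := Ideal.Quotient.mk _)
    (fun c => ⟨_, h1 c⟩) Ideal.Quotient.mk_surjective (fun x => ?_) ?_).2
    (flatM_iff_flc.1 (FlatM.of_flat hf _))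
  · have h3 : x - rename some (a x) ∈ RingHom.ker a := by
      rw [RingHom.mem_ker, map_sub, h1, sub_self]
    rw [h2] at h3
    have h4 := Ideal.mem_map_of_mem g1 h3
    rw [Ideal.map_span, Set.image_singleton, map_sub] at h4
    exact Ideal.Quotient.eq.2 h4
  · rw [h2, Ideal.mk_ker, Ideal.map_span, Set.image_singleton]

theorem flat_unt (hf : (f1.comp ι).Flat)
    (hα : ∀ a, (α0 a).coeff 0 = ι (rename some (MvPowerSeries.map WittVector.constantCoeff a))) :
    ((wmap p f1 (f1 (ι (X none)))).comp α0).Flat := by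
  have ht : f1 (ι (X none)) ∈ nonZeroDivisors P1 :=
    mem_nonZeroDivisors_of_flat hf ((ps_permReg l).mem_nonZeroDivisors none)
  have hk : RingHom.ker (MvPowerSeries.map (σ := σ)
      (WittVector.constantCoeff : WittVector p l →+* l)) =
      Ideal.span {(p : PS σ (WittVector p l))} := by
    rw [ker_ps_map _ WittVector.ker_constantCoeff, map_natCast]
  have hp : (p : PS σ (WittVector p l)) ∈ nonZeroDivisors (PS σ (WittVector p l)) := by
    refine mem_nonZeroDivisors_iff_left.2 fun z hz => ?_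
    ext d : 1
    have h1 := congrArg (coeff d) hz
    rw [← map_natCast (C : WittVector p l →+* PS σ (WittVector p l)), coeff_C_mul, map_zero,
      mul_comm] at h1
    rw [WittVector.eq_zero_of_p_mul_eq_zero _ h1, map_zero]
  refine flat_of_reg hp ?_ ?_ ?_
  · rw [map_natCast]
    exact Unt.p_reg ht
  · rw [map_natCast]
    exact Unt.complete ht
  · rw [← hk]
    refine flatM_of_surj _ _ (Unt.red p (f1 (ι (X none)))) _ (levA_map_surj cc_surj_wcpl)
      (Unt.red_surjective _) (fun x => ?_) ?_ (levA_flat_red (g1 := f1.comp ι) hf)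
    · have h1 : f1 ((α0 x).coeff 0) = f1 (ι (rename some
        (MvPowerSeries.map WittVector.constantCoeff x))) := congrArg f1 (hα x)
      exact congrArg (Ideal.Quotient.mk (Ideal.span {f1 (ι (X none))})) h1
    · rw [hk, Unt.ker_red, Ideal.map_span, Set.image_singleton, map_natCast]

theorem AIso.unt {Q Q' : Type u} [CommRing Q] [CharP Q p] [PerfectRing Q p] [CommRing Q']
    [CharP Q' p] [PerfectRing Q' p] {f : Q →+* Q'} {t κ : Q} (h : AIso f t κ) {t' : Q'}
    (ht : f t = t') :
    (∀ b, ∃ u, Unt.map p f ht (shp p t κ) * b - Unt.map p f ht u ∈ Ideal.span {(p : Unt p t')}) ∧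
    ∀ u, Unt.map p f ht u ∈ Ideal.span {(p : Unt p t')} →
      shp p t κ * u ∈ Ideal.span {(p : Unt p t)} := by
  refine ⟨fun b => ?_, fun u hu => ?_⟩
  · obtain ⟨x, hx⟩ := exists_shp t' b
    obtain ⟨u, hu⟩ := h.r1 x
    rw [ht] at hu
    refine ⟨shp p t u, ?_⟩
    have h1 := Ideal.add_mem _ (Ideal.mul_mem_left _ (shp p t' (f κ)) hx)
      (shp_sub_mem (p := p) hu)
    rw [Unt.map_shp, Unt.map_shp]
    rw [map_mul] at h1
    convert h1 using 1
    ring
  · obtain ⟨x, hx⟩ := exists_shp t u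
    have h1 := Ideal.mem_map_of_mem (Unt.map p f ht) hx
    rw [Ideal.map_span, Set.image_singleton, map_natCast, map_sub, Unt.map_shp] at h1
    have h2 : shp p t' (f x) - shp p t' 0 ∈ Ideal.span {(p : Unt p t')} := by
      have := Ideal.sub_mem _ hu h1
      rwa [shp_zero, sub_zero, ← sub_sub_cancel (Unt.map p f ht u) (shp p t' (f x))]
    have h3 := mem_of_shp_sub_mem h2
    rw [sub_zero, ← ht] at h3
    have h4 := shp_sub_mem (p := p) (t := t) (x := κ * x) (y := 0)
      (by rw [sub_zero]; exact h.r2 x h3)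
    have h5 := Ideal.add_mem _ (Ideal.mul_mem_left _ (shp p t κ) hx) h4
    rw [shp_zero, map_mul] at h5
    convert h5 using 1
    ring

theorem levA_split {B B' : Type u} [CommRing B] [CommRing B'] (m : B →+* B') {π : B}
    (hπ : m π ∈ nonZeroDivisors B') (hc : IsAdicComplete (Ideal.span {m π}) B')
    {A : Type u} [CommRing A] (α : A →+* B) {F : Polynomial A} (hF : F.Monic)
    (ζ : Fin F.natDegree → B) {n γ : ℕ} (hγ : 2 * n + 1 ≤ γ)
    (hs : ∀ j, (F.map α - ∏ i, (Polynomial.X - Polynomial.C (ζ i))).coeff j ∈ Ideal.span {π ^ γ})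
    {Γ : A} (hΓ : Polynomial.C Γ ∈ Ideal.span {F, Polynomial.derivative F})
    (hd : m (α Γ) ∣ m π ^ n) : ∃ r : Fin F.natDegree → B',
      F.map (m.comp α) = ∏ i, (Polynomial.X - Polynomial.C (r i)) := by
  rcases subsingleton_or_nontrivial B' with h | h
  · exact ⟨fun _ => 0, Subsingleton.elim _ _⟩
  refine exists_split hπ hc (hF.map _) (hF.natDegree_map _) (fun i => m (ζ i)) hγ (fun j => ?_)
    ?_ hd
  · have h1 := Ideal.mem_map_of_mem m (hs j)
    rw [Ideal.map_span, Set.image_singleton, map_pow, ← Polynomial.coeff_map, Polynomial.map_sub,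
      Polynomial.map_map, Polynomial.map_prod] at h1
    simpa only [Polynomial.map_sub, Polynomial.map_X, Polynomial.map_C] using h1
  · obtain ⟨a, b, hab⟩ := Ideal.mem_span_pair.1 hΓ
    refine Ideal.mem_span_pair.2 ⟨a.map (m.comp α), b.map (m.comp α), ?_⟩
    rw [Polynomial.derivative_map, ← Polynomial.map_mul, ← Polynomial.map_mul,
      ← Polynomial.map_add, hab, Polynomial.map_C, RingHom.comp_apply]

variable {C : Type u} [CommRing C] [IsLocalRing C] [Algebra (PS σ (WittVector p l)) C] {θ : C}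
  {F : Polynomial (PS σ (WittVector p l))} {Δ Γ Δ' : PS σ (WittVector p l)}

theorem exists_cov (hT : Tw p ι g k f1 f2 f3) (hD : Dat p X θ F Δ Γ)
    (hα : ∀ a, (α0 a).coeff 0 = ι (rename some (MvPowerSeries.map WittVector.constantCoeff a)))
    {e γ : ℕ} (he : Δ * Γ = p ^ e * Δ') (hγ : 2 * (2 * p ^ k + e) + 1 ≤ γ)
    {z : Fin F.natDegree → P}
    (hz : ∀ n, (F.map ((Ideal.Quotient.mk _ : WittVector p P →+* Unt p (ι (X none))).comp α0) -
      ∏ i, (Polynomial.X - Polynomial.C (shp p (ι (X none)) (z i)))).coeff n ∈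
        Ideal.span {(p : Unt p (ι (X none))) ^ γ})
    (hg : VLe ((Ideal.Quotient.mk _ (α0 Δ') : Unt p (ι (X none))) - shp p (ι (X none)) g)
      (p * shp p (ι (X none)) g) (p ^ γ)) :
    ∃ τ : Fin F.natDegree → C →+* Unt p (f3 (f2 (f1 (ι (X none))))),
      Cov p θ F ((wmap p f1 (f1 (ι (X none)))).comp α0)
        (Unt.map p (f3.comp f2) (t := f1 (ι (X none))) rfl)
        (wmap p f1 (f1 (ι (X none))) (WittVector.teichmuller p (rt p P k (g * ι (X none))) ^ 2))
        τ ∧
      Unt.map p (f3.comp f2) (t := f1 (ι (X none))) rfl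
        (wmap p f1 (f1 (ι (X none))) (α0 (Δ * Γ))) ∣
          (p : Unt p (f3 (f2 (f1 (ι (X none)))))) ^ (2 * p ^ k + e) := by
  let q : PS σ (WittVector p l) →+* Unt p (ι (X none)) := (Ideal.Quotient.mk _).comp α0
  let m2 : Unt p (ι (X none)) →+* Unt p (f2 (f1 (ι (X none)))) := Unt.map p (f2.comp f1) rfl
  let m3 : Unt p (f2 (f1 (ι (X none)))) →+* Unt p (f3 (f2 (f1 (ι (X none))))) := Unt.map p f3 rfl
  have key : ∀ a, Unt.map p (f3.comp f2) (t := f1 (ι (X none))) rfl
      (wmap p f1 (f1 (ι (X none))) (α0 a)) = m3 (m2 (q a)) := fun a => by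
    change Unt.map p (f3.comp f2) (t := f1 (ι (X none))) rfl (Ideal.Quotient.mk _ _) =
      Unt.map p f3 rfl (Unt.map p (f2.comp f1) rfl (Ideal.Quotient.mk _ _))
    rw [Unt.map_mk, Unt.map_mk, Unt.map_mk]
    congr 1
  have h1 : m2 (q Δ') ∣ (p : Unt p (f2 (f1 (ι (X none))))) ^ (2 * p ^ k) := by
    refine hT.sat.dvd_pow hT.reg2 hT.div (γ := γ) (by omega) ?_
    have h2 := hg.map m2
    rw [map_sub, map_mul, map_pow, map_natCast, Unt.map_shp] at h2
    exact h2
  have h2 : m2 (q (Δ * Γ)) ∣ (p : Unt p (f2 (f1 (ι (X none))))) ^ (2 * p ^ k + e) := by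
    rw [he, map_mul, map_mul, map_pow, map_pow, map_natCast, map_natCast, pow_add, mul_comm]
    exact mul_dvd_mul_right h1 _
  have h3 := h2
  rw [map_mul, map_mul] at h3
  have hp := Unt.p_reg (p := p) hT.reg2
  obtain ⟨r, hr⟩ := levA_split m2 (π := p) (by rwa [map_natCast])
    (by rw [map_natCast]; exact Unt.complete hT.reg2) q hD.monic _ hγ hz hD.gam
    (by rw [map_natCast]; exact (dvd_mul_left _ _).trans h3)
  have := hD.fin
  have h4 : ∀ i, F.eval₂ (m2.comp q) (r i) = 0 := fun i => by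
    rw [← Polynomial.eval_map, hr, Polynomial.eval_prod]
    exact Finset.prod_eq_zero (Finset.mem_univ i) (by simp)
  choose τ hτ hθ using fun i => exists_tau hD.root hD.ker hD.den hp (hT.sat.hsat hT.reg2)
    (m2.comp q) ((dvd_mul_right _ _).trans h3) (h4 i)
  have hκ : wmap p f1 (f1 (ι (X none))) (WittVector.teichmuller p (rt p P k (g * ι (X none))) ^ 2) =
      shp p (f1 (ι (X none))) (f1 (rt p P k (g * ι (X none))) ^ 2) := by
    rw [map_pow, map_pow, wmap, RingHom.comp_apply, WittVector.map_teichmuller, shp_apply_unt]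
  obtain ⟨r1, r2⟩ := AIso.unt (p := p) hT.aiso (t' := f3 (f2 (f1 (ι (X none))))) rfl
  refine ⟨fun i => m3.comp (τ i), ⟨flat_unt hT.flat hα, Unt.p_reg hT.reg3, ?_, ?_,
    fun i a => ?_, ?_⟩, ?_⟩
  · rw [hκ]
    exact r1
  · rw [hκ]
    exact r2
  · exact (congrArg m3 (hτ i a)).trans (key a).symm
  · have h5 : (Unt.map p (f3.comp f2) (t := f1 (ι (X none))) rfl).comp
        ((wmap p f1 (f1 (ι (X none)))).comp α0) = m3.comp (m2.comp q) := RingHom.ext key
    rw [h5, ← Polynomial.map_map, hr, Polynomial.map_prod]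
    simp only [Polynomial.map_sub, Polynomial.map_X, Polynomial.map_C, RingHom.comp_apply, hθ]
  · have h5 := map_dvd m3 h2
    rwa [map_pow, map_natCast, ← key] at h5

end Vale.Agent.P177
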