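import Vale.Agent.P177.LevA
import Vale.Agent.P177.ExtL
import Vale.Agent.P202.MNorm
import Vale.Agent.P202.MSmall

/-! The normalized length on the Witt vectors. -/

namespace Vale.Agent.P177

open Vale.Agent.P202 MvPowerSeries IsLocalRing
open scoped ENNReal

universe u

variable {p : ℕ} [Fact p.Prime] {l : Type u} [Field l] [CharP l p] [PerfectRing l p] {σ : Type}
  [Finite σ]

theorem I0_levb {P : Type u} [CommRing P] {ι : PS (Option σ) l →+* P}
    {α0 : PS σ (WittVector p l) →+* WittVector p P}
    (hX : ∀ j, α0 (X j) = WittVector.teichmuller p (ι (X (some j)))) :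
    (maximalIdeal (PS σ (WittVector p l))).map α0 ⊔
      Ideal.span {WittVector.teichmuller p (ι (X none))} =
      Ideal.span (insert (p : WittVector p P)
        (Set.range fun o => WittVector.teichmuller p (ι (X o)))) := by
  rw [psl_maximalIdeal_of_span (WittVector.irreducible p).maximalIdeal_eq, Ideal.map_span,
    Set.image_insert_eq, ← Set.range_comp, map_natCast, map_natCast, Option.range_eq,
    Set.insert_comm, Ideal.span_insert (WittVector.teichmuller p (ι (X none))), sup_comm]
  congr 4
  exact funext hX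

theorem map_span_levb {A B : Type u} [CommRing A] [CommRing B] {τ : Type} (f : A →+* B) (n : ℕ)
    (v : τ → A) : (Ideal.span (insert (n : A) (Set.range v))).map f =
      Ideal.span (insert (n : B) (Set.range fun o => f (v o))) := by
  rw [Ideal.map_span, Set.image_insert_eq, ← Set.range_comp, map_natCast]
  rfl

/-- The ideal of definition of the Witt vectors. -/
theorem I0_eq {P P' : Type u} [CommRing P] [CommRing P'] {ι : PS (Option σ) l →+* P}
    {α0 : PS σ (WittVector p l) →+* WittVector p P}
    (hX : ∀ j, α0 (X j) = WittVector.teichmuller p (ι (X (some j)))) (f : P →+* P') :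
    ((maximalIdeal (PS σ (WittVector p l))).map α0 ⊔
      Ideal.span {WittVector.teichmuller p (ι (X none))}).map (WittVector.map f) =
      Ideal.span (insert (p : WittVector p P')
        (Set.range fun o => WittVector.teichmuller p (f (ι (X o))))) := by
  simp only [I0_levb hX, map_span_levb, WittVector.map_teichmuller]


theorem miso_wmap {P P1 : Type u} [CommRing P] [CharP P p] [PerfectRing P p] [CommRing P1]
    [CharP P1 p] [PerfectRing P1 p] {ι : PS (Option σ) l →+* P}
    {α0 : PS σ (WittVector p l) →+* WittVector p P}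
    (hX : ∀ j, α0 (X j) = WittVector.teichmuller p (ι (X (some j)))) {f : P →+* P1}
    (h : MIso f (Ideal.span (Set.range fun o => ι (X o)))) :
    MIso (wmap p f (f (ι (X none)))) ((maximalIdeal (PS σ (WittVector p l))).map α0 ⊔
      Ideal.span {WittVector.teichmuller p (ι (X none))}) := by
  have e1 : (Ideal.span (Set.range fun o => ι (X o))).map f =
      Ideal.span (Set.range fun o => f (ι (X o))) := by
    rw [Ideal.map_span, ← Set.range_comp]
    rfl
  have e2 : ∀ a : WittVector p P1, (Ideal.Quotient.mk _ a : Unt p (f (ι (X none)))) ∈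
      (Ideal.span (insert (p : WittVector p P)
        (Set.range fun o => WittVector.teichmuller p (ι (X o))))).map (wmap p f (f (ι (X none)))) ↔
      a.coeff 0 ∈ (Ideal.span (Set.range fun o => ι (X o))).map f := fun a => by
    rw [e1, ← mem_unt_span (f (ι (X none))) _ (Ideal.subset_span ⟨none, rfl⟩), map_span_levb]
    simp only [wmap, RingHom.comp_apply, WittVector.map_teichmuller, shp_apply_unt]
  rw [I0_levb hX]
  refine ⟨fun y => ?_, fun x hx => ?_⟩
  · obtain ⟨a, rfl⟩ := Ideal.Quotient.mk_surjective y
    obtain ⟨x, hx⟩ := h.n1 (a.coeff 0)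
    refine ⟨WittVector.teichmuller p x, ?_⟩
    have e3 := (e2 (a - WittVector.teichmuller p (f x))).2 (by
      rwa [← WittVector.constantCoeff_apply, map_sub, WittVector.constantCoeff_apply,
        WittVector.constantCoeff_apply, WittVector.teichmuller_coeff_zero])
    rwa [map_sub, ← WittVector.map_teichmuller p f x] at e3
  · have e3 := (e2 (WittVector.map f x)).1 hx
    rw [WittVector.map_coeff] at e3
    exact (mem_witt_span _ x).2 (h.n2 _ e3)


theorem exists_mu (p : ℕ) [Fact p.Prime] [CharP l p] [PerfectRing l p] {c : PS σ l} (hc : c ≠ 0) :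
    ∃ C0 : ℕ, ∀ (P : Type u) [CommRing P] [CharP P p] [PerfectRing P p]
      (ι : PS (Option σ) l →+* P) (α0 : PS σ (WittVector p l) →+* WittVector p P), PCov p ι →
      (∀ j, α0 (X j) = WittVector.teichmuller p (ι (X (some j)))) →
      ∃ μ : RLen (WittVector p P), μ.q ((maximalIdeal (PS σ (WittVector p l))).map α0 ⊔
        Ideal.span {WittVector.teichmuller p (ι (X none))}) = 1 ∧
        ∀ (k : ℕ) (g : P), g - ι (rename some c) ∈ Ideal.span {rt p P 1 (ι (X none))} →
          ((p ^ k : ℕ) : ℝ≥0∞) * μ.q (((maximalIdeal (PS σ (WittVector p l))).map α0 ⊔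
            Ideal.span {WittVector.teichmuller p (ι (X none))}) ⊔
            Ideal.span {WittVector.teichmuller p (rt p P k (g * ι (X none))) ^ 2}) ≤ C0 := by
  obtain ⟨C, hC⟩ := exists_small_rt p hc
  refine ⟨2 * (C + 1), fun P _ _ _ ι α0 h hX => ?_⟩
  obtain ⟨ν, hν⟩ := h.exists_norm
  obtain ⟨μ, hμ⟩ := exists_ext _ ν
  set I := Ideal.span (insert (p : WittVector p P)
    (Set.range fun o => WittVector.teichmuller p (ι (X o)))) with hI
  have h1 : ∀ J : Ideal (WittVector p P), I ≤ J →
      μ.q J = ν.q (J.map (Ideal.Quotient.mk _)) := fun J hJ => by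
    rw [← hμ, μ.res_q _ Ideal.Quotient.mk_surjective,
      Ideal.comap_map_of_surjective _ Ideal.Quotient.mk_surjective, ← RingHom.ker_eq_comap_bot,
      Ideal.mk_ker, sup_eq_left.2]
    rw [Ideal.span_singleton_le_iff_mem]
    exact hJ (sub_mem (Ideal.subset_span (Set.mem_insert _ _))
      (Ideal.subset_span (Set.mem_insert_of_mem _ ⟨none, rfl⟩)))
  have h2 : I.map (Ideal.Quotient.mk _ : WittVector p P →+* Unt p (ι (X none))) =
      Ideal.span (insert (p : Unt p (ι (X none)))
        (Set.range fun j => shp p (ι (X none)) (ι (X (some j))))) := by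
    rw [hI, map_span_levb, Option.range_eq, ← shp_apply_unt, shp_self, Set.insert_eq_of_mem
      (Set.mem_insert _ _)]
    rfl
  rw [I0_levb hX]
  refine ⟨μ, by rw [h1 I le_rfl, h2, hν], fun k g hg => ?_⟩
  rw [h1 _ le_sup_left, Ideal.map_sup, h2, Ideal.map_span, Set.image_singleton, map_pow,
    ← shp_apply_unt, map_mul, map_mul]
  refine (mul_le_mul_right ((ν.q_pow_le _ _ 2).trans
    (mul_le_mul_right (ν.q_mul_le _ _ _) _)) _).trans ?_
  rw [mul_left_comm, mul_add, h.q_rt_t ν hν k, Nat.cast_mul, Nat.cast_add C, Nat.cast_one]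
  exact mul_le_mul_right (add_le_add (hC P ι h ν hν k g hg) le_rfl) _


theorem exists_factor {a : PS σ (WittVector p l)} (ha : a ≠ 0) :
    ∃ (e : ℕ) (b : PS σ (WittVector p l)), a = p ^ e * b ∧
      MvPowerSeries.map (σ := σ) (WittVector.constantCoeff : WittVector p l →+* l) b ≠ 0 := by
  have : IsDomain (PS σ (WittVector p l)) := NoZeroDivisors.to_isDomain _
  have hp : ¬ IsUnit (p : PS σ (WittVector p l)) := by
    rw [isUnit_iff_constantCoeff, map_natCast]
    exact (WittVector.irreducible p).not_isUnit
  obtain ⟨e, b, h1, rfl⟩ := WfDvdMonoid.max_power_factor' ha hp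
  refine ⟨e, b, rfl, fun h => h1 ?_⟩
  have h2 := ker_ps_map (σ := σ) (WittVector.constantCoeff : WittVector p l →+* l)
    WittVector.ker_constantCoeff
  rw [map_natCast] at h2
  rw [← Ideal.mem_span_singleton, ← h2]
  exact h


end Vale.Agent.P177
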