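import Vale.Agent.P177.PSRes
import Vale.Agent.P177.FLC
import Vale.Agent.P177.Res2
import Vale.Agent.P202.MLift

/-! The flat lift over which the perfectoid ring has a Koszul resolution. -/

namespace Vale.Agent.P177

open Vale.Agent.P202 MvPowerSeries IsLocalRing

universe u

theorem lift_core {S AA B T : Type u} [CommRing S] [CommRing AA] [CommRing B] [CommRing T]
    (ev0 : S →+* AA) (h0 : Function.Surjective ev0) {n : ℕ} {v : Fin n → S} (hv : PermReg v)
    (hk : RingHom.ker ev0 = Ideal.span (Set.range v)) (β : AA →+* B) {ξ : AA}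
    (hβ : RingHom.ker β = Ideal.span {ξ}) (hξ : ξ ∈ nonZeroDivisors AA) {f : S}
    (hf : f ∈ nonZeroDivisors S) {u : AA} (hu : IsUnit u) (he : ev0 f = u * ξ) (q : S →+* T)
    (hq : Function.Surjective q) (hqk : RingHom.ker q = Ideal.span {f}) (ev : T →+* B)
    (hev : ∀ s, ev (q s) = β (ev0 s)) :
    (∃ aug : (((GC.one T).kos ((List.ofFn v).map q)).ι → T) →ₗ[T] T ⧸ RingHom.ker ev,
      ((GC.one T).kos ((List.ofFn v).map q)).IsRes aug) ∧
      RingHom.ker ev = Ideal.span {w | w ∈ (List.ofFn v).map q} := by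
  have h1 : ∀ s, q s ∈ RingHom.ker ev ↔ ∃ z, f * z - s ∈ Ideal.span (Set.range v) := fun s => by
    rw [← hk, RingHom.mem_ker, hev, ← RingHom.mem_ker, hβ, Ideal.mem_span_singleton']
    constructor
    · rintro ⟨a, ha⟩
      obtain ⟨u', hu'⟩ := hu.exists_right_inv
      obtain ⟨z, hz⟩ := h0 (u' * a)
      refine ⟨z, ?_⟩
      rw [RingHom.mem_ker, map_sub, map_mul, he, hz, ← ha]
      linear_combination (a * ξ) * hu'
    · rintro ⟨z, hz⟩
      rw [RingHom.mem_ker, map_sub, map_mul, he] at hz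
      exact ⟨u * ev0 z, by linear_combination hz⟩
  refine ⟨?_, le_antisymm (fun z hz => ?_) (Ideal.span_le.2 fun w hw => ?_)⟩
  · obtain ⟨aug, haug⟩ := GC.isRes_kos hv
    have h2 := haug.mod q hq hqk hf (N' := T ⧸ RingHom.ker ev)
      (fun x hx => by
        obtain ⟨s, rfl⟩ := Ideal.Quotient.mk_surjective x
        have h3 : f * s ∈ Ideal.span (Set.range v) := Ideal.Quotient.eq_zero_iff_mem.1 hx
        rw [Ideal.Quotient.eq_zero_iff_mem, ← hk]
        rw [← hk, RingHom.mem_ker, map_mul, he] at h3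
        exact mem_nonZeroDivisors_iff_left.1 (mul_mem hu.mem_nonZeroDivisors hξ) _ h3)
      (Submodule.mapQ _ _ q.toSemilinearMap fun s hs =>
        (h1 s).2 ⟨0, by rw [mul_zero, zero_sub]; exact neg_mem hs⟩)
      (fun x => by
        obtain ⟨z, rfl⟩ := Ideal.Quotient.mk_surjective x
        obtain ⟨s, rfl⟩ := hq z
        exact ⟨Ideal.Quotient.mk _ s, rfl⟩)
      (fun x => by
        obtain ⟨s, rfl⟩ := Ideal.Quotient.mk_surjective x
        refine (Ideal.Quotient.eq_zero_iff_mem (a := q s)).trans ((h1 s).trans ⟨?_, ?_⟩)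
        · rintro ⟨z, hz⟩
          exact ⟨Ideal.Quotient.mk _ z, Ideal.Quotient.eq.2 hz⟩
        · rintro ⟨z, hz⟩
          obtain ⟨z, rfl⟩ := Ideal.Quotient.mk_surjective z
          exact ⟨z, Ideal.Quotient.eq.1 hz⟩)
    rwa [GC.map_one_kos] at h2
  · obtain ⟨s, rfl⟩ := hq z
    obtain ⟨z, h2⟩ := (h1 s).1 hz
    have h3 := neg_mem (Ideal.mem_map_of_mem q h2)
    have h4 : q f = 0 := by
      rw [← RingHom.mem_ker, hqk]
      exact Ideal.mem_span_singleton_self f
    rw [map_sub, map_mul, h4, zero_mul, zero_sub, neg_neg, Ideal.map_span] at h3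
    refine Ideal.span_mono ?_ h3
    rintro _ ⟨_, ⟨j, rfl⟩, rfl⟩
    exact List.mem_map.2 ⟨v j, List.mem_ofFn.2 ⟨j, rfl⟩, rfl⟩
  · obtain ⟨s, hs, rfl⟩ := List.mem_map.1 hw
    obtain ⟨j, rfl⟩ := List.mem_ofFn.1 hs
    refine (h1 _).2 ⟨0, ?_⟩
    rw [mul_zero, zero_sub]
    exact neg_mem (Ideal.subset_span ⟨j, rfl⟩)

theorem lift_map {σ : Type} {A B : Type u} [CommRing A] [CommRing B] (p : ℕ) (φ : PS σ A →+* B) :
    (Ideal.span (insert (p : PS σ A) (Set.range X))).map φ =
      Ideal.span (insert (p : B) (Set.range fun j => φ (X j))) := by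
  rw [Ideal.map_span, Set.image_insert_eq, map_natCast, ← Set.range_comp]
  rfl

theorem lift_const {σ : Type} {A : Type u} [CommRing A] (p : ℕ) :
    (Ideal.span (insert (p : PS σ A) (Set.range X))).map (constantCoeff : PS σ A →+* A) ≤
      Ideal.span {(p : A)} := by
  rw [lift_map, Ideal.span_le]
  rintro _ (rfl | ⟨j, rfl⟩)
  · exact Ideal.mem_span_singleton_self _
  · simp only [constantCoeff_X]
    exact zero_mem _

variable {p d : ℕ} {W R : Type u} [CommRing W] [IsDomain W] [IsDiscreteValuationRing W]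
  [CommRing R] [IsLocalRing R] {π : PS (Fin d) W →+* R} {g : PS (Fin d) W}

theorem lift_max (hW : maximalIdeal W = Ideal.span {(p : W)}) :
    maximalIdeal (PS (Fin d) W) = Ideal.span (insert (p : PS (Fin d) W) (Set.range X)) := by
  rw [psl_maximalIdeal_of_span hW, map_natCast]

theorem Pres.ne_zero (hW : maximalIdeal W = Ideal.span {(p : W)}) (h : Pres p π g) :
    (p : PS (Fin d) W) - g ≠ 0 := by
  intro h0
  have hp : (p : W) ≠ 0 := fun h1 => IsDiscreteValuationRing.not_a_field W (by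
    rw [hW, h1, Ideal.span_singleton_zero])
  have h1 : constantCoeff g = (p : W) := by rw [← sub_eq_zero.1 h0, map_natCast]
  rcases h.hg with h2 | ⟨j, rfl⟩
  · have h3 := Ideal.mem_map_of_mem (constantCoeff : PS (Fin d) W →+* W) h2
    rw [Ideal.map_pow, h1] at h3
    have h4 := Ideal.pow_right_mono (lift_const p) 2 h3
    rw [Ideal.span_singleton_pow] at h4
    obtain ⟨c, hc⟩ := Ideal.mem_span_singleton'.1 h4
    have h5 : (p : W) * c = 1 := mul_left_cancel₀ hp (by linear_combination hc)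
    have h6 : (p : W) ∈ maximalIdeal W := hW ▸ Ideal.mem_span_singleton_self _
    exact h6 (IsUnit.of_mul_eq_one c h5)
  · rw [constantCoeff_X] at h1
    exact hp h1.symm

theorem Pres.max (hW : maximalIdeal W = Ideal.span {(p : W)}) (h : Pres p π g) :
    maximalIdeal R = Ideal.span (insert (p : R) (Set.range fun j => π (X j))) := by
  rw [← map_maximalIdeal_of_surjective π h.surj, lift_max hW, lift_map]

theorem exists_lft (hW : maximalIdeal W = Ideal.span {(p : W)}) (h : Pres p π g) {A AA B : Type u}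
    [CommRing A] [CommRing AA] [CommRing B] {t : AA} {I : Ideal AA} {β : AA →+* B}
    (hP : Pri p t I β) (hp : (p : AA) ∈ I) (ht : t ∈ I) (ω : W →+* A) (α : A →+* AA)
    (φ : R →+* B) (hx : ∀ j, ∃ c : ℕ, φ (π (X j)) ^ c ∈ I.map β)
    (hc : ∀ Ψ : PS (Fin d) A →+* B, (∀ a, Ψ (C a) = β (α a)) → (∀ j, Ψ (X j) = φ (π (X j))) →
      ∀ z, Ψ (MvPowerSeries.map ω z) = φ (π z)) :
    ∃ (T : Type u) (_ : CommRing T) (_ : Algebra R T) (c : AA →+* T) (ev : T →+* B) (y : List T),
      Lft p d I β φ c ev y := by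
  have hπ : π (p - g) = 0 := by
    rw [← RingHom.mem_ker, h.ker]
    exact Ideal.mem_span_singleton_self _
  have hβ : β (p - t) = 0 := by
    rw [← RingHom.mem_ker, hP.ker]
    exact Ideal.mem_span_singleton_self _
  obtain ⟨x, hx1, hx2⟩ : ∃ x : Fin d → AA, (∀ j, β (x j) = φ (π (X j))) ∧
      ∀ j, g = X j → x j = t := by
    classical
    choose x0 hx0 using fun j => hP.surj (φ (π (X j)))
    refine ⟨fun j => if g = X j then t else x0 j, fun j => ?_, fun j hj => if_pos hj⟩
    by_cases hj : g = X j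
    · rw [map_sub, map_natCast, sub_eq_zero] at hπ hβ
      simp only [if_pos hj]
      rw [← hj, ← hπ, ← hβ, map_natCast]
    · simp only [if_neg hj]
      exact hx0 j
  have hx3 : ∀ j, ∃ c : ℕ, x j ^ c ∈ I := fun j => by
    obtain ⟨c, hc⟩ := hx j
    rw [← hx1, ← map_pow, ← Ideal.mem_comap, Ideal.comap_map_of_surjective _ hP.surj,
      ← RingHom.ker_eq_comap_bot, hP.ker] at hc
    exact ⟨c, sup_le le_rfl ((Ideal.span_singleton_le_iff_mem _).2 (I.sub_mem hp ht)) hc⟩
  obtain ⟨ev0, e1, e2, e3, e4⟩ := exists_ev0 x (complete_of_forall_pow hP.cpl x hx3)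
  let m : PS (Fin d) W →+* PS (Fin d) AA := MvPowerSeries.map (α.comp ω)
  have hm : m.Flat := flat_ps_map (flat_of_dvr hW (by rw [map_natCast]; exact hP.pA))
  have hmX : ∀ j, m (X j) = X j := fun j => map_X _ j
  have hz : ∀ z, β (ev0 (m z)) = φ (π z) := fun z => by
    have h1 := hc (β.comp (ev0.comp (MvPowerSeries.map α)))
      (fun a => by simp only [RingHom.comp_apply, map_C, e1])
      (fun j => by simp only [RingHom.comp_apply, map_X, e2, hx1]) z
    rw [← h1]
    simp only [m, MvPowerSeries.map_comp, RingHom.comp_apply]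
  obtain ⟨u, hu, he⟩ : ∃ u, IsUnit u ∧ ev0 (m (p - g)) = u * (p - t) := by
    rcases h.hg with h2 | ⟨j, hj⟩
    · have h1 : ev0 (m (p - g)) ∈ RingHom.ker β := by rw [RingHom.mem_ker, hz, hπ, map_zero]
      rw [hP.ker] at h1
      obtain ⟨u, hu⟩ := Ideal.mem_span_singleton'.1 h1
      obtain ⟨c, hc⟩ := Ideal.exists_pow_le_of_le_radical_of_fg
        (I := Ideal.span (insert (p : AA) (Set.range x))) (J := I)
        (Ideal.span_le.2 (by
          rintro _ (rfl | ⟨j, rfl⟩)
          · exact Ideal.le_radical hp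
          · exact hx3 j))
        (Submodule.fg_span ((Set.finite_range x).insert _))
      refine ⟨u, hP.dist _ c u hc ?_, hu.symm⟩
      have h3 := Ideal.mem_map_of_mem (ev0.comp m) h2
      rw [Ideal.map_pow, lift_map] at h3
      simp only [RingHom.comp_apply, hmX, e2] at h3
      rw [hu, map_sub, map_sub, map_natCast, map_natCast, sub_sub_cancel_left]
      exact neg_mem h3
    · refine ⟨1, isUnit_one, ?_⟩
      rw [one_mul, map_sub, map_sub, map_natCast, map_natCast, hj, hmX, e2, hx2 j hj]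
  have hf : m (p - g) ∈ nonZeroDivisors (PS (Fin d) AA) := by
    let _ := m.toAlgebra
    have : Module.Flat (PS (Fin d) W) (PS (Fin d) AA) := hm
    exact mem_nonZeroDivisors_iff_left.2 fun z hz =>
      (Module.Flat.isSMulRegular_of_nonZeroDivisors (M := PS (Fin d) AA)
        (mem_nonZeroDivisors_of_ne_zero (h.ne_zero hW))).right_eq_zero_of_smul hz
  let J : Ideal (PS (Fin d) AA) := (RingHom.ker π).map m
  have hJ : J = Ideal.span {m (p - g)} := by
    simp only [J]
    rw [h.ker, Ideal.map_span, Set.image_singleton]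
  let q := Ideal.Quotient.mk J
  let e := RingHom.quotientKerEquivOfSurjective h.surj
  let θ : R →+* PS (Fin d) AA ⧸ J :=
    (Ideal.quotientMap J m Ideal.le_comap_map).comp e.symm.toRingHom
  have hθ : ∀ z, θ (π z) = q (m z) := fun z => by
    have h1 : e.symm (π z) = Ideal.Quotient.mk _ z := e.symm_apply_eq.2 rfl
    change Ideal.quotientMap J m Ideal.le_comap_map (e.symm (π z)) = _
    rw [h1, Ideal.quotientMap_mk]
  have hfl : θ.Flat := (RingHom.Flat.of_bijective e.symm.bijective).comp (FlatM.of_flat hm _)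
  let ev : PS (Fin d) AA ⧸ J →+* B := Ideal.Quotient.lift J (β.comp ev0) fun s hs => by
    rw [hJ] at hs
    obtain ⟨w, rfl⟩ := Ideal.mem_span_singleton'.1 hs
    rw [map_mul, RingHom.comp_apply _ _ (m _), hz, hπ, map_zero, mul_zero]
  have hev : ∀ s, ev (q s) = β (ev0 s) := fun s => rfl
  have h0 : Function.Surjective ev0 := fun a => ⟨C a, e1 a⟩
  obtain ⟨r1, r2⟩ := lift_core ev0 h0 e3 e4 β hP.ker hP.xi hf hu he q
    Ideal.Quotient.mk_surjective (Ideal.mk_ker.trans hJ) ev hev
  let _ : Algebra R (PS (Fin d) AA ⧸ J) := θ.toAlgebra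
  have hcomp : θ.comp π = q.comp m := RingHom.ext hθ
  have hS : mS R (PS (Fin d) AA ⧸ J) =
      (Ideal.span (insert (p : PS (Fin d) AA) (Set.range X))).map q := by
    change (maximalIdeal R).map θ = _
    rw [← map_maximalIdeal_of_surjective π h.surj, Ideal.map_map, hcomp, ← Ideal.map_map,
      lift_max hW, lift_map]
    simp only [hmX]
  have hJle : J ≤ Ideal.span (insert (p : PS (Fin d) AA) (Set.range X)) := by
    have h1 := Ideal.map_mono (f := m) (le_maximalIdeal (RingHom.ker_ne_top π))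
    rw [lift_max hW, lift_map] at h1
    simpa only [hmX] using h1
  have hXm : ∀ j, q (X j) ∈ mS R (PS (Fin d) AA ⧸ J) := fun j =>
    hS ▸ Ideal.mem_map_of_mem q (Ideal.subset_span (Set.mem_insert_of_mem _ ⟨j, rfl⟩))
  refine ⟨_, _, inferInstance, q.comp C, ev, _, hfl, fun b => ?_, ?_, r1, r2, fun r => ?_,
    fun a => (hev _).trans (congrArg β (e1 a)), fun z => ?_, fun a => ?_, fun v hv => ?_⟩
  · obtain ⟨a, rfl⟩ := hP.surj b
    exact ⟨q (C a), (hev _).trans (congrArg β (e1 a))⟩
  · rw [List.length_map, List.length_ofFn]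
  · obtain ⟨z, rfl⟩ := h.surj r
    exact (congrArg ev (hθ z)).trans (hz z)
  · obtain ⟨s, rfl⟩ := Ideal.Quotient.mk_surjective z
    refine ⟨constantCoeff s, ?_⟩
    rw [hS]
    exact Ideal.mem_map_of_mem q (Ideal.span_mono (Set.subset_insert _ _) (ps_sub_C_mem s))
  · rw [hS]
    constructor
    · intro ha
      have h1 : C a ∈ ((Ideal.span (insert (p : PS (Fin d) AA) (Set.range X))).map q).comap q := ha
      rw [Ideal.comap_map_of_surjective _ Ideal.Quotient.mk_surjective, ← RingHom.ker_eq_comap_bot,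
        Ideal.mk_ker, sup_eq_left.2 hJle] at h1
      exact lift_const p (Ideal.mem_map_of_mem constantCoeff h1)
    · intro ha
      obtain ⟨w, rfl⟩ := Ideal.mem_span_singleton'.1 ha
      refine Ideal.mem_map_of_mem q ?_
      rw [map_mul, map_natCast]
      exact Ideal.mul_mem_left _ _ (Ideal.subset_span (Set.mem_insert _ _))
  · obtain ⟨s, hs, rfl⟩ := List.mem_map.1 hv
    obtain ⟨j, rfl⟩ := List.mem_ofFn.1 hs
    obtain ⟨c, hc⟩ := hx3 j
    have h1 := Ideal.mem_map_of_mem (q.comp C) hc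
    rw [map_pow] at h1
    have h2 : q (X j) - q (C (x j)) ∈ (mS R (PS (Fin d) AA ⧸ J) ⊔ I.map (q.comp C)).radical :=
      sub_mem (Ideal.le_radical (Ideal.mem_sup_left (hXm j)))
        (Ideal.mem_radical_iff.2 ⟨c, Ideal.mem_sup_right h1⟩)
    exact Ideal.mem_radical_iff.1 h2

end Vale.Agent.P177
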