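import Vale.Agent.P177.TT
import Vale.Agent.P177.Ring
import Vale.Agent.P177.SP

/-! Almost exact Koszul strands give relations between Euler characteristics. -/

namespace Vale.Agent.P177

open Vale.Agent.P202

universe u

variable {B : Type u} [CommRing B] {μ : RLen B} {κ : B} {s : ℕ} {y : Fin s → B} {G : ℕ → Ideal B}

theorem strand_kos (μ : RLen B) (K : GC B) (N : Ideal B) (j : ℕ) (n : ℤ) :
    hG μ K (⊥ : Submodule B (Finset (Fin s) → B)) (Kos Finset.univ N j) n =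
      (s.choose j : ENNReal) * hG μ K ⊥ N n := by
  have e0 : (⊥ : Submodule B (Finset (Fin s) → B)) = Submodule.pi Set.univ fun _ => ⊥ :=
    Submodule.pi_univ_bot.symm
  rw [e0, Kos, Coord, hG_pi]
  have e1 : ∀ A : Finset (Fin s),
      hG μ K ⊥ (if A ⊆ Finset.univ ∧ (A.card : ℤ) = j then N else ⊥) n =
        if A.card = j then hG μ K ⊥ N n else 0 := by
    intro A
    by_cases h : A.card = j
    · rw [if_pos h, if_pos ⟨Finset.subset_univ A, by rw [h]⟩]
    · rw [if_neg h, if_neg fun h1 => h (by exact_mod_cast h1.2), hG_self]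
  simp only [e1]
  rw [← Finset.sum_filter, Finset.sum_const, nsmul_eq_mul, Finset.univ_filter_card_eq,
    Finset.card_powersetCard, Finset.card_univ, Fintype.card_fin]

theorem strand_chi (hκ : Null μ κ) (h : KEx κ y G) (hy : ∀ i j, ∀ x ∈ G (j + 1), y i * x ∈ G j)
    {K : GC B} (hK : K.Sq0) (hg : ∀ j ≤ s, GoodG μ K ⊥ (G j)) :
    ∑ j ∈ Finset.range (s + 1), (-1 : ℝ) ^ j * (s.choose j) * chiG μ K ⊥ (G j) = 0 := by
  let H : ℤ → Submodule B (Finset (Fin s) → B) := fun n => Kos Finset.univ (G n.toNat) n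
  have c0 : IsCx (kd y B) (⊥ : ℤ → Submodule B (Finset (Fin s) → B)) := fun n => by simp
  have c1 : IsCx (kd y B) H := by
    rintro n _ ⟨ξ, hξ, rfl⟩
    have h1 := kos_isCx y Finset.univ (G n.toNat) n ⟨ξ, hξ, rfl⟩
    refine mem_kos.2 ⟨fun A hA => ?_, (mem_kos.1 h1).2⟩
    have e : n.toNat = (n - 1).toNat + 1 := by omega
    rw [kd_apply]
    refine Submodule.sum_mem _ fun i _ => ?_
    rw [mul_smul]
    refine Submodule.smul_mem _ _ (hy i _ _ ?_)
    rw [← e]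
    exact apply_mem_of_mem_kos hξ _
  have z : ∀ n, hr μ (kd y B) ⊥ H n = 0 := by
    intro n
    rcases lt_or_ge n 0 with hn | hn
    · exact hr_eq_zero_of_le μ n (kos_eq_bot _ _ n (Or.inl hn)).le
    · obtain ⟨m, rfl⟩ := Int.eq_ofNat_of_zero_le hn
      refine hκ.rr_eq_zero 1 fun ξ hξ => Submodule.mem_sup_right ?_
      obtain ⟨η, h1, h2⟩ := h m ξ hξ.1 hξ.2
      exact ⟨η, h1, by rw [pow_one, h2]⟩
  have a1 := good_chi_of_zero μ (GC.T_hr_zero μ hK (kd_comp_kd y) c0 c1 bot_le z)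
  have g := fun j (hj : j ≤ s) => good_chi_of_hr_mul μ (s.choose j)
    (strand_kos (s := s) μ K (G j) j) (hg j hj)
  have a2 := GC.T_rows_chi (L' := s) μ hK (kd_comp_kd y) c0 c1 bot_le
    (fun j hj => (kos_eq_bot _ _ j hj).le) fun j hj => (g j hj).1
  rw [← a1.2, a2.2]
  refine Finset.sum_congr rfl fun j hj => ?_
  rw [mul_assoc]
  exact congrArg _ (g j (Nat.lt_succ_iff.1 (Finset.mem_range.1 hj))).2.symm

theorem strand_psi (hκ : Null μ κ) (h : KEx κ y G) (hy : ∀ i j, ∀ x ∈ G (j + 1), y i * x ∈ G j)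
    {K : GC B} (hK : K.Sq0) {l : ℕ} [NeZero l] (ho : Odd l) (hu : IsUnit (l : B))
    (hg : ∀ j ≤ s, GoodPG l μ K ⊥ (G j)) :
    ∑ j ∈ Finset.range (s + 1), (-1 : ℝ) ^ j * (s.choose j) * psiG l μ K ⊥ (G j) = 0 := by
  have h1 := strand_chi hκ h hy (hK.tp ho) fun j hj => (hg j hj).1
  have h2 := strand_chi hκ h hy (hK.sp ho) fun j hj => (hg j hj).2
  have _ := hu
  have h3 : ∀ j, (-1 : ℝ) ^ j * (s.choose j) * psiG l μ K ⊥ (G j) =
      l * ((-1 : ℝ) ^ j * (s.choose j) * chiG μ (K.sp l) ⊥ (G j)) -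
        (-1 : ℝ) ^ j * (s.choose j) * chiG μ (K.tp l) ⊥ (G j) := fun j => by
    unfold psiG
    ring
  simp only [h3]
  rw [Finset.sum_sub_distrib, ← Finset.mul_sum, h1, h2, mul_zero, sub_zero]

/-- The numerical conclusion. -/
theorem strand_bound (hs : 1 ≤ s) {a : ℕ → ℝ} {x D : ℝ}
    (h0 : ∑ j ∈ Finset.range (s + 1), (-1 : ℝ) ^ j * (s.choose j) * a j = 0)
    (h1 : ∀ j < s, |a j - x| ≤ D) : |a s - x| ≤ 2 ^ s * D := by
  have D0 : 0 ≤ D := (abs_nonneg _).trans (h1 0 hs)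
  have e1 : ∑ j ∈ Finset.range (s + 1), (-1 : ℝ) ^ j * (s.choose j) = 0 := by
    exact_mod_cast Int.alternating_sum_range_choose_of_ne (n := s) (by omega)
  have e2 : ∑ j ∈ Finset.range (s + 1), (-1 : ℝ) ^ j * (s.choose j) * (a j - x) = 0 := by
    simp only [mul_sub]
    rw [Finset.sum_sub_distrib, h0, ← Finset.sum_mul, e1, zero_mul, sub_zero]
  rw [Finset.sum_range_succ, Nat.choose_self, Nat.cast_one, mul_one,
    add_eq_zero_iff_neg_eq] at e2
  have e3 : |a s - x| = |∑ j ∈ Finset.range s, (-1 : ℝ) ^ j * (s.choose j) * (a j - x)| := by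
    rw [← abs_neg (∑ j ∈ Finset.range s, _), e2, abs_mul, abs_pow, abs_neg, abs_one, one_pow,
      one_mul]
  have e4 : ∑ j ∈ Finset.range s, (s.choose j : ℝ) ≤ 2 ^ s := by
    have h2 := Nat.sum_range_choose s
    rw [Finset.sum_range_succ] at h2
    exact_mod_cast (Nat.le_add_right _ _).trans h2.le
  rw [e3]
  refine (Finset.abs_sum_le_sum_abs _ _).trans (le_trans ?_ (mul_le_mul_of_nonneg_right e4 D0))
  rw [Finset.sum_mul]
  refine Finset.sum_le_sum fun j hj => ?_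
  rw [abs_mul, abs_mul, abs_pow, abs_neg, abs_one, one_pow, one_mul, Nat.abs_cast]
  exact mul_le_mul_of_nonneg_left (h1 j (Finset.mem_range.1 hj)) (Nat.cast_nonneg _)

end Vale.Agent.P177
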