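import Vale.Agent.P177.CForm
import Vale.Agent.P177.Serre
import Vale.Agent.P177.Basis

/-! The vanishing theorem and the reduction to primes. -/

namespace Vale.Agent.P177

open Vale.Agent.P202 IsLocalRing
open scoped ENNReal

universe u

variable {R : Type u} [CommRing R] [IsLocalRing R] [IsNoetherianRing R] {d : ℕ}

/-- A resolution together with a flag over a quotient. -/
theorem exists_res_setup (hR : HasRes R) {C : Type u} [CommRing C] (f : R →+* C) (Q : Ideal R)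
    {π : C} (hπ : π ∈ nonZeroDivisors C) {t : ℕ} (ht : π ^ t ∈ Q.map f) :
    ∃ (F : GC R) (aF : (F.ι → R) →ₗ[R] R ⧸ Q) (n : ℕ) (e : Fin n → ℕ)
      (b : Matrix F.ι (Fin n ⊕ Fin n) C) (b' : Matrix (Fin n ⊕ Fin n) F.ι C) (c : ℕ)
      (𝔞 : ℕ → Ideal C), F.IsRes aF ∧ Setup (F.map f) π e b b' c 𝔞 := by
  obtain ⟨K, aug, hK⟩ := hR (R ⧸ Q)
  have hQ : Q ≤ K.nh := by
    have := hK.ann_le_nh
    rwa [Ideal.annihilator_quotient] at this
  have h1 : π ^ t ∈ (K.map f).nh := K.map_nh_le f (Ideal.map_mono hQ ht)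
  obtain ⟨n0, e0, n, e, b, b', c, 𝔞, hS⟩ := exists_setup ((hK 0).sq.map f) hπ h1
  have key : ∀ G : GC C, G = (K.map f).sum (GC.std C e0) →
      ∃ (b : Matrix G.ι (Fin n ⊕ Fin n) C) (b' : Matrix (Fin n ⊕ Fin n) G.ι C),
        Setup G π e b b' c 𝔞 := by
    rintro G rfl
    exact ⟨b, b', hS⟩
  obtain ⟨b1, b1', hS1⟩ := key ((K.sum (GC.std R e0)).map f) (by rw [GC.map_sum, GC.map_std])
  exact ⟨K.sum (GC.std R e0), _, n, e, b1, b1', c, 𝔞,
    hK.sum ((GC.sq0_disc e0).cone 1) (GC.mem_nh_cone _ 1), hS1⟩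

theorem chi_residue [IsDomain R] {Q : Ideal R} (hQ : Q ≠ ⊥) :
    Chi R (R ⧸ maximalIdeal R) (R ⧸ Q) 0 := by
  intro K aug hK
  obtain ⟨L, hL⟩ := K.exists_top
  have hQ' : Q ≤ K.nh := by
    have := hK.ann_le_nh
    rwa [Ideal.annihilator_quotient] at this
  obtain ⟨q, hq, hq0⟩ := Submodule.exists_mem_ne_zero_of_ne_bot hQ
  have hsum : (∑ i ∈ Finset.range (L + 1), (-1 : ℝ) ^ i * K.rk i) = 0 := by
    let T := FractionRing R
    have h1 : (1 : T) ∈ (K.map (algebraMap R T)).nh := by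
      have h2 : algebraMap R T q ∈ (K.map (algebraMap R T)).nh :=
        K.map_nh_le _ (Ideal.mem_map_of_mem _ (hQ' hq))
      have h3 : algebraMap R T q ≠ 0 := fun h =>
        hq0 (IsFractionRing.injective R T (h.trans (map_zero _).symm))
      have h4 := Ideal.mul_mem_left _ (algebraMap R T q)⁻¹ h2
      rwa [inv_mul_cancel₀ h3] at h4
    have hlen : rr (RLen.ofLen T) (⊥ : Submodule T T) ⊤ = 1 := by
      rw [rr_top, RLen.equiv _ (Submodule.quotEquivOfEqBot _ rfl)]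
      change ((Module.length T T : ℕ∞) : ℝ≥0∞) = 1
      rw [Module.length_eq_one, ENat.toENNReal_one]
    have hL' : (K.map (algebraMap R T)).Top L := hL
    have h5 := (hL'.chi_of_rr ((hK 0).sq.map _) (RLen.ofLen T) (N' := (⊥ : Submodule T T))
      (N'' := ⊤) le_top (by rw [hlen]; exact ENNReal.one_ne_top)).2
    rw [hlen, ENNReal.toReal_one, mul_one] at h5
    have h6 : chiG (RLen.ofLen T) (K.map (algebraMap R T)) (⊥ : Submodule T T) ⊤ = 0 := by
      have h7 := fun n => GC.hG_eq_zero_of_nh (RLen.ofLen T) h1 (⊥ : Submodule T T) ⊤ n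
      unfold chiG chiR
      simp only [h7, ENNReal.toReal_zero, mul_zero, finsum_zero]
    exact h5.symm.trans h6
  have hfin : rr (RLen.ofLen R) (⊥ : Submodule R (R ⧸ maximalIdeal R)) ⊤ ≠ ⊤ := by
    refine rr_ofLen_ne_top (t := 1) fun z hz x _ => ?_
    obtain ⟨x, rfl⟩ := Ideal.Quotient.mk_surjective x
    rw [pow_one] at hz
    rw [Submodule.mem_bot]
    change Ideal.Quotient.mk _ (z * x) = 0
    exact Ideal.Quotient.eq_zero_iff_mem.2 (Ideal.mul_mem_right _ _ hz)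
  have h8 := hL.chi_of_rr (hK 0).sq (RLen.ofLen R) le_top hfin
  refine ⟨h8.1, ?_⟩
  rw [h8.2, hsum, zero_mul]

theorem vanishing_step (h : RegL R d) (P Q : Ideal R) (hP : P.IsPrime) (hQ : Q.IsPrime) {t : ℕ}
    (ht : maximalIdeal R ^ t ≤ P ⊔ Q) (hd : ringKrullDim (R ⧸ P) + ringKrullDim (R ⧸ Q) < d)
    (hv : VanAb P Q) : Chi R (R ⧸ P) (R ⧸ Q) 0 := by
  have := h.isDomain
  obtain ⟨a, ha⟩ := exists_dim_quot (R := R) hP.ne_top
  obtain ⟨b0, hb0⟩ := exists_dim_quot (R := R) hQ.ne_top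
  have hab : a + b0 < d := by
    rw [ha, hb0] at hd
    exact_mod_cast hd
  by_cases hPm : P = maximalIdeal R
  · subst hPm
    refine chi_residue fun hQ0 => ?_
    subst hQ0
    have h1 : ringKrullDim (R ⧸ (⊥ : Ideal R)) = ringKrullDim R :=
      ringKrullDim_eq_of_ringEquiv (RingEquiv.quotientBot R)
    rw [hb0, h.1] at h1
    have : b0 = d := by exact_mod_cast h1
    omega
  obtain ⟨π0, hπm, hπP⟩ := SetLike.exists_of_lt
    (lt_of_le_of_ne (le_maximalIdeal hP.ne_top) hPm)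
  let f : R →+* R ⧸ P := Ideal.Quotient.mk P
  have hf : Function.Surjective f := Ideal.Quotient.mk_surjective
  have : IsLocalRing (R ⧸ P) := IsLocalRing.of_surjective' f hf
  have hker : RingHom.ker f = P := Ideal.mk_ker
  have hmap : (maximalIdeal R ^ t).map f ≤ Q.map f := by
    refine (Ideal.map_mono ht).trans ?_
    rw [Ideal.map_sup, Ideal.map_quotient_self, bot_sup_eq]
  have hπ0 : f π0 ≠ 0 := fun h0 => hπP (Ideal.Quotient.eq_zero_iff_mem.1 h0)
  have hπ : f π0 ∈ nonZeroDivisors (R ⧸ P) := mem_nonZeroDivisors_of_ne_zero hπ0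
  have hπt : f π0 ^ t ∈ Q.map f := by
    rw [← map_pow]
    exact hmap (Ideal.mem_map_of_mem _ (Ideal.pow_mem_pow hπm t))
  obtain ⟨F, aF, n, e, b, b', c, 𝔞, hF, hS⟩ := exists_res_setup h.hasRes f Q hπ hπt
  obtain ⟨n0, hM⟩ := filt_EE (N := 2 * n) hπ fun r hr => hS.pow_mem hr
  obtain ⟨g, x, hx, hm, hg⟩ := h.exists_loc Q hb0
  obtain ⟨χ, hχ⟩ := exists_chi (M := R ⧸ P) (N := R ⧸ Q) h.hasRes (t := t) (by
    rwa [Ideal.annihilator_quotient, Ideal.annihilator_quotient])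
  have hQF : Q ≤ F.nh := by
    have := hF.ann_le_nh
    rwa [Ideal.annihilator_quotient] at this
  have hmC : maximalIdeal (R ⧸ P) ^ t ≤ (F.map f).nh := by
    have h1 : maximalIdeal (R ⧸ P) ≤ (maximalIdeal R).map f := by
      intro y hy
      obtain ⟨y, rfl⟩ := hf y
      refine Ideal.mem_map_of_mem _ ?_
      by_contra hy'
      exact hy ((notMem_maximalIdeal.1 hy').map f)
    refine (Ideal.pow_right_mono h1 t).trans ?_
    rw [← Ideal.map_pow]
    exact hmap.trans ((Ideal.map_mono hQF).trans (F.map_nh_le f))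
  obtain ⟨D, hD⟩ := fl_bound (a := a) ha.le hS hπ hmC n0
  have hχ0 : χ = 0 := by
    refine eq_zero_of_bound R (C := D) (h := g) (a := a) (by omega) fun l hl ho hu => ?_
    have : NeZero l := ⟨hl.ne_zero⟩
    have h1 := cform hl ho hu h.hasRes f hf Q (by rwa [hker]) (t := t) (by rwa [hker]) hF hx hm
      hπ0 hS hM (le_refl (n0 + l)) (χ := χ)
      (hχ.equiv (Submodule.quotEquivOfEq _ _ hker.symm) (LinearEquiv.refl _ _))
    have h2 := hD l hl.one_le
    rwa [← h1, abs_mul, abs_of_nonneg (by positivity)] at h2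
  rwa [hχ0] at hχ

theorem vanishing (h : RegL R d) (P Q : Ideal R) (hP : P.IsPrime) (hQ : Q.IsPrime) {t : ℕ}
    (ht : maximalIdeal R ^ t ≤ P ⊔ Q) (hd : ringKrullDim (R ⧸ P) + ringKrullDim (R ⧸ Q) < d) :
    Chi R (R ⧸ P) (R ⧸ Q) 0 := by
  induction P using WellFoundedGT.induction generalizing Q with
  | ind P ihP =>
  induction Q using WellFoundedGT.induction with
  | ind Q ihQ =>
  refine vanishing_step h P Q hP hQ ht hd fun P' Q' hP' hQ' h1 h2 h3 => ?_
  have ht' : maximalIdeal R ^ t ≤ P' ⊔ Q' := ht.trans (sup_le_sup h1 h2)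
  have hd' : ringKrullDim (R ⧸ P') + ringKrullDim (R ⧸ Q') < d :=
    (add_le_add (dim_quot_anti h1) (dim_quot_anti h2)).trans_lt hd
  rcases eq_or_lt_of_le h1 with rfl | h4
  · exact ihQ Q' (lt_of_le_of_ne h2 (h3.resolve_left fun h5 => h5 rfl).symm) hQ' ht' hd'
  · exact ihP P' h4 Q' hP' hQ' ht' hd'

theorem RegL.vanAb (h : RegL R d) {P Q : Ideal R} (hP : P.IsPrime) (hQ : Q.IsPrime) {t : ℕ}
    (ht : maximalIdeal R ^ t ≤ P ⊔ Q) (hd : ringKrullDim (R ⧸ P) + ringKrullDim (R ⧸ Q) ≤ d) :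
    VanAb P Q := by
  intro P' Q' hP' hQ' h1 h2 h3
  refine vanishing h P' Q' hP' hQ' (ht.trans (sup_le_sup h1 h2)) ?_
  obtain ⟨a, ha⟩ := exists_dim_quot (R := R) hP.ne_top
  obtain ⟨b, hb⟩ := exists_dim_quot (R := R) hQ.ne_top
  obtain ⟨a', ha'⟩ := exists_dim_quot (R := R) hP'.ne_top
  obtain ⟨b', hb'⟩ := exists_dim_quot (R := R) hQ'.ne_top
  have e1 := dim_quot_anti (R := R) h1
  have e2 := dim_quot_anti (R := R) h2
  rw [ha, ha'] at e1
  rw [hb, hb'] at e2
  rw [ha, hb] at hd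
  rw [ha', hb']
  have f1 : a' ≤ a := by exact_mod_cast e1
  have f2 : b' ≤ b := by exact_mod_cast e2
  have f3 : a + b ≤ d := by exact_mod_cast hd
  have f4 : a' + b' < d := by
    rcases h3 with h3 | h3
    · have e3 := dim_quot_succ_le (R := R) hP (lt_of_le_of_ne h1 h3.symm)
      rw [ha, ha'] at e3
      have : a' + 1 ≤ a := by exact_mod_cast e3
      omega
    · have e3 := dim_quot_succ_le (R := R) hQ (lt_of_le_of_ne h2 h3.symm)
      rw [hb, hb'] at e3
      have : b' + 1 ≤ b := by exact_mod_cast e3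
      omega
  exact_mod_cast f4

section dev

variable {M N : Type u} [AddCommGroup M] [Module R M] [Module.Finite R M] [AddCommGroup N]
  [Module R N] [Module.Finite R N]

omit [IsLocalRing R] [Module.Finite R N] in
theorem dev_chi_zero_van
    (h : ∀ P : Ideal R, P.IsPrime → Module.annihilator R M ≤ P → Chi R (R ⧸ P) N 0) :
    Chi R M N 0 := by
  intro K aug hK
  exact (EFn.ofG (RLen.ofLen R) K (hK 0).sq).dev_zero (N := M) le_rfl
    fun P hP hMP => h P hP hMP K aug hK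

omit [IsLocalRing R] in
theorem dev_chi_pos_van (hR : HasRes R)
    (h : ∀ P : Ideal R, P.IsPrime → Module.annihilator R M ≤ P →
      ∃ x, 0 ≤ x ∧ Chi R (R ⧸ P) N x) {P0 : Ideal R} (hP0 : P0.IsPrime)
    (h0 : Module.annihilator R M ≤ P0)
    (h1 : ∀ P : Ideal R, P.IsPrime → Module.annihilator R M ≤ P → P ≤ P0 →
      ∃ x, 0 < x ∧ Chi R (R ⧸ P) N x) : ∃ x, 0 < x ∧ Chi R M N x := by
  obtain ⟨K, aug, hK⟩ := hR N
  have key := (EFn.ofG (RLen.ofLen R) K (hK 0).sq).dev_pos (N := M) le_rfl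
    (fun P hP hMP => by
      obtain ⟨x, hx, hc⟩ := h P hP hMP
      exact ⟨(hc K aug hK).1, hx.trans (hc K aug hK).2.ge⟩) hP0 h0
    (fun P hP hMP hPP => by
      obtain ⟨x, hx, hc⟩ := h1 P hP hMP hPP
      exact hx.trans_le (hc K aug hK).2.ge)
  exact ⟨_, key.2, Chi.intro hK key.1 rfl⟩

end dev

theorem Pos.posM (h : RegL R d) (hp : Pos R d) : PosM R d := by
  rintro M N _ _ _ _ _ _ ⟨t, ht⟩ hd
  have hR := h.hasRes
  have : Nontrivial M := by
    by_contra hM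
    rw [not_nontrivial_iff_subsingleton] at hM
    rw [Module.supportDim_eq_bot_of_subsingleton, WithBot.bot_add] at hd
    exact WithBot.bot_ne_coe hd
  have : Nontrivial N := by
    by_contra hN
    rw [not_nontrivial_iff_subsingleton] at hN
    rw [Module.supportDim_eq_bot_of_subsingleton R N, WithBot.add_bot] at hd
    exact WithBot.bot_ne_coe hd
  obtain ⟨P0, hP0, hMP0, hdP0⟩ := exists_prime_supportDim (R := R) (N := M)
  obtain ⟨Q0, hQ0, hNQ0, hdQ0⟩ := exists_prime_supportDim (R := R) (N := N)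
  obtain ⟨a, ha⟩ := exists_dim_quot (R := R) hP0.ne_top
  obtain ⟨b, hb⟩ := exists_dim_quot (R := R) hQ0.ne_top
  have hM : Module.supportDim R M = a := hdP0.symm.trans ha
  have hN : Module.supportDim R N = b := hdQ0.symm.trans hb
  have hab : a + b = d := by
    rw [hM, hN] at hd
    exact_mod_cast hd
  have key : ∀ P Q : Ideal R, P.IsPrime → Q.IsPrime → Module.annihilator R M ≤ P →
      Module.annihilator R N ≤ Q → ∀ a' b' : ℕ, ringKrullDim (R ⧸ P) = a' →
      ringKrullDim (R ⧸ Q) = b' → a' ≤ a ∧ b' ≤ b ∧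
        (a' + b' < d → Chi R (R ⧸ P) (R ⧸ Q) 0) ∧
        (a' + b' = d → ∃ x, 0 < x ∧ Chi R (R ⧸ P) (R ⧸ Q) x) := by
    intro P Q hP hQ h1 h2 a' b' ha' hb'
    have ht' : maximalIdeal R ^ t ≤ P ⊔ Q := ht.trans (sup_le_sup h1 h2)
    have e1 := dim_quot_le_supportDim h1
    have e2 := dim_quot_le_supportDim h2
    rw [ha', hM] at e1
    rw [hb', hN] at e2
    refine ⟨by exact_mod_cast e1, by exact_mod_cast e2, fun h3 => ?_, fun h3 => ?_⟩
    · refine vanishing h P Q hP hQ ht' ?_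
      rw [ha', hb']
      exact_mod_cast h3
    · refine hp P Q hP hQ ⟨t, ht'⟩ ?_
      rw [ha', hb']
      exact_mod_cast h3
  have top : ∀ Q : Ideal R, Q.IsPrime → Module.annihilator R N ≤ Q →
      ringKrullDim (R ⧸ Q) = b → ∃ x, 0 < x ∧ Chi R (R ⧸ Q) M x := by
    intro Q hQ h2 hb'
    obtain ⟨x, hx, hc⟩ := dev_chi_pos_van (M := M) (N := R ⧸ Q) hR (fun P hP h1 => by
      obtain ⟨a', ha'⟩ := exists_dim_quot (R := R) hP.ne_top
      obtain ⟨k1, -, k3, k4⟩ := key P Q hP hQ h1 h2 a' b ha' hb'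
      rcases eq_or_lt_of_le k1 with k5 | k5
      · obtain ⟨x, hx, hc⟩ := k4 (by omega)
        exact ⟨x, hx.le, hc⟩
      · exact ⟨0, le_rfl, k3 (by omega)⟩) hP0 hMP0 (fun P hP h1 h3 => by
      obtain ⟨a', ha'⟩ := exists_dim_quot (R := R) hP.ne_top
      obtain ⟨k1, -, -, k4⟩ := key P Q hP hQ h1 h2 a' b ha' hb'
      have e1 := dim_quot_anti (R := R) h3
      rw [ha, ha'] at e1
      have : a ≤ a' := by exact_mod_cast e1
      exact k4 (by omega))
    exact ⟨x, hx, hc.symm hR⟩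
  obtain ⟨x, hx, hc⟩ := dev_chi_pos_van (M := N) (N := M) hR (fun Q hQ h2 => by
    obtain ⟨b', hb'⟩ := exists_dim_quot (R := R) hQ.ne_top
    have k2 := (key P0 Q hP0 hQ hMP0 h2 a b' ha hb').2.1
    rcases eq_or_lt_of_le k2 with k5 | k5
    · obtain ⟨x, hx, hc⟩ := top Q hQ h2 (k5 ▸ hb')
      exact ⟨x, hx.le, hc⟩
    · refine ⟨0, le_rfl, (dev_chi_zero_van (M := M) (N := R ⧸ Q) fun P hP h1 => ?_).symm hR⟩
      obtain ⟨a', ha'⟩ := exists_dim_quot (R := R) hP.ne_top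
      obtain ⟨k1, -, k3, -⟩ := key P Q hP hQ h1 h2 a' b' ha' hb'
      exact k3 (by omega)) hQ0 hNQ0 (fun Q hQ h2 h3 => by
    obtain ⟨b', hb'⟩ := exists_dim_quot (R := R) hQ.ne_top
    have k2 := (key P0 Q hP0 hQ hMP0 h2 a b' ha hb').2.1
    have e1 := dim_quot_anti (R := R) h3
    rw [hb, hb'] at e1
    have e2 : b ≤ b' := by exact_mod_cast e1
    exact top Q hQ h2 (le_antisymm k2 e2 ▸ hb'))
  exact ⟨x, hx, hc.symm hR⟩

end Vale.Agent.P177
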