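import Vale.Agent.P177.BKP
import Vale.Agent.P177.BForm
import Vale.Agent.P177.Strand
import Vale.Agent.P177.Van

/-! Positivity from the perfectoid data. -/

namespace Vale.Agent.P177

open Vale.Agent.P202 IsLocalRing Polynomial
open scoped ENNReal

universe u

variable {A C : Type u} [CommRing A] [IsLocalRing A] [IsNoetherianRing A] [CommRing C]
  [IsLocalRing C] [IsNoetherianRing C] [IsDomain C] [Algebra A C] {p a : ℕ} {Xv : Fin a → A}
  {θ : C} {F : A[X]} {Δ Γ : A} {n0 c1 c2 s : ℕ} {𝔞 : ℕ → Ideal C} {O : Obj A C F.natDegree s}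

omit [IsNoetherianRing A] [IsLocalRing C] [IsNoetherianRing C] [IsDomain C] in
theorem Obj.Ok.eta_pow {N : ℕ} {ε : ℝ≥0∞} (h : O.Ok p θ F N 𝔞 n0 c2 ε) (i : Fin F.natDegree)
    (j : Fin s) (a m : ℕ) {x : O.B} (hx : x ∈ O.M i (cst (a : ℤ))) :
    O.η i j ^ m * x ∈ O.M i (cst ((a + m : ℕ) : ℤ)) := by
  induction m with
  | zero => simpa using hx
  | succ m ih =>
    have h1 := h.mulη i j _ (fun r => by simp [cst]; positivity) _ ih
    have h2 : cst ((a + m : ℕ) : ℤ) + cst 1 = cst ((a + (m + 1) : ℕ) : ℤ) := by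
      funext r
      simp [cst, add_assoc]
    rwa [h2, ← mul_assoc, ← pow_succ'] at h1

/-- The flag formula over `B`, with the coefficients moved back to `B`. -/
theorem psi_B_bound {K : GC C} {n c : ℕ} {e : Fin n → ℕ} {b : Matrix K.ι (Fin n ⊕ Fin n) C}
    {b' : Matrix (Fin n ⊕ Fin n) K.ι C} (hS : Setup K p e b b' c 𝔞) {t : ℕ}
    (ht : maximalIdeal C ^ t ≤ K.nh) (hD : Dat p Xv θ F Δ Γ)
    (h : O.Ok p θ F (2 * n) 𝔞 n0 c2 0) (hκ : Null O.μ O.κ0)
    (hL : LAR (2 * n) 𝔞 ((maximalIdeal A).map (algebraMap A C)) c1) (h1 : c1 ≤ c2)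
    (h2 : 1 ≤ c2) (hs : 1 ≤ s) : ∃ K3 : ℝ, ∀ (l : ℕ) [NeZero l], l.Prime → Odd l →
      IsUnit (l : C) → ∀ x : ℝ,
      (∀ ρ : ℕ, n0 + l ≤ ρ → fl (RLen.ofLen C) (EE (2 * n) 𝔞) e l ρ = x) →
      (∀ i, GoodPG l (O.μ.res O.toB) (K.map (O.τ i)) (⊥ : Submodule O.B O.B) ⊤) →
      |∑ i, psiG l (O.μ.res O.toB) (K.map (O.τ i)) (⊥ : Submodule O.B O.B) ⊤ -
        ((l : ℝ) - 1) * x| ≤ ((l : ℝ) - 1) * (K3 * (l : ℝ) ^ a) := by
  obtain ⟨hfin, K2, hK2⟩ := fl_compare hS ht hD h hκ hL h1 h2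
  refine ⟨2 ^ s * K2, fun l _ hl ho hu x hx hg => ?_⟩
  have hl1 : (1 : ℝ) < l := by exact_mod_cast hl.one_lt
  have hκB : Null (O.μ.res O.toB) (O.toB O.κ0) := hκ.res _
  let G : Fin F.natDegree → ℕ → Ideal O.B := fun i j =>
    O.M i (cst (((s - j) * (n0 + l) : ℕ) : ℤ))
  have hGs : ∀ i j, s ≤ j → G i j = ⊤ := fun i j hj => by
    simp only [G, Nat.sub_eq_zero_of_le hj, zero_mul, Nat.cast_zero]
    exact (h.filt i).top
  have hle : ∀ j < s, n0 + l ≤ (s - j) * (n0 + l) := fun j hj =>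
    Nat.le_mul_of_pos_left _ (by omega)
  have hfl : ∀ i, ∀ j < s, GoodPG l (O.μ.res O.toB) (K.map (O.τ i)) ⊥ (G i j) ∧
      psiG l (O.μ.res O.toB) (K.map (O.τ i)) ⊥ (G i j) =
        ((l : ℝ) - 1) * fl (O.μ.res O.toB) (O.M i) e l ((s - j) * (n0 + l)) := fun i j hj => by
    have hS' := hS.map (O.τ i)
    rw [map_natCast] at hS'
    exact flag hl ho (by simpa using hu.map (O.τ i)) hS' h.cov.pB (h.filt i) hκB (hfin i)
      (hle j hj)
  have hst : ∀ i, ∑ j ∈ Finset.range (s + 1), (-1 : ℝ) ^ j * (s.choose j) *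
      psiG l (O.μ.res O.toB) (K.map (O.τ i)) ⊥ (G i j) = 0 := fun i => by
    refine strand_psi hκB (h.kos i (n0 + l) (by have := hl.one_le; omega)) (fun k j y hy => ?_)
      (hS.sq.map _) ho (by simpa using hu.map (O.τ i)) fun j hj => ?_
    · rcases lt_or_ge j s with hj | hj
      · have h3 := h.eta_pow i k _ (n0 + l) hy
        have h4 : (s - (j + 1)) * (n0 + l) + (n0 + l) = (s - j) * (n0 + l) := by
          rw [show s - j = s - (j + 1) + 1 by omega, add_mul, one_mul]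
        rwa [h4] at h3
      · change _ ∈ G i j
        rw [hGs i j hj]
        trivial
    · rcases lt_or_eq_of_le hj with hj | rfl
      · exact (hfl i j hj).1
      · change GoodPG l _ _ ⊥ (G i j)
        rw [hGs i j le_rfl]
        exact hg i
  have h5 := strand_bound (a := fun j => ∑ i, psiG l (O.μ.res O.toB) (K.map (O.τ i)) ⊥ (G i j))
    (x := ((l : ℝ) - 1) * x) (D := ((l : ℝ) - 1) * (K2 * (l : ℝ) ^ a)) hs
    (by
      simp only [Finset.mul_sum]
      rw [Finset.sum_comm]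
      exact Finset.sum_eq_zero fun i _ => hst i)
    fun j hj => by
      simp only [fun i => (hfl i j hj).2]
      rw [← Finset.mul_sum, ← mul_sub, abs_mul, abs_of_pos (sub_pos.2 hl1),
        ← hx _ (hle j hj)]
      exact mul_le_mul_of_nonneg_left (hK2 l _ hl.one_le (hle j hj)
        (Nat.mul_le_mul_right _ (Nat.sub_le _ _))) (sub_pos.2 hl1).le
  simp only [hGs _ s le_rfl] at h5
  refine h5.trans (le_of_eq ?_)
  ring

variable {W R : Type u} [CommRing W] [IsDomain W] [IsDiscreteValuationRing W] [CommRing R]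
  [IsLocalRing R] [IsNoetherianRing R] [IsAdicComplete (maximalIdeal A) A] {d : ℕ}
  {π : PS (Fin d) W →+* R} {g : PS (Fin d) W}

theorem main_pos (hW : maximalIdeal W = Ideal.span {(p : W)}) (hπ : Pres p π g) (hR : RegL R d)
    (f : R →+* C) (hf : Function.Surjective f) (ω : W →+* A)
    (hω : ∀ w, f (π (MvPowerSeries.C w)) = algebraMap A C (ω w)) (Q : Ideal R) [Q.IsPrime] {t : ℕ}
    (ht : maximalIdeal R ^ t ≤ RingHom.ker f ⊔ Q)
    (hd : ringKrullDim C + ringKrullDim (R ⧸ Q) = d) {K : GC R} {aK : (K.ι → R) →ₗ[R] R ⧸ Q}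
    (hK : K.IsRes aK) {n c : ℕ} {e : Fin n → ℕ} {b : Matrix K.ι (Fin n ⊕ Fin n) C}
    {b' : Matrix (Fin n ⊕ Fin n) K.ι C} (hS : Setup (K.map f) p e b b' c 𝔞)
    (hM : Filt (2 * n) 𝔞 p 1 n0 (EE (2 * n) 𝔞)) (hD : Dat p Xv θ F Δ Γ)
    (h : O.Ok p θ F (2 * n) 𝔞 n0 c2 0) (hκ : Null O.μ O.κ0)
    (hL : LAR (2 * n) 𝔞 ((maximalIdeal A).map (algebraMap A C)) c1) (h1 : c1 ≤ c2)
    (h2 : 1 ≤ c2) (hs : 1 ≤ s) {χ : ℝ} (hχ : Chi R (R ⧸ RingHom.ker f) (R ⧸ Q) χ) : 0 < χ := by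
  have := hD.fin
  have := hD.loc
  have hQ : Q.IsPrime := inferInstance
  have hP : (RingHom.ker f).IsPrime := RingHom.ker_isPrime f
  obtain ⟨bq, hb⟩ := exists_dim_quot hQ.ne_top
  have hdd : d = a + 1 + bq := by
    rw [hD.dimC, hb, Nat.card_eq_fintype_card, Fintype.card_fin] at hd
    exact_mod_cast hd.symm
  obtain ⟨h', x, hx, hm, hh⟩ := hR.exists_loc Q hb
  have hpA : (p : A) ∈ maximalIdeal A := hD.max ▸ Ideal.subset_span (Set.mem_insert _ _)
  have hp0 : (p : C) ≠ 0 := fun h0 => nonZeroDivisors.ne_zero (hD.reg.mem_nonZeroDivisors none)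
    (hD.inj (by simpa using h0))
  have hfm : ∀ z ∈ maximalIdeal R, f z ∈ maximalIdeal C := fun z hz =>
    map_maximalIdeal_of_surjective f hf ▸ Ideal.mem_map_of_mem f hz
  have hX : ∀ j, f (π (MvPowerSeries.X j)) ∈ maximalIdeal C := fun j => hfm _ (by
    rw [hπ.max hW]
    exact Ideal.subset_span (Set.mem_insert_of_mem _ ⟨j, rfl⟩))
  obtain ⟨c0, hc0⟩ := exists_pow_le_map (A := A) (C' := C)
  have htau : ∀ i a, O.τ i (algebraMap A C a) = O.β (O.ψ (O.α0 a)) := fun i a => by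
    rw [h.comm]
    exact h.cov.tau i a
  have hpur := fun i : Fin F.natDegree => by
    have h3 := exists_lft hW hπ h.pri
      (by
        rw [← map_natCast O.ψ, ← map_natCast O.α0]
        exact Ideal.mem_map_of_mem _ (Ideal.mem_sup_left (Ideal.mem_map_of_mem _ hpA)))
      (Ideal.mem_map_of_mem _ (Ideal.mem_sup_right (Ideal.subset_span rfl))) ω
      (O.ψ.comp O.α0) ((O.τ i).comp f)
      (fun j => ⟨c0, by
        have h4 := Ideal.mem_map_of_mem (O.τ i) (hc0 (Ideal.pow_mem_pow (hX j) c0))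
        rw [map_pow, Ideal.map_map] at h4
        refine Ideal.map_le_iff_le_comap.2 (fun a ha => ?_) h4
        rw [Ideal.mem_comap, RingHom.comp_apply, htau]
        exact Ideal.mem_map_of_mem _ (Ideal.mem_map_of_mem _
          (Ideal.mem_sup_left (Ideal.mem_map_of_mem _ ha)))⟩)
      fun Ψ h5 h6 z => compat ω (f.comp π) hω hX (O.τ i) Ψ
        (fun a => (h5 a).trans (htau i a).symm) h6 z
    exact h3.elim fun T h3 => h3.elim fun _ h3 => h3.elim fun _ h3 => h3.elim fun c h3 =>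
      h3.elim fun ev h3 => h3.elim fun y h3 => purity_B hD h hκ f hf i h3 Q ht hb hdd hK hx hm
  choose ϑ hϑ hϑ' using hpur
  have hQF : Q ≤ K.nh := by
    have := hK.ann_le_nh
    rwa [Ideal.annihilator_quotient] at this
  have hmC : maximalIdeal C ^ t ≤ (K.map f).nh := by
    rw [← map_maximalIdeal_of_surjective f hf, ← Ideal.map_pow]
    refine (Ideal.map_mono ht).trans ?_
    rw [Ideal.map_sup, (Ideal.map_eq_bot_iff_le_ker f).2 le_rfl, bot_sup_eq]
    exact (Ideal.map_mono hQF).trans (K.map_nh_le f)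
  obtain ⟨K3, hK3⟩ := psi_B_bound hS hmC hD h hκ hL h1 h2 hs
  have hv : VanAb (RingHom.ker f) Q := hR.vanAb hP hQ ht (by
    rw [ringKrullDim_eq_of_ringEquiv (RingHom.quotientKerEquivOfSurjective hf), hd])
  have key : ∑ i, ϑ i - χ = 0 := by
    refine eq_zero_of_bound R (C := K3) (h := h') (a := a) (by omega) fun l hl ho hu => ?_
    have : NeZero l := ⟨hl.ne_zero⟩
    have hl1 : (1 : ℝ) < l := by exact_mod_cast hl.one_lt
    have h7 := hK3 l hl ho (by simpa using hu.map f) ((l : ℝ) ^ h' * χ)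
      (fun ρ hρ => (cform hl ho hu hR.hasRes f hf Q hv ht hK hx hm hp0 hS hM hρ hχ).symm)
      fun i => by
        rw [GC.map_map]
        exact (hϑ' i l hl ho hu).1
    simp only [GC.map_map, fun i => (hϑ' i l hl ho hu).2] at h7
    rw [← Finset.mul_sum, mul_assoc, ← mul_sub, ← mul_sub, abs_mul, abs_of_pos (sub_pos.2 hl1),
      abs_mul, abs_of_nonneg (by positivity)] at h7
    exact le_of_mul_le_mul_left h7 (sub_pos.2 hl1)
  have : Nonempty (Fin F.natDegree) := ⟨⟨0, hD.deg⟩⟩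
  rw [← sub_eq_zero.1 key]
  exact Finset.sum_pos (fun i _ => hϑ i) Finset.univ_nonempty

end Vale.Agent.P177
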