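import Vale.Agent.P177.Defs
import Vale.Agent.P202.LC

/-! Regular local rings are domains and regular parameters are regular sequences. -/

namespace Vale.Agent.P177

open Vale.Agent.P202 IsLocalRing

universe u

variable {R : Type u} [CommRing R] [IsLocalRing R] [IsNoetherianRing R] {d : ℕ}

theorem dim_le_reg1 {s : Set R} (hs : Ideal.span s = maximalIdeal R) {a : ℕ}
    (ha : s.encard ≤ a) : ringKrullDim R ≤ (a : WithBot ℕ∞) := by
  refine (ringKrullDim_le_spanFinrank_maximalIdeal R).trans ?_
  have h1 : ((maximalIdeal R).spanFinrank : ℕ∞) ≤ a := by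
    rw [← hs]
    exact (Submodule.spanFinrank_span_le_encard s).trans ha
  exact_mod_cast h1

theorem encard_range_reg1 {α : Type*} (x : Fin d → α) : (Set.range x).encard ≤ d := by
  rw [← Set.image_univ]
  refine (Set.encard_image_le _ _).trans ?_
  simp

theorem dim_quot_reg1 {s : Set R} (hs : Ideal.span s ≤ maximalIdeal R) {a b : ℕ}
    (ha : s.encard ≤ a) (hd : ((a + b : ℕ) : WithBot ℕ∞) ≤ ringKrullDim R) :
    (b : WithBot ℕ∞) ≤ ringKrullDim (R ⧸ Ideal.span s) := by
  have h1 := ringKrullDim_le_ringKrullDim_quotient_add_encard s (by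
    rw [IsLocalRing.ringJacobson_eq_maximalIdeal]
    exact Ideal.span_le.1 hs)
  have h2 : ((a + b : ℕ) : WithBot ℕ∞) ≤ ringKrullDim (R ⧸ Ideal.span s) + (a : WithBot ℕ∞) := by
    refine hd.trans (h1.trans ?_)
    gcongr
    exact_mod_cast ha
  generalize ringKrullDim (R ⧸ Ideal.span s) = D at h2
  induction D with
  | bot => simp at h2
  | coe D =>
    induction D with
    | top => exact_mod_cast le_top
    | coe D =>
      have h3 : a + b ≤ D + a := by exact_mod_cast h2
      have h4 : b ≤ D := by omega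
      exact_mod_cast h4

omit [IsNoetherianRing R] in
theorem isLocalRing_quot_reg1 {I : Ideal R} (hI : I ≤ maximalIdeal R) : IsLocalRing (R ⧸ I) :=
  have : Nontrivial (R ⧸ I) := Ideal.Quotient.nontrivial_iff.2 (fun h => by
    rw [h] at hI
    exact (maximalIdeal.isMaximal R).ne_top (top_le_iff.1 hI))
  IsLocalRing.of_surjective' (Ideal.Quotient.mk I) Ideal.Quotient.mk_surjective

omit [IsNoetherianRing R] in
theorem span_quot_reg1 {s t : Set R} (hst : Ideal.span (s ∪ t) = maximalIdeal R)
    [IsLocalRing (R ⧸ Ideal.span s)] :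
    Ideal.span (Ideal.Quotient.mk (Ideal.span s) '' t) = maximalIdeal (R ⧸ Ideal.span s) := by
  rw [← map_maximalIdeal_of_surjective (Ideal.Quotient.mk (Ideal.span s))
    Ideal.Quotient.mk_surjective, ← hst, Ideal.span_union, Ideal.map_sup, Ideal.map_quotient_self,
    bot_sup_eq, Ideal.map_span]

theorem RegL.of_gen (x : Fin d → R) (hx : Ideal.span (Set.range x) = maximalIdeal R)
    (hd : (d : WithBot ℕ∞) ≤ ringKrullDim R) : RegL R d :=
  ⟨le_antisymm (dim_le_reg1 hx (encard_range_reg1 x)) hd, x, hx⟩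

omit [IsNoetherianRing R] in
theorem exists_exchange (x : Fin d → R) (hx : Ideal.span (Set.range x) = maximalIdeal R) {y : R}
    (hy : y ∈ maximalIdeal R) (hy2 : y ∉ maximalIdeal R ^ 2) :
    ∃ j, Ideal.span (Set.range (Function.update x j y)) = maximalIdeal R := by
  classical
  have hxm : ∀ i, x i ∈ maximalIdeal R := fun i => hx ▸ Ideal.subset_span ⟨i, rfl⟩
  have hy' := hy
  rw [← hx] at hy'
  obtain ⟨a, ha⟩ := Ideal.mem_span_range_iff_exists_fun.1 hy'
  have hj : ∃ j, a j ∉ maximalIdeal R := by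
    by_contra hcon
    push Not at hcon
    apply hy2
    rw [← ha, pow_two]
    exact Ideal.sum_mem _ fun i _ => Ideal.mul_mem_mul (hcon i) (hxm i)
  obtain ⟨j, hj⟩ := hj
  have hu : IsUnit (a j) := notMem_maximalIdeal.1 hj
  refine ⟨j, le_antisymm ?_ ?_⟩
  · rw [Ideal.span_le]
    rintro _ ⟨i, rfl⟩
    by_cases hi : i = j
    · subst hi
      simpa using hy
    · simpa [Function.update_of_ne hi] using hxm i
  · rw [← hx, Ideal.span_le]
    have hne : ∀ i, i ≠ j → x i ∈ Ideal.span (Set.range (Function.update x j y)) := fun i hi =>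
      Ideal.subset_span ⟨i, Function.update_of_ne hi _ _⟩
    rintro _ ⟨i, rfl⟩
    by_cases hi : i = j
    · subst hi
      have h1 : y ∈ Ideal.span (Set.range (Function.update x i y)) :=
        Ideal.subset_span ⟨i, Function.update_self _ _ _⟩
      have h2 : a i * x i = y - ∑ k ∈ Finset.univ.erase i, a k * x k := by
        rw [← ha, ← Finset.add_sum_erase _ _ (Finset.mem_univ i)]
        ring
      have h3 : a i * x i ∈ Ideal.span (Set.range (Function.update x i y)) := by
        rw [h2]
        exact Ideal.sub_mem _ h1 (Ideal.sum_mem _ fun k hk =>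
          Ideal.mul_mem_left _ _ (hne k (Finset.ne_of_mem_erase hk)))
      exact (Ideal.unit_mul_mem_iff_mem _ hu).1 h3
    · exact hne i hi

theorem exists_avoid_reg1 (h : ringKrullDim R ≠ 0) :
    ∃ y ∈ maximalIdeal R, y ∉ maximalIdeal R ^ 2 ∧ ∀ p ∈ minimalPrimes R, y ∉ p := by
  classical
  by_contra hcon
  push Not at hcon
  have hfin := minimalPrimes.finite_of_isNoetherianRing R
  have hsub : ((maximalIdeal R : Ideal R) : Set R) ⊆
      ⋃ i ∈ ((insert (maximalIdeal R ^ 2) hfin.toFinset : Finset (Ideal R)) : Set (Ideal R)),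
        ((id i : Ideal R) : Set R) := by
    intro y hy
    simp only [Set.mem_iUnion]
    by_cases hy2 : y ∈ maximalIdeal R ^ 2
    · exact ⟨_, by simp, hy2⟩
    · obtain ⟨p, hp, hyp⟩ := hcon y hy hy2
      exact ⟨p, by simp [hp], hyp⟩
  rw [Ideal.subset_union_prime (maximalIdeal R ^ 2) (maximalIdeal R ^ 2) (fun i hi h1 _ => by
    rcases Finset.mem_insert.1 hi with hi | hi
    · exact absurd hi h1
    · exact (hfin.mem_toFinset.1 hi).1.1)] at hsub
  obtain ⟨p, hp, hle⟩ := hsub
  apply h
  rcases Finset.mem_insert.1 hp with hp | hp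
  · have hb : maximalIdeal R = ⊥ := by
      refine Submodule.eq_bot_of_le_smul_of_le_jacobson_bot (maximalIdeal R) _
        (IsNoetherian.noetherian _) ?_ (maximalIdeal_le_jacobson _)
      rw [smul_eq_mul, ← pow_two, ← hp]
      exact hle
    rw [← maximalIdeal_height_eq_ringKrullDim, hb]
    simp
  · have hp' := hfin.mem_toFinset.1 hp
    have he : maximalIdeal R = p := (maximalIdeal.isMaximal R).eq_of_le hp'.1.1.ne_top hle
    rw [← maximalIdeal_height_eq_ringKrullDim, Ideal.height_eq_zero_iff.2 (he ▸ hp')]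
    rfl

theorem isDomain_reg1 (d : ℕ) : ∀ (R : Type u) [CommRing R] [IsLocalRing R] [IsNoetherianRing R],
    RegL R d → IsDomain R := by
  induction d with
  | zero =>
    rintro R _ _ _ ⟨-, x, hx⟩
    have hb : maximalIdeal R = ⊥ := by
      rw [← hx]
      simp
    have : (⊥ : Ideal R).IsPrime := hb ▸ (maximalIdeal.isMaximal R).isPrime
    exact IsDomain.of_bot_isPrime R
  | succ d ih =>
    rintro R _ _ _ ⟨hd, x, hx⟩
    obtain ⟨y, hy, hy2, hyp⟩ := exists_avoid_reg1 (R := R) (by
      rw [hd]
      exact_mod_cast Nat.succ_ne_zero d)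
    obtain ⟨j, hj⟩ := exists_exchange x hx hy hy2
    have hle : Ideal.span {y} ≤ maximalIdeal R := (Ideal.span_singleton_le_iff_mem _).2 hy
    have := isLocalRing_quot_reg1 hle
    have hst : Ideal.span ({y} ∪ Set.range fun i => x (j.succAbove i)) = maximalIdeal R := by
      rw [← hj]
      congr 1
      ext z
      constructor
      · rintro (hz | ⟨i, rfl⟩)
        · exact ⟨j, by rw [Function.update_self]; exact hz.symm⟩
        · exact ⟨j.succAbove i, Function.update_of_ne (Fin.succAbove_ne j i) _ _⟩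
      · rintro ⟨i, rfl⟩
        by_cases hi : i = j
        · subst hi
          exact Or.inl (by simp)
        · obtain ⟨k, rfl⟩ := Fin.exists_succAbove_eq hi
          exact Or.inr ⟨k, (Function.update_of_ne hi _ _).symm⟩
    have hq := span_quot_reg1 hst
    rw [← Set.range_comp] at hq
    have hdim : (d : WithBot ℕ∞) ≤ ringKrullDim (R ⧸ Ideal.span {y}) :=
      dim_quot_reg1 (a := 1) hle (by simp) (by rw [hd, add_comm])
    have hdom := ih _ (RegL.of_gen _ hq hdim)
    have hpr : (Ideal.span {y}).IsPrime := (Ideal.Quotient.isDomain_iff_prime _).1 hdom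
    obtain ⟨p, hp, hpy⟩ := Ideal.exists_minimalPrimes_le (I := ⊥) (J := Ideal.span {y}) bot_le
    have hpp : p.IsPrime := hp.1.1
    have hb : p = ⊥ := by
      refine Submodule.eq_bot_of_le_smul_of_le_jacobson_bot (maximalIdeal R) _
        (IsNoetherian.noetherian _) ?_ (maximalIdeal_le_jacobson _)
      intro z hz
      obtain ⟨w, rfl⟩ := Ideal.mem_span_singleton'.1 (hpy hz)
      have hw : w ∈ p := (hpp.mem_or_mem hz).resolve_right (hyp p hp)
      rw [mul_comm]
      exact Submodule.smul_mem_smul hy hw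
    have : (⊥ : Ideal R).IsPrime := hb ▸ hpp
    exact IsDomain.of_bot_isPrime R

theorem regL_of_reg1 (R : Type u) [CommRing R] [IsRegularLocalRing R] {d : ℕ}
    (hd : ringKrullDim R = d) : RegL R d := by
  obtain ⟨s, hs, hs'⟩ :=
    Submodule.FG.exists_span_finset_card_eq_spanFinrank (IsNoetherian.noetherian (maximalIdeal R))
  have h1 : s.card = d := by
    have h2 := IsRegularLocalRing.spanFinrank_maximalIdeal (R := R)
    rw [hd, ← hs] at h2
    exact_mod_cast h2
  refine ⟨hd, fun i => (s.equivFinOfCardEq h1).symm i, ?_⟩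
  have h3 : (Set.range fun i => (((s.equivFinOfCardEq h1).symm i : s) : R)) = s := by
    ext z
    constructor
    · rintro ⟨i, rfl⟩
      exact ((s.equivFinOfCardEq h1).symm i).2
    · intro hz
      exact ⟨s.equivFinOfCardEq h1 ⟨z, hz⟩, by simp⟩
  rw [h3]
  exact hs'

theorem RegL.isDomain (h : RegL R d) : IsDomain R :=
  isDomain_reg1 d R h

theorem RegL.permReg (h : RegL R d) {x : Fin d → R}
    (hx : Ideal.span (Set.range x) = maximalIdeal R) : PermReg x := by
  classical
  intro T i hi z hz
  have hle : Ideal.span (x '' T) ≤ maximalIdeal R :=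
    hx ▸ Ideal.span_mono (Set.image_subset_range _ _)
  have := isLocalRing_quot_reg1 hle
  have hst : Ideal.span (x '' T ∪ x '' Tᶜ) = maximalIdeal R := by
    rw [← Set.image_union, Set.union_compl_self, Set.image_univ, hx]
  have hq := span_quot_reg1 hst
  have hcard : T.ncard + Tᶜ.ncard = d := by
    rw [Set.ncard_add_ncard_compl T]
    simp
  have henc : ∀ S : Set (Fin d), (x '' S).encard ≤ S.ncard := fun S =>
    (Set.encard_image_le _ _).trans (Set.toFinite S).cast_ncard_eq.ge
  have hdim : ((Tᶜ.ncard : ℕ) : WithBot ℕ∞) ≤ ringKrullDim (R ⧸ Ideal.span (x '' T)) :=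
    dim_quot_reg1 hle (henc T) (by rw [hcard, h.1])
  have hup : ringKrullDim (R ⧸ Ideal.span (x '' T)) ≤ ((Tᶜ.ncard : ℕ) : WithBot ℕ∞) :=
    dim_le_reg1 hq ((Set.encard_image_le _ _).trans (henc _))
  have hreg : IsRegularLocalRing (R ⧸ Ideal.span (x '' T)) := by
    refine IsRegularLocalRing.of_spanFinrank_maximalIdeal_le _ (le_trans ?_ hdim)
    have h1 : ((maximalIdeal (R ⧸ Ideal.span (x '' T))).spanFinrank : ℕ∞) ≤ (Tᶜ.ncard : ℕ) := by
      rw [← hq]
      exact (Submodule.spanFinrank_span_le_encard _).trans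
        ((Set.encard_image_le _ _).trans (henc _))
    exact_mod_cast h1
  have hdom : IsDomain (R ⧸ Ideal.span (x '' T)) :=
    (regL_of_reg1 _ (le_antisymm hup hdim)).isDomain
  have hpr : (Ideal.span (x '' T)).IsPrime := (Ideal.Quotient.isDomain_iff_prime _).1 hdom
  refine (hpr.mem_or_mem hz).resolve_left fun hxi => ?_
  have hsp : Ideal.span (x '' {i}ᶜ) = maximalIdeal R := by
    refine le_antisymm (hx ▸ Ideal.span_mono (Set.image_subset_range _ _)) ?_
    rw [← hx, Ideal.span_le]
    rintro _ ⟨k, rfl⟩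
    by_cases hk : k = i
    · subst hk
      refine Ideal.span_mono (Set.image_mono fun t ht => ?_) hxi
      rintro rfl
      exact hi ht
    · exact Ideal.subset_span ⟨k, hk, rfl⟩
  have h2 := dim_le_reg1 hsp (henc _)
  have h3 : ({i} : Set (Fin d)).ncard + ({i}ᶜ : Set (Fin d)).ncard = d := by
    rw [Set.ncard_add_ncard_compl]
    simp
  rw [h.1] at h2
  have h4 : d ≤ ({i}ᶜ : Set (Fin d)).ncard := by exact_mod_cast h2
  rw [Set.ncard_singleton] at h3
  omega

theorem RegL.unr (h : RegL R d) {R' : Type u} [CommRing R'] [IsLocalRing R'] [IsNoetherianRing R']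
    [Algebra R R'] (hU : Unr R R') : RegL R' d := by
  obtain ⟨hd, x, hx⟩ := h
  refine ⟨by rw [hU.dim_eq, hd], algebraMap R R' ∘ x, ?_⟩
  rw [Set.range_comp, ← Ideal.map_span, hx, hU.map_eq]

/-- A surjection onto a ring of the same dimension is injective. -/
theorem RegL.injective (h : RegL R d) {R' : Type u} [CommRing R'] (f : R →+* R')
    (hf : Function.Surjective f) (hd : ringKrullDim R' = d) : Function.Injective f := by
  have := h.isDomain
  rw [injective_iff_map_eq_zero]
  intro r hr
  by_contra hne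
  have h1 := ringKrullDim_succ_le_of_surjective f hf (mem_nonZeroDivisors_of_ne_zero hne) hr
  rw [hd, h.1] at h1
  have h2 : d + 1 ≤ d := by exact_mod_cast h1
  omega

theorem regL_of_isRegularLocalRing (R : Type u) [CommRing R] [IsRegularLocalRing R] {d : ℕ}
    (hd : ringKrullDim R = d) : RegL R d :=
  regL_of_reg1 R hd

end Vale.Agent.P177
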