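import Vale.Agent.P177.Defs
import Vale.Agent.P177.Reg1
import Vale.Agent.P202.MQR
import Vale.Agent.P202.MPrim

/-! Noether normalisation with a primitive element. -/

namespace Vale.Agent.P177

open Vale.Agent.P202 MvPowerSeries IsLocalRing

universe u

theorem exists_dat {p : ℕ} [Fact p.Prime] {W : Type u} [CommRing W] [IsDomain W]
    [IsDiscreteValuationRing W] (hW : IsCohen p W) {C : Type u} [CommRing C] [IsDomain C]
    [IsLocalRing C] [IsNoetherianRing C] [IsAdicComplete (maximalIdeal C) C]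
    [Infinite (ResidueField C)] (ω : W →+* C) (hω : Function.Surjective ((residue C).comp ω))
    (hp : (p : C) ∈ maximalIdeal C) (hp0 : (p : C) ≠ 0) :
    ∃ (a : ℕ) (_ : Algebra (PS (Fin a) W) C) (θ : C) (F : Polynomial (PS (Fin a) W))
      (Δ Γ : PS (Fin a) W), Dat p X θ F Δ Γ ∧
      ∀ w, algebraMap (PS (Fin a) W) C (MvPowerSeries.C w) = ω w := by
  obtain ⟨a, ha⟩ : ∃ a : ℕ, ringKrullDim C = (a + 1 : ℕ) := by
    obtain ⟨n, hn⟩ := LC.exists_dim C
    have _ := isLocalRing_quot_reg1 ((Ideal.span_singleton_le_iff_mem _).2 hp)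
    obtain ⟨f, hf⟩ := LC.exists_dim (C ⧸ Ideal.span {(p : C)})
    have h1 := ringKrullDim_quotient_succ_le_of_nonZeroDivisor
      (mem_nonZeroDivisors_of_ne_zero hp0)
    rw [hf, hn] at h1
    have h2 : f + 1 ≤ n := by exact_mod_cast h1
    exact ⟨n - 1, by rw [hn, Nat.sub_add_cancel (by omega)]⟩
  obtain ⟨alg, x0, hfin, hinj, hloc, hC, hred⟩ := exists_noether hW ω hω hp hp0 ha
  have _ : IsDomain (PS (Fin a) W) := NoZeroDivisors.to_isDomain _
  have _ : CharZero W := charZero_of_unram hW.max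
  have _ : CharZero (PS (Fin a) W) := charZero_of_injective_ringHom (f := MvPowerSeries.C) MvPowerSeries.C_injective
  have _ : IsIntegrallyClosed (PS (Fin a) W) := ps_isIntegrallyClosed
  have _ : FaithfulSMul (PS (Fin a) W) C := (faithfulSMul_iff_algebraMap_injective _ _).2 hinj
  have hpA : (p : PS (Fin a) W) ≠ 0 := Nat.cast_ne_zero.2 (Fact.out : p.Prime).ne_zero
  obtain ⟨θ, Δ, -, hΔ, hden⟩ := exists_prim hinj hpA (by rw [map_natCast]; exact hp) hred
  have hθ : IsIntegral (PS (Fin a) W) θ := Algebra.IsIntegral.isIntegral θ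
  have hker : ∀ H : Polynomial (PS (Fin a) W), Polynomial.aeval θ H = 0 →
      minpoly (PS (Fin a) W) θ ∣ H := fun H hH => minpoly.isIntegrallyClosed_dvd hθ hH
  obtain ⟨Γ, hΓ, hgam⟩ := exists_gamma hinj (minpoly.monic hθ) (minpoly.aeval _ _) hker
  have hm : maximalIdeal (PS (Fin a) W) =
      Ideal.span (insert (p : PS (Fin a) W) (Set.range X)) := by
    rw [psl_maximalIdeal_of_span hW.max, map_natCast]
  have hcard : Nat.card (Fin a) = a := by simp
  have hreg : PermReg fun o : Option (Fin a) => o.elim (p : PS (Fin a) W) X := by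
    have hr : Set.range ((fun o : Option (Fin a) => o.elim (p : PS (Fin a) W) X) ∘
        finSuccEquiv a) = insert (p : PS (Fin a) W) (Set.range X) := by
      rw [(finSuccEquiv a).surjective.range_comp]
      exact Option.range_eq _
    have hx := (congrArg Ideal.span hr).trans hm.symm
    have h1 := (RegL.of_gen _ hx (ha ▸ loc_dim_le)).permReg hx
    have h2 := h1.comp (finSuccEquiv a).symm.injective
    rwa [Function.comp_assoc, Equiv.self_comp_symm, Function.comp_id] at h2
  refine ⟨a, alg, θ, minpoly _ θ, Δ, Γ, ⟨hm, hreg, psl_dim_le hW.max, by rw [hcard, ha], hfin, hinj,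
    hloc, fun z => ?_, minpoly.monic hθ, minpoly.natDegree_pos hθ, minpoly.aeval _ _, hker, hden,
    hgam, hΔ, hΓ⟩, hC⟩
  obtain ⟨w, hw⟩ := hω z
  exact ⟨MvPowerSeries.C w, by rw [← hw, RingHom.comp_apply, RingHom.comp_apply, hC]⟩

end Vale.Agent.P177
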