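import Vale.Agent.P177.FLC
import Vale.Agent.P177.Kap
import Vale.Agent.P177.SetL
import Vale.Agent.P177.Ring

/-! Passing to the limit. -/

namespace Vale.Agent.P177

open Vale.Agent.P202 IsLocalRing Polynomial
open scoped ENNReal

universe u

section pi

variable {B : ℕ → Type u} [∀ k, CommRing (B k)]

theorem span_prod {a x : Π k, B k} :
    x ∈ Ideal.span {a} ↔ ∀ k, x k ∈ Ideal.span {a k} := by
  rw [← Ideal.pi_span, Ideal.mem_pi]

theorem nzd_prod {a : Π k, B k} (h : ∀ k, a k ∈ nonZeroDivisors (B k)) :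
    a ∈ nonZeroDivisors (Π k, B k) :=
  mem_nonZeroDivisors_iff_right.2 fun x hx => funext fun k =>
    mem_nonZeroDivisors_iff_right.1 (h k) (x k) (congrFun hx k)

theorem mem_mul_prod {R : Type u} [CommRing R] {n : ℕ} (g : Fin n → R) (M : Ideal R) {x : R}
    (hx : x ∈ Ideal.span (Set.range g) * M) : ∃ c : Fin n → R, (∀ i, c i ∈ M) ∧ ∑ i, g i * c i = x := by
  refine Submodule.mul_induction_on hx (fun a ha m hm => ?_) ?_
  · obtain ⟨c, rfl⟩ := Ideal.mem_span_range_iff_exists_fun.1 ha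
    refine ⟨fun i => c i * m, fun i => M.mul_mem_left _ hm, ?_⟩
    rw [Finset.sum_mul]
    exact Finset.sum_congr rfl fun i _ => by ring
  · rintro _ _ ⟨c, hc, rfl⟩ ⟨c', hc', rfl⟩
    refine ⟨c + c', fun i => M.add_mem (hc i) (hc' i), ?_⟩
    rw [← Finset.sum_add_distrib]
    exact Finset.sum_congr rfl fun i _ => mul_add _ _ _

theorem mem_mul_pi_prod {I : Ideal (Π k, B k)} (hI : I.FG) {M : ∀ k, Ideal (B k)} {b : Π k, B k}
    (h : ∀ k, b k ∈ I.map (Pi.evalRingHom B k) * M k) : b ∈ I * Ideal.pi M := by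
  obtain ⟨n, g, rfl⟩ := Submodule.fg_iff_exists_fin_generating_family.1 hI
  have h1 : ∀ k, ∃ c : Fin n → B k, (∀ i, c i ∈ M k) ∧ ∑ i, g i k * c i = b k := fun k => by
    have h2 := h k
    rw [Ideal.submodule_span_eq, Ideal.map_span, ← Set.range_comp] at h2
    exact mem_mul_prod _ _ h2
  choose c hc hs using h1
  have e : b = ∑ i, g i * fun k => c k i := funext fun k => by
    rw [Finset.sum_apply]
    exact (hs k).symm
  rw [e]
  exact Ideal.sum_mem _ fun i _ => Ideal.mul_mem_mul (Ideal.subset_span ⟨i, rfl⟩) fun k => hc k i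

theorem apply_mem_mul_prod {I : Ideal (Π k, B k)} {M : ∀ k, Ideal (B k)} {b : Π k, B k}
    (h : b ∈ I * Ideal.pi M) (k : ℕ) : b k ∈ I.map (Pi.evalRingHom B k) * M k := by
  refine Submodule.mul_induction_on h (fun a ha m hm => ?_) fun x y hx hy => Ideal.add_mem _ hx hy
  exact Ideal.mul_mem_mul (Ideal.mem_map_of_mem (Pi.evalRingHom B k) ha) (hm k)

theorem map_pi_prod {C : Type u} [CommRing C] (τ : ∀ k, C →+* B k) (I : Ideal C) (k : ℕ) :
    (I.map (RingHom.pi τ)).map (Pi.evalRingHom B k) = I.map (τ k) := by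
  rw [Ideal.map_map]
  rfl

theorem map_span_prod (a : Π k, B k) (k : ℕ) :
    (Ideal.span {a}).map (Pi.evalRingHom B k) = Ideal.span {a k} := by
  rw [Ideal.map_span, Set.image_singleton]
  rfl

theorem kd_prod {s : ℕ} (y : Fin s → Π k, B k) (ξ : Finset (Fin s) → Π k, B k) (k : ℕ)
    (A : Finset (Fin s)) :
    kd y (Π k, B k) ξ A k = kd (fun i => y i k) (B k) (fun A => ξ A k) A := by
  rw [kd_apply, kd_apply, Finset.sum_apply]
  rfl

theorem Pri.pi {p : ℕ} {AA : ℕ → Type u} [∀ k, CommRing (AA k)] {t : Π k, AA k}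
    {I : Ideal (Π k, AA k)} (hI : I.FG) {β : ∀ k, AA k →+* B k}
    (h : ∀ k, Pri p (t k) (I.map (Pi.evalRingHom AA k)) (β k)) :
    Pri p t I (RingHom.pi fun k => (β k).comp (Pi.evalRingHom AA k)) := by
  refine ⟨fun b => ?_, ?_, complete_pi hI fun k => (h k).cpl,
    nzd_prod fun k => (h k).pA, nzd_prod fun k => (h k).xi, fun z hz => ?_, fun J c u hJ hu => ?_⟩
  · choose a ha using fun k => (h k).surj (b k)
    exact ⟨a, funext ha⟩
  · ext x
    rw [RingHom.mem_ker, span_prod, funext_iff]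
    exact forall_congr' fun k => RingHom.mem_ker.symm.trans (Ideal.ext_iff.1 (h k).ker (x k))
  · rw [span_prod] at hz ⊢
    exact fun k => (h k).tA (z k) (hz k)
  · refine Pi.isUnit_iff.2 fun k => (h k).dist (J.map (Pi.evalRingHom AA k)) c (u k) ?_ ?_
    · rw [← Ideal.map_pow]
      exact Ideal.map_mono hJ
    · rw [← Ideal.map_pow]
      exact Ideal.mem_map_of_mem (Pi.evalRingHom AA k) hu

theorem Cov.pi {A C : Type u} [CommRing A] [IsNoetherianRing A] [CommRing C] [Algebra A C]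
    {p : ℕ} {θ : C} {F : A[X]} {U : ℕ → Type u} [∀ k, CommRing (U k)] {α : ∀ k, A →+* U k}
    {j : ∀ k, U k →+* B k} {κ : Π k, U k} {τ : ∀ k, Fin F.natDegree → C →+* B k}
    (h : ∀ k, Cov p θ F (α k) (j k) (κ k) (τ k)) :
    Cov p θ F (RingHom.pi α) (RingHom.pi fun k => (j k).comp (Pi.evalRingHom U k)) κ
      fun i => RingHom.pi fun k => τ k i := by
  refine ⟨flat_pi α fun k => (h k).flat, nzd_prod fun k => (h k).pB, fun b => ?_, fun u hu => ?_,
    fun i a => funext fun k => (h k).tau i a, ?_⟩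
  · choose u hu using fun k => (h k).r1 (b k)
    exact ⟨u, span_prod.2 hu⟩
  · rw [span_prod] at hu ⊢
    exact fun k => (h k).r2 (u k) (hu k)
  · ext n k
    have h1 := congrArg (fun G => Polynomial.coeff G n) (h k).split
    refine Eq.trans ?_ (h1.trans ?_)
    · simp only [Polynomial.coeff_map]
      rfl
    · have h2 := Polynomial.coeff_map (p := ∏ i, (X - Polynomial.C (RingHom.pi (fun k => τ k i) θ)))
        (Pi.evalRingHom B k) n
      rw [Polynomial.map_prod] at h2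
      simp only [Polynomial.map_sub, Polynomial.map_X, Polynomial.map_C] at h2
      exact h2

theorem Filt.pi {C : Type u} [CommRing C] [IsNoetherianRing C] {N n0 : ℕ} {𝔞 : ℕ → Ideal C}
    {τ : ∀ k, C →+* B k} {π κ : Π k, B k} {M : ∀ k, (ℕ → ℤ) → Ideal (B k)}
    (h : ∀ k, Filt N (fun r => (𝔞 r).map (τ k)) (π k) (κ k) n0 (M k)) :
    Filt N (fun r => (𝔞 r).map (RingHom.pi τ)) π κ n0 fun n => Ideal.pi fun k => M k n := by
  refine ⟨?_, fun n n' hn x hx k => (h k).mono n n' ?_ (hx k), fun r hr n hn => ?_,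
    fun r hr n hn x hx => ?_, fun r hr n hn c y hy => ?_⟩
  · exact eq_top_iff.2 fun x _ k => (h k).top.ge trivial
  · have h1 := Ideal.map_mono (f := Pi.evalRingHom B k) hn
    rw [EE_map, EE_map, map_pi_prod, map_pi_prod] at h1
    rwa [EE_map, EE_map]
  · intro x hx k
    have h1 := apply_mem_mul_prod hx k
    rw [map_pi_prod] at h1
    exact (h k).mul r hr n hn h1
  · refine mem_mul_pi_prod (Ideal.FG.map (IsNoetherian.noetherian (𝔞 r)) _) fun k => ?_
    rw [map_pi_prod]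
    exact (h k).gen r hr n hn (x k) (hx k)
  · refine mem_mul_pi_prod (Submodule.fg_span_singleton _) fun k => ?_
    rw [Ideal.submodule_span_eq, map_span_prod]
    refine (h k).canc r hr n hn c (y k) fun z hz => ?_
    rw [← map_pi_prod τ] at hz
    obtain ⟨w, hw, rfl⟩ := (Ideal.mem_map_iff_of_surjective _
      (Function.surjective_eval (β := B) k : Function.Surjective (Pi.evalRingHom B k))).1 hz
    have h1 := apply_mem_mul_prod (hy w hw) k
    rwa [map_span_prod] at h1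

theorem KEx.pi {s : ℕ} {κ : Π k, B k} {y : Fin s → Π k, B k} {G : ∀ k, ℕ → Ideal (B k)}
    (h : ∀ k, KEx (κ k) (fun i => y i k) (G k)) : KEx κ y fun j => Ideal.pi fun k => G k j := by
  intro n ξ hξ h0
  have h1 : ∀ k, ∃ η ∈ Kos Finset.univ (G k (n + 1)) ((n + 1 : ℕ) : ℤ),
      kd (fun i => y i k) (B k) η = κ k • fun A => ξ A k := fun k =>
    h k n (fun A => ξ A k) (mem_kos.2 ⟨fun A hA => (mem_kos.1 hξ).1 A hA k,
      fun A hA => congrFun ((mem_kos.1 hξ).2 A hA) k⟩) (funext fun A => by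
        rw [← kd_prod, h0]
        rfl)
  choose η hη he using h1
  refine ⟨fun A k => η k A, mem_kos.2 ⟨fun A hA k => (mem_kos.1 (hη k)).1 A hA,
    fun A hA => funext fun k => (mem_kos.1 (hη k)).2 A hA⟩, funext fun A => funext fun k => ?_⟩
  rw [kd_prod]
  exact congrFun (he k) A

theorem AAR.pi {C : Type u} [CommRing C] {N c : ℕ} {𝔞 : ℕ → Ideal C} {𝔪 : Ideal C}
    {τ : ∀ k, C →+* B k} {κ : Π k, B k} {M : ∀ k, (ℕ → ℤ) → Ideal (B k)}
    (h : ∀ k, AAR N 𝔞 𝔪 c (τ k) (κ k) (M k)) :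
    AAR N 𝔞 𝔪 c (RingHom.pi τ) κ fun n => Ideal.pi fun k => M k n := by
  intro n n' j hj x hx hm k
  refine h k n n' j hj (x k) (hx k) ?_
  rw [← map_pi_prod τ]
  exact Ideal.mem_map_of_mem (Pi.evalRingHom B k) hm

theorem exists_len_pi (μ : ∀ k, RLen (B k)) {I : Ideal (Π k, B k)} {κ : Π k, B k}
    (h1 : ∀ k, (μ k).q (I.map (Pi.evalRingHom B k)) = 1)
    (h2 : ∀ k, (μ k).q (I.map (Pi.evalRingHom B k) ⊔ Ideal.span {κ k}) ≤ ((k : ℝ≥0∞) + 1)⁻¹) :
    ∃ ν : RLen (Π k, B k), ν.q I = 1 ∧ Null ν κ := by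
  let ν : ℕ → RLen (Π k, B k) := fun k =>
    letI := (Pi.evalRingHom B k).toAlgebra
    haveI : Module.Flat (Π k, B k) (B k) := flat_eval B k
    (μ k).bc
  have hν : ∀ k J, (ν k).q J = (μ k).q (J.map (Pi.evalRingHom B k)) := fun k J =>
    letI := (Pi.evalRingHom B k).toAlgebra
    haveI : Module.Flat (Π k, B k) (B k) := flat_eval B k
    (μ k).bc_q J
  have hlim : ∀ J : Ideal (Π k, B k),
      Filter.Tendsto (fun k => (μ k).q (J.map (Pi.evalRingHom B k))) (Filter.hyperfilter ℕ)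
        (nhds ((RLen.ulim (Filter.hyperfilter ℕ) ν).q J)) := fun J =>
    (RLen.tendsto_ulim (Filter.hyperfilter ℕ) ν ((Π k, B k) ⧸ J)).congr fun k => hν k J
  have e1 : (RLen.ulim (Filter.hyperfilter ℕ) ν).q I = 1 :=
    tendsto_nhds_unique (hlim I) (tendsto_const_nhds.congr fun k => (h1 k).symm)
  have e2 : (RLen.ulim (Filter.hyperfilter ℕ) ν).q (I ⊔ Ideal.span {κ}) = 0 := by
    refine le_antisymm (le_of_tendsto_of_tendsto' (hlim _)
      (ENNReal.tendsto_inv_nat_nhds_zero.mono_left Nat.hyperfilter_le_atTop) fun k => ?_) zero_le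
    rw [Ideal.map_sup, map_span_prod]
    exact (h2 k).trans (ENNReal.inv_le_inv.2 le_self_add)
  refine ⟨kap (RLen.ulim (Filter.hyperfilter ℕ) ν) κ, ?_, null_kap _ κ⟩
  rw [kap_q _ κ (e1 ▸ ENNReal.one_ne_top) e2, e1]

end pi

variable {A C : Type u} [CommRing A] [IsLocalRing A] [IsNoetherianRing A] [CommRing C]
  [IsNoetherianRing C] [Algebra A C] {p : ℕ} {θ : C} {F : A[X]} {N n0 c2 s : ℕ} {𝔞 : ℕ → Ideal C}

theorem exists_limit (h : ∀ ε : ℝ≥0∞, 0 < ε → ∃ O : Obj A C F.natDegree s,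
    O.Ok p θ F N 𝔞 n0 c2 ε) :
    ∃ O : Obj A C F.natDegree s, O.Ok p θ F N 𝔞 n0 c2 0 ∧ Null O.μ O.κ0 := by
  choose O H using fun k : ℕ => h ((k : ℝ≥0∞) + 1)⁻¹
    (ENNReal.inv_pos.2 (ENNReal.add_ne_top.2 ⟨ENNReal.natCast_ne_top k, ENNReal.one_ne_top⟩))
  obtain ⟨I, hI⟩ : ∃ I : Ideal (Π k, (O k).A0), I = (maximalIdeal A).map
    (RingHom.pi fun k => (O k).α0) ⊔ Ideal.span {fun k => (O k).t0} := ⟨_, rfl⟩
  have hfg : I.FG := hI ▸ Submodule.FG.sup
    (Ideal.FG.map (IsNoetherian.noetherian (maximalIdeal A)) _)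
    (Submodule.fg_span_singleton _)
  have hk : ∀ k, I.map (Pi.evalRingHom _ k) = (O k).I0 := fun k => by
    rw [hI, Ideal.map_sup, map_pi_prod, map_span_prod]
    rfl
  have hmap : ∀ (D : ℕ → Type u) [∀ k, CommRing (D k)] (f : ∀ k, (O k).A0 →+* D k) (k : ℕ),
      (I.map (RingHom.pi fun k => (f k).comp (Pi.evalRingHom _ k))).map (Pi.evalRingHom D k) =
        (O k).I0.map (f k) := fun D _ f k => by
    rw [map_pi_prod, ← Ideal.map_map, hk]
  obtain ⟨ν, hν1, hν2⟩ := exists_len_pi (fun k => (O k).μ) (I := I) (κ := fun k => (O k).κ0)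
    (fun k => by rw [hk]; exact (H k).one) (fun k => by rw [hk]; exact (H k).small)
  refine ⟨⟨Π k, (O k).A0, Π k, (O k).AA, Π k, (O k).U, Π k, (O k).B,
    RingHom.pi fun k => (O k).α0, RingHom.pi fun k => (O k).ψ.comp (Pi.evalRingHom _ k),
    RingHom.pi fun k => (O k).β0.comp (Pi.evalRingHom _ k),
    RingHom.pi fun k => (O k).β.comp (Pi.evalRingHom _ k),
    RingHom.pi fun k => (O k).j.comp (Pi.evalRingHom _ k), fun k => (O k).t0, fun k => (O k).κ0,
    fun i => RingHom.pi fun k => (O k).τ i, ν, fun i n => Ideal.pi fun k => (O k).M i n,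
    fun i j k => (O k).η i j⟩, ⟨fun a => funext fun k => (H k).comm (a k), ?_,
    Cov.pi fun k => (H k).cov, funext fun k => (H k).t0U, fun u => ?_, fun a ha => ?_, by subst hI; exact hν1, ?_,
    fun i => Filt.pi fun k => (H k).filt i, fun i j n hn x hx k => (H k).mulη i j n hn (x k) (hx k),
    fun i m hm => KEx.pi fun k => (H k).kos i m hm, fun i => AAR.pi fun k => (H k).ar i⟩, hν2⟩
  · subst hI
    refine Pri.pi (hfg.map _) fun k => ?_
    exact hmap _ (fun k => (O k).ψ) k ▸ (H k).pri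
  · choose a ha using fun k => (H k).n1 (u k)
    subst hI
    refine ⟨a, mem_pi_of_fg (hfg.map _) _ fun k => ?_⟩
    exact hmap _ (fun k => (O k).β0) k ▸ ha k
  · subst hI
    refine mem_pi_of_fg hfg _ fun k => ?_
    refine hk k ▸ (H k).n2 (a k) ?_
    exact hmap _ (fun k => (O k).β0) k ▸ Ideal.mem_map_of_mem (Pi.evalRingHom _ k) ha
  · refine (hν2 _ fun x => ?_).le
    obtain ⟨y, rfl⟩ := Ideal.Quotient.mk_surjective x
    exact Ideal.Quotient.eq_zero_iff_mem.2
      (Ideal.mem_sup_right (Ideal.mul_mem_right _ _ (Ideal.mem_span_singleton_self _)))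

end Vale.Agent.P177
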