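import Vale.Agent.P177.Main
import Vale.Agent.P177.Lev
import Vale.Agent.P177.Prod
import Vale.Agent.P177.Noeth

/-! Positivity when one of the primes does not contain the residue characteristic. -/

namespace Vale.Agent.P177

open Vale.Agent.P202 MvPowerSeries IsLocalRing

universe u

theorem pos_main_case {p : ℕ} [Fact p.Prime] {l : Type u} [Field l] [CharP l p] [PerfectRing l p]
    [Infinite l] {R : Type u} [CommRing R] [IsLocalRing R] [IsNoetherianRing R] {d : ℕ}
    (hR : RegL R d) {π : PS (Fin d) (WittVector p l) →+* R} {g : PS (Fin d) (WittVector p l)}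
    (hπ : Pres p π g) (P Q : Ideal R) [P.IsPrime] [Q.IsPrime] (hp : (p : R) ∉ P) {t : ℕ}
    (ht : maximalIdeal R ^ t ≤ P ⊔ Q)
    (hd : ringKrullDim (R ⧸ P) + ringKrullDim (R ⧸ Q) = d) :
    ∃ x, 0 < x ∧ Chi R (R ⧸ P) (R ⧸ Q) x := by
  have hW := isCohen_witt p l
  have := hW.complete
  have hP : P.IsPrime := inferInstance
  have : Nontrivial (R ⧸ P) := Ideal.Quotient.nontrivial_iff.2 hP.ne_top
  let f := Ideal.Quotient.mk P
  have hf : Function.Surjective f := Ideal.Quotient.mk_surjective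
  have : IsLocalRing (R ⧸ P) := IsLocalRing.of_surjective' f hf
  have hs : Function.Surjective (f.comp π) := hf.comp hπ.surj
  have := psl_complete (σ := Fin d) (Λ := WittVector p l)
  have := complete_of_surjective (f.comp π) hs
  have hloc : IsLocalHom (f.comp π) := IsLocalHom.of_surjective _ hs
  have hω : Function.Surjective ((residue (R ⧸ P)).comp ((f.comp π).comp C)) := fun y => by
    obtain ⟨y, rfl⟩ := residue_surjective y
    obtain ⟨y, rfl⟩ := hs y
    obtain ⟨w, hw⟩ := psl_residue_surjective (residue _ y)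
    refine ⟨w, Ideal.Quotient.eq.2 ?_⟩
    rw [RingHom.comp_apply, ← map_sub]
    exact map_nonunit _ _ (Ideal.Quotient.eq.1 hw)
  have hpS : (p : PS (Fin d) (WittVector p l)) ∈ maximalIdeal _ := by
    rw [mem_maximalIdeal_mps, map_natCast, hW.max]
    exact Ideal.mem_span_singleton_self _
  have hpm : (p : R ⧸ P) ∈ maximalIdeal _ := by
    simpa using map_nonunit (f.comp π) _ hpS
  have hp0 : (p : R ⧸ P) ≠ 0 := fun h0 => hp (Ideal.Quotient.eq_zero_iff_mem.1 (by simpa using h0))
  have : Infinite (ResidueField (R ⧸ P)) := by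
    let φ := (residue (R ⧸ P)).comp ((f.comp π).comp C)
    have h1 : Function.Surjective (WittVector.constantCoeff : WittVector p l →+* l) :=
      WittVector.constantCoeff_surjective p
    let ψ : l →+* ResidueField (R ⧸ P) := WittVector.constantCoeff.liftOfSurjective h1 ⟨φ, by
      rw [WittVector.ker_constantCoeff, Ideal.span_le, Set.singleton_subset_iff, SetLike.mem_coe,
        RingHom.mem_ker, map_natCast, ← map_natCast (residue (R ⧸ P))]
      exact (residue_eq_zero_iff _).2 hpm⟩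
    exact Infinite.of_injective ψ ψ.injective
  obtain ⟨a, _, θ, F, Δ, Γ, hD, hA⟩ := exists_dat hW ((f.comp π).comp C) hω hpm hp0
  have hpr : (p : R ⧸ P) ∈ nonZeroDivisors _ := mem_nonZeroDivisors_of_ne_zero hp0
  have hk : RingHom.ker f = P := Ideal.mk_ker
  have hpt : (p : R ⧸ P) ^ t ∈ Q.map f := by
    have h1 : maximalIdeal (R ⧸ P) ^ t ≤ Q.map f := by
      rw [← map_maximalIdeal_of_surjective f hf, ← Ideal.map_pow]
      refine (Ideal.map_mono ht).trans ?_
      rw [Ideal.map_sup, Ideal.map_quotient_self, bot_sup_eq]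
    exact h1 (Ideal.pow_mem_pow hpm t)
  obtain ⟨K, aK, n, e, b, b', c, 𝔞, hK, hS⟩ := exists_res_setup hR.hasRes f Q hpr hpt
  have hc : ∀ r ≤ 2 * n, (p : R ⧸ P) ^ (c * (2 * n)) ∈ 𝔞 r := fun r hr => hS.pow_mem hr
  obtain ⟨s, hs1, hs2⟩ := exists_genBy (2 * n) 𝔞
  obtain ⟨c1, hL⟩ := exists_LAR hpr hc
    ((maximalIdeal (PS (Fin a) (WittVector p l))).map (algebraMap _ (R ⧸ P)))
  obtain ⟨n0, hM⟩ := filt_EE hpr hc
  obtain ⟨O, hO, hκ⟩ := exists_limit fun ε hε =>
    exists_level hD hc hs1 hs2 hL (le_max_left s n0) hε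
  obtain ⟨x, hx⟩ := exists_chi (M := R ⧸ P) (N := R ⧸ Q) hR.hasRes (t := t)
    (by rwa [Ideal.annihilator_quotient, Ideal.annihilator_quotient])
  have := psl_complete (σ := Fin a) (Λ := WittVector p l)
  refine ⟨x, main_pos hW.max hπ hR f hf C (fun w => (hA w).symm) Q (t := t) (by rwa [hk]) hd hK hS
    (hM.weaken dvd_rfl (le_max_right s n0)) hD hO hκ hL (by omega) (by omega) (by omega)
    (hx.equiv (Submodule.quotEquivOfEq _ _ hk.symm) (LinearEquiv.refl _ _)), hx⟩

end Vale.Agent.P177
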