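import Vale.Agent.P177.Cpl

/-! Completing and killing the torsion. -/

namespace Vale.Agent.P177

open Vale.Agent.P202

universe u

variable {p : ℕ} [Fact p.Prime] {P P' : Type u} [CommRing P] [CommRing P']

theorem pcirc_dec {s κ : P} {f : P →+* P'} (hf : AIso f s κ) (I : Ideal P) {y : P'}
    (hy : y ∈ I.map f) : ∃ u ∈ I, ∃ z ∈ I.map f, f κ * y = f u + z * f s := by
  have key : ∀ c, ∃ u ∈ I, ∃ z ∈ I.map f, f κ * (c * y) = f u + z * f s := by
    induction hy using Submodule.span_induction with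
    | mem y hy =>
      obtain ⟨m, hm, rfl⟩ := hy
      intro c
      obtain ⟨v, hv⟩ := hf.r1 c
      obtain ⟨z, hz⟩ := Ideal.mem_span_singleton'.1 hv
      refine ⟨v * m, I.mul_mem_left v hm, z * f m,
        Ideal.mul_mem_left _ z (Ideal.mem_map_of_mem f hm), ?_⟩
      rw [map_mul]
      linear_combination (-f m) * hz
    | zero => exact fun c => ⟨0, I.zero_mem, 0, Ideal.zero_mem _, by simp⟩
    | add y y' _ _ h h' =>
      intro c
      obtain ⟨u, hu, z, hz, e⟩ := h c
      obtain ⟨u', hu', z', hz', e'⟩ := h' c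
      refine ⟨u + u', I.add_mem hu hu', z + z', Ideal.add_mem _ hz hz', ?_⟩
      rw [map_add]
      linear_combination e + e'
    | smul a y _ h =>
      intro c
      simpa only [smul_eq_mul, mul_assoc] using h (c * a)
  simpa only [one_mul] using key 1

theorem pcirc_key {J : Ideal P} {s κ : P}
    (hcl : ∀ w, (∀ n : ℕ, w ∈ Ideal.span {s} ⊔ J ^ n) → w ∈ Ideal.span {s}) {f : P →+* P'}
    (hf : AIso f s κ) {w : P} (hw : ∀ n : ℕ, ∃ a, f w - a * f s ∈ (J.map f) ^ n) :
    κ ^ 2 * w ∈ Ideal.span {s} := by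
  refine hcl _ fun n => ?_
  obtain ⟨a, ha⟩ := hw n
  rw [← Ideal.map_pow] at ha
  obtain ⟨u, hu, z, -, e⟩ := pcirc_dec hf _ ha
  have h1 := hf.r2 (κ * w - u) (Ideal.mem_span_singleton'.2 ⟨f κ * a + z, by
    rw [map_sub, map_mul]
    linear_combination -e⟩)
  have e1 : κ ^ 2 * w = κ * (κ * w - u) + κ * u := by ring
  rw [e1]
  exact Submodule.add_mem_sup h1 (Ideal.mul_mem_left _ κ hu)

theorem pcirc_r1 {J : Ideal P} (hc : IsAdicComplete J P) {s κ : P} {f : P →+* P'}
    (hf : AIso f s κ) {B : Type u} [CommRing B] {g : P' →+* B}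
    (hB : IsAdicComplete ((J.map f).map g) B) (hg : ∀ n : ℕ, MIso g ((J.map f) ^ n)) (x : B) :
    ∃ u z, g (f κ) * x = g (f u) + z * g (f s) := by
  choose a ha using fun n => (hg n).n1 x
  have h1 : ∀ n, a (n + 1) - a n ∈ (J ^ n).map f := fun n => by
    rw [Ideal.map_pow]
    refine (hg n).n2 _ ?_
    have h2 := Ideal.sub_mem _ (ha n)
      (Ideal.map_mono (Ideal.pow_le_pow_right (Nat.le_succ n)) (ha (n + 1)))
    rwa [sub_sub_sub_cancel_left, ← map_sub] at h2
  choose u hu z hz e using fun n => pcirc_dec hf _ (h1 n)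
  obtain ⟨U, hU⟩ := exists_sum_of_complete hc u hu
  obtain ⟨Z, hZ⟩ := exists_sum_of_complete hB (fun n => g (z n)) fun n => by
    rw [← Ideal.map_pow, ← Ideal.map_pow]
    exact Ideal.mem_map_of_mem g (hz n)
  obtain ⟨v, hv⟩ := hf.r1 (a 0)
  obtain ⟨y, hy⟩ := Ideal.mem_span_singleton'.1 hv
  have h2 : ∀ n, f κ * a n = f (v + ∑ i ∈ Finset.range n, u i) +
      (y + ∑ i ∈ Finset.range n, z i) * f s := fun n => by
    induction n with
    | zero =>
      simp only [Finset.range_zero, Finset.sum_empty, add_zero]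
      linear_combination -hy
    | succ n ih =>
      rw [Finset.sum_range_succ, Finset.sum_range_succ, ← add_assoc, map_add]
      linear_combination ih + e n
  refine ⟨v + U, g y + Z, sub_eq_zero.1 (haus_cpl hB fun n => ?_)⟩
  have h3 := ha n
  rw [Ideal.map_pow] at h3
  have h4 := Ideal.mem_map_of_mem g (Ideal.mem_map_of_mem f (hU n))
  rw [Ideal.map_pow, Ideal.map_pow] at h4
  have h5 := congrArg g (h2 n)
  have h6 := Ideal.sub_mem _ (Ideal.sub_mem _ (Ideal.mul_mem_left _ (g (f κ)) h3) h4)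
    (Ideal.mul_mem_right (g (f s)) _ (hZ n))
  simp only [map_add, map_mul, map_sub, map_sum] at h5 h6 ⊢
  convert h6 using 1
  linear_combination h5

variable [CharP P' p] [PerfectRing P' p]

theorem exists_circ {J : Ideal P} (hJ : J.FG) (hc : IsAdicComplete J P) {t κ : P}
    (ht : t ∈ nonZeroDivisors P)
    (hcl : ∀ w, (∀ n : ℕ, w ∈ Ideal.span {t ^ 2} ⊔ J ^ n) → w ∈ Ideal.span {t ^ 2})
    (hκ : κ ^ 2 ∉ Ideal.span {t}) {f : P →+* P'} (hf : AIso f (t ^ 2) κ) :
    ∃ (P3 : Type u) (_ : CommRing P3) (_ : CharP P3 p) (_ : PerfectRing P3 p) (h : P' →+* P3),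
      h (f t) ∈ nonZeroDivisors P3 ∧ IsAdicComplete (J.map (h.comp f)) P3 ∧
      AIso (h.comp f) t (κ ^ 2) := by
  have hp : p.Prime := Fact.out
  have key : ∀ u, (∀ n : ℕ, ∃ a, f (t * u) - a * f (t ^ 2) ∈ (J.map f) ^ n) →
      κ ^ 2 * u ∈ Ideal.span {t} := fun u hu => by
    obtain ⟨c, h1⟩ := Ideal.mem_span_singleton'.1 (pcirc_key hcl hf hu)
    refine Ideal.mem_span_singleton'.2 ⟨c, (mul_cancel_left_mem_nonZeroDivisors ht).1 ?_⟩
    linear_combination h1
  have h1 : J.map f ≠ ⊤ := fun h => hκ (by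
    simpa only [mul_one] using key 1 fun n => ⟨0, by rw [h, Ideal.top_pow]; trivial⟩)
  obtain ⟨B, _, _, _, g, hB, hg⟩ := exists_hat p (J.map f) (hJ.map f) h1
  have key2 : ∀ u b, g (f t) * g (f u) = b * g (f t) ^ 2 → κ ^ 2 * u ∈ Ideal.span {t} :=
    fun u b h => key u fun n => by
      obtain ⟨a, ha⟩ := (hg n).n1 b
      refine ⟨a, (hg n).n2 _ ?_⟩
      have h2 := Ideal.mul_mem_right (g (f t) ^ 2) _ ha
      simp only [map_sub, map_mul, map_pow]
      rwa [h, ← sub_mul]
  have hred : ∀ x : B, x ^ p = 0 → x = 0 := fun x hx =>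
    (PerfectRing.bijective_frobenius (R := B) (p := p)).1 (by simpa [hp.ne_zero] using hx)
  let N := Ideal.torsionOf B B (g (f t))
  have hN : ∀ x, Ideal.Quotient.mk N x = 0 ↔ x * g (f t) = 0 := fun x => by
    rw [Ideal.Quotient.eq_zero_iff_mem, Ideal.mem_torsionOf_iff, smul_eq_mul]
  have hnt : Nontrivial (B ⧸ N) := by
    refine nontrivial_of_ne 1 0 fun h => hκ ?_
    have h2 := (hN 1).1 h
    simpa only [mul_one] using key2 1 0 (by rw [zero_mul, map_one, map_one, mul_comm, h2])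
  have hch : CharP (B ⧸ N) p := (CharP.charP_iff_prime_eq_zero hp).2 (by
    rw [← map_natCast (Ideal.Quotient.mk N), CharP.cast_eq_zero, map_zero])
  refine ⟨B ⧸ N, inferInstance, hch, ⟨⟨fun y y' h => ?_, fun y => ?_⟩⟩,
    (Ideal.Quotient.mk N).comp g, ?_, ?_, fun x => ?_, fun u hu => ?_⟩
  · obtain ⟨x, hx⟩ := Ideal.Quotient.mk_surjective (y - y')
    have h0 : (y - y') ^ p = 0 := by
      rw [sub_pow_char, sub_eq_zero]
      exact h
    rw [← hx, ← map_pow, hN] at h0
    rw [← sub_eq_zero, ← hx, hN]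
    refine hred _ ?_
    rw [mul_pow, ← Nat.sub_add_cancel hp.one_le, pow_succ' (g (f t)), Nat.sub_add_cancel hp.one_le,
      ← mul_assoc, h0, zero_mul]
  · obtain ⟨x, rfl⟩ := Ideal.Quotient.mk_surjective y
    obtain ⟨z, rfl⟩ := (PerfectRing.bijective_frobenius (R := B) (p := p)).2 x
    exact ⟨Ideal.Quotient.mk N z, (map_pow _ _ _).symm⟩
  · refine mem_nonZeroDivisors_iff_right.2 fun y hy => ?_
    obtain ⟨x, rfl⟩ := Ideal.Quotient.mk_surjective y
    rw [RingHom.comp_apply, ← map_mul, hN] at hy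
    rw [hN]
    refine hred _ (pow_eq_zero_of_le hp.two_le ?_)
    linear_combination x * hy
  · rw [← Ideal.map_map, ← Ideal.map_map]
    refine complete_quot _ Ideal.Quotient.mk_surjective hB fun x hx => (hN x).2 ?_
    refine haus_cpl hB fun n => ?_
    obtain ⟨a, ha, b, hb, rfl⟩ := Submodule.mem_sup.1 (hx n)
    rw [add_mul, (hN a).1 ha, zero_add]
    exact Ideal.mul_mem_right _ _ hb
  · obtain ⟨x, rfl⟩ := Ideal.Quotient.mk_surjective x
    obtain ⟨u, z, e⟩ := pcirc_r1 hc hf hB hg x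
    refine ⟨κ * u, Ideal.mem_span_singleton'.2
      ⟨Ideal.Quotient.mk N (g (f κ) * z * g (f t)), ?_⟩⟩
    have e1 := congrArg (Ideal.Quotient.mk N) e
    simp only [RingHom.comp_apply, map_mul, map_add, map_pow] at e1 ⊢
    linear_combination (-Ideal.Quotient.mk N (g (f κ))) * e1
  · obtain ⟨b, hb⟩ := Ideal.mem_span_singleton'.1 hu
    obtain ⟨b, rfl⟩ := Ideal.Quotient.mk_surjective b
    simp only [RingHom.comp_apply] at hb
    rw [← map_mul, ← sub_eq_zero, ← map_sub, hN] at hb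
    exact key2 u b (by linear_combination -hb)

end Vale.Agent.P177
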