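import Vale.Agent.P177.PDefs

/-! Adjoining the roots of a fraction and saturating. -/

namespace Vale.Agent.P177

open Vale.Agent.P202

universe u

variable {p : ℕ} [Fact p.Prime] {P : Type u} [CommRing P] [CharP P p] [PerfectRing P p]

theorem rt_one_rt_psat (j : ℕ) (x : P) : rt p P 1 (rt p P j x) = rt p P (j + 1) x := by
  apply pow_inj_unt (p := p) 1
  rw [rt_pow, rt_add_pow]

theorem rt_split_psat (j : ℕ) (x : P) : ∃ c : P,
    rt p P j x = c * rt p P (j + 1) x * rt p P (j + 1) x := by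
  obtain ⟨n, hn⟩ := Nat.exists_eq_add_of_le (Fact.out : p.Prime).two_le
  refine ⟨rt p P (j + 1) x ^ n, ?_⟩
  rw [← rt_succ_pow j x]
  generalize rt p P (j + 1) x = y
  rw [hn]
  ring

section aux

variable {L : Type u} [CommRing L] [CharP L p] [PerfectRing L p]

/-- The ring generated by `P` and the roots of `T`. -/
def P1psat (p : ℕ) [Fact p.Prime] [CharP L p] [PerfectRing L p] (φ : P →+* L) (T : L) :
    Subring L :=
  Subring.closure (Set.range φ ∪ Set.range fun e => rt p L e T)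

variable {φ : P →+* L} {T : L}

omit [CharP P p] [PerfectRing P p] in
theorem P1psat_map (a : P) : φ a ∈ P1psat p φ T := Subring.subset_closure (Or.inl ⟨a, rfl⟩)

omit [CharP P p] [PerfectRing P p] in
theorem P1psat_T (e : ℕ) : rt p L e T ∈ P1psat p φ T := Subring.subset_closure (Or.inr ⟨e, rfl⟩)

theorem P1psat_rt {x : L} (hx : x ∈ P1psat p φ T) : rt p L 1 x ∈ P1psat p φ T := by
  have : P1psat p φ T ≤ (P1psat p φ T).comap (rt p L 1 : L →+* L) := by
    refine Subring.closure_le.2 ?_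
    rintro _ (⟨a, rfl⟩ | ⟨e, rfl⟩)
    · change rt p L 1 (φ a) ∈ P1psat p φ T
      rw [← map_rt]
      exact P1psat_map _
    · change rt p L 1 (rt p L e T) ∈ P1psat p φ T
      rw [rt_one_rt_psat]
      exact P1psat_T _
  exact this hx

omit [CharP P p] [PerfectRing P p] in
theorem P1psat_ind (k : ℕ) {Q : L → Prop} (h0 : Q 0) (h1 : ∀ x y, Q x → Q y → Q (x + y))
    (h2 : ∀ a e n, Q (φ a * rt p L (k + e) T ^ n)) {x : L} (hx : x ∈ P1psat p φ T) : Q x := by
  have key : ∀ y ∈ Submonoid.closure (Set.range φ ∪ Set.range fun e => rt p L e T),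
      ∃ a e n, y = φ a * rt p L (k + e) T ^ n := fun y hy => by
    induction hy using Submonoid.closure_induction with
    | mem y hy =>
      rcases hy with ⟨a, rfl⟩ | ⟨e, rfl⟩
      · exact ⟨a, 0, 0, by simp⟩
      · exact ⟨1, e, p ^ k, by rw [add_comm k, rt_add_pow, map_one, one_mul]⟩
    | one => exact ⟨1, 0, 0, by simp⟩
    | mul y z _ _ hy hz =>
      obtain ⟨a, e, n, rfl⟩ := hy
      obtain ⟨a', e', n', rfl⟩ := hz
      refine ⟨a * a', e + e', p ^ e' * n + p ^ e * n', ?_⟩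
      rw [← rt_add_pow (k + e) e' T, ← rt_add_pow (k + e') e T, map_mul,
        show k + e' + e = k + (e + e') by ring, add_assoc]
      ring
  have : Q x ∧ Q (-x) := by
    rw [P1psat, Subring.mem_closure_iff] at hx
    induction hx using AddSubgroup.closure_induction with
    | mem y hy =>
      obtain ⟨a, e, n, rfl⟩ := key y hy
      exact ⟨h2 a e n, by rw [← neg_mul, ← map_neg]; exact h2 _ e n⟩
    | zero => exact ⟨h0, by rwa [neg_zero]⟩
    | add y z _ _ hy hz => exact ⟨h1 _ _ hy.1 hz.1, by rw [neg_add]; exact h1 _ _ hy.2 hz.2⟩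
    | neg y _ hy => exact ⟨hy.2, by rw [neg_neg]; exact hy.1⟩
  exact this.1

/-- The saturation. -/
def P2psat (p : ℕ) [Fact p.Prime] [CharP P p] [PerfectRing P p] [CharP L p] [PerfectRing L p]
    (φ : P →+* L) (T : L) (t : P) : Subring L where
  carrier := {x | ∀ j, φ (rt p P j t) * x ∈ P1psat p φ T}
  mul_mem' := fun {x y} hx hy j => by
    obtain ⟨c, hc⟩ := rt_split_psat (p := p) j t
    have := mul_mem (P1psat_map c) (mul_mem (hx (j + 1)) (hy (j + 1)))
    rw [hc, map_mul, map_mul]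
    convert this using 1
    ring
  one_mem' := fun j => by
    rw [mul_one]
    exact P1psat_map _
  add_mem' := fun {x y} hx hy j => by
    rw [mul_add]
    exact add_mem (hx j) (hy j)
  zero_mem' := fun j => by
    rw [mul_zero]
    exact zero_mem _
  neg_mem' := fun {x} hx j => by
    rw [mul_neg]
    exact neg_mem (hx j)

variable {t g : P}

theorem P1psat_le {x : L} (hx : x ∈ P1psat p φ T) : x ∈ P2psat p φ T t :=
  fun _ => mul_mem (P1psat_map _) hx

theorem P2psat_of_succ {x : L} (hx : ∀ j, φ (rt p P (j + 1) t) * x ∈ P1psat p φ T) :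
    x ∈ P2psat p φ T t := fun j => by
  obtain ⟨c, hc⟩ := rt_split_psat (p := p) j t
  rw [hc, map_mul, mul_assoc]
  exact mul_mem (P1psat_map _) (hx j)

theorem P2psat_perfect : PerfectRing (P2psat p φ T t) p := by
  refine ⟨fun x y h => Subtype.ext (pow_inj_unt (p := p) 1 ?_), fun x =>
    ⟨⟨rt p L 1 x, P2psat_of_succ fun j => ?_⟩, Subtype.ext ?_⟩⟩
  · rw [pow_one]
    exact congrArg Subtype.val h
  · have := P1psat_rt (x.2 j)
    rwa [map_mul, ← map_rt, rt_one_rt_psat] at this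
  · have := rt_pow (p := p) 1 (x : L)
    rwa [pow_one] at this

theorem P1psat_split {k : ℕ} (hT : φ g * T = φ t ^ (2 * p ^ k)) {y : L} (hy : y ∈ P1psat p φ T) :
    ∃ u, ∃ z ∈ P1psat p φ T, φ (rt p P k g) * y = φ u + φ t ^ 2 * z := by
  refine P1psat_ind k (Q := fun y => ∃ u, ∃ z ∈ P1psat p φ T,
    φ (rt p P k g) * y = φ u + φ t ^ 2 * z) ⟨0, 0, zero_mem _, by simp⟩ ?_ (fun a e n => ?_) hy
  · rintro x y ⟨u, z, hz, e⟩ ⟨u', z', hz', e'⟩
    exact ⟨u + u', z + z', add_mem hz hz', by rw [map_add]; linear_combination e + e'⟩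
  rcases le_total n (p ^ e) with h | h
  · obtain ⟨m, hm⟩ := Nat.exists_eq_add_of_le h
    refine ⟨a * rt p P (k + e) g ^ m * rt p P (k + e) (t ^ (2 * p ^ k)) ^ n, 0, zero_mem _, ?_⟩
    rw [← rt_add_pow k e g, hm, map_mul, map_mul, map_pow, map_pow, map_pow, map_rt φ _ (t ^ _),
      map_pow φ t, ← hT, map_mul, ← map_rt]
    ring
  · obtain ⟨m, rfl⟩ := Nat.exists_eq_add_of_le h
    refine ⟨0, φ a * rt p L (k + e) T ^ m, mul_mem (P1psat_map _) (pow_mem (P1psat_T _) _), ?_⟩
    have h1 : φ (rt p P k g) * rt p L k T = φ t ^ 2 := by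
      rw [map_rt, ← map_mul, hT, pow_mul, map_pow, rt_pow]
    rw [pow_add, rt_add_pow, ← h1, map_zero]
    ring

theorem P1psat_den {k : ℕ} (hT : φ g * T = φ t ^ (2 * p ^ k)) {y : L} (hy : y ∈ P1psat p φ T) :
    ∃ (m : ℕ) (a : P), φ g ^ m * y = φ a := by
  refine P1psat_ind 0 (Q := fun y => ∃ (m : ℕ) (a : P), φ g ^ m * y = φ a) ⟨0, 0, by simp⟩ ?_
    (fun a e n => ?_) hy
  · rintro x y ⟨m, a, e⟩ ⟨m', a', e'⟩
    refine ⟨m + m', g ^ m' * a + g ^ m * a', ?_⟩
    rw [map_add, map_mul, map_mul, map_pow, map_pow, ← e, ← e']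
    ring
  obtain ⟨m, hm⟩ := Nat.exists_eq_add_of_le (Nat.one_le_pow e p (Fact.out : p.Prime).pos)
  refine ⟨n, a * (rt p P e g ^ m * rt p P e (t ^ (2 * p ^ k))) ^ n, ?_⟩
  rw [zero_add, map_mul, map_pow, map_mul, map_pow, map_rt φ _ (t ^ _), map_pow φ t, ← hT, map_mul,
    ← map_rt]
  conv_lhs => rw [← rt_pow (p := p) e g, hm, map_pow]
  ring

end aux

theorem exists_sat {t g : P} (ht : t ∈ nonZeroDivisors P) (hg : g ∈ nonZeroDivisors P)
    (hgt : ∀ z, g * z ∈ Ideal.span {t} → z ∈ Ideal.span {t}) (k : ℕ) :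
    ∃ (P' : Type u) (_ : CommRing P') (_ : CharP P' p) (_ : PerfectRing P' p) (f : P →+* P'),
      f t ∈ nonZeroDivisors P' ∧ Sat p (f t) ∧ f g ∣ f t ^ (2 * p ^ k) ∧
      AIso f (t ^ 2) (rt p P k (g * t)) := by
  let L := Localization.Away (g * t)
  let φ := algebraMap P L
  have hφ : Function.Injective φ :=
    IsLocalization.injective L (Submonoid.powers_le.2 (mul_mem hg ht))
  have : CharP L p := charP_of_injective_ringHom hφ p
  have : IsReduced P := IsReduced.mk fun x ⟨n, hn⟩ => pow_inj_unt (p := p) n (by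
    rw [zero_pow (pow_ne_zero _ (Fact.out : p.Prime).ne_zero)]
    exact pow_eq_zero_of_le (Nat.lt_pow_self (Fact.out : p.Prime).one_lt).le hn)
  have : PerfectRing L p := PerfectRing.ofSurjective L p fun x => by
    obtain ⟨⟨a, s⟩, e⟩ := IsLocalization.surj (Submonoid.powers (g * t)) x
    obtain ⟨v, hv⟩ := (IsLocalization.map_units L s).exists_right_inv
    obtain ⟨n, hn⟩ := Nat.exists_eq_add_of_le' (Fact.out : p.Prime).one_le
    refine ⟨φ (rt p P 1 (a * s ^ n)) * v, ?_⟩
    have h1 := rt_pow (p := p) 1 (a * s ^ n)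
    rw [pow_one] at h1
    rw [frobenius_def, mul_pow, ← map_pow, h1, map_mul, map_pow, ← e]
    conv_lhs => rw [hn]
    calc _ = x * (φ s * v) ^ (n + 1) := by ring
      _ = x := by rw [hv, one_pow, mul_one]
  obtain ⟨w, hw⟩ := (IsLocalization.Away.algebraMap_isUnit (S := L) (g * t)).exists_right_inv
  rw [map_mul] at hw
  have hT : φ g * (φ t * w * φ t ^ (2 * p ^ k)) = φ t ^ (2 * p ^ k) := by
    rw [← mul_assoc, ← mul_assoc, hw, one_mul]
  generalize φ t * w * φ t ^ (2 * p ^ k) = T at hT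
  have := P2psat_perfect (p := p) (φ := φ) (T := T) (t := t)
  let f : P →+* P2psat p φ T t := φ.codRestrict _ fun a => P1psat_le (P1psat_map a)
  have hw' : ∀ x : L, φ t * (φ g * w * x) = x := fun x => by linear_combination x * hw
  refine ⟨P2psat p φ T t, inferInstance, inferInstance, this, f, ?_, fun x hx => ?_,
    ⟨⟨T, P1psat_le (by simpa only [rt_zero] using P1psat_T (p := p) (φ := φ) (T := T) 0)⟩,
      Subtype.ext hT.symm⟩,
    fun x => ?_, fun u hu => ?_⟩
  · refine mem_nonZeroDivisors_iff_right.2 fun x hx => Subtype.ext ?_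
    have h1 : (x : L) * φ t = 0 := congrArg Subtype.val hx
    rw [← hw' x, ZeroMemClass.coe_zero]
    linear_combination (φ g * w) * h1
  · refine Ideal.mem_span_singleton.2 ⟨⟨φ g * w * x, fun j => ?_⟩, Subtype.ext (hw' _).symm⟩
    obtain ⟨y, hy⟩ := Ideal.mem_span_singleton.1 (hx (j + 1))
    have h1 : φ (rt p P (j + 1) t) * x = φ t * y := by
      rw [← map_rt] at hy
      exact congrArg Subtype.val hy
    obtain ⟨c, hc⟩ := rt_split_psat (p := p) j t
    have h2 := mul_mem (P1psat_map c) (y.2 (j + 1))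
    rw [hc, map_mul, map_mul]
    convert h2 using 1
    linear_combination (φ c * φ (rt p P (j + 1) t) * φ g * w) * h1 +
      (φ c * φ (rt p P (j + 1) t) * y) * hw
  · obtain ⟨u, z, hz, e⟩ := P1psat_split hT (x.2 k)
    refine ⟨u, Ideal.mem_span_singleton.2 ⟨⟨z, P1psat_le hz⟩, Subtype.ext ?_⟩⟩
    change φ (rt p P k (g * t)) * x - φ u = φ (t ^ 2) * z
    rw [map_mul, map_mul, map_pow]
    linear_combination e
  · obtain ⟨x, hx⟩ := Ideal.mem_span_singleton.1 hu
    have h1 : φ u = φ (t ^ 2) * x := congrArg Subtype.val hx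
    obtain ⟨m, a, e⟩ := P1psat_den hT (x.2 k)
    have h2 : t ^ 2 ∣ g ^ m * (rt p P k t * u) := ⟨a, hφ (by
      simp only [map_mul, map_pow] at h1 ⊢
      rw [h1, ← e]
      ring)⟩
    have h3 : ∀ z, t ^ 2 ∣ g * z → t ^ 2 ∣ z := fun z ⟨c, hc⟩ => by
      obtain ⟨z', rfl⟩ := Ideal.mem_span_singleton.1
        (hgt z (Ideal.mem_span_singleton.2 ⟨t * c, by rw [hc]; ring⟩))
      obtain ⟨z'', rfl⟩ := Ideal.mem_span_singleton.1 (hgt z' (Ideal.mem_span_singleton.2
        ⟨c, (mul_cancel_left_mem_nonZeroDivisors ht).1 (by linear_combination hc)⟩))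
      exact ⟨z'', by ring⟩
    have h4 : ∀ (m : ℕ) z, t ^ 2 ∣ g ^ m * z → t ^ 2 ∣ z := fun m => by
      induction m with
      | zero => simp
      | succ m ih => exact fun z hz => h3 z (ih _ (by rwa [pow_succ g, mul_assoc] at hz))
    rw [map_mul, mul_assoc]
    exact Ideal.mem_span_singleton.2 ((h4 m _ h2).mul_left _)

end Vale.Agent.P177
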