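import Vale.Agent.P177.Blk
import Vale.Agent.P177.SP
import Vale.Agent.P177.Res2
import Vale.Agent.P177.Cmp
import Vale.Agent.P202.MQR

/-! The Adams operation on the Koszul complex. -/

namespace Vale.Agent.P177

open Vale.Agent.P202 IsLocalRing
open scoped ENNReal

universe u

variable {S : Type u} [CommRing S] [IsLocalRing S] [IsNoetherianRing S] {l : ℕ} [NeZero l]

omit [IsLocalRing S] [IsNoetherianRing S] in
theorem purk_phi {ι : Type} [Fintype ι] [DecidableEq ι] (y : S) (x : (ZMod l → ι ⊕ ι) → S)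
    (α : ZMod l → ι ⊕ ι) :
    mact S (prodM l fun _ => Matrix.fromBlocks (1 : Matrix ι ι S) 0 0 (y • (1 : Matrix ι ι S)))
      x α = y ^ blkCnt α * x α := by
  rw [mact_apply, Finset.sum_eq_single α _ (by simp), smul_eq_mul]
  · congr 1
    rw [blkCnt, ← Finset.prod_const, Finset.prod_filter]
    refine Finset.prod_congr rfl fun i _ => ?_
    rcases α i with a | a <;> simp
  · intro β _ hβ
    obtain ⟨i, hi⟩ := Function.ne_iff.1 hβ
    have h0 : Matrix.fromBlocks (1 : Matrix ι ι S) 0 0 (y • (1 : Matrix ι ι S)) (α i) (β i) =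
        0 := by
      revert hi
      rcases α i with a | a <;> rcases β i with b | b <;> intro hi
      · simp [Matrix.one_apply_ne' fun h : b = a => hi (congrArg _ h)]
      · rfl
      · rfl
      · simp [Matrix.one_apply_ne' fun h : b = a => hi (congrArg _ h)]
    have h1 : prodM l (fun _ => Matrix.fromBlocks (1 : Matrix ι ι S) 0 0 (y • (1 : Matrix ι ι S)))
        α β = 0 := Finset.prod_eq_zero (Finset.mem_univ i) h0
    rw [h1, zero_smul]

theorem purk_cnt {ι : Type} {α β : ZMod l → ι ⊕ ι} (h : ∀ i, (β i).isRight → (α i).isRight) :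
    blkCnt β ≤ blkCnt α :=
  Finset.card_le_card fun i hi =>
    Finset.mem_filter.2 ⟨Finset.mem_univ _, h i (Finset.mem_filter.1 hi).2⟩

theorem purk_upd {ι : Type} (α : ZMod l → ι ⊕ ι) (i : ZMod l) {p : ι ⊕ ι}
    (h : p.isRight → (α i).isRight) : blkCnt (Function.update α i p) ≤ blkCnt α := by
  refine purk_cnt fun j hj => ?_
  by_cases e : j = i
  · subst e
    rw [Function.update_self] at hj
    exact h hj
  · rwa [Function.update_of_ne e] at hj

omit [IsLocalRing S] [IsNoetherianRing S] in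
theorem purk_le (J : Ideal S) (y : S) {a b : ℕ} (h : a ≤ b) :
    J ⊔ Ideal.span {y ^ b} ≤ J ⊔ Ideal.span {y ^ a} :=
  sup_le_sup_left (Ideal.span_singleton_le_span_singleton.2 (pow_dvd_pow y h)) J

theorem psiG_cone (hl : l.Prime) (ho : Odd l) (hu : IsUnit (l : S)) {K : GC S} (hK : K.Sq0)
    {J : Ideal S} {y : S} (hy : ∀ z, y * z ∈ J → z ∈ J) {t : ℕ}
    (ht : maximalIdeal S ^ t ≤ K.nh ⊔ (J ⊔ Ideal.span {y ^ l})) :
    GoodPG l (RLen.ofLen S) (K.cone y) J ⊤ ∧ psiG l (RLen.ofLen S) (K.cone y) J ⊤ =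
      psiG l (RLen.ofLen S) K (J ⊔ Ideal.span {y ^ l}) ⊤ := by
  classical
  let X : (ZMod l → K.ι ⊕ K.ι) → Submodule S S := fun α => J ⊔ Ideal.span {y ^ blkCnt α}
  have hC : ∀ a b, Cmp X a b := fun a b α i =>
    ⟨fun _ => purk_le J y (purk_upd α i (by simp)),
      fun h => purk_le J y (purk_upd α i fun _ => by simp [h])⟩
  have x1 : (fun γ : ZMod l → K.ι => X (Sum.inr ∘ γ)) = fun _ => J ⊔ Ideal.span {y ^ l} :=
    funext fun γ => by simp only [X, blkCnt_inr]
  have x2 : (fun γ : ZMod l → K.ι => X (Sum.inl ∘ γ)) = fun _ => ⊤ :=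
    funext fun γ => by simp [X, blkCnt]
  have hcol : J ⊔ Ideal.span {y ^ l} ≤
      Submodule.colon (J ⊔ Ideal.span {y ^ l}) ((⊤ : Submodule S S) : Set S) :=
    fun z hz => Submodule.mem_colon.2 fun p _ => Ideal.mul_mem_right p _ hz
  have g0 : GoodPG l (RLen.ofLen S) K (J ⊔ Ideal.span {y ^ l}) ⊤ :=
    ⟨good_of_kill _ (ht.trans (sup_le_sup (GC.nh_le_tp ho K) hcol)),
      good_of_kill _ (ht.trans (sup_le_sup (GC.nh_le_sp ho hu K) hcol))⟩
  have p0 := GC.psiG_eq (l := l) (RLen.ofLen S) K (J ⊔ Ideal.span {y ^ l}) ⊤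
  have tr := psi_trace hl ho hu (RLen.ofLen S) hK X J
    (fun α => by simp only [X, blkCnt_rot]) (fun _ => le_sup_left)
    (fun α i a _ => purk_le J y (purk_upd α i (by simp))) (fun a b _ => hC a b) K.nh
    (fun z ⟨h, h1, h2⟩ => ⟨h, h1, h2, fun a b _ => hC a b⟩)
    (fun A' A h1 _ h2 => rr_ofLen_ne_top (t := t) fun z hz v hv => by
      obtain ⟨z1, hz1, z2, hz2, rfl⟩ := Submodule.mem_sup.1 (ht hz)
      rw [add_smul]
      refine add_mem (h2 (Submodule.smul_mem_smul hz1 hv)) (h1 fun α _ => ?_)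
      exact Ideal.mul_mem_right (v α) _ (purk_le J y (blkCnt_le α) hz2))
    (by rw [x1, x2]; exact p0.1.1 g0)
  rw [x1, x2] at tr
  let f : Matrix (K.ι ⊕ K.ι) (K.ι ⊕ K.ι) S := Matrix.fromBlocks 1 0 0 (y • 1)
  have f0 : GC.Hg (K.cone 1) (K.cone y) 0 f := by
    rintro (a | a) (b | b) h
    · have : a = b := by
        by_contra hne
        exact h (by simp [f, Matrix.one_apply_ne hne])
      simp [this]
    · exact absurd rfl h
    · exact absurd rfl h
    · have : a = b := by
        by_contra hne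
        exact h (by simp [f, Matrix.one_apply_ne hne])
      simp [this]
  have f1 : (K.cone 1).mat * f = f * (K.cone y).mat := by
    simp [f, Matrix.fromBlocks_multiply]
  have f2 := GC.tp_chain (l := l) f0 f1
  have f3 : ∀ (x : (ZMod l → K.ι ⊕ K.ι) → S) α,
      mact S (prodM l fun _ => f) x α = y ^ blkCnt α * x α := purk_phi y
  have key := Act.psi_transfer (μ := RLen.ofLen S) (F' := ((K.cone y).tp l).cw J)
    (F'' := ((K.cone y).tp l).cw ⊤) (G' := ((K.cone 1).tp l).cw J) (G'' := ((K.cone 1).tp l).cf X)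
    (GC.tp_act (E := S) (K.cone y) hu) (GC.tp_act (E := S) (K.cone 1) hu)
    (mact S (prodM l fun _ => f)) (prodM_rotL f) 0 1
    (GC.tp_stab (K := K.cone y) fun _ => rfl) (GC.tp_stab (K := K.cone 1) fun _ => rfl)
    (GC.cw_isCx _ _) (GC.cw_isCx _ _) ?_ ?_ ?_
  · have p1 := GC.psiG_eq (l := l) (RLen.ofLen S) (K.cone y) J ⊤
    refine ⟨p1.1.2 (key.1.2 tr.1), ?_⟩
    rw [p1.2, key.2, tr.2, p0.2]
    simp
  · intro n x _
    rw [Units.val_one, one_smul, GC.d, GC.d, ← mact_mul, ← mact_mul, f2, sub_self]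
    exact zero_mem _
  · intro n
    rw [add_zero]
    apply le_antisymm
    · refine sup_le ?_ (GC.cf_mono (K := (K.cone 1).tp l) (fun _ => le_sup_left) n)
      rintro _ ⟨x, hx, rfl⟩
      refine GC.mem_cf.2 ⟨fun α _ => ?_, fun α hα => ?_⟩
      · rw [f3]
        exact Submodule.mem_sup_right (Ideal.mul_mem_right _ _ (Ideal.mem_span_singleton_self _))
      · rw [f3, (GC.mem_cf.1 hx).2 α hα, mul_zero]
    · intro v hv
      have h1 : ∀ α, ∃ a ∈ J, ∃ b, a + y ^ blkCnt α * b = v α := by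
        intro α
        obtain ⟨a, ha, c, hc, e⟩ :=
          Submodule.mem_sup.1 (GC.apply_mem_of_mem_cf (K := (K.cone 1).tp l) hv α)
        obtain ⟨b, rfl⟩ := Ideal.mem_span_singleton.1 hc
        exact ⟨a, ha, b, e⟩
      choose a ha b e using h1
      have h2 := (GC.mem_cf.1 hv).2
      refine Submodule.mem_sup.2
        ⟨_, ⟨fun α => if (((K.cone 1).tp l).deg α : ℤ) = n then b α else 0,
          GC.mem_cf.2 ⟨fun _ _ => trivial, fun α hα => if_neg hα⟩, rfl⟩,
        fun α => if (((K.cone 1).tp l).deg α : ℤ) = n then a α else 0,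
        GC.mem_cf.2 ⟨fun α hα => by simpa only [if_pos hα] using ha α, fun α hα => if_neg hα⟩,
        funext fun α => ?_⟩
      rw [Pi.add_apply, f3]
      by_cases hα : (((K.cone 1).tp l).deg α : ℤ) = n
      · simp only [if_pos hα]
        rw [add_comm, e]
      · simp only [if_neg hα]
        rw [h2 α hα, mul_zero, add_zero]
  · intro n
    rw [add_zero]
    apply le_antisymm
    · rintro x ⟨hx, hx1⟩
      refine GC.mem_cf.2 ⟨fun α _ => ?_, (GC.mem_cf.1 hx).2⟩
      have h1 := GC.apply_mem_of_mem_cf (K := (K.cone 1).tp l) hx1 α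
      rw [f3] at h1
      exact reg_pow_mqr hy _ _ h1
    · intro x hx
      have h1 := GC.mem_cf.1 hx
      refine ⟨GC.cw_mono _ le_top n hx, GC.mem_cf.2 ⟨fun α hα => ?_, fun α hα => ?_⟩⟩
      · rw [f3]
        exact J.mul_mem_left _ (h1.1 α hα)
      · rw [f3, h1.2 α hα, mul_zero]

theorem purk_kos (hl : l.Prime) (ho : Odd l) (hu : IsUnit (l : S)) {h : ℕ} {x : Fin h → S}
    (hx : PermReg x) (hm : Ideal.span (Set.range x) = maximalIdeal S) (s : List (Fin h))
    (hs : s.Nodup) (T : Set (Fin h)) (hT : ∀ i, i ∈ T ↔ i ∉ s) :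
    GoodPG l (RLen.ofLen S) ((GC.one S).kos (s.map x)) (Ideal.span ((fun i => x i ^ l) '' T)) ⊤ ∧
      psiG l (RLen.ofLen S) ((GC.one S).kos (s.map x)) (Ideal.span ((fun i => x i ^ l) '' T)) ⊤ =
        ((l : ℝ) - 1) * (l : ℝ) ^ h := by
  induction s generalizing T with
  | nil =>
    have e0 : T = Set.univ := Set.eq_univ_of_forall fun i => (hT i).2 List.not_mem_nil
    have e1 : (RLen.ofLen S).q (maximalIdeal S) = 1 := by
      have : IsSimpleModule S (S ⧸ maximalIdeal S) :=
        isSimpleModule_iff_quot_maximal.2 ⟨_, inferInstance, ⟨LinearEquiv.refl _ _⟩⟩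
      change ((Module.length S (S ⧸ maximalIdeal S) : ℕ∞) : ℝ≥0∞) = 1
      rw [Module.length_eq_one, ENat.toENNReal_one]
    have e2 : rr (RLen.ofLen S) (Ideal.span ((fun i => x i ^ l) '' T)) ⊤ = ((l ^ h : ℕ) : ℝ≥0∞) := by
      rw [e0, Set.image_univ, rr_top]
      have h1 := hx.q_pows (RLen.ofLen S) fun _ => l
      rw [hm, e1, mul_one, Finset.prod_const, Finset.card_univ, Fintype.card_fin] at h1
      exact h1
    have h2 := GC.psiG_one (l := l) (RLen.ofLen S)
      (le_top : Ideal.span ((fun i => x i ^ l) '' T) ≤ ⊤)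
      (e2.trans_ne (ENNReal.natCast_ne_top _))
    rw [e2, ENNReal.toReal_natCast, Nat.cast_pow] at h2
    exact h2
  | cons i s ih =>
    have hi : i ∉ T := fun h0 => (hT i).1 h0 List.mem_cons_self
    have h1 := ih (List.nodup_cons.1 hs).2 (insert i T) fun j => by
      rw [Set.mem_insert_iff, hT, List.mem_cons, not_or]
      by_cases e : j = i
      · simp [e, (List.nodup_cons.1 hs).1]
      · simp [e]
    rw [span_insert_mqr] at h1
    have hy : ∀ z, x i * z ∈ Ideal.span ((fun i => x i ^ l) '' T) →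
        z ∈ Ideal.span ((fun i => x i ^ l) '' T) := by
      have h2 := hx.pow (fun j => if j = i then 1 else l) (fun j => by
        have := hl.pos
        split_ifs <;> omega) T i hi
      have e : (fun j => x j ^ if j = i then 1 else l) '' T = (fun j => x j ^ l) '' T :=
        Set.image_congr fun j hj => by rw [if_neg fun e : j = i => hi (e ▸ hj)]
      rw [e] at h2
      simpa using h2
    obtain ⟨t, ht⟩ := Ideal.exists_pow_le_of_le_radical_of_fg (I := maximalIdeal S)
      (J := ((GC.one S).kos (s.map x)).nh ⊔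
        (Ideal.span ((fun i => x i ^ l) '' T) ⊔ Ideal.span {x i ^ l})) (by
        rw [← hm, Ideal.span_le]
        rintro _ ⟨j, rfl⟩
        refine ⟨l, ?_⟩
        by_cases e1 : j ∈ s
        · exact Submodule.mem_sup_left (Ideal.pow_mem_of_mem _ (GC.span_le_nh_kos _ _
            (Ideal.subset_span (List.mem_map_of_mem e1))) l hl.pos)
        · refine Submodule.mem_sup_right ?_
          by_cases e2 : j = i
          · exact Submodule.mem_sup_right (Ideal.subset_span (by rw [e2]; rfl))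
          · exact Submodule.mem_sup_left
              (Ideal.subset_span ⟨j, (hT j).2 (by simp [e1, e2]), rfl⟩))
      (IsNoetherian.noetherian _)
    have h3 := psiG_cone hl ho hu (GC.sq0_kos (s.map x)) hy ht
    exact ⟨h3.1, h3.2.trans h1.2⟩

theorem psiG_kos (hl : l.Prime) (ho : Odd l) (hu : IsUnit (l : S)) {h : ℕ} {x : Fin h → S}
    (hx : PermReg x) (hm : Ideal.span (Set.range x) = maximalIdeal S) :
    GoodPG l (RLen.ofLen S) ((GC.one S).kos (List.ofFn x)) (⊥ : Submodule S S) ⊤ ∧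
      psiG l (RLen.ofLen S) ((GC.one S).kos (List.ofFn x)) (⊥ : Submodule S S) ⊤ =
        ((l : ℝ) - 1) * (l : ℝ) ^ h := by
  have h1 := purk_kos hl ho hu hx hm (List.finRange h) (List.nodup_finRange h) ∅ (by simp)
  rw [Set.image_empty, Ideal.span_empty, ← List.ofFn_eq_map] at h1
  exact h1

/-- Local purity. -/
theorem psiG_res (hl : l.Prime) (ho : Odd l) (hu : IsUnit (l : S)) {h : ℕ} {x : Fin h → S}
    (hx : PermReg x) (hm : Ideal.span (Set.range x) = maximalIdeal S) {K : GC S}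
    {aug : (K.ι → S) →ₗ[S] S ⧸ maximalIdeal S} (hK : K.IsRes aug) :
    psiG l (RLen.ofLen S) K (⊥ : Submodule S S) ⊤ = ((l : ℝ) - 1) * (l : ℝ) ^ h := by
  obtain ⟨aug', h'⟩ := GC.isRes_kos hx
  have h1 := (hK.htpy h' (Submodule.quotEquivOfEq _ _ hm.symm)).psiG_eq ho hu (RLen.ofLen S)
    (⊥ : Submodule S S) ⊤
  exact h1.2.trans (psiG_kos hl ho hu hx hm).2

end Vale.Agent.P177
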