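import Vale.Agent.P177.PDefs
import Vale.Agent.P177.Reg1
import Vale.Agent.P202.MPS
import Vale.Agent.P202.Coef

/-! The structure of complete regular local rings. -/

namespace Vale.Agent.P177

open Vale.Agent.P202 MvPowerSeries IsLocalRing

universe u

variable {R : Type u} [CommRing R] [IsLocalRing R] [IsNoetherianRing R]
  [IsAdicComplete (maximalIdeal R) R] {d : ℕ}

theorem dim_ps_ge_struct (Λ : Type u) [CommRing Λ] (d : ℕ) :
    ringKrullDim Λ + d ≤ ringKrullDim (PS (Fin d) Λ) := by
  induction d with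
  | zero =>
    rw [Nat.cast_zero, add_zero]
    exact ringKrullDim_le_of_surjective constantCoeff fun a => ⟨C a, constantCoeff_C a⟩
  | succ d ih =>
    have h1 := ringKrullDim_succ_le_of_surjective
      (killCompl (Fin.succEmb d) : PS (Fin (d + 1)) Λ →ₐ[Λ] PS (Fin d) Λ).toRingHom
      (fun a => ⟨rename (Fin.succEmb d) a, killCompl_rename_app a⟩) (r := X 0)
      X_mem_nonzeroDivisors (killCompl_X_eq_zero (by simp))
    refine le_trans ?_ h1
    rw [Nat.cast_succ, ← add_assoc]
    gcongr

theorem exists_surj_struct {W : Type u} [CommRing W] (ω : W →+* R)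
    (hω : Function.Surjective ((residue R).comp ω)) (x : Fin d → R)
    (hx : Ideal.span (Set.range x) = maximalIdeal R) :
    ∃ π : PS (Fin d) W →+* R, Function.Surjective π ∧ (∀ w, π (C w) = ω w) ∧
      ∀ i, π (X i) = x i := by
  obtain ⟨π, hC, hX⟩ := exists_psHom (maximalIdeal R) ω x
    fun i => hx ▸ Ideal.subset_span ⟨i, rfl⟩
  have e : Ideal.span (Set.range fun i => π (X i)) = maximalIdeal R := by
    simp only [hX]
    exact hx
  have : IsHausdorff (Ideal.span (Set.range fun i => π (X i))) R := by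
    rw [e]
    infer_instance
  refine ⟨π, psHom_surjective π fun z => ?_, hC, hX⟩
  obtain ⟨r, rfl⟩ := Ideal.Quotient.mk_surjective z
  obtain ⟨w, hw⟩ := hω (residue R r)
  refine ⟨w, ?_⟩
  rw [RingHom.comp_apply, RingHom.comp_apply, hC, Ideal.Quotient.eq, e]
  exact Ideal.Quotient.eq.1 hw

omit [IsAdicComplete (maximalIdeal R) R] [IsNoetherianRing R] in
theorem ker_struct (h : RegL R d) {p : ℕ} {W : Type u} [CommRing W] [IsDomain W]
    [IsDiscreteValuationRing W] (hW : maximalIdeal W = Ideal.span {(p : W)})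
    (π : PS (Fin d) W →+* R) (hπ : Function.Surjective π) {g : PS (Fin d) W}
    (hg : g ∈ Ideal.span (Set.range (X : Fin d → PS (Fin d) W))) (hπg : π g = p) :
    RingHom.ker π = Ideal.span {(p : PS (Fin d) W) - g} := by
  have hm : maximalIdeal (PS (Fin d) W) =
      Ideal.span (insert (p : PS (Fin d) W) (Set.range X)) := by
    rw [psl_maximalIdeal_of_span hW, map_natCast]
  have hm' : Ideal.span ({(p : PS (Fin d) W) - g} ∪ Set.range X) = maximalIdeal (PS (Fin d) W) := by
    rw [hm, Ideal.span_union, Ideal.span_insert]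
    apply le_antisymm
    · refine sup_le ((Ideal.span_singleton_le_iff_mem _).2 ?_) le_sup_right
      exact sub_mem (Ideal.mem_sup_left (Ideal.mem_span_singleton_self _)) (Ideal.mem_sup_right hg)
    · refine sup_le ((Ideal.span_singleton_le_iff_mem _).2 ?_) le_sup_right
      have h1 := add_mem (Ideal.mem_sup_left (T := Ideal.span (Set.range X))
        (Ideal.mem_span_singleton_self ((p : PS (Fin d) W) - g))) (Ideal.mem_sup_right hg)
      rwa [sub_add_cancel] at h1
  have hle : Ideal.span {(p : PS (Fin d) W) - g} ≤ maximalIdeal (PS (Fin d) W) :=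
    hm' ▸ Ideal.span_mono Set.subset_union_left
  have := isLocalRing_quot_reg1 hle
  have hd : (d : WithBot ℕ∞) ≤ ringKrullDim (PS (Fin d) W ⧸ Ideal.span {(p : PS (Fin d) W) - g}) := by
    refine dim_quot_reg1 hle (a := 1) (by simp) ?_
    have h1 := dim_ps_ge_struct W d
    rw [IsDiscreteValuationRing.ringKrullDim_eq_one] at h1
    exact_mod_cast h1
  have hreg := RegL.of_gen
    (Ideal.Quotient.mk (Ideal.span {(p : PS (Fin d) W) - g}) ∘ (X : Fin d → PS (Fin d) W))
    (by rw [Set.range_comp]; exact span_quot_reg1 hm') hd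
  have hk : Ideal.span {(p : PS (Fin d) W) - g} ≤ RingHom.ker π := by
    rw [Ideal.span_singleton_le_iff_mem, RingHom.mem_ker, map_sub, map_natCast, hπg, sub_self]
  have hinj := hreg.injective (Ideal.Quotient.lift _ π fun a ha => hk ha)
    (Ideal.Quotient.lift_surjective_of_surjective _ _ hπ) h.1
  refine le_antisymm (fun a ha => ?_) hk
  rw [← Ideal.Quotient.eq_zero_iff_mem]
  exact (injective_iff_map_eq_zero _).1 hinj _ ha

theorem exists_pres_mixed (h : RegL R d) {p : ℕ} {W : Type u} [CommRing W] [IsDomain W]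
    [IsDiscreteValuationRing W] (hW : maximalIdeal W = Ideal.span {(p : W)}) (ω : W →+* R)
    (hω : Function.Surjective ((residue R).comp ω)) :
    ∃ (π : PS (Fin d) W →+* R) (g : PS (Fin d) W), Pres p π g ∧ ∀ w, π (C w) = ω w := by
  classical
  have hp : (p : R) ∈ maximalIdeal R := by
    have h1 : RingHom.ker ((residue R).comp ω) = maximalIdeal W :=
      eq_maximalIdeal (RingHom.ker_isMaximal_of_surjective _ hω)
    have h2 : (p : W) ∈ RingHom.ker ((residue R).comp ω) := by
      rw [h1, hW]
      exact Ideal.mem_span_singleton_self _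
    rw [RingHom.mem_ker, RingHom.comp_apply, map_natCast, residue_eq_zero_iff] at h2
    exact h2
  obtain ⟨x, hx⟩ := h.2
  by_cases hp2 : (p : R) ∈ maximalIdeal R ^ 2
  · obtain ⟨π, hπ, hC, hX⟩ := exists_surj_struct ω hω x hx
    have e : (Ideal.span (Set.range (X : Fin d → PS (Fin d) W)) ^ 2).map π =
        maximalIdeal R ^ 2 := by
      rw [Ideal.map_pow, ps_map_span]
      simp only [hX]
      exact congrArg (· ^ 2) hx
    rw [← e] at hp2
    obtain ⟨g, hg, hπg⟩ := (Ideal.mem_map_iff_of_surjective π hπ).1 hp2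
    exact ⟨π, g, ⟨hπ, ker_struct h hW π hπ (Ideal.pow_le_self two_ne_zero hg) hπg,
      Or.inl (Ideal.pow_right_mono (Ideal.span_mono (Set.subset_insert _ _)) 2 hg)⟩, hC⟩
  · obtain ⟨j, hj⟩ := exists_exchange x hx hp hp2
    obtain ⟨π, hπ, hC, hX⟩ := exists_surj_struct ω hω _ hj
    exact ⟨π, X j, ⟨hπ, ker_struct h hW π hπ (Ideal.subset_span ⟨j, rfl⟩)
      (by rw [hX, Function.update_self]), Or.inr ⟨j, rfl⟩⟩, hC⟩

theorem regL_ps (K : Type u) [Field K] (d : ℕ) : RegL (PS (Fin d) K) d := by
  refine RegL.of_gen X (ps_maximalIdeal K).symm ?_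
  have h1 := dim_ps_ge_struct K d
  rwa [ringKrullDim_eq_zero_of_field, zero_add] at h1

theorem exists_equiv_ps (h : RegL R d) (he : EqChar R) :
    ∃ (K : Type u) (_ : Field K), Nonempty (PS (Fin d) K ≃+* R) := by
  obtain ⟨g, hg⟩ := exists_coefField he
  obtain ⟨x, hx⟩ := h.2
  obtain ⟨π, hπ, -, -⟩ := exists_surj_struct g (by rw [hg]; exact Function.surjective_id) x hx
  exact ⟨ResidueField R, inferInstance,
    ⟨RingEquiv.ofBijective π ⟨(regL_ps _ d).injective π hπ h.1, hπ⟩⟩⟩

omit [IsNoetherianRing R] [IsAdicComplete (maximalIdeal R) R] in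
theorem eqChar_or_mem' (R : Type u) [CommRing R] [IsLocalRing R] :
    EqChar R ∨ ∃ p : ℕ, p.Prime ∧ (p : R) ∈ maximalIdeal R := by
  by_cases h : ∃ p : ℕ, p.Prime ∧ (p : R) ∈ maximalIdeal R
  · exact Or.inr h
  · left
    left
    have h1 : ∀ n : ℕ, n ≠ 0 → IsUnit (n : R) := by
      intro n
      induction n using induction_on_primes with
      | zero => exact fun h0 => absurd rfl h0
      | one => exact fun _ => by simp
      | prime_mul q a hq ih =>
        intro h0
        rw [Nat.cast_mul]
        refine IsUnit.mul ?_ (ih fun ha => h0 (by simp [ha]))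
        by_contra hu
        exact h ⟨q, hq, hu⟩
    have h2 : ∀ y : nonZeroDivisors ℤ, IsUnit (Int.castRingHom R y) := by
      rintro ⟨y, hy⟩
      have hy0 : y ≠ 0 := nonZeroDivisors.ne_zero hy
      have h3 := h1 y.natAbs (Int.natAbs_ne_zero.2 hy0)
      rcases Int.natAbs_eq y with h4 | h4
      · simpa using (show IsUnit ((y : ℤ) : R) by rw [h4]; simpa using h3)
      · simpa using (show IsUnit ((y : ℤ) : R) by rw [h4]; simpa using h3)
    exact ⟨IsLocalization.lift (S := ℚ) h2⟩

omit [IsAdicComplete (maximalIdeal R) R] in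
theorem exists_unr_complete (R : Type u) [CommRing R] [IsLocalRing R] [IsNoetherianRing R] :
    ∃ (R' : Type u) (_ : CommRing R') (_ : IsLocalRing R') (_ : IsNoetherianRing R')
      (_ : Algebra R R'), Unr R R' ∧ IsAdicComplete (maximalIdeal R') R' :=
  ⟨AdicCompletion (maximalIdeal R) R, inferInstance, inferInstance, isNoetherianRing_completion R,
    inferInstance, ⟨inferInstance, AdicCompletion.maximalIdeal_eq_map.symm⟩, inferInstance⟩

end Vale.Agent.P177
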