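import Vale.Agent.P177.Bas2

/-! The tensor power of a complex. -/

namespace Vale.Agent.P177

open Vale.Agent.P202
open scoped ENNReal

universe u

variable {B : Type u} [CommRing B] {E : Type u} [AddCommGroup E] [Module B E] {l : ℕ} [NeZero l]
  {ι κ ρ : Type}

omit [NeZero l] in
theorem rotL_apply (x : (ZMod l → ι) → E) (α : ZMod l → ι) :
    rotL l B ι E x α = x (rot l ι 1 α) := rfl

omit [NeZero l] in
theorem rot_rot (c c' : ZMod l) (α : ZMod l → ι) :
    rot l ι c (rot l ι c' α) = rot l ι (c + c') α := by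
  funext i
  simp only [rot, add_assoc]

omit [NeZero l] in
theorem rot_zero (α : ZMod l → ι) : rot l ι 0 α = α := by
  funext i
  simp only [rot, add_zero]

omit [NeZero l] in
theorem rotL_pow (m : ℕ) (x : (ZMod l → ι) → E) (α : ZMod l → ι) :
    (rotL l B ι E ^ m) x α = x (rot l ι m α) := by
  induction m generalizing α with
  | zero => rw [pow_zero, Nat.cast_zero, rot_zero]; rfl
  | succ m ih =>
    rw [pow_succ', Module.End.mul_apply, rotL_apply, ih, rot_rot, Nat.cast_succ]

theorem rot_inv {τ : Type*} {X : (ZMod l → ι) → τ} (h : ∀ α, X (rot l ι 1 α) = X α) (c : ZMod l)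
    (α : ZMod l → ι) : X (rot l ι c α) = X α := by
  have : ∀ m : ℕ, X (rot l ι m α) = X α := fun m => by
    induction m with
    | zero => rw [Nat.cast_zero, rot_zero]
    | succ m ih => rw [Nat.cast_succ, add_comm, ← rot_rot, h, ih]
  rw [← ZMod.natCast_zmod_val c, this]

theorem inS_iff (hl : Odd l) {i j : ZMod l} (h : i ≠ j) : inS l i j ↔ ¬ inS l j i := by
  have h1 : j - i ≠ 0 := sub_ne_zero.2 h.symm
  have h2 : (i - j).val = l - (j - i).val := by
    rw [← neg_sub, ZMod.neg_val, if_neg h1]
  have h3 : (j - i).val < l := ZMod.val_lt _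
  have h4 : (j - i).val ≠ 0 := fun e => h1 ((ZMod.val_eq_zero _).1 e)
  obtain ⟨m, hm⟩ := hl
  unfold inS
  omega

theorem card_inS (hl : Odd l) (i : ZMod l) :
    (Finset.univ.filter fun j => inS l i j).card = l / 2 := by
  have h0 : l / 2 = (Finset.Icc 1 (l / 2)).card := by simp
  rw [h0]
  refine Finset.card_bij (fun j _ => (j - i).val) (fun j hj => ?_) (fun j _ j' _ e => ?_)
    fun m hm => ?_
  · exact Finset.mem_Icc.2 (Finset.mem_filter.1 hj).2
  · exact sub_left_injective (ZMod.val_injective l e)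
  · obtain ⟨h1, h2⟩ := Finset.mem_Icc.1 hm
    have h3 : ((m : ZMod l) + i - i).val = m := by
      rw [add_sub_cancel_right, ZMod.val_cast_of_lt (by omega)]
    exact ⟨(m : ZMod l) + i, Finset.mem_filter.2 ⟨Finset.mem_univ _, by
      unfold inS; rw [h3]; exact ⟨h1, h2⟩⟩, h3⟩

theorem prodM_mul [Fintype κ] (A : ZMod l → Matrix ι κ B) (A' : ZMod l → Matrix κ ρ B) :
    prodM l A * prodM l A' = prodM l fun i => A i * A' i := by
  ext α γ
  simp only [prodM, Matrix.mul_apply, Matrix.of_apply, ← Finset.prod_mul_distrib]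
  rw [Finset.prod_univ_sum, Fintype.piFinset_univ]

theorem prodM_one [DecidableEq ι] : prodM l (fun _ => (1 : Matrix ι ι B)) = 1 := by
  ext α β
  simp only [prodM, Matrix.of_apply]
  by_cases h : α = β
  · subst h
    simp
  · obtain ⟨i, hi⟩ := Function.ne_iff.1 h
    rw [Matrix.one_apply_ne h]
    exact Finset.prod_eq_zero (Finset.mem_univ i) (Matrix.one_apply_ne hi)

theorem prodM_smul (c : ZMod l → B) (A : ZMod l → Matrix ι κ B) :
    prodM l (fun i => c i • A i) = (∏ i, c i) • prodM l A := by
  ext α β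
  simp only [prodM, Matrix.of_apply, Matrix.smul_apply, smul_eq_mul, Finset.prod_mul_distrib]

theorem prodM_update_tp (A : ZMod l → Matrix ι κ B) (i : ZMod l) (P : Matrix ι κ B)
    (α : ZMod l → ι) (β : ZMod l → κ) : prodM l (Function.update A i P) α β =
      P (α i) (β i) * ∏ j ∈ Finset.univ.erase i, A j (α j) (β j) := by
  simp only [prodM, Matrix.of_apply]
  rw [← Finset.mul_prod_erase _ _ (Finset.mem_univ i), Function.update_self]
  congr 1
  exact Finset.prod_congr rfl fun j hj => by rw [Function.update_of_ne (Finset.mem_erase.1 hj).1]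

theorem prodM_update_neg_tp (A : ZMod l → Matrix ι κ B) (i : ZMod l) (P : Matrix ι κ B) :
    prodM l (Function.update A i (-P)) = -prodM l (Function.update A i P) := by
  ext α β
  simp only [Matrix.neg_apply, prodM_update_tp, neg_mul]

theorem prodM_eq_zero_tp {A : ZMod l → Matrix ι κ B} (i : ZMod l) (h : A i = 0) :
    prodM l A = 0 := by
  ext α β
  exact Finset.prod_eq_zero (Finset.mem_univ i) (by rw [h]; rfl)

omit [NeZero l] in
/-- Rotation as a bijection. -/
def rotE (l : ℕ) (ι : Type) (c : ZMod l) : (ZMod l → ι) ≃ (ZMod l → ι) where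
  toFun := rot l ι c
  invFun := rot l ι (-c)
  left_inv α := by rw [rot_rot, neg_add_cancel, rot_zero]
  right_inv α := by rw [rot_rot, add_neg_cancel, rot_zero]

theorem mact_rotL_tp [Fintype κ] (M : Matrix (ZMod l → ι) (ZMod l → κ) B)
    (h : ∀ α β, M (rot l ι 1 α) (rot l κ 1 β) = M α β) (x : (ZMod l → κ) → E) :
    mact E M (rotL l B κ E x) = rotL l B ι E (mact E M x) := by
  funext α
  rw [rotL_apply, mact_apply, mact_apply,
    ← Equiv.sum_comp (rotE l κ 1) fun β => M (rot l ι 1 α) β • x β]
  exact Finset.sum_congr rfl fun β _ => by rw [rotL_apply, ← h α β]; rfl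

theorem prodM_update_add (A : ZMod l → Matrix ι κ B) (i : ZMod l) (P Q : Matrix ι κ B) :
    prodM l (Function.update A i (P + Q)) =
      prodM l (Function.update A i P) + prodM l (Function.update A i Q) := by
  ext α β
  simp only [Matrix.add_apply, prodM_update_tp, add_mul]

theorem prodM_rotL [Fintype κ] (A : Matrix ι κ B) (x : (ZMod l → κ) → E) :
    mact E (prodM l fun _ => A) (rotL l B κ E x) = rotL l B ι E (mact E (prodM l fun _ => A) x) := by
  refine mact_rotL_tp _ (fun α β => ?_) x
  exact Equiv.prod_comp (Equiv.addRight (1 : ZMod l)) fun i => A (α i) (β i)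

namespace GC

variable {K L : GC B}

theorem tp_deg_rot (K : GC B) (c : ZMod l) (α : ZMod l → K.ι) :
    (K.tp l).deg (rot l K.ι c α) = (K.tp l).deg α := by
  exact Equiv.sum_comp (Equiv.addRight c) fun i => K.deg (α i)

theorem sum_slot_rot (K : GC B) (A : Matrix K.ι K.ι B) (c : ZMod l) (α β : ZMod l → K.ι) :
    (∑ i, prodM l (slot l K i A)) (rot l K.ι c α) (rot l K.ι c β) =
      (∑ i, prodM l (slot l K i A)) α β := by
  simp only [Matrix.sum_apply, prodM, Matrix.of_apply]
  rw [← Equiv.sum_comp (Equiv.addRight c) fun i => ∏ j, slot l K i A j (α j) (β j)]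
  refine Finset.sum_congr rfl fun i _ => ?_
  rw [← Equiv.prod_comp (Equiv.addRight c) fun j =>
    slot l K (Equiv.addRight c i) A j (α j) (β j)]
  refine Finset.prod_congr rfl fun j _ => ?_
  have e : slot l K (i + c) A (j + c) = slot l K i A j := by
    unfold slot
    refine if_congr (add_left_inj c) rfl (if_congr ?_ rfl rfl)
    unfold inS
    rw [add_sub_add_right_eq_sub]
  exact (congrFun (congrFun e (α (j + c))) (β (j + c))).symm

theorem tp_mat_rot (K : GC B) (c : ZMod l) (α β : ZMod l → K.ι) :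
    (K.tp l).mat (rot l K.ι c α) (rot l K.ι c β) = (K.tp l).mat α β := by
  exact sum_slot_rot K K.mat c α β

/-- The entries of a matrix placed in one slot. -/
theorem slot_ne_zero {i : ZMod l} {A : Matrix K.ι K.ι B} {α β : ZMod l → K.ι}
    (h : prodM l (slot l K i A) α β ≠ 0) : A (α i) (β i) ≠ 0 ∧ ∀ j, j ≠ i → α j = β j := by
  have h1 : ∀ j, slot l K i A j (α j) (β j) ≠ 0 := fun j h0 =>
    h (Finset.prod_eq_zero (Finset.mem_univ j) h0)
  refine ⟨by simpa [slot] using h1 i, fun j hj => ?_⟩
  have h3 := h1 j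
  unfold slot at h3
  rw [if_neg hj] at h3
  split_ifs at h3
  · exact by_contra fun e => h3 (Matrix.diagonal_apply_ne _ e)
  · exact by_contra fun e => h3 (Matrix.one_apply_ne e)

theorem tp_mat_ne_zero {α β : ZMod l → K.ι} (h : (K.tp l).mat α β ≠ 0) :
    ∃ i, K.mat (α i) (β i) ≠ 0 ∧ ∀ j, j ≠ i → α j = β j := by
  have h' : (∑ i, prodM l (slot l K i K.mat)) α β ≠ 0 := h
  rw [Matrix.sum_apply] at h'
  obtain ⟨i, -, hi⟩ := Finset.exists_ne_zero_of_sum_ne_zero h'
  exact ⟨i, slot_ne_zero hi⟩

theorem tp_act (K : GC B) (hu : IsUnit (l : B)) : Act l ((K.tp l).d E) (rotL l B K.ι E) := by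
  refine ⟨fun x => (mact_rotL_tp _ (K.tp_mat_rot 1) x).symm, ?_, hu⟩
  refine LinearMap.ext fun x => funext fun α => ?_
  rw [rotL_pow, ZMod.natCast_self, rot_zero]
  rfl

theorem tp_stab {X : (ZMod l → K.ι) → Submodule B E} (h : ∀ α, X (rot l K.ι 1 α) = X α) :
    Stab (rotL l B K.ι E) ((K.tp l).cf X) := by
  rintro n _ ⟨x, hx, rfl⟩
  obtain ⟨h1, h2⟩ := mem_cf.1 hx
  refine mem_cf.2 ⟨fun α hα => ?_, fun α hα => ?_⟩
  · rw [rotL_apply, ← h α]
    exact h1 _ (by rw [tp_deg_rot]; exact hα)
  · rw [rotL_apply]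
    exact h2 _ (by rw [tp_deg_rot]; exact hα)

theorem Hg.prodM {k : ZMod l → ℤ} {A : ZMod l → Matrix K.ι L.ι B} (h : ∀ i, Hg K L (k i) (A i)) :
    Hg (K.tp l) (L.tp l) (∑ i, k i) (prodM l A) := by
  intro α β h0
  have h1 : ∀ j, (K.deg (α j) : ℤ) = L.deg (β j) + k j := fun j => h j _ _ fun e =>
    h0 (Finset.prod_eq_zero (Finset.mem_univ j) e)
  simp only [Nat.cast_sum, h1, Finset.sum_add_distrib]

theorem hg_slot {k : ℤ} {A : Matrix K.ι K.ι B} (h : Hg K K k A) (i : ZMod l) :
    Hg (K.tp l) (K.tp l) k (prodM l (slot l K i A)) := by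
  have := Hg.prodM (l := l) (k := fun j => if j = i then k else 0) (A := slot l K i A) fun j => by
    unfold slot
    split_ifs
    · exact h
    · exact hg_eps K
    · exact hg_one K
  simpa using this

/-- The sign factor of a slot. -/
def sgn (K : GC B) (i j : ZMod l) : Matrix K.ι K.ι B := if inS l i j then K.eps else 1

omit [NeZero l] in
theorem slot_ne_tp (K : GC B) {i j : ZMod l} (h : j ≠ i) (A : Matrix K.ι K.ι B) :
    slot l K i A j = K.sgn i j := if_neg h

omit [NeZero l] in
theorem slot_self_tp (K : GC B) (i : ZMod l) (A : Matrix K.ι K.ι B) : slot l K i A i = A :=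
  if_pos rfl

omit [NeZero l] in
theorem sgn_comm_tp {A : Matrix K.ι K.ι B} (h : K.eps * A = A * K.eps) (i j : ZMod l) :
    K.sgn i j * A = A * K.sgn i j := by
  unfold sgn
  split_ifs
  · exact h
  · simp

omit [NeZero l] in
theorem sgn_eps_tp (K : GC B) (i j : ZMod l) : K.eps * K.sgn i j = K.sgn i j * K.eps :=
  (sgn_comm_tp rfl i j).symm

omit [NeZero l] in
theorem sgn_mul_self_tp (K : GC B) (i j : ZMod l) : K.sgn i j * K.sgn i j = 1 := by
  unfold sgn
  split_ifs
  · exact K.eps_mul_eps
  · simp

theorem prodM_anti_tp {P Q : ZMod l → Matrix ι ι B} (i : ZMod l) (h : P i = -Q i)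
    (h' : ∀ j, j ≠ i → P j = Q j) : prodM l P + prodM l Q = 0 := by
  have e : P = Function.update Q i (-Q i) := by
    funext j
    by_cases hj : j = i
    · subst hj; rw [Function.update_self, h]
    · rw [Function.update_of_ne hj, h' j hj]
  rw [e, prodM_update_neg_tp, Function.update_eq_self, neg_add_cancel]

/-- The key anticommutation. -/
theorem anti_tp (hl : Odd l) (A : ZMod l → Matrix K.ι K.ι B) {i i' : ZMod l} (hi : i' ≠ i)
    (e0 : ∀ j, K.eps * A j = A j * K.eps) (h1 : ∀ j, K.mat * A j = A j * K.mat)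
    {h : Matrix K.ι K.ι B} (eh : K.eps * h = -(h * K.eps)) :
    prodM l (slot l K i' K.mat) * prodM l (fun j => if j = i then h else A j * K.sgn i j) +
      prodM l (fun j => if j = i then h else A j * K.sgn i j) * prodM l (slot l K i' K.mat) =
        0 := by
  have ed : K.eps * K.mat = -(K.mat * K.eps) := K.hg_mat.eps_mul.trans (by simp)
  rw [prodM_mul, prodM_mul]
  have other : ∀ j, j ≠ i → j ≠ i' →
      slot l K i' K.mat j * (if j = i then h else A j * K.sgn i j) =
        (if j = i then h else A j * K.sgn i j) * slot l K i' K.mat j := by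
    intro j h2 h3
    rw [if_neg h2, slot_ne_tp K h3]
    refine sgn_comm_tp ?_ _ _
    rw [← mul_assoc, e0, mul_assoc, sgn_eps_tp, mul_assoc]
  by_cases hs : inS l i i'
  · have hs' : ¬ inS l i' i := (inS_iff hl hi.symm).1 hs
    refine prodM_anti_tp i' ?_ fun j hj => ?_
    · rw [slot_self_tp, if_neg hi, sgn, if_pos hs, ← mul_assoc, h1, mul_assoc, mul_assoc, ed,
        mul_neg, neg_neg]
    · by_cases hj' : j = i
      · subst hj'
        rw [slot_ne_tp K hj, if_pos rfl, sgn, if_neg hs', one_mul, mul_one]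
      · exact other j hj' hj
  · have hs' : inS l i' i := (inS_iff hl hi).2 hs
    refine prodM_anti_tp i ?_ fun j hj => ?_
    · rw [slot_ne_tp K hi.symm, if_pos rfl, sgn, if_pos hs', eh]
    · by_cases hj' : j = i'
      · subst hj'
        rw [slot_self_tp, if_neg hj, sgn, if_neg hs, mul_one, h1]
      · exact other j hj hj'

omit [NeZero l] in
theorem slot_eq_tp (K : GC B) (i : ZMod l) (h : Matrix K.ι K.ι B) :
    slot l K i h = fun j => if j = i then h else (1 : Matrix K.ι K.ι B) * K.sgn i j := by
  funext j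
  rw [one_mul]
  rfl

theorem tp_slot_mul_tp (hl : Odd l) (h : Matrix K.ι K.ι B) (eh : K.eps * h = -(h * K.eps))
    (i' i : ZMod l) (hi : i' ≠ i) :
    prodM l (slot l K i' K.mat) * prodM l (slot l K i h) +
      prodM l (slot l K i h) * prodM l (slot l K i' K.mat) = 0 := by
  rw [slot_eq_tp K i h]
  exact anti_tp hl (fun _ => 1) hi (fun _ => by simp) (fun _ => by simp) eh

theorem htpy_core_tp (hl : Odd l) (A : ZMod l → Matrix K.ι K.ι B) (i : ZMod l)
    (e0 : ∀ j, K.eps * A j = A j * K.eps) (h1 : ∀ j, K.mat * A j = A j * K.mat)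
    {h : Matrix K.ι K.ι B} (eh : K.eps * h = -(h * K.eps)) :
    (K.tp l).mat * prodM l (fun j => if j = i then h else A j * K.sgn i j) +
      prodM l (fun j => if j = i then h else A j * K.sgn i j) * (K.tp l).mat =
        prodM l (Function.update A i (K.mat * h + h * K.mat)) := by
  change (∑ i, prodM l (slot l K i K.mat)) * _ + _ * (∑ i, prodM l (slot l K i K.mat)) = _
  rw [Finset.sum_mul, Finset.mul_sum, ← Finset.sum_add_distrib,
    Finset.sum_eq_single i (fun i' _ hi => anti_tp hl A hi e0 h1 eh)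
      (fun hi => absurd (Finset.mem_univ i) hi), prodM_mul, prodM_mul, prodM_update_add]
  congr 2
  · funext j
    by_cases hj : j = i
    · subst hj; rw [slot_self_tp, if_pos rfl, Function.update_self]
    · rw [slot_ne_tp K hj, if_neg hj, Function.update_of_ne hj, ← mul_assoc,
        sgn_comm_tp (e0 j), mul_assoc, sgn_mul_self_tp, mul_one]
  · funext j
    by_cases hj : j = i
    · subst hj; rw [slot_self_tp, if_pos rfl, Function.update_self]
    · rw [slot_ne_tp K hj, if_neg hj, Function.update_of_ne hj, mul_assoc, sgn_mul_self_tp,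
        mul_one]

theorem Sq0.tp (hl : Odd l) (h : K.Sq0) : (K.tp l).Sq0 := by
  have h1 := tp_slot_mul_tp hl K.mat (K.hg_mat.eps_mul.trans (by simp))
  change (∑ i, P177.prodM l (slot l K i K.mat)) * (∑ i, P177.prodM l (slot l K i K.mat)) = 0
  rw [Finset.sum_mul_sum, ← Finset.sum_product']
  refine Finset.sum_involution (fun p _ => p.swap) (fun p _ => ?_) (fun p _ hp e => hp ?_)
    (fun p _ => by simp) fun p _ => rfl
  · by_cases e : p.1 = p.2
    · have h0 : P177.prodM l (slot l K p.1 K.mat) * P177.prodM l (slot l K p.1 K.mat) = 0 := by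
        rw [prodM_mul]
        exact prodM_eq_zero_tp p.1 (by rw [slot_self_tp]; exact h)
      simp only [Prod.fst_swap, Prod.snd_swap, ← e, h0, add_zero]
    · exact h1 p.1 p.2 e
  · have e' : p.2 = p.1 := congrArg Prod.fst e
    rw [e', prodM_mul]
    exact prodM_eq_zero_tp p.1 (by rw [slot_self_tp]; exact h)

theorem tp_chain {f : Matrix K.ι L.ι B} (h0 : Hg K L 0 f) (h1 : K.mat * f = f * L.mat) :
    (K.tp l).mat * prodM l (fun _ => f) = prodM l (fun _ => f) * (L.tp l).mat := by
  change (∑ i, prodM l (slot l K i K.mat)) * _ = _ * (∑ i, prodM l (slot l L i L.mat))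
  rw [Matrix.sum_mul, Matrix.mul_sum]
  refine Finset.sum_congr rfl fun i _ => ?_
  rw [prodM_mul, prodM_mul]
  congr 1
  funext j
  unfold slot
  split_ifs
  · exact h1
  · exact h0.eps_mul.trans (by simp)
  · simp

/-- A null-homotopy in one slot. -/
theorem tp_htpy (hl : Odd l) (A : ZMod l → Matrix K.ι K.ι B) (i : ZMod l)
    (h0 : ∀ j, Hg K K 0 (A j)) (h1 : ∀ j, K.mat * A j = A j * K.mat) {h : Matrix K.ι K.ι B}
    (h2 : Hg K K 1 h) (h3 : A i = K.mat * h + h * K.mat) :
    ∃ H, Hg (K.tp l) (K.tp l) 1 H ∧ prodM l A = (K.tp l).mat * H + H * (K.tp l).mat := by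
  refine ⟨prodM l fun j => if j = i then h else A j * K.sgn i j, ?_, ?_⟩
  · have := Hg.prodM (l := l) (k := fun j => if j = i then 1 else 0)
      (A := fun j => if j = i then h else A j * K.sgn i j) fun j => by
        split_ifs
        · exact h2
        · have : Hg K K 0 (K.sgn i j) := by
            unfold sgn
            split_ifs
            · exact hg_eps K
            · exact hg_one K
          exact (h0 j).mul this
    simpa using this
  · rw [htpy_core_tp hl A i (fun j => (h0 j).eps_mul.trans (by simp)) h1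
      (h2.eps_mul.trans (by simp)), ← h3, Function.update_eq_self]

theorem tp_slot_htpy (hl : Odd l) (i : ZMod l) {h : Matrix K.ι K.ι B} {z : B} (h2 : Hg K K 1 h)
    (h3 : K.mat * h + h * K.mat = z • (1 : Matrix K.ι K.ι B)) :
    (K.tp l).mat * prodM l (slot l K i h) + prodM l (slot l K i h) * (K.tp l).mat =
      z • (1 : Matrix (ZMod l → K.ι) (ZMod l → K.ι) B) := by
  rw [slot_eq_tp, htpy_core_tp hl (fun _ => 1) i (fun _ => by simp) (fun _ => by simp)
    (h2.eps_mul.trans (by simp)), h3]
  have e : Function.update (fun _ : ZMod l => (1 : Matrix K.ι K.ι B)) i (z • 1) =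
      fun j => (if j = i then z else 1) • (1 : Matrix K.ι K.ι B) := by
    funext j
    by_cases hj : j = i
    · subst hj; simp
    · simp [hj]
  rw [e, prodM_smul, prodM_one]
  simp

theorem nh_le_tp (hl : Odd l) (K : GC B) : K.nh ≤ (K.tp l).nh := by
  rintro z ⟨h, h2, h3⟩
  exact ⟨_, hg_slot h2 0, tp_slot_htpy hl 0 h2 h3⟩

theorem tp_pow_htpy (hl : Odd l) {f h : Matrix K.ι K.ι B} (h0 : Hg K K 0 f)
    (h1 : K.mat * f = f * K.mat) (h2 : Hg K K 1 h) (h3 : f - 1 = K.mat * h + h * K.mat) :
    ∃ H, Hg (K.tp l) (K.tp l) 1 H ∧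
      prodM l (fun _ => f) - 1 = (K.tp l).mat * H + H * (K.tp l).mat := by
  have key : ∀ S : Finset (ZMod l), ∃ H, Hg (K.tp l) (K.tp l) 1 H ∧
      prodM l (fun j => if j ∈ S then f else 1) - 1 = (K.tp l).mat * H + H * (K.tp l).mat := by
    intro S
    induction S using Finset.induction_on with
    | empty => exact ⟨0, hg_zero _ _ _, by simp [prodM_one]⟩
    | insert a S ha ih =>
      obtain ⟨H, hH, e⟩ := ih
      obtain ⟨H', hH', e'⟩ := tp_htpy hl
        (Function.update (fun j => if j ∈ S then f else 1) a (f - 1)) a (fun j => by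
          by_cases hj : j = a
          · subst hj
            rw [Function.update_self, sub_eq_add_neg]
            exact h0.add (hg_one K).neg
          · rw [Function.update_of_ne hj]
            split_ifs
            · exact h0
            · exact hg_one K) (fun j => by
          by_cases hj : j = a
          · subst hj
            rw [Function.update_self, mul_sub, sub_mul, h1, mul_one, one_mul]
          · rw [Function.update_of_ne hj]
            split_ifs
            · exact h1
            · simp) h2 (by rw [Function.update_self, h3])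
      refine ⟨H' + H, hH'.add hH, ?_⟩
      have e1 : (fun j => if j ∈ insert a S then f else 1) =
          Function.update (fun j => if j ∈ S then f else 1) a (f - 1 + 1) := by
        funext j
        by_cases hj : j = a
        · subst hj; simp
        · simp [hj]
      have e2 : Function.update (fun j => if j ∈ S then f else 1) a (1 : Matrix K.ι K.ι B) =
          fun j => if j ∈ S then f else 1 := by
        funext j
        by_cases hj : j = a
        · subst hj; simp [ha]
        · simp [hj]
      rw [e1, prodM_update_add, e2, add_sub_assoc, e, e', mul_add, add_mul]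
      abel
  simpa using key Finset.univ

theorem tp_mat_map (K : GC B) {B' : Type u} [CommRing B'] (f : B →+* B') (α β : ZMod l → K.ι) :
    f ((K.tp l).mat α β) = ((K.map f).tp l).mat α β := by
  simp only [Matrix.sum_apply, prodM, Matrix.of_apply]
  rw [_root_.map_sum]
  refine Finset.sum_congr rfl fun i _ => ?_
  rw [_root_.map_prod]
  refine Finset.prod_congr rfl fun j _ => ?_
  unfold slot
  split_ifs
  · rfl
  · simp only [eps, Matrix.diagonal_apply]
    split_ifs <;> simp
  · simp only [Matrix.one_apply]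
    split_ifs <;> simp

theorem map_tp (K : GC B) {B' : Type u} [CommRing B'] (f : B →+* B') :
    (K.tp l).map f = (K.map f).tp l := by
  unfold GC.map GC.tp
  congr 1
  ext α β
  exact tp_mat_map K f α β

end GC

end Vale.Agent.P177
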