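import Vale.Agent.P177.Basic

/-! Total complexes: the two stupid filtrations. -/

namespace Vale.Agent.P177

open Vale.Agent.P202
open scoped ENNReal

universe u

variable {B : Type u} [CommRing B] {E : Type u} [AddCommGroup E] [Module B E]

namespace GC

variable {K : GC B} {δ : E →ₗ[B] E} {G G' : ℤ → Submodule B E} {L L' : ℕ}

private theorem sg_apply_tt (x : K.ι → E) (a : K.ι) :
    K.sg δ x a = (((-1 : ℤ) ^ K.deg a : ℤ) : B) • δ (x a) := rfl

private theorem sgn_smul_tt (k : ℕ) (v : E) :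
    (((-1 : ℤ) ^ k : ℤ) : B) • (((-1 : ℤ) ^ k : ℤ) : B) • v = v := by
  rw [smul_smul, ← Int.cast_mul, ← mul_pow]
  simp

private theorem sgn_mem_tt {k : ℕ} {v : E} {N : Submodule B E} :
    (((-1 : ℤ) ^ k : ℤ) : B) • v ∈ N ↔ v ∈ N :=
  ⟨fun h => sgn_smul_tt (B := B) k v ▸ N.smul_mem _ h, fun h => N.smul_mem _ h⟩

theorem mem_T {n : ℤ} {x : K.ι → E} : x ∈ K.T G n ↔ ∀ a, x a ∈ G (n - K.deg a) := by
  simp [T, Submodule.mem_pi]

theorem T_mono (K : GC B) (h : G' ≤ G) : K.T G' ≤ K.T G := by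
  exact fun _ _ hx => mem_T.2 fun a => h _ (mem_T.1 hx a)

theorem T_isCx (K : GC B) (h : IsCx δ G) : IsCx (K.dt δ) (K.T G) := by
  rintro n _ ⟨x, hx, rfl⟩
  have hx' := mem_T.1 hx
  refine mem_T.2 fun a => Submodule.add_mem _ ?_ ?_
  · rw [sg_apply_tt, sgn_mem_tt, sub_right_comm]
    exact h _ ⟨_, hx' a, rfl⟩
  · rw [mact_apply]
    refine Submodule.sum_mem _ fun b _ => ?_
    by_cases h0 : K.mat a b = 0
    · simp [h0]
    · have h1 := hx' b
      rw [K.hom a b h0, show n - ((K.deg a + 1 : ℕ) : ℤ) = n - 1 - K.deg a by push_cast; ring]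
        at h1
      exact Submodule.smul_mem _ _ h1

theorem Sq0.dt_comp (hK : K.Sq0) (hδ : δ ∘ₗ δ = 0) : K.dt δ ∘ₗ K.dt δ = 0 := by
  refine LinearMap.ext fun x => ?_
  have h1 : K.sg δ (K.sg δ x) = 0 := by
    funext a
    rw [sg_apply_tt, sg_apply_tt, map_smul, ← LinearMap.comp_apply, hδ]
    simp
  have h2 : K.sg δ (K.d E x) + K.d E (K.sg δ x) = 0 := by
    funext a
    rw [Pi.add_apply, sg_apply_tt, mact_apply, mact_apply, map_sum, Finset.smul_sum,
      ← Finset.sum_add_distrib]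
    refine Finset.sum_eq_zero fun b _ => ?_
    by_cases h : K.mat a b = 0
    · simp [h]
    · rw [sg_apply_tt, K.hom a b h, map_smul, smul_smul, smul_smul, ← add_smul]
      push_cast
      rw [show (-1 : B) ^ K.deg a * K.mat a b + K.mat a b * (-1) ^ (K.deg a + 1) = 0 by ring,
        zero_smul]
  unfold dt
  simp only [LinearMap.comp_apply, LinearMap.add_apply, map_add, LinearMap.zero_apply]
  rw [h1, hK.dd, zero_add, add_zero, add_comm, h2]

private theorem tot_tt (K : GC B) (G : ℤ → Submodule B E) :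
    Tot (fun i j => K.cw (G j) i) = K.T G := by
  funext n
  refine le_antisymm (iSup_le fun i x hx => mem_T.2 fun a => ?_) fun x hx => ?_
  · obtain ⟨h1, h2⟩ := mem_cf.1 hx
    by_cases ha : (K.deg a : ℤ) = i
    · exact ha ▸ h1 a ha
    · rw [h2 a ha]
      exact Submodule.zero_mem _
  · rw [← Finset.univ_sum_single x]
    exact Submodule.sum_mem _ fun a _ => Submodule.mem_iSup_of_mem (K.deg a : ℤ)
      (single_mem_cf (mem_T.1 hx a))

/-- The projection onto degree `i`. -/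
private noncomputable def Pr_tt (K : GC B) (E : Type u) [AddCommGroup E] [Module B E] (i : ℤ) :
    (K.ι → E) →ₗ[B] (K.ι → E) :=
  LinearMap.pi fun a => if (K.deg a : ℤ) = i then (LinearMap.proj a : (K.ι → E) →ₗ[B] E) else 0

private theorem bi_tt (K : GC B) (h : IsCx δ G) :
    Bi (K.sg δ) (K.d E) (Pr_tt K E) (fun i j => K.cw (G j) i) := by
  refine ⟨fun i j => ?_, fun i j => K.cw_isCx (G j) i, fun i j x hx => funext fun a => ?_,
    fun i i' j hi x hx => funext fun a => ?_⟩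
  · rintro _ ⟨x, hx, rfl⟩
    obtain ⟨h1, h2⟩ := mem_cf.1 hx
    refine mem_cf.2 ⟨fun a ha => ?_, fun a ha => ?_⟩
    · rw [sg_apply_tt, sgn_mem_tt]
      exact h _ ⟨_, h1 a ha, rfl⟩
    · rw [sg_apply_tt, h2 a ha, map_zero, smul_zero]
  · by_cases ha : (K.deg a : ℤ) = i
    · simp [Pr_tt, ha]
    · simp [Pr_tt, ha, (mem_cf.1 hx).2 a ha]
  · by_cases ha : (K.deg a : ℤ) = i'
    · simp [Pr_tt, ha, (mem_cf.1 hx).2 a (by omega)]
    · simp [Pr_tt, ha]

private theorem hr_pi_tt (μ : RLen B) (A C : K.ι → ℤ → Submodule B E) (n : ℤ) :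
    hr μ (K.sg δ) (fun j => Submodule.pi Set.univ fun a => A a j)
      (fun j => Submodule.pi Set.univ fun a => C a j) n = ∑ a, hr μ δ (A a) (C a) n := by
  have hZ : Zc (K.sg δ) (fun j => Submodule.pi Set.univ fun a => A a j)
      (fun j => Submodule.pi Set.univ fun a => C a j) n =
      Submodule.pi Set.univ fun a => Zc δ (A a) (C a) n := by
    ext x
    constructor
    · rintro ⟨h1, h2⟩ a ha
      exact ⟨h1 a ha, (sgn_mem_tt (k := K.deg a) (v := δ (x a)) (N := A a (n - 1))).1 (h2 a ha)⟩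
    · intro h
      exact ⟨fun a ha => (h a ha).1, fun a ha => sgn_mem_tt.2 (h a ha).2⟩
  have hB : Bc (K.sg δ) (fun j => Submodule.pi Set.univ fun a => A a j)
      (fun j => Submodule.pi Set.univ fun a => C a j) n =
      Submodule.pi Set.univ fun a => Bc δ (A a) (C a) n := by
    refine le_antisymm (sup_le (fun x hx a ha => Submodule.mem_sup_left (hx a ha)) ?_)
      fun x hx => ?_
    · rintro _ ⟨x, hx, rfl⟩ a ha
      exact sgn_mem_tt.2 (Submodule.mem_sup_right ⟨_, hx a ha, rfl⟩)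
    · have h1 : ∀ a, ∃ y ∈ A a n, ∃ w ∈ C a (n + 1), y + δ w = x a := by
        intro a
        obtain ⟨y, hy, _, ⟨w, hw, rfl⟩, h⟩ := Submodule.mem_sup.1 (hx a trivial)
        exact ⟨y, hy, w, hw, h⟩
      choose y hy w hw h using h1
      refine Submodule.mem_sup.2 ⟨y, fun a _ => hy a, _,
        ⟨fun a => (((-1 : ℤ) ^ K.deg a : ℤ) : B) • w a, fun a _ => sgn_mem_tt.2 (hw a), rfl⟩,
        funext fun a => ?_⟩
      rw [Pi.add_apply, sg_apply_tt, map_smul, sgn_smul_tt, h]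
  unfold hr
  rw [hZ, hB, rr_pi]

private theorem hr_Rw_tt (μ : RLen B) (i : ℕ) (n : ℤ) :
    hr μ (K.sg δ) (fun j => K.cw (G' j) i) (fun j => K.cw (G j) i) n
      = (K.rk i : ℝ≥0∞) * hr μ δ G' G n := by
  refine (hr_pi_tt μ (fun a j => if (K.deg a : ℤ) = i then G' j else ⊥)
    (fun a j => if (K.deg a : ℤ) = i then G j else ⊥) n).trans ?_
  rw [rk, ← nsmul_eq_mul, ← Finset.sum_const, Finset.sum_filter]
  refine Finset.sum_congr rfl fun a _ => ?_
  by_cases ha : K.deg a = i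
  · simp [ha]
  · have ha' : (K.deg a : ℤ) ≠ i := by omega
    simp only [ha, ha', if_false]
    exact hr_eq_zero_of_le μ n le_rfl

private theorem hr_equiv_tt (μ : RLen B) {E' : Type u} [AddCommGroup E'] [Module B E']
    {d : E →ₗ[B] E} {d' : E' →ₗ[B] E'} {F' F'' : ℤ → Submodule B E} {H' H'' : ℤ → Submodule B E'}
    (e : E ≃ₗ[B] E') (he : ∀ x, e (d x) = d' (e x)) (h1 : ∀ n x, x ∈ F' n ↔ e x ∈ H' n)
    (h2 : ∀ n x, x ∈ F'' n ↔ e x ∈ H'' n) (n : ℤ) : hr μ d F' F'' n = hr μ d' H' H'' n := by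
  have hB : Bc d F' F'' n = (Bc d' H' H'' n).comap (e : E →ₗ[B] E') := by
    refine le_antisymm (sup_le (fun x hx => Submodule.mem_sup_left ((h1 n x).1 hx)) ?_)
      fun x hx => ?_
    · rintro _ ⟨x, hx, rfl⟩
      exact Submodule.mem_sup_right ⟨e x, (h2 _ x).1 hx, (he x).symm⟩
    · obtain ⟨y, hy, _, ⟨w, hw, rfl⟩, h⟩ := Submodule.mem_sup.1 hx
      obtain ⟨y, rfl⟩ := e.surjective y
      obtain ⟨w, rfl⟩ := e.surjective w
      refine Submodule.mem_sup.2 ⟨y, (h1 _ y).2 hy, _, ⟨w, (h2 _ w).2 hw, rfl⟩, e.injective ?_⟩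
      rw [map_add, he]
      exact h
  have hZ : (Zc d F' F'' n).map (e : E →ₗ[B] E') = Zc d' H' H'' n := by
    refine le_antisymm ?_ fun x hx => ?_
    · rintro _ ⟨x, hx, rfl⟩
      refine ⟨(h2 _ x).1 hx.1, ?_⟩
      change d' (e x) ∈ H' (n - 1)
      rw [← he]
      exact (h1 _ _).1 hx.2
    · obtain ⟨x, rfl⟩ := e.surjective x
      refine ⟨x, ⟨(h2 _ x).2 hx.1, (h1 _ _).2 ?_⟩, rfl⟩
      rw [he]
      exact hx.2
  unfold hr
  rw [hB, rr_map, hZ]

/-- Filtration by the degree in `K`. -/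
theorem T_hr_le (μ : RLen B) (hK : K.Sq0) (hδ : δ ∘ₗ δ = 0) (hL : K.Top L) (h' : IsCx δ G')
    (h : IsCx δ G) (hle : G' ≤ G) (n : ℤ) : hr μ (K.dt δ) (K.T G') (K.T G) n ≤
      ∑ i ∈ Finset.range (L + 1), (K.rk i : ℝ≥0∞) * hr μ δ G' G (n - i) := by
  have hsq := sq_of_comp (hK.dt_comp hδ) (K.T G') (K.T G)
  rw [← tot_tt, ← tot_tt] at hsq ⊢
  refine (rowsR_le μ hsq (bi_tt K h') (bi_tt K h) (fun i j => K.cw_mono (hle j) i) 0 L
    (fun i hi j => ?_) n).trans (le_of_eq ?_)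
  · rw [Finset.mem_Icc] at hi
    exact (hL.cf_eq_bot _ (by omega)).trans_le bot_le
  · symm
    refine Finset.sum_bij (fun i _ => (i : ℤ)) (fun i hi => ?_) (fun i _ j _ h => by omega)
      (fun i hi => ?_) fun i _ => (hr_Rw_tt μ i _).symm
    · rw [Finset.mem_range] at hi
      rw [Finset.mem_Icc]
      omega
    · rw [Finset.mem_Icc] at hi
      obtain ⟨i, rfl⟩ := Int.eq_ofNat_of_zero_le hi.1
      exact ⟨i, Finset.mem_range.2 (by omega), rfl⟩

theorem T_hr_zero (μ : RLen B) (hK : K.Sq0) (hδ : δ ∘ₗ δ = 0) (h' : IsCx δ G')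
    (h : IsCx δ G) (hle : G' ≤ G) (h0 : ∀ n, hr μ δ G' G n = 0) (n : ℤ) :
    hr μ (K.dt δ) (K.T G') (K.T G) n = 0 := by
  obtain ⟨L, hL⟩ := K.exists_top
  refine le_antisymm ((T_hr_le μ hK hδ hL h' h hle n).trans (le_of_eq ?_)) bot_le
  simp [h0]

/-- Coefficients that differ in a single degree `j`. -/
theorem T_single (μ : RLen B) (K : GC B) (h' : IsCx δ G') (h : IsCx δ G) (hle : G' ≤ G) (j : ℤ)
    (hs : ∀ i, i ≠ j → G i ≤ G' i) (n : ℤ) :
    hr μ (K.dt δ) (K.T G') (K.T G) n = hG μ K (G' j) (G j) (n - j) := by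
  have key : ∀ {X : ℤ → Submodule B E} {m : ℤ} {x : K.ι → E}, x ∈ K.cw (X j) m →
      x ∈ K.T X (m + j) := by
    intro X m x hx
    refine mem_T.2 fun a => ?_
    by_cases ha : (K.deg a : ℤ) = m
    · rw [ha, add_sub_cancel_left]
      exact (mem_cf.1 hx).1 a ha
    · rw [(mem_cf.1 hx).2 a ha]
      exact Submodule.zero_mem _
  have h1 := hr_transfer μ (d := K.d E) (F' := K.cw (G' j)) (F'' := K.cw (G j)) (d' := K.dt δ)
    (G' := K.T G') (G'' := K.T G) LinearMap.id j 1 (K.cw_isCx _) (K.T_isCx h') ?_ ?_ ?_ (n - j)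
  · rw [sub_add_cancel] at h1
    exact h1.symm
  · intro m x hx
    have e : K.d E x - ((1 : Bˣ) : B) • K.dt δ x = -K.sg δ x := by
      simp [dt]
    refine (congrArg (· ∈ K.T G' (m - 1 + j)) e).mpr (Submodule.neg_mem _ (mem_T.2 fun a => ?_))
    rw [sg_apply_tt, sgn_mem_tt]
    by_cases ha : (K.deg a : ℤ) = m
    · rw [show m - 1 + j - K.deg a = j - 1 by omega]
      exact hs _ (by omega) (h _ ⟨_, (mem_cf.1 hx).1 a ha, rfl⟩)
    · rw [(mem_cf.1 hx).2 a ha, map_zero]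
      exact Submodule.zero_mem _
  · intro m
    rw [Submodule.map_id]
    refine le_antisymm (sup_le (fun x hx => key hx) (K.T_mono hle _)) fun x hx => ?_
    refine Submodule.mem_sup.2 ⟨fun a => if (K.deg a : ℤ) = m then x a else 0,
      mem_cf.2 ⟨fun a ha => ?_, fun a ha => if_neg ha⟩,
      fun a => if (K.deg a : ℤ) = m then 0 else x a, mem_T.2 fun a => ?_, funext fun a => ?_⟩
    · have h2 := mem_T.1 hx a
      rw [ha, add_sub_cancel_left] at h2
      rwa [if_pos ha]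
    · split_ifs with ha
      · exact Submodule.zero_mem _
      · exact hs _ (by omega) (mem_T.1 hx a)
    · rw [Pi.add_apply]
      split_ifs <;> simp
  · intro m
    rw [Submodule.comap_id]
    refine le_antisymm (fun x hx => mem_cf.2 ⟨fun a ha => ?_, (mem_cf.1 hx.1).2⟩)
      (le_inf (K.cw_mono (hle j) m) fun x hx => key hx)
    have h2 := mem_T.1 hx.2 a
    rwa [ha, add_sub_cancel_left] at h2

/-- Filtration by the degree of the coefficients. -/
theorem T_rows_chi (μ : RLen B) (hK : K.Sq0) (hδ : δ ∘ₗ δ = 0) (h' : IsCx δ G')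
    (h : IsCx δ G) (hle : G' ≤ G) (hs : ∀ j, j < 0 ∨ (L' : ℤ) < j → G j ≤ G' j)
    (hg : ∀ j : ℕ, j ≤ L' → GoodG μ K (G' j) (G j)) :
    GoodR μ (K.dt δ) (K.T G') (K.T G) ∧ chiR μ (K.dt δ) (K.T G') (K.T G) =
      ∑ j ∈ Finset.range (L' + 1), (-1 : ℝ) ^ j * chiG μ K (G' j) (G j) := by
  let M : ℕ → ℤ → Submodule B E := fun i n => if n < i then G n else G' n
  have hM : ∀ i, IsCx δ (M i) := fun i n => by
    simp only [M]
    split_ifs with h1 h2 h2
    · exact h n
    · omega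
    · exact (h' n).trans (hle _)
    · exact h' n
  have hmono : ∀ i, M i ≤ M (i + 1) := fun i n => by
    simp only [M]
    split_ifs with h1 h2 h2
    · exact le_rfl
    · push_cast at h2; omega
    · exact hle n
    · exact le_rfl
  have h0 : M 0 = G' := funext fun n => by
    simp only [M]
    split_ifs with h1
    · exact le_antisymm (hs n (Or.inl (by simpa using h1))) (hle n)
    · rfl
  have h1 : M (L' + 1) = G := funext fun n => by
    simp only [M]
    split_ifs with h1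
    · rfl
    · exact le_antisymm (hle n) (hs n (Or.inr (by push_cast at h1; omega)))
  have hstep : ∀ i : ℕ, ∀ n, hr μ (K.dt δ) (K.T (M i)) (K.T (M (i + 1))) n
      = hG μ K (G' i) (G i) (n + -(i : ℤ)) := fun i n => by
    rw [T_single μ K (hM i) (hM (i + 1)) (hmono i) i (fun k hk => ?_) n]
    · simp [M, sub_eq_add_neg]
    · simp only [M]
      split_ifs with h1 h2 h2
      · exact le_rfl
      · push_cast at h1; omega
      · push_cast at h1; omega
      · exact le_rfl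
  have key := good_chiR_chain μ (fun i => K.T (M i)) (L' + 1) (sq_of_comp (hK.dt_comp hδ) _ _)
    (fun i _ => K.T_isCx (hM i)) (fun i _ => K.T_mono (hmono i))
    (fun i hi => (good_chi_of_hr_shift μ _ (hstep i)).1.2 (hg i (by omega)))
  simp only [h0, h1] at key
  refine ⟨key.1, key.2.trans (Finset.sum_congr rfl fun i _ => ?_)⟩
  rw [(good_chi_of_hr_shift μ _ (hstep i)).2, Int.negOnePow_neg, Int.coe_negOnePow_natCast]
  push_cast
  rfl

/-- The tensor product of matrix complexes is a total complex. -/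
theorem hG_tens (μ : RLen B) (K K' : GC B) (N' N'' : Submodule B E) (n : ℤ) :
    hG μ (K.tens K') N' N'' n = hr μ (K.dt (K'.d E)) (K.T (K'.cw N')) (K.T (K'.cw N'')) n := by
  have hm : ∀ (N : Submodule B E) (n : ℤ) (x : K.ι × K'.ι → E), x ∈ (K.tens K').cw N n ↔
      LinearEquiv.curry B E K.ι K'.ι x ∈ K.T (K'.cw N) n := fun N n x => by
    rw [mem_T, mem_cf (K := K.tens K')]
    constructor
    · rintro ⟨h1, h2⟩ a
      exact mem_cf.2 ⟨fun b hb => h1 (a, b) (by push_cast; omega),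
        fun b hb => h2 (a, b) (by push_cast; omega)⟩
    · intro h
      exact ⟨fun p hp => (mem_cf.1 (h p.1)).1 p.2 (by push_cast at hp; omega),
        fun p hp => (mem_cf.1 (h p.1)).2 p.2 (by push_cast at hp; omega)⟩
  refine hr_equiv_tt μ (LinearEquiv.curry B E K.ι K'.ι) (fun x => ?_) (hm N') (hm N'') n
  funext a b
  change mact E (K.tens K').mat x (a, b) = (((-1 : ℤ) ^ K.deg a : ℤ) : B) •
    mact E K'.mat (fun b => x (a, b)) b + mact (K'.ι → E) K.mat (fun a b => x (a, b)) a b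
  rw [mact_apply, mact_apply, mact_apply, Fintype.sum_prod_type, add_comm]
  simp only [Matrix.add_apply, Matrix.kroneckerMap_apply, add_smul, Finset.sum_add_distrib, eps,
    Matrix.one_apply, Matrix.diagonal_apply, mul_ite, mul_one, mul_zero, ite_mul, zero_mul, ite_smul,
    zero_smul, Finset.sum_ite_eq, Finset.mem_univ, if_true, Finset.sum_apply, Pi.smul_apply,
    Finset.smul_sum, smul_smul, Finset.sum_ite_irrel, Finset.sum_const_zero]
  push_cast
  rfl

theorem hG_tens_le (μ : RLen B) (hK : K.Sq0) {K' : GC B} (hK' : K'.Sq0) (hL : K.Top L)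
    {N' N'' : Submodule B E} (hN : N' ≤ N'') (n : ℤ) : hG μ (K.tens K') N' N'' n ≤
      ∑ i ∈ Finset.range (L + 1), (K.rk i : ℝ≥0∞) * hG μ K' N' N'' (n - i) := by
  rw [hG_tens]
  exact T_hr_le μ hK (hK'.comp E) hL (K'.cw_isCx _) (K'.cw_isCx _) (K'.cw_mono hN) n

end GC

end Vale.Agent.P177
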