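import Vale.Agent.P177.PSat
import Vale.Agent.P177.PCirc
import Vale.Agent.P177.FLC
import Vale.Agent.P202.MP0
import Vale.Agent.P202.MAl

/-! The tower of perfect rings. -/

namespace Vale.Agent.P177

open Vale.Agent.P202 MvPowerSeries

universe u

variable {p : ℕ} [Fact p.Prime] {l : Type u} [Field l] {σ : Type} [Finite σ] {P : Type u}
  [CommRing P] [CharP P p] [PerfectRing P p]

theorem tower_reg_pow {B : Type u} [CommRing B] {s y : B} (hs : s ∈ nonZeroDivisors B)
    (hy : ∀ z, y * z ∈ Ideal.span {s} → z ∈ Ideal.span {s}) (k : ℕ) :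
    ∀ z, y * z ∈ Ideal.span {s ^ k} → z ∈ Ideal.span {s ^ k} := by
  have := reg_sup_pow_mqr (J := ⊥) (a := s) (y := y) (fun z hz => by
    rw [Ideal.mem_bot] at hz ⊢
    exact mem_nonZeroDivisors_iff_left.1 hs z hz) (by simpa only [bot_sup_eq] using hy) k
  simpa only [bot_sup_eq] using this

theorem tower_reg_rt {t c g : P} (ht : t ∈ nonZeroDivisors P)
    (hc : ∀ z, c * z ∈ Ideal.span {t} → z ∈ Ideal.span {t})
    (hg : g - c ∈ Ideal.span {rt p P 1 t}) :
    ∀ z, g * z ∈ Ideal.span {t} → z ∈ Ideal.span {t} := by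
  have e : rt p P 1 t ^ p ^ 1 = t := rt_pow 1 t
  have hs : rt p P 1 t ∈ nonZeroDivisors P := by
    obtain ⟨d, hd⟩ := dvd_pow_self (rt p P 1 t) (pow_pos (Fact.out : p.Prime).pos 1).ne'
    rw [e] at hd
    rw [hd] at ht
    exact (mul_mem_nonZeroDivisors.1 ht).1
  have h1 : ∀ n : ℕ, ∀ z, c ^ n * z ∈ Ideal.span {t} → z ∈ Ideal.span {t} := pow_reg_unt hc
  have h2 : ∀ z, g * z ∈ Ideal.span {rt p P 1 t} → z ∈ Ideal.span {rt p P 1 t} := by
    intro z hz
    have h3 : c * z ∈ Ideal.span {rt p P 1 t} := by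
      have := Ideal.sub_mem _ hz (Ideal.mul_mem_right z _ hg)
      rwa [← sub_mul, sub_sub_cancel] at this
    obtain ⟨w, hw⟩ := Ideal.mem_span_singleton'.1 h3
    have h4 : c ^ p ^ 1 * z ^ p ^ 1 ∈ Ideal.span {t} :=
      Ideal.mem_span_singleton'.2 ⟨w ^ p ^ 1, by rw [← mul_pow, ← hw, mul_pow, e]⟩
    obtain ⟨v, hv⟩ := Ideal.mem_span_singleton'.1 (h1 _ _ h4)
    refine Ideal.mem_span_singleton'.2 ⟨rt p P 1 v, pow_inj_unt (p := p) 1 ?_⟩
    rw [mul_pow, rt_pow, e, hv]
  have := tower_reg_pow hs h2 (p ^ 1)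
  rwa [e] at this

theorem exists_tw {ι : PS (Option σ) l →+* P} (h : PCov p ι) {c : PS σ l} (hc : c ≠ 0) {g : P}
    (hg : g - ι (rename some c) ∈ Ideal.span {rt p P 1 (ι (X none))}) {k : ℕ} (hk : 3 ≤ p ^ k) :
    ∃ (P1 : Type u) (_ : CommRing P1) (_ : CharP P1 p) (_ : PerfectRing P1 p)
      (P2 : Type u) (_ : CommRing P2) (_ : CharP P2 p) (_ : PerfectRing P2 p)
      (P3 : Type u) (_ : CommRing P3) (_ : CharP P3 p) (_ : PerfectRing P3 p)
      (f1 : P →+* P1) (f2 : P1 →+* P2) (f3 : P2 →+* P3), Tw p ι g k f1 f2 f3 := by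
  have hm : Ideal.span (Set.range fun o => ι (X o)) =
      (Ideal.span (Set.range (X : Option σ → PS (Option σ) l))).map ι := by
    rw [Ideal.map_span, ← Set.range_comp]
    rfl
  set m := Ideal.span (Set.range (X : Option σ → PS (Option σ) l)) with hmdef
  have hfg : (m.map ι).FG := Ideal.FG.map (Submodule.fg_span (Set.finite_range _)) ι
  have hne : m.map ι ≠ ⊤ := by
    intro h0
    letI := ι.toAlgebra
    haveI : Module.FaithfullyFlat (PS (Option σ) l) P := h.ff
    have h1 := Ideal.comap_map_eq_self_of_faithfullyFlat (B := P) m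
    change (m.map ι).comap ι = m at h1
    rw [h0, Ideal.comap_top, hmdef, ← ps_maximalIdeal] at h1
    exact (IsLocalRing.maximalIdeal.isMaximal _).ne_top h1.symm
  obtain ⟨P1, _, _, _, f1, hc1, hi1⟩ := exists_hat p (m.map ι) hfg hne
  have hc1' : IsAdicComplete (m.map (f1.comp ι)) P1 := by rwa [← Ideal.map_map]
  have hfl : (f1.comp ι).Flat := flat_of_flatM hc1' fun n =>
    (FlatM.of_flat h.ff.flat (m ^ n)).comp (by rw [Ideal.map_pow]; exact hi1 n)
  have ht : f1 (ι (X none)) ∈ nonZeroDivisors P1 :=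
    mem_nonZeroDivisors_of_flat hfl ((ps_permReg l).mem_nonZeroDivisors none)
  have htm : f1 (ι (X none)) ∈ m.map (f1.comp ι) :=
    Ideal.mem_map_of_mem (f1.comp ι) (Ideal.subset_span ⟨none, rfl⟩)
  have hgt : ∀ z, f1 g * z ∈ Ideal.span {f1 (ι (X none))} → z ∈ Ideal.span {f1 (ι (X none))} := by
    refine tower_reg_rt (p := p) (c := f1 (ι (rename some c))) ht (fun z hz => ?_) ?_
    · have := mem_map_of_flat hfl (ps_rename_some_reg hc) z
      rw [Ideal.map_span, Set.image_singleton] at this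
      exact this hz
    · have := Ideal.mem_map_of_mem f1 hg
      rwa [Ideal.map_span, Set.image_singleton, map_rt, map_sub] at this
  have hg1 : f1 g ∈ nonZeroDivisors P1 := by
    refine mem_nonZeroDivisors_iff_left.2 fun z hz => eq_zero_of_complete hc1' fun n => ?_
    have h1 := tower_reg_pow ht hgt n z (by rw [hz]; exact zero_mem _)
    exact (Ideal.span_singleton_le_iff_mem _).2 (Ideal.pow_mem_pow htm n) h1
  obtain ⟨P2, _, _, _, f2, h21, h22, h23, h24⟩ := exists_sat (p := p) ht hg1 hgt k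
  have hcl : ∀ w, (∀ n : ℕ, w ∈ Ideal.span {f1 (ι (X none)) ^ 2} ⊔ m.map (f1.comp ι) ^ n) →
      w ∈ Ideal.span {f1 (ι (X none)) ^ 2} := by
    intro w hw
    have e : (Ideal.span {(X none : PS (Option σ) l) ^ 2}).map (f1.comp ι) =
        Ideal.span {f1 (ι (X none)) ^ 2} := by
      rw [Ideal.map_span, Set.image_singleton, map_pow]
      rfl
    have := mem_map_of_closed hfl hc1' (Ideal.span {(X none : PS (Option σ) l) ^ 2}) (x := w)
    rw [e] at this
    exact this hw
  have hκ : rt p P1 k (f1 g * f1 (ι (X none))) ^ 2 ∉ Ideal.span {f1 (ι (X none))} := by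
    intro h0
    obtain ⟨w, hw⟩ := Ideal.mem_span_singleton'.1 h0
    obtain ⟨d, hd⟩ := Nat.exists_eq_add_of_le hk
    have h1 : w ^ p ^ k * f1 (ι (X none)) ^ p ^ k = (f1 g * f1 (ι (X none))) ^ 2 := by
      rw [← mul_pow, hw, ← pow_mul, mul_comm 2, pow_mul, rt_pow]
    have h2 : f1 g * (f1 g * 1) = w ^ p ^ k * f1 (ι (X none)) ^ d * f1 (ι (X none)) := by
      rw [← sub_eq_zero]
      refine mem_nonZeroDivisors_iff_left.1 (pow_mem ht 2) _ ?_
      rw [hd] at h1 ⊢
      linear_combination -h1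
    have h3 : (1 : P1) ∈ Ideal.span {f1 (ι (X none))} :=
      hgt _ (hgt _ (Ideal.mem_span_singleton'.2 ⟨_, h2.symm⟩))
    refine hne ((Ideal.eq_top_iff_one _).2 ?_)
    have h4 := (hi1 1).n2 1
    rw [pow_one, map_one, Ideal.map_map] at h4
    exact h4 ((Ideal.span_singleton_le_iff_mem _).2 htm h3)
  obtain ⟨P3, _, _, _, f3, h31, h32, h33⟩ := exists_circ (p := p)
    (Ideal.FG.map (Submodule.fg_span (Set.finite_range _)) (f1.comp ι)) hc1' ht hcl hκ h24
  refine ⟨P1, _, ‹_›, ‹_›, P2, _, ‹_›, ‹_›, P3, _, ‹_›, ‹_›, f1, f2, f3,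
    hfl, ?_, h21, h22, h23, h31, ?_, ?_⟩
  · rw [hm]
    simpa only [pow_one] using hi1 1
  · have e : Ideal.map (f3.comp f2) (Ideal.map (f1.comp ι) m) =
        Ideal.span (Set.range fun o => f3 (f2 (f1 (ι (X o))))) := by
      rw [hmdef, Ideal.map_map, Ideal.map_span, ← Set.range_comp]
      rfl
    rw [← e]
    exact h32
  · rw [map_rt, map_mul]
    exact h33

/-- The first cover. -/
theorem exists_cov0 [CharP l p] {F : Polynomial (PS σ (WittVector p l))} (hF : F.Monic) (γ : ℕ) :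
    ∃ (P : Type u) (_ : CommRing P) (_ : CharP P p) (_ : PerfectRing P p)
      (ι : PS (Option σ) l →+* P) (α0 : PS σ (WittVector p l) →+* WittVector p P)
      (z : Fin F.natDegree → P), PCov p ι ∧
      (∀ j, α0 (X j) = WittVector.teichmuller p (ι (X (some j)))) ∧
      (∀ a, (α0 a).coeff 0 = ι (rename some (MvPowerSeries.map WittVector.constantCoeff a))) ∧
      ∀ n, (F.map ((Ideal.Quotient.mk _ : WittVector p P →+* Unt p (ι (X none))).comp α0) -
        ∏ i, (Polynomial.X - Polynomial.C (shp p (ι (X none)) (z i)))).coeff n ∈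
          Ideal.span {(p : Unt p (ι (X none))) ^ γ} := by
  have := ps_charP p l (Option σ)
  obtain ⟨β, -, hX, hc⟩ := exists_alpha p l σ
  let o := PerfectClosure.of (PS (Option σ) l) p
  let α0 : PS σ (WittVector p l) →+* Unt p (o (X none)) :=
    (Ideal.Quotient.mk _).comp ((WittVector.map o).comp β)
  have hj : o (X none) ∈ (⊥ : Ideal (PerfectClosure (PS (Option σ) l) p)).jacobson :=
    (pcov_of_cover (Cover.id (PerfectClosure (PS (Option σ) l) p))).jac
  have : Nontrivial (PerfectClosure (PS (Option σ) l) p) :=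
    CharP.nontrivial_of_char_ne_one (R := PerfectClosure (PS (Option σ) l) p)
      (Fact.out : p.Prime).ne_one
  have : Nontrivial (PerfectClosure (PS (Option σ) l) p ⧸ Ideal.span {o (X none)}) := by
    refine Ideal.Quotient.nontrivial_iff.2 (ne_top_of_le_ne_top ?_
      ((Ideal.span_singleton_le_iff_mem _).2 hj))
    rw [Ne, Ideal.jacobson_eq_top_iff]
    exact bot_ne_top
  have : Nontrivial (Unt p (o (X none))) := (Unt.red p (o (X none))).domain_nontrivial
  obtain ⟨P, _, _, _, f, z, hf, hs⟩ := andre (t := o (X none)) t_reg_perfectClosure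
    (hF.map α0) (hF.natDegree_map α0) γ
  refine ⟨P, _, ‹_›, ‹_›, f.comp o, (WittVector.map f).comp ((WittVector.map o).comp β), z,
    pcov_of_cover hf, fun j => ?_, fun g => ?_, fun n => ?_⟩
  · change WittVector.map f (WittVector.map o (β (X j))) = _
    rw [hX, WittVector.map_teichmuller, WittVector.map_teichmuller]
    rfl
  · rw [← hc]
    rfl
  · have := hs n
    rw [Polynomial.map_map] at this
    exact this

end Vale.Agent.P177
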