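import Vale.Agent.P177.SetL
import Vale.Agent.P202.MVal

/-! The valuative closure. -/

namespace Vale.Agent.P177

open Vale.Agent.P202

universe u

variable {B : Type u} [CommRing B] {π : B}

theorem val_pow_valf {Γ : Type u} [LinearOrderedCommGroupWithZero Γ] (v : Valuation B Γ)
    (hv : ∀ x, v x ≤ 1) {I : Ideal B} {c : Γ} (hs : ∀ x ∈ I, v x ≤ c) {n : ℕ} {b : B}
    (hb : b ∈ I ^ n) : v b ≤ c ^ n :=
  val_le_of_mem v hv (s := (I : Set B)) hs (by rwa [Ideal.span_eq])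

theorem val_mul_valf {Γ : Type u} [LinearOrderedCommGroupWithZero Γ] (v : Valuation B Γ)
    {I J : Ideal B} {c c' : Γ} (hs : ∀ x ∈ I, v x ≤ c) (hs' : ∀ x ∈ J, v x ≤ c') {b : B}
    (hb : b ∈ I * J) : v b ≤ c * c' := by
  refine Submodule.mul_induction_on hb (fun x hx y hy => ?_) fun x y hx hy => v.map_add_le hx hy
  rw [map_mul]
  exact mul_le_mul' (hs x hx) (hs' y hy)

theorem exists_max_valf {Γ : Type u} [LinearOrderedCommGroupWithZero Γ] (v : Valuation B Γ)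
    (hv : ∀ x, v x ≤ 1) {ι : Type} [Finite ι] (w : ι → B) :
    ∃ a, (a = 0 ∨ ∃ i, a = w i) ∧ ∀ y ∈ Ideal.span (Set.range w), v y ≤ v a := by
  obtain ⟨o, ho⟩ := Finite.exists_max fun o : Option ι => v (o.elim 0 w)
  refine ⟨o.elim 0 w, ?_, fun y hy => ?_⟩
  · cases o with
    | none => exact Or.inl rfl
    | some i => exact Or.inr ⟨i, rfl⟩
  · have h := val_le_of_mem v hv (s := Set.range w) (c := v (o.elim 0 w))
      (by rintro _ ⟨i, rfl⟩; exact ho (some i)) (n := 1) (b := y) (by rwa [pow_one])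
    rwa [pow_one] at h

open MvPolynomial in
theorem exists_rel_valf {ι : Type} [Finite ι] {b : B} {w : ι → B}
    (H : ∀ (Γ : Type u) [LinearOrderedCommGroupWithZero Γ] (v : Valuation B Γ), (∀ y, v y ≤ 1) →
      ∀ c : Γ, (∀ y ∈ Ideal.span (Set.range w), v y ≤ c) → v b ≤ c) {L : Type u} [CommRing L]
    (φ : MvPolynomial ι B →+* L) (hw : ∀ i, φ (C b * X i - C (w i)) = 0) :
    ∃ (m : ℕ), ∃ f ∈ Ideal.span (Set.range (X : ι → MvPolynomial ι B)),
      φ (C b ^ m * (1 + f)) = 0 := by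
  by_contra hne
  let Q : Ideal (MvPolynomial ι B) := Ideal.span (Set.range X)
  let S : Submonoid (MvPolynomial ι B) :=
    { carrier := {x | ∃ m : ℕ, ∃ f ∈ Q, x = C b ^ m * (1 + f)}
      one_mem' := ⟨0, 0, Q.zero_mem, by simp⟩
      mul_mem' := by
        rintro _ _ ⟨m, f, hf, rfl⟩ ⟨m', f', hf', rfl⟩
        exact ⟨m + m', f + f' + f * f', Q.add_mem (Q.add_mem hf hf') (Q.mul_mem_left _ hf'),
          by ring⟩ }
  have hd : Disjoint (RingHom.ker φ : Set (MvPolynomial ι B)) S := by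
    rw [Set.disjoint_left]
    rintro _ h1 ⟨m, f, hf, rfl⟩
    exact hne ⟨m, f, hf, h1⟩
  obtain ⟨𝔭, hp, hle, hdis⟩ := Ideal.exists_le_prime_disjoint _ S hd
  let ψ : MvPolynomial ι B →+* FractionRing (MvPolynomial ι B ⧸ 𝔭) :=
    (algebraMap _ _).comp (Ideal.Quotient.mk 𝔭)
  have hψ : ∀ x, ψ x = 0 ↔ x ∈ 𝔭 := fun x => by
    rw [← Ideal.Quotient.eq_zero_iff_mem]
    exact map_eq_zero_iff _ (IsFractionRing.injective (MvPolynomial ι B ⧸ 𝔭) _)
  have hI : Q.map ψ.rangeRestrict ≠ ⊤ := by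
    intro h1
    have h2 : (1 : ψ.range) ∈ Q.map ψ.rangeRestrict := h1 ▸ Submodule.mem_top
    obtain ⟨f, hf, h3⟩ := (Ideal.mem_map_iff_of_surjective _ ψ.rangeRestrict_surjective).1 h2
    have h4 : ψ f = 1 := congrArg Subtype.val h3
    refine Set.disjoint_left.1 hdis ((hψ (1 + -f)).1 (by simp [h4]))
      ⟨0, -f, Q.neg_mem hf, by simp⟩
  obtain ⟨V, hV1, hV2⟩ := Ideal.image_subset_nonunits_valuationSubring _ hI
  have hb : V.valuation (ψ (C b)) ≠ 0 := by
    rw [Ne, Valuation.zero_iff, hψ]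
    exact fun h1 => Set.disjoint_left.1 hdis h1 ⟨1, 0, Q.zero_mem, by simp⟩
  have key : ∀ i, V.valuation (ψ (C (w i))) < V.valuation (ψ (C b)) := by
    intro i
    have h1 : ψ (C b * X i - C (w i)) = 0 := (hψ _).2 (hle (hw i))
    rw [map_sub, map_mul, sub_eq_zero] at h1
    have h2 : V.valuation (ψ (X i)) < 1 :=
      V.mem_nonunits_iff.1 (hV2 ⟨_, Ideal.mem_map_of_mem _ (Ideal.subset_span ⟨i, rfl⟩), rfl⟩)
    rw [← h1, map_mul]
    exact mul_lt_of_lt_one_right (zero_lt_iff.2 hb) h2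
  have hv : ∀ x, V.valuation.comap (ψ.comp C) x ≤ 1 := fun x =>
    (V.valuation_le_one_iff _).2 (hV1 ⟨C x, rfl⟩)
  obtain ⟨a, ha, ha'⟩ := exists_max_valf _ hv w
  refine absurd (H _ _ hv _ ha') (not_le.2 ?_)
  rcases ha with rfl | ⟨i, rfl⟩
  · rw [map_zero]
    exact zero_lt_iff.2 hb
  · exact key i

open MvPolynomial in
/-- The valuative criterion for integral dependence on a finitely generated ideal. -/
theorem exists_pow_mem_of_val {I : Ideal B} (hI : I.FG) {b : B}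
    (h : ∀ (Γ : Type u) [LinearOrderedCommGroupWithZero Γ] (v : Valuation B Γ), (∀ y, v y ≤ 1) →
      ∀ c : Γ, (∀ y ∈ I, v y ≤ c) → v b ≤ c) : ∃ n1 : ℕ, ∀ n : ℕ, b ^ (n + n1) ∈ I ^ n := by
  obtain ⟨s, w, rfl⟩ := Submodule.fg_iff_exists_fin_generating_family.1 hI
  let ι := algebraMap B (Localization.Away b)
  let t : Localization.Away b := IsLocalization.Away.invSelf b
  have ht : ι b * t = 1 := IsLocalization.Away.mul_invSelf b
  let φ : MvPolynomial (Fin s) B →+* Localization.Away b := eval₂Hom ι fun c => ι (w c) * t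
  have hC : ∀ x, φ (C x) = ι x := fun x => eval₂Hom_C _ _ x
  have hX : ∀ c, φ (X c) * ι b = ι (w c) := fun c => by
    rw [show φ (X c) = ι (w c) * t from eval₂Hom_X' _ _ c]
    linear_combination ι (w c) * ht
  have hrel : ∀ c, φ (C b * X c - C (w c)) = 0 := fun c => by
    rw [map_sub, map_mul, hC, hC, ← hX, mul_comm, sub_self]
  obtain ⟨m, f, hf, h1⟩ := exists_rel_valf h φ hrel
  obtain ⟨a, rfl⟩ := Ideal.mem_span_range_iff_exists_fun.1 hf
  have hw : ∀ c, w c ∈ Submodule.span B (Set.range w) := fun c => Ideal.subset_span ⟨c, rfl⟩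
  generalize Submodule.span B (Set.range w) = J at hw
  have hb : b ∈ J ⊔ Ideal.span {b} := Ideal.mem_sup_right (Ideal.mem_span_singleton_self b)
  have hP : ∀ a : MvPolynomial (Fin s) B, ∀ᶠ n in Filter.atTop,
      ∃ y ∈ (J ⊔ Ideal.span {b}) ^ n, φ a * ι b ^ n = ι y := by
    intro a
    induction a using MvPolynomial.induction_on with
    | C x =>
      exact Filter.Eventually.of_forall fun n => ⟨x * b ^ n,
        Ideal.mul_mem_left _ _ (Ideal.pow_mem_pow hb n), by rw [hC, map_mul, map_pow]⟩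
    | add a a' h1 h2 =>
      filter_upwards [h1, h2] with n ⟨y, hy, e⟩ ⟨y', hy', e'⟩
      exact ⟨y + y', Ideal.add_mem _ hy hy', by rw [map_add, add_mul, e, e', map_add]⟩
    | mul_X a c h1 =>
      obtain ⟨n0, h2⟩ := Filter.eventually_atTop.1 h1
      filter_upwards [Filter.eventually_ge_atTop (n0 + 1)] with n hn
      obtain ⟨k, rfl⟩ : ∃ k, n = k + 1 := ⟨n - 1, by omega⟩
      obtain ⟨y, hy, e⟩ := h2 k (by omega)
      refine ⟨y * w c, ?_, ?_⟩
      · rw [pow_succ]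
        exact Ideal.mul_mem_mul hy (Ideal.mem_sup_left (hw c))
      · rw [map_mul, map_mul, ← e, ← hX]
        ring
  obtain ⟨n, hn⟩ := (Filter.eventually_all.2 fun c => hP (a c)).exists
  choose y hy e using hn
  have h2 : ι (b ^ m * (b ^ (n + 1) + ∑ c, w c * y c)) = 0 := by
    simp only [map_mul, map_add, map_pow, map_one, map_sum, hC] at h1 ⊢
    have h3 : ∑ c, ι (w c) * ι (y c) = ι b ^ (n + 1) * ∑ c, φ (a c) * φ (X c) := by
      rw [Finset.mul_sum]
      refine Finset.sum_congr rfl fun c _ => ?_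
      rw [← e, ← hX]
      ring
    rw [h3]
    linear_combination ι b ^ (n + 1) * h1
  obtain ⟨⟨_, k, rfl⟩, h3⟩ :=
    (IsLocalization.map_eq_zero_iff (Submonoid.powers b) (Localization.Away b) _).1 h2
  refine ⟨k + m + n, pow_mem_mval ?_⟩
  have h4 : b ^ (k + m + n + 1) = -(∑ c, w c * (b ^ (k + m) * y c)) := by
    have h5 : ∑ c, w c * (b ^ (k + m) * y c) = b ^ (k + m) * ∑ c, w c * y c := by
      rw [Finset.mul_sum]
      exact Finset.sum_congr rfl fun c _ => by ring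
    simp only at h3
    rw [h5]
    linear_combination h3
  have h5 : ∀ z ∈ (J ⊔ Ideal.span {b}) ^ n,
      b ^ (k + m) * z ∈ (J ⊔ Ideal.span {b}) ^ (k + m + n) := fun z hz => by
    rw [pow_add _ (k + m)]
    exact Ideal.mul_mem_mul (Ideal.pow_mem_pow hb _) hz
  rw [h4]
  exact Submodule.neg_mem _ (Ideal.sum_mem _ fun c _ => Ideal.mul_mem_mul (hw _) (h5 _ (hy c)))

theorem VM.exists_pow_mem {I : Ideal B} (hI : I.FG) {x ϖ : B} {q : ℕ} (hq : ϖ ^ q = π)
    (hx : x ∈ VM π I) : ∃ n1 : ℕ, ∀ n : ℕ, (ϖ * x) ^ (n + n1) ∈ I ^ n := by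
  refine exists_pow_mem_of_val hI fun Γ _ v hv c hc => ?_
  rw [map_mul]
  by_cases h : v ϖ = 0
  · rw [h, zero_mul]
    exact zero_le
  · have h1 : v π ≠ 0 := by
      rw [← hq, map_pow]
      exact pow_ne_zero _ h
    exact (mul_le_mul' (hv ϖ) (hx Γ v hv h1 c hc)).trans (one_mul c).le

theorem le_VM (π : B) (I : Ideal B) : I ≤ VM π I := by
  exact fun x hx Γ _ v _ _ c hc => hc x hx

theorem VM_mono {I J : Ideal B} (h : I ≤ J) : VM π I ≤ VM π J := by
  exact fun x hx Γ _ v h1 h2 c hc => hx Γ v h1 h2 c fun y hy => hc y (h hy)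

theorem VM_le_of_le {I J : Ideal B} (h : I ≤ VM π J) : VM π I ≤ VM π J := by
  exact fun x hx Γ _ v h1 h2 c hc => hx Γ v h1 h2 c fun y hy => h hy Γ v h1 h2 c hc

theorem VM_mul_le (I J : Ideal B) : VM π I * VM π J ≤ VM π (I * J) := by
  rw [Ideal.mul_le]
  intro x hx y hy Γ _ v h1 h2 c hc
  have key : ∀ (K : Ideal B) (z : B) (a : Γ), z ∈ VM π K → (∀ b ∈ K, a * v b ≤ c) →
      a * v z ≤ c := by
    intro K z a hz hK
    by_cases ha : a = 0
    · rw [ha, zero_mul]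
      exact zero_le
    · have ha' : 0 < a := zero_lt_iff.2 ha
      rw [← le_inv_mul_iff₀ ha']
      exact hz Γ v h1 h2 _ fun b hb => (le_inv_mul_iff₀ ha').2 (hK b hb)
  rw [map_mul, mul_comm]
  refine key I x _ hx fun a ha => ?_
  rw [mul_comm]
  refine key J y _ hy fun b hb => ?_
  rw [← map_mul]
  exact hc _ (Ideal.mul_mem_mul ha hb)

theorem VM_mul_congr {I I' J J' : Ideal B} (h : VM π I = VM π I') (h' : VM π J = VM π J') :
    VM π (I * J) = VM π (I' * J') := by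
  apply le_antisymm
  · refine VM_le_of_le ((Ideal.mul_mono (le_VM π I) (le_VM π J)).trans ?_)
    rw [h, h']
    exact VM_mul_le I' J'
  · refine VM_le_of_le ((Ideal.mul_mono (le_VM π I') (le_VM π J')).trans ?_)
    rw [← h, ← h']
    exact VM_mul_le I J

theorem VM_pow_congr {I I' : Ideal B} (h : VM π I = VM π I') (n : ℕ) :
    VM π (I ^ n) = VM π (I' ^ n) := by
  induction n with
  | zero => rw [pow_zero, pow_zero]
  | succ n ih =>
    rw [pow_succ, pow_succ]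
    exact VM_mul_congr ih h

theorem VM_EE_congr {N : ℕ} {𝔞 𝔟 : ℕ → Ideal B} (h : ∀ r ≤ N, VM π (𝔞 r) = VM π (𝔟 r))
    (n : ℕ → ℤ) : VM π (EE N 𝔞 n) = VM π (EE N 𝔟 n) := by
  have key : ∀ k ≤ N + 1, VM π (∏ r ∈ Finset.range k, 𝔞 r ^ (n r).toNat) =
      VM π (∏ r ∈ Finset.range k, 𝔟 r ^ (n r).toNat) := by
    intro k
    induction k with
    | zero => intro _; rw [Finset.prod_range_zero, Finset.prod_range_zero]
    | succ k ih =>
      intro hk
      rw [Finset.prod_range_succ, Finset.prod_range_succ]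
      exact VM_mul_congr (ih (by omega)) (VM_pow_congr (h k (by omega)) _)
  exact key _ le_rfl

theorem mem_VM_of_pow {I : Ideal B} (hI : I.FG) {x : B} {n : ℕ} (hn : 1 ≤ n)
    (hx : x ^ n ∈ VM π (I ^ n)) : x ∈ VM π I := by
  intro Γ _ v h1 h2 c hc
  have h3 := hx Γ v h1 h2 (c ^ n) fun y hy => val_pow_valf v h1 hc hy
  rw [map_pow] at h3
  exact le_of_pow_le_pow_left₀ (by omega) zero_le h3

/-- Cancellation of an ideal that contains a power of `π`. -/
theorem mem_VM_of_mul {I J : Ideal B} (hI : I.FG) {c : ℕ} (hc : π ^ c ∈ I) {y : B}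
    (hy : ∀ h ∈ I, h * y ∈ VM π (I * J)) : y ∈ VM π J := by
  intro Γ _ v h1 h2 c0 hc0
  obtain ⟨s, w, rfl⟩ := Submodule.fg_iff_exists_fin_generating_family.1 hI
  obtain ⟨a, ha, ha'⟩ := exists_max_valf v h1 w
  have ha1 : a ∈ Submodule.span B (Set.range w) := by
    rcases ha with rfl | ⟨i, rfl⟩
    · exact Submodule.zero_mem _
    · exact Submodule.subset_span ⟨i, rfl⟩
  have ha2 : 0 < v a := by
    refine lt_of_lt_of_le ?_ (ha' _ hc)
    rw [map_pow]
    exact pow_pos (zero_lt_iff.2 h2) c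
  have h3 := hy a ha1 Γ v h1 h2 (v a * c0) fun z hz => val_mul_valf v ha' hc0 hz
  rw [map_mul] at h3
  exact le_of_mul_le_mul_left h3 ha2

theorem mem_VM_of_pow_mul {J : Ideal B} {y : B} {c : ℕ}
    (hy : π ^ c * y ∈ VM π (Ideal.span {π ^ c} * J)) : y ∈ VM π J := by
  refine mem_VM_of_mul (I := Ideal.span {π ^ c}) (Submodule.fg_span_singleton _)
    (Ideal.mem_span_singleton_self _) fun h hh => ?_
  obtain ⟨r, rfl⟩ := Ideal.mem_span_singleton'.1 hh
  rw [mul_assoc]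
  exact Ideal.mul_mem_left _ _ hy

theorem VM_map_le {B' : Type u} [CommRing B'] (f : B →+* B') (I : Ideal B) {x : B}
    (hx : x ∈ VM π I) : f x ∈ VM (f π) (I.map f) := by
  exact fun Γ _ v h1 h2 c hc => hx Γ (v.comap f) (fun y => h1 (f y)) h2 c
    fun y hy => hc _ (Ideal.mem_map_of_mem f hy)

theorem mem_VM_of_VLe {b g h : B} (H : VLe b g h) : b ∈ VM π (Ideal.span {g, h}) := by
  exact fun Γ _ v h1 _ c hc => (H Γ v h1).trans
    (max_le (hc g (Ideal.subset_span (by simp))) (hc h (Ideal.subset_span (by simp))))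

/-- An asymptotic inclusion gives a valuative bound up to a root of `π`. -/
theorem mem_VM_of_asymp {I : Ideal B} {ϖ x δ : B} {q c m n1 a : ℕ} (hq : ϖ ^ q = π)
    (hc : π ^ c ∈ I) (hδ : δ ∣ π ^ m) {κ : B}
    (h : ∀ n : ℕ, δ * κ ^ (a * n) * x ^ (n + n1) ∈ I ^ n) : ϖ * κ ^ a * x ∈ VM π I := by
  intro Γ _ v h1 h2 c0 hc0
  by_contra hlt
  rw [not_le, mul_assoc, map_mul] at hlt
  set w := v ϖ with hw
  set z := v (κ ^ a * x) with hz
  have hπ : v π = w ^ q := by rw [← hq, map_pow]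
  have e1 : w ^ (q * c) ≤ v x := by
    have h3 := hc0 _ hc
    rw [map_pow, hπ, ← pow_mul] at h3
    refine h3.trans (hlt.le.trans ?_)
    rw [hz, map_mul]
    exact (mul_le_mul' (h1 _) (mul_le_mul' (h1 _) le_rfl)).trans (by rw [one_mul, one_mul])
  have e2 : w ^ (q * m) ≤ v δ := by
    obtain ⟨r, hr⟩ := hδ
    rw [pow_mul, ← hπ, ← map_pow, hr, map_mul]
    exact (mul_le_mul' le_rfl (h1 r)).trans (mul_one _).le
  set k := q * m + q * c * n1 with hk
  have e3 := val_pow_valf v h1 hc0 (h (k + 1))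
  have e4 : v (δ * κ ^ (a * (k + 1)) * x ^ (k + 1 + n1)) = v δ * v x ^ n1 * z ^ (k + 1) := by
    rw [hz, ← map_pow, ← map_pow, ← map_mul, ← map_mul]
    congr 1
    ring
  have e5 : w ^ k * z ^ (k + 1) ≤ c0 ^ (k + 1) := by
    refine le_trans ?_ (e4 ▸ e3)
    refine mul_le_mul' ?_ le_rfl
    rw [hk, pow_add, pow_mul w (q * c)]
    exact mul_le_mul' e2 (pow_le_pow_left₀ zero_le e1 n1)
  have e6 : c0 ^ (k + 1) < (w * z) ^ (k + 1) := pow_lt_pow_left₀ hlt zero_le (by omega)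
  have e7 : (w * z) ^ (k + 1) ≤ w ^ k * z ^ (k + 1) := by
    rw [mul_pow, pow_succ w]
    exact mul_le_mul' ((mul_le_mul' le_rfl (h1 ϖ)).trans (mul_one _).le) le_rfl
  exact absurd (e6.trans_le (e7.trans e5)) (lt_irrefl _)

/-- The almost Artin-Rees property from its version for powers. -/
theorem aar_of_pow {C : Type u} [CommRing C] [IsNoetherianRing C] {N : ℕ} {𝔞 : ℕ → Ideal C}
    {𝔪 : Ideal C} (τ : C →+* B) {π0 : C} {c0 c1 : ℕ} (hc : ∀ r ≤ N, π0 ^ c0 ∈ 𝔞 r)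
    {ϖ κ δ : B} {q m : ℕ} (hq : ϖ ^ q = τ π0) (hκ : ϖ ^ 2 ∣ κ) (hδ : δ ∣ τ π0 ^ m)
    (H : ∀ (n n' : ℕ → ℤ) (j k : ℕ), 𝔪 ^ j * EE N 𝔞 n ≤ EE N 𝔞 n' →
      ∀ y ∈ (EE N 𝔞 n ^ k).map τ, y ∈ (𝔪 ^ ((j + c1 * sz N n) * k)).map τ →
        δ * κ ^ (3 * (j + (c0 + c1) * sz N n) * k) * y ∈ (EE N 𝔞 n' ^ k).map τ) :
    AAR N 𝔞 𝔪 (3 * (c0 + c1 + 1)) τ κ fun n => VM (τ π0) (EE N (fun r => (𝔞 r).map τ) n) := by
  intro n n' j hj x hx hx'
  have hfg : (EE N (fun r => (𝔞 r).map τ) n).FG := by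
    rw [EE_map]
    exact Ideal.FG.map (IsNoetherian.noetherian _) τ
  obtain ⟨n1, hn1⟩ := VM.exists_pow_mem hfg hq hx
  have h1 : τ π0 ^ (c0 * sz N n') ∈ EE N (fun r => (𝔞 r).map τ) n' :=
    pow_mem_EE (fun r hr => by
      rw [← map_pow]
      exact Ideal.mem_map_of_mem τ (hc r hr)) n'
  have h2 := mem_VM_of_asymp (x := ϖ * x) (κ := κ) (a := 3 * (j + (c0 + c1) * sz N n)) (n1 := n1)
    hq h1 hδ fun k => by
      rw [EE_map, ← Ideal.map_pow]
      refine H n n' j k hj _ ?_ ?_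
      · rw [Ideal.map_pow, ← EE_map]
        exact hn1 k
      · have h3 := Ideal.pow_mem_pow (Ideal.mul_mem_left _ ϖ hx') k
        rw [← Ideal.map_pow, ← pow_mul] at h3
        rw [pow_add]
        refine Ideal.mul_mem_right _ _ (Ideal.map_mono (Ideal.pow_le_pow_right ?_) h3)
        refine Nat.mul_le_mul_right k (Nat.le.intro (k := 3 * c0 * (sz N n + j + 1) +
          2 * c1 * sz N n + 3 * c1 * (j + 1) + 3 * sz N n + 2 * j + 3) ?_)
        ring
  obtain ⟨t, ht⟩ := hκ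
  obtain ⟨e, he⟩ : ∃ e, 3 * (c0 + c1 + 1) * (sz N n + j + 1) =
      e + 1 + 3 * (j + (c0 + c1) * sz N n) :=
    ⟨3 * (c0 + c1) * (j + 1) + 3 * sz N n + 2, by ring⟩
  have h4 : κ ^ (3 * (c0 + c1 + 1) * (sz N n + j + 1)) * x =
      κ ^ e * t * (ϖ * κ ^ (3 * (j + (c0 + c1) * sz N n)) * (ϖ * x)) := by
    rw [he, pow_add, pow_succ]
    generalize κ ^ e = A1
    generalize κ ^ (3 * (j + (c0 + c1) * sz N n)) = A2
    rw [ht]
    ring
  rw [h4]
  exact Ideal.mul_mem_left _ _ h2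

end Vale.Agent.P177
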